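import Vale.Agent.P029.MathlibUsed

set_option linter.all false

section

section

/-!
# P029: definitions for the statement

`L` is the free Lie algebra over `ℚ` on `x, y`; `T4` is the Lie algebra `𝔱₄` given by generators and
relations; `W n` is the weight `n` part of the space of solutions of the antisymmetry, hexagon and
pentagon equations; `wtPart R w n` is the weight `n` part of the free Lie algebra over `R` on
generators with weights `w`.
-/

noncomputable section

namespace Vale.Agent.P029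

/-- Lie monomials: binary trees with leaves labelled by `X`. -/
inductive Tr (X : Type) : Type
  | leaf (x : X) : Tr X
  | node (a b : Tr X) : Tr X

/-- The weight of a Lie monomial, where the letter `x` has weight `w x`. -/
def Tr.wt {X : Type} (w : X → ℕ) : Tr X → ℕ
  | .leaf x => w x
  | .node a b => a.wt w + b.wt w

theorem Tr.wt_leaf {X : Type} (w : X → ℕ) (x : X) : (Tr.leaf x).wt w = w x := by rw [Tr.wt]

theorem Tr.wt_node {X : Type} (w : X → ℕ) (a b : Tr X) :
    (Tr.node a b).wt w = a.wt w + b.wt w := by rw [Tr.wt]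

/-- The value of a Lie monomial in a Lie ring, where the letter `x` is replaced by `f x`. -/
def Tr.eval {X : Type} {g : Type} [LieRing g] (f : X → g) : Tr X → g
  | .leaf x => f x
  | .node a b => ⁅a.eval f, b.eval f⁆

theorem Tr.eval_leaf {X : Type} {g : Type} [LieRing g] (f : X → g) (x : X) :
    (Tr.leaf x).eval f = f x := by rw [Tr.eval]

theorem Tr.eval_node {X : Type} {g : Type} [LieRing g] (f : X → g) (a b : Tr X) :
    (Tr.node a b).eval f = ⁅a.eval f, b.eval f⁆ := by rw [Tr.eval]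

/-- The weight `n` part of the free Lie algebra over `R` on the letters `X` with weights `w`:
the span of all Lie monomials of weight `n`. -/
def wtPart (R : Type) [CommRing R] {X : Type} (w : X → ℕ) (n : ℕ) :
    Submodule R (FreeLieAlgebra R X) :=
  Submodule.span R {a | ∃ t : Tr X, t.wt w = n ∧ a = t.eval (FreeLieAlgebra.of R)}

/-- The free Lie algebra over `ℚ` on two letters `x` and `y`. -/
abbrev L : Type := FreeLieAlgebra ℚ (Fin 2)

/-- The letter `x`. -/
def lx : L := FreeLieAlgebra.of ℚ 0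

/-- The letter `y`. -/
def ly : L := FreeLieAlgebra.of ℚ 1

/-- `subst a b ψ = ψ(a, b)`, the image of `ψ` under the Lie homomorphism `x ↦ a`, `y ↦ b`. -/
def subst {g : Type} [LieRing g] [LieAlgebra ℚ g] (a b : g) : L →ₗ⁅ℚ⁆ g :=
  FreeLieAlgebra.lift ℚ ![a, b]

/-- The free Lie algebra over `ℚ` on letters `t i j`, `i, j ∈ {0, 1, 2, 3}`. -/
abbrev FT : Type := FreeLieAlgebra ℚ (Fin 4 × Fin 4)

/-- The letter `t i j`. -/
def tt (i j : Fin 4) : FT := FreeLieAlgebra.of ℚ (i, j)

/-- The defining relators of `𝔱₄`. -/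
inductive T4Rel : FT → Prop
  | diag (i : Fin 4) : T4Rel (tt i i)
  | symm (i j : Fin 4) : T4Rel (tt i j - tt j i)
  | comm (i j k l : Fin 4) (hij : i ≠ j) (hik : i ≠ k) (hil : i ≠ l) (hjk : j ≠ k) (hjl : j ≠ l)
      (hkl : k ≠ l) : T4Rel ⁅tt i j, tt k l⁆
  | tri (i j k : Fin 4) (hij : i ≠ j) (hik : i ≠ k) (hjk : j ≠ k) :
      T4Rel ⁅tt i j, tt i k + tt j k⁆

/-- The ideal generated by the relators. -/
def T4Ideal : LieIdeal ℚ FT := LieSubmodule.lieSpan ℚ FT {r | T4Rel r}

/-- The Lie algebra `𝔱₄`. -/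
abbrev T4 : Type := FT ⧸ T4Ideal

/-- The generator `t i j` of `𝔱₄` (indices `0, 1, 2, 3` for the strands `1, 2, 3, 4`). -/
def t4 (i j : Fin 4) : T4 := LieSubmodule.Quotient.mk (tt i j)

/-- The defining equations of `W`: antisymmetry, hexagon and pentagon. -/
def IsSol (ψ : L) : Prop :=
  subst lx ly ψ + subst ly lx ψ = 0 ∧
  subst lx ly ψ + subst ly (-lx - ly) ψ + subst (-lx - ly) lx ψ = 0 ∧
  subst (t4 0 1) (t4 1 2 + t4 1 3) ψ + subst (t4 0 2 + t4 1 2) (t4 2 3) ψ =
    subst (t4 1 2) (t4 2 3) ψ + subst (t4 0 1 + t4 0 2) (t4 1 3 + t4 2 3) ψ +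
      subst (t4 0 1) (t4 1 2) ψ

/-- `W n`: the solutions of weight `n` (both letters have weight `1`). -/
def W (n : ℕ) : Submodule ℚ L where
  carrier := {ψ | ψ ∈ wtPart ℚ (fun _ : Fin 2 => 1) n ∧ IsSol ψ}
  add_mem' := by
    rintro a b ⟨ha, h1, h2, h3⟩ ⟨hb, k1, k2, k3⟩
    refine ⟨add_mem ha hb, ?_, ?_, ?_⟩
    · have h := congrArg₂ (· + ·) h1 k1
      simp only [map_add, add_zero] at h ⊢
      rw [← h]; abel
    · have h := congrArg₂ (· + ·) h2 k2
      simp only [map_add, add_zero] at h ⊢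
      rw [← h]; abel
    · have h := congrArg₂ (· + ·) h3 k3
      simp only [map_add] at h ⊢
      have e : ∀ a b c d : T4, a + b + (c + d) = a + c + (b + d) := fun a b c d => by abel
      rw [e, h]; abel
  zero_mem' := ⟨zero_mem _, by simp, by simp, by simp⟩
  smul_mem' := by
    rintro c a ⟨ha, h1, h2, h3⟩
    refine ⟨Submodule.smul_mem _ _ ha, ?_, ?_, ?_⟩
    · simp only [map_smul, ← smul_add, h1, smul_zero]
    · simp only [map_smul, ← smul_add, h2, smul_zero]
    · simp only [map_smul, ← smul_add, h3]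

/-- The free Lie algebra over `ℚ` on one generator `e k` in each weight `2 k + 3`, `k = 0, 1, …`. -/
abbrev F : Type := FreeLieAlgebra ℚ ℕ

/-- The weight `n` part of `F`. -/
def Fpart (n : ℕ) : Submodule ℚ F := wtPart ℚ (fun k : ℕ => 2 * k + 3) n

end Vale.Agent.P029
end
end
end

section

section

/-!
# P029: auxiliary definitions for the proof
-/

noncomputable section

attribute [local instance 100] LieRing.ofAssociativeRing

namespace Vale.Agent.P029

/-- The field with two elements. -/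
abbrev K2 : Type := ZMod 2

/-- The canonical Lie homomorphism from the free Lie algebra to the free associative algebra. -/
def toFree (R : Type) [CommRing R] (X : Type) : FreeLieAlgebra R X →ₗ⁅R⁆ FreeAlgebra R X :=
  FreeLieAlgebra.lift R (FreeAlgebra.ι R)

/-- Iterated bracket `ad u ^ i v`. -/
def adIter {g : Type} [LieRing g] (u v : g) : ℕ → g
  | 0 => v
  | i + 1 => ⁅u, adIter u v i⁆

theorem adIter_eq0 {g : Type} [LieRing g] (u v : g) : adIter u v 0 = v := by rw [adIter]

theorem adIter_eq1 {g : Type} [LieRing g] (u v : g) (i : ℕ) :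
    adIter u v (i + 1) = ⁅u, adIter u v i⁆ := by rw [adIter]

/-- The relations of `𝔭₅`. -/
structure P5 {g : Type} [LieRing g] (x : Fin 5 → g) : Prop where
  comm : ∀ i, ⁅x i, x (i + 2)⁆ = 0
  sum : ∑ i, ⁅x i, x (i + 1)⁆ = 0

/-- The elements `E_m`: `E 0 = a²`, `E (m+1) = [b, E m]` for `m` even, `[a, E m]` for `m` odd.
The weight of `Em a b m` is `m + 2`. -/
def Em {A : Type} [Ring A] (a b : A) : ℕ → A
  | 0 => a * a
  | m + 1 => if Even m then ⁅b, Em a b m⁆ else ⁅a, Em a b m⁆

theorem Em_eq0 {A : Type} [Ring A] (a b : A) : Em a b 0 = a * a := by rw [Em]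

theorem Em_eq1 {A : Type} [Ring A] (a b : A) (m : ℕ) :
    Em a b (m + 1) = if Even m then ⁅b, Em a b m⁆ else ⁅a, Em a b m⁆ := by rw [Em]

/-- weights of the letters `E_m^x` (`inl m`) and `E_m^y` (`inr m`). -/
def wE : ℕ ⊕ ℕ → ℕ := Sum.elim (fun m => m + 2) (fun m => m + 2)

/-- Evaluation of Lie polynomials in the letters `E_m^x`, `E_m^y`. -/
def evE {A : Type} [Ring A] [Algebra K2 A] (a b : A) : FreeLieAlgebra K2 (ℕ ⊕ ℕ) →ₗ⁅K2⁆ A :=
  FreeLieAlgebra.lift K2 (Sum.elim (Em a b) (Em b a))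

/-- The pure `x`-part: set all letters `E_m^y` to zero. -/
def projA : FreeLieAlgebra K2 (ℕ ⊕ ℕ) →ₗ⁅K2⁆ FreeLieAlgebra K2 ℕ :=
  FreeLieAlgebra.lift K2 (Sum.elim (FreeLieAlgebra.of K2) (fun _ => 0))

/-- `a ↦ ∑ₙ (length n part of a) Tⁿ`. -/
def lenPoly (X : Type) : FreeAlgebra K2 X →ₐ[K2] Polynomial (FreeAlgebra K2 X) :=
  FreeAlgebra.lift K2 (fun x => Polynomial.C (FreeAlgebra.ι K2 x) * Polynomial.X)

/-- The length `b` part of an element of the free associative algebra. -/
def lenPart (X : Type) (b : ℕ) (a : FreeAlgebra K2 X) : FreeAlgebra K2 X :=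
  (lenPoly X a).coeff b

/-- Kill the letters with even index. -/
def killEven : FreeAlgebra K2 ℕ →ₐ[K2] FreeAlgebra K2 ℕ :=
  FreeAlgebra.lift K2 (fun m => if Even m then 0 else FreeAlgebra.ι K2 m)

/-- The coefficient of a word in an element of the free associative algebra. -/
def cf {X : Type} (w : List X) (a : FreeAlgebra K2 X) : K2 :=
  (FreeAlgebra.equivMonoidAlgebraFreeMonoid a).coeff (FreeMonoid.ofList w)

/-! ### The quotients `F₂⟨three letters⟩ / (squares of some letters)` -/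

/-- The relations: the square of the letter `i` is zero when `S i`. -/
inductive SqRel (S : Fin 3 → Bool) : FreeAlgebra K2 (Fin 3) → FreeAlgebra K2 (Fin 3) → Prop
  | sq (i : Fin 3) (h : S i = true) :
      SqRel S (FreeAlgebra.ι K2 i * FreeAlgebra.ι K2 i) 0

/-- The algebra `F₂⟨three letters⟩ / (squares of the letters in S)`. -/
def QA (S : Fin 3 → Bool) : Type := RingQuot (SqRel S)

instance (S : Fin 3 → Bool) : Ring (QA S) := inferInstanceAs (Ring (RingQuot (SqRel S)))
instance (S : Fin 3 → Bool) : Algebra K2 (QA S) :=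
  inferInstanceAs (Algebra K2 (RingQuot (SqRel S)))

/-- The letters. -/
def QA.lt (S : Fin 3 → Bool) (i : Fin 3) : QA S :=
  RingQuot.mkAlgHom K2 (SqRel S) (FreeAlgebra.ι K2 i)

/-- Normal words: no two adjacent equal letters of `S`. -/
def nrm (S : Fin 3 → Bool) : List (Fin 3) → Bool
  | [] => true
  | [_] => true
  | a :: b :: l => !(a == b && S a) && nrm S (b :: l)

theorem nrm_eq0 (S : Fin 3 → Bool) : nrm S [] = true := by rw [nrm]

theorem nrm_eq1 (S : Fin 3 → Bool) (a : Fin 3) : nrm S [a] = true := by rw [nrm]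

theorem nrm_eq2 (S : Fin 3 → Bool) (a b : Fin 3) (l : List (Fin 3)) :
    nrm S (a :: b :: l) = (!(a == b && S a) && nrm S (b :: l)) := by rw [nrm]

/-- `c w` is the coefficient of the normal word `w`. -/
structure IsCoef (S : Fin 3 → Bool) (c : List (Fin 3) → (QA S →ₗ[K2] K2)) : Prop where
  nonnormal : ∀ w, nrm S w = false → c w = 0
  one : ∀ w, c w 1 = if w = [] then 1 else 0
  letter : ∀ i w, c w (QA.lt S i) = if w = [i] then 1 else 0
  mul : ∀ w, nrm S w = true → ∀ a b, c w (a * b) =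
    ∑ i ∈ Finset.range (w.length + 1), c (w.take i) a * c (w.drop i) b
  ext : ∀ a, (∀ w, c w a = 0) → a = 0

/-- The five operators on an algebra with two derivations `D1, D2` and elements `p, g, s`. -/
def op5 {R A : Type} [CommRing R] [Ring A] [Algebra R A] (D1 D2 : A →ₗ[R] A) (p g s : A) :
    Fin 5 → Module.End R A :=
  ![D1, D2, D1 - LinearMap.mulLeft R g, LinearMap.mulLeft R s, LinearMap.mulLeft R p]

/-- `D1, D2` are the derivations with `D1 : p ↦ [g,p], g, s ↦ 0`,
`D2 : g ↦ [p+s,g] - [p,s], p, s ↦ 0`. -/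
structure IsDer {R A : Type} [CommRing R] [Ring A] [Algebra R A] (D1 D2 : A →ₗ[R] A)
    (p g s : A) : Prop where
  leib1 : ∀ a b, D1 (a * b) = D1 a * b + a * D1 b
  leib2 : ∀ a b, D2 (a * b) = D2 a * b + a * D2 b
  p1 : D1 p = ⁅g, p⁆
  g1 : D1 g = 0
  s1 : D1 s = 0
  p2 : D2 p = 0
  g2 : D2 g = ⁅p + s, g⁆ - ⁅p, s⁆
  s2 : D2 s = 0

/-! ### The first algebra: letters `p = 0`, `g = 1`, `s = 2`, with `p² = s² = 0` -/

/-- `S` for the first algebra. -/
def S1 : Fin 3 → Bool := ![true, false, true]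

/-- The letter `p` of the first algebra. -/
def p1 : QA S1 := QA.lt S1 0
/-- The letter `g` of the first algebra. -/
def g1 : QA S1 := QA.lt S1 1
/-- The letter `s` of the first algebra. -/
def s1 : QA S1 := QA.lt S1 2

/-! ### The second algebra: letters `s = 0`, `p = 1`, `r = 2`, all squares zero -/

/-- `S` for the second algebra. -/
def S2 : Fin 3 → Bool := fun _ => true

/-- The letter `s` of the second algebra. -/
def s2 : QA S2 := QA.lt S2 0
/-- The letter `p` of the second algebra. -/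
def p2 : QA S2 := QA.lt S2 1
/-- The letter `r` of the second algebra. -/
def r2 : QA S2 := QA.lt S2 2
/-- The element `g = r + s` of the second algebra. -/
def g2 : QA S2 := r2 + s2

/-- Antisymmetry of `ψ` (as an identity in the free associative algebra). -/
def Anti (ψ : FreeLieAlgebra K2 (Fin 2)) : Prop :=
  FreeLieAlgebra.lift K2 ![FreeAlgebra.ι K2 (0 : Fin 2), FreeAlgebra.ι K2 1] ψ +
    FreeLieAlgebra.lift K2 ![FreeAlgebra.ι K2 (1 : Fin 2), FreeAlgebra.ι K2 0] ψ = 0

/-- The five term relation for the operators `x`. -/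
def Five {A : Type} [Ring A] [Algebra K2 A] (x : Fin 5 → A)
    (ψ : FreeLieAlgebra K2 (Fin 2)) : Prop :=
  ∑ i, FreeLieAlgebra.lift K2 ![x i, x (i + 1)] ψ = 0

/-! ### Step 1 -/

/-- `m_[] = b²`, `m_(false::u) = [a, m_u]`, `m_(true::u) = [b, [a, m_u]]`. -/
def mU {A : Type} [Ring A] (a b : A) : List Bool → A
  | [] => b * b
  | false :: u => ⁅a, mU a b u⁆
  | true :: u => ⁅b, ⁅a, mU a b u⁆⁆

theorem mU_eq0 {A : Type} [Ring A] (a b : A) : mU a b [] = b * b := by rw [mU]

theorem mU_eq1 {A : Type} [Ring A] (a b : A) (u : List Bool) :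
    mU a b (false :: u) = ⁅a, mU a b u⁆ := by rw [mU]

theorem mU_eq2 {A : Type} [Ring A] (a b : A) (u : List Bool) :
    mU a b (true :: u) = ⁅b, ⁅a, mU a b u⁆⁆ := by rw [mU]

/-- weight of `m_u`. -/
def wU : List Bool → ℕ
  | [] => 2
  | false :: u => wU u + 1
  | true :: u => wU u + 2

theorem wU_eq0 : wU [] = 2 := by rw [wU]

theorem wU_eq1 (u : List Bool) : wU (false :: u) = wU u + 1 := by rw [wU]

theorem wU_eq2 (u : List Bool) : wU (true :: u) = wU u + 2 := by rw [wU]

/-- `φ_[] = [p,s]`, `φ_(false::u) = D1 φ_u`, `φ_(true::u) = D2 (D1 φ_u)`. -/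
def phi (D1 D2 : QA S1 →ₗ[K2] QA S1) : List Bool → QA S1
  | [] => ⁅p1, s1⁆
  | false :: u => D1 (phi D1 D2 u)
  | true :: u => D2 (D1 (phi D1 D2 u))

theorem phi_eq0 (D1 D2 : QA S1 →ₗ[K2] QA S1) : phi D1 D2 [] = ⁅p1, s1⁆ := by rw [phi]

theorem phi_eq1 (D1 D2 : QA S1 →ₗ[K2] QA S1) (u : List Bool) :
    phi D1 D2 (false :: u) = D1 (phi D1 D2 u) := by rw [phi]

theorem phi_eq2 (D1 D2 : QA S1 →ₗ[K2] QA S1) (u : List Bool) :
    phi D1 D2 (true :: u) = D2 (D1 (phi D1 D2 u)) := by rw [phi]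

/-- The word `blk u`; the leading word of `φ_u` is `0 :: blk u`. -/
def blk : List Bool → List (Fin 3)
  | [] => [2]
  | false :: u => 1 :: blk u
  | true :: u => 2 :: 1 :: blk u

theorem blk_eq0 : blk [] = [2] := by rw [blk]

theorem blk_eq1 (u : List Bool) : blk (false :: u) = 1 :: blk u := by rw [blk]

theorem blk_eq2 (u : List Bool) : blk (true :: u) = 2 :: 1 :: blk u := by rw [blk]

/-! ### Step 2 -/

/-- `true ↦ p`, `false ↦ r`. -/
def lpr : Bool → QA S2
  | true => p2
  | false => r2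

/-- `ν` of the alternating word in `p, r` of length `k + 1` starting with the letter `c`. -/
def nu : Bool → ℕ → QA S2
  | c, 0 => ⁅lpr c, s2⁆
  | c, k + 1 => ⁅lpr c, nu (!c) k⁆

/-- `E_m(x₁, x₅)`. -/
def epsA (D1 : QA S2 →ₗ[K2] QA S2) : ℕ → QA S2
  | 0 => ⁅r2, s2⁆
  | m + 1 => if Even m then ⁅p2, epsA D1 m⁆ else D1 (epsA D1 m)

/-- `E_m(x₂, x₃)`. -/
def epsB (D1 D2 : QA S2 →ₗ[K2] QA S2) : ℕ → QA S2
  | 0 => ⁅p2, s2⁆
  | m + 1 => if Even m then D1 (epsB D1 D2 m) - ⁅g2, epsB D1 D2 m⁆ else D2 (epsB D1 D2 m)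

/-- `c = [p,s]`, `d = [r,s]`, `h = [[p,r],s]`. -/
def cdh : Fin 3 → QA S2 := ![⁅p2, s2⁆, ⁅r2, s2⁆, ⁅⁅p2, r2⁆, s2⁆]

/-- weights of `c, d, h`. -/
def wcdh : Fin 3 → ℕ := ![2, 2, 3]

/-- The first letter of the leading word of `E_m(x₁, x₅)`: `r` for `m` even, `p` for `m` odd. -/
def stA (m : ℕ) : Bool := if Even m then false else true

/-- `γ` is the grading by the number of letters `s`. -/
structure IsSGr (γ : QA S2 →ₐ[K2] Polynomial (QA S2)) : Prop where
  s : γ s2 = Polynomial.C s2 * Polynomial.X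
  p : γ p2 = Polynomial.C p2
  r : γ r2 = Polynomial.C r2

end Vale.Agent.P029
end
end
end

section

section

/-!
# P029: auxiliary definitions for the exact Step 2 (after helper174)
-/

noncomputable section

attribute [local instance 100] LieRing.ofAssociativeRing

namespace Vale.Agent.P029

/-- The five term relation in every `K2`-algebra with elements satisfying the `𝔭₅` relations. -/
def FiveAll (ψ : FreeLieAlgebra K2 (Fin 2)) : Prop :=
  ∀ (A : Type) [Ring A] [Algebra K2 A] (x : Fin 5 → A), P5 x → Five x ψ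

/-- The same for a Lie polynomial in the letters `E`. -/
def FiveAllE (P : FreeLieAlgebra K2 (ℕ ⊕ ℕ)) : Prop :=
  ∀ (A : Type) [Ring A] [Algebra K2 A] (x : Fin 5 → A), P5 x → ∑ i, evE (x i) (x (i + 1)) P = 0

/-- `F₂⟨x, w, z⟩`. -/
abbrev KK : Type := FreeAlgebra K2 (Fin 3)

/-- The letter `x` (weight 1). -/
def kx : KK := FreeAlgebra.ι K2 0
/-- The letter `w` (weight 2). -/
def kw : KK := FreeAlgebra.ι K2 1
/-- The letter `z` (weight 2). -/
def kz : KK := FreeAlgebra.ι K2 2

/-- The five derivations of `F₂⟨x,w,z⟩`: `X₁ = ad x`, `X₂ = ad x + (x ↦ z)`, `X₃ : z ↦ [w,x]`,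
`X₄ : w ↦ [x,z]`, `X₅ : x ↦ w, z ↦ [w,x]` (other letters to zero). -/
structure IsRep2 (Y : Fin 5 → Module.End K2 KK) : Prop where
  leib : ∀ i a b, Y i (a * b) = Y i a * b + a * Y i b
  x0 : Y 0 kx = 0
  w0 : Y 0 kw = ⁅kx, kw⁆
  z0 : Y 0 kz = ⁅kx, kz⁆
  x1 : Y 1 kx = kz
  w1 : Y 1 kw = ⁅kx, kw⁆
  z1 : Y 1 kz = ⁅kx, kz⁆
  x2 : Y 2 kx = 0
  w2 : Y 2 kw = 0
  z2 : Y 2 kz = ⁅kw, kx⁆
  x3 : Y 3 kx = 0
  w3 : Y 3 kw = ⁅kx, kz⁆
  z3 : Y 3 kz = 0
  x4 : Y 4 kx = kw
  w4 : Y 4 kw = 0
  z4 : Y 4 kz = ⁅kw, kx⁆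

/-- `p_(k+1) = ad w ^ (k+1) x`. -/
def pk (k : ℕ) : KK := adIter kw kx (k + 1)

/-- `q_0 = x²`, `q_(k+1) = [x, p_(k+1)]`. -/
def qk : ℕ → KK
  | 0 => kx * kx
  | k + 1 => ⁅kx, pk k⁆

theorem qk_eq0 : qk 0 = kx * kx := by rw [qk]

theorem qk_eq1 (k : ℕ) : qk (k + 1) = ⁅kx, pk k⁆ := by rw [qk]

/-- `r_k = ad w ^ k z`. -/
def rk (k : ℕ) : KK := adIter kw kz k

/-- `E_m(X₁, X₅) = ad (eA m)`: `eA (2k) = q_k`, `eA (2k+1) = p_(k+1)`. -/
def eA (m : ℕ) : KK := if Even m then qk (m / 2) else pk (m / 2)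

/-- `E_m(X₂, X₃) = ad (eB m)`: `eB (2k) = q_k + r_k`, `eB (2k+1) = p_(k+1)`. -/
def eB (m : ℕ) : KK := if Even m then qk (m / 2) + rk (m / 2) else pk (m / 2)

end Vale.Agent.P029
end
end
end

section

section

/-!
# P029: the Ihara bracket and the final target
-/

noncomputable section

namespace Vale.Agent.P029

/-- `D` is the derivation of `L` with `D x = 0` and `D y = [y, ψ]`. -/
def IsIharaDer (ψ : L) (D : LieDerivation ℚ L L) : Prop := D lx = 0 ∧ D ly = ⁅ly, ψ⁆

/-- `χ` is the Ihara bracket `{ψ, φ} = D_ψ φ - D_φ ψ + [ψ, φ]`. -/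
def IsIharaBracket (ψ φ χ : L) : Prop :=
  ∃ D E : LieDerivation ℚ L L, IsIharaDer ψ D ∧ IsIharaDer φ E ∧ χ = D φ - E ψ + ⁅ψ, φ⁆

/-- `f` is an isomorphism of graded Lie algebras from `F` onto `W` with the Ihara bracket. -/
def IsGradedIso (f : F →ₗ[ℚ] L) : Prop :=
  (∀ a b : F, IsIharaBracket (f a) (f b) (f ⁅a, b⁆)) ∧ Function.Injective f ∧
    ∀ n, (Fpart n).map f = W n

/-- The coefficient of the word `x^m y` in the image of `ψ` in the free associative algebra. -/
def coefXY (m : ℕ) (ψ : L) : ℚ :=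
  letI := LieRing.ofAssociativeRing (A := FreeAlgebra ℚ (Fin 2))
  (FreeAlgebra.equivMonoidAlgebraFreeMonoid
    (FreeLieAlgebra.lift ℚ (FreeAlgebra.ι ℚ : Fin 2 → FreeAlgebra ℚ (Fin 2)) ψ)).coeff
      (FreeMonoid.ofList (List.replicate m 0 ++ [1]))

/-- The Deligne-Drinfeld conjecture: there are `σ k ∈ W (2 k + 3)` such that `e k ↦ σ k` extends to
an isomorphism of graded Lie algebras `F ≅ W`. -/
def DeligneDrinfeld : Prop :=
  ∃ f : F →ₗ[ℚ] L, (∀ k, f (FreeLieAlgebra.of ℚ k) ∈ W (2 * k + 3)) ∧ IsGradedIso f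

end Vale.Agent.P029
end
end
end

section

section

/-!
# P029: auxiliary definitions for the isomorphism theorem
-/

noncomputable section

attribute [local instance 100] LieRing.ofAssociativeRing

namespace Vale.Agent.P029

/-- Base change of the free Lie ring. -/
def base (R : Type) [CommRing R] (X : Type) : FreeLieAlgebra ℤ X →ₗ⁅ℤ⁆ FreeLieAlgebra R X :=
  FreeLieAlgebra.lift ℤ (FreeLieAlgebra.of R)

/-- The reduction modulo two of the lattice of integral elements of weight `n` in `V`. -/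
def bar (n : ℕ) (V : Submodule ℚ L) : Submodule K2 (FreeLieAlgebra K2 (Fin 2)) where
  carrier := {a | ∃ z ∈ wtPart ℤ (fun _ : Fin 2 => 1) n,
    base ℚ (Fin 2) z ∈ V ∧ base K2 (Fin 2) z = a}
  add_mem' := by
    rintro a b ⟨z, hz, hzV, rfl⟩ ⟨z', hz', hzV', rfl⟩
    exact ⟨z + z', add_mem hz hz', by rw [map_add]; exact add_mem hzV hzV', by rw [map_add]⟩
  zero_mem' := ⟨0, zero_mem _, by rw [map_zero]; exact zero_mem _, by rw [map_zero]⟩
  smul_mem' := by
    rintro c a ⟨z, hz, hzV, rfl⟩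
    refine ⟨(c.val : ℤ) • z, Submodule.smul_mem _ _ hz, ?_, ?_⟩
    · rw [map_smul]
      exact zsmul_mem hzV _
    · rw [map_smul, natCast_zsmul]
      conv_rhs => rw [← ZMod.natCast_zmod_val c]
      rw [Nat.cast_smul_eq_nsmul]

/-- `D` is the derivation with `x ↦ 0`, `y ↦ [y, ψ]`. -/
def IsIDer {R : Type} [CommRing R] (ψ : FreeLieAlgebra R (Fin 2))
    (D : LieDerivation R (FreeLieAlgebra R (Fin 2)) (FreeLieAlgebra R (Fin 2))) : Prop :=
  D (FreeLieAlgebra.of R (0 : Fin 2)) = 0 ∧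
    D (FreeLieAlgebra.of R (1 : Fin 2)) = ⁅FreeLieAlgebra.of R (1 : Fin 2), ψ⁆

/-- `ψ(X₁, X₅)` is `ad` of the value of `α` at `e k ↦ p_(k+1)`. -/
def Rel (Y : Fin 5 → Module.End K2 KK) (ψ : FreeLieAlgebra K2 (Fin 2))
    (α : FreeLieAlgebra K2 ℕ) : Prop :=
  ∀ z : KK, (FreeLieAlgebra.lift K2 ![Y 0, Y 4] ψ) z = ⁅FreeLieAlgebra.lift K2 pk α, z⁆

/-- The weight `n` part of `[F, F]`. -/
def Fnode (n : ℕ) : Submodule ℚ F :=
  Submodule.span ℚ {a | ∃ u v : Tr ℕ, u.wt (fun k => 2 * k + 3) + v.wt (fun k => 2 * k + 3) = n ∧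
    a = ⁅u.eval (FreeLieAlgebra.of ℚ), v.eval (FreeLieAlgebra.of ℚ)⁆}

/-- `W` is closed under the Ihara bracket. -/
def WClosed : Prop :=
  ∀ (m n : ℕ) (ψ φ χ : L), ψ ∈ W m → φ ∈ W n → IsIharaBracket ψ φ χ → χ ∈ W (m + n)

end Vale.Agent.P029
end
end
end

section

section

/-!
# P029: derivations of free Lie algebras
-/

noncomputable section

attribute [local instance 100] LieRing.ofAssociativeRing

namespace Vale.Agent.P029

namespace IhDer

/-- the Lie algebra `g ⊗ R[ε]` -/
def Du (g : Type) : Type := g × g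

section

variable {g : Type} [LieRing g]

instance : AddCommGroup (Du g) := inferInstanceAs (AddCommGroup (g × g))

theorem lie_add_lie_swap (a b : g) : ⁅a, b⁆ + ⁅b, a⁆ = 0 := by
  rw [← lie_skew b a, add_neg_cancel]

instance : LieRing (Du g) where
  bracket p q := (⁅p.1, q.1⁆, ⁅p.1, q.2⁆ + ⁅p.2, q.1⁆)
  add_lie p q r := by
    refine Prod.ext ?_ ?_
    · exact add_lie p.1 q.1 r.1
    · change ⁅p.1 + q.1, r.2⁆ + ⁅p.2 + q.2, r.1⁆ =
        (⁅p.1, r.2⁆ + ⁅p.2, r.1⁆) + (⁅q.1, r.2⁆ + ⁅q.2, r.1⁆)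
      rw [add_lie, add_lie]
      abel
  lie_add p q r := by
    refine Prod.ext ?_ ?_
    · exact lie_add p.1 q.1 r.1
    · change ⁅p.1, q.2 + r.2⁆ + ⁅p.2, q.1 + r.1⁆ =
        (⁅p.1, q.2⁆ + ⁅p.2, q.1⁆) + (⁅p.1, r.2⁆ + ⁅p.2, r.1⁆)
      rw [lie_add, lie_add]
      abel
  lie_self p := by
    refine Prod.ext ?_ ?_
    · exact lie_self p.1
    · exact lie_add_lie_swap p.1 p.2
  leibniz_lie p q r := by
    refine Prod.ext ?_ ?_
    · exact leibniz_lie p.1 q.1 r.1
    · change ⁅p.1, ⁅q.1, r.2⁆ + ⁅q.2, r.1⁆⁆ + ⁅p.2, ⁅q.1, r.1⁆⁆ =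
        (⁅⁅p.1, q.1⁆, r.2⁆ + ⁅⁅p.1, q.2⁆ + ⁅p.2, q.1⁆, r.1⁆) +
          (⁅q.1, ⁅p.1, r.2⁆ + ⁅p.2, r.1⁆⁆ + ⁅q.2, ⁅p.1, r.1⁆⁆)
      rw [lie_add, lie_add, add_lie, leibniz_lie p.1 q.1 r.2, leibniz_lie p.1 q.2 r.1,
        leibniz_lie p.2 q.1 r.1]
      abel

variable {R : Type} [CommRing R] [LieAlgebra R g]

instance : Module R (Du g) := inferInstanceAs (Module R (g × g))

instance : LieAlgebra R (Du g) where
  lie_smul c p q := by
    refine Prod.ext ?_ ?_
    · exact lie_smul c p.1 q.1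
    · change ⁅p.1, c • q.2⁆ + ⁅p.2, c • q.1⁆ = c • (⁅p.1, q.2⁆ + ⁅p.2, q.1⁆)
      rw [lie_smul, lie_smul, smul_add]

/-- a homomorphism with a derivation along it -/
def graph {h : Type} [LieRing h] [LieAlgebra R h] (T : h →ₗ⁅R⁆ g) (δ : h →ₗ[R] g)
    (hδ : ∀ a b, δ ⁅a, b⁆ = ⁅T a, δ b⁆ + ⁅δ a, T b⁆) : h →ₗ⁅R⁆ Du g where
  toFun a := (T a, δ a)
  map_add' a b := Prod.ext (map_add T a b) (map_add δ a b)
  map_smul' c a := Prod.ext (map_smul T c a) (map_smul δ c a)
  map_lie' := fun {a b} => Prod.ext (LieHom.map_lie T a b) (hδ a b)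

/-- the first component -/
def fstHom : Du g →ₗ⁅R⁆ g where
  toFun p := p.1
  map_add' _ _ := rfl
  map_smul' _ _ := rfl
  map_lie' := rfl

/-- the second component -/
def sndLin : Du g →ₗ[R] g where
  toFun p := p.2
  map_add' _ _ := rfl
  map_smul' _ _ := rfl

end

end IhDer

open IhDer

/- N1a -/
theorem exists_lieDer (R : Type) [CommRing R] {X : Type} (d : X → FreeLieAlgebra R X) :
    ∃ D : LieDerivation R (FreeLieAlgebra R X) (FreeLieAlgebra R X),
      ∀ x, D (FreeLieAlgebra.of R x) = d x := by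
  let φ : FreeLieAlgebra R X →ₗ⁅R⁆ Du (FreeLieAlgebra R X) :=
    FreeLieAlgebra.lift R (fun x => ((FreeLieAlgebra.of R x, d x) : Du (FreeLieAlgebra R X)))
  have hφ : ∀ x, φ (FreeLieAlgebra.of R x) =
      ((FreeLieAlgebra.of R x, d x) : Du (FreeLieAlgebra R X)) :=
    fun x => FreeLieAlgebra.lift_of_apply _ x
  have h1 : (fstHom.comp φ : FreeLieAlgebra R X →ₗ⁅R⁆ FreeLieAlgebra R X) = LieHom.id := by
    apply FreeLieAlgebra.hom_ext
    intro x
    change fstHom (R := R) (φ (FreeLieAlgebra.of R x)) = FreeLieAlgebra.of R x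
    rw [hφ]
    rfl
  have h2 : ∀ a, (φ a).1 = a := fun a => by
    have := congrArg (fun T : FreeLieAlgebra R X →ₗ⁅R⁆ FreeLieAlgebra R X => T a) h1
    exact this
  refine ⟨⟨(sndLin (R := R)).comp (φ : FreeLieAlgebra R X →ₗ[R] Du (FreeLieAlgebra R X)), ?_⟩, ?_⟩
  · intro a b
    change (φ ⁅a, b⁆).2 = ⁅a, (φ b).2⁆ - ⁅b, (φ a).2⁆
    rw [LieHom.map_lie]
    change ⁅(φ a).1, (φ b).2⁆ + ⁅(φ a).2, (φ b).1⁆ = _
    rw [h2, h2, ← lie_skew b (φ a).2]
    abel
  · intro x
    change (φ (FreeLieAlgebra.of R x)).2 = d x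
    rw [hφ]

/- N1c -/
theorem lie_comp_der {R : Type} [CommRing R] {X g : Type} [LieRing g] [LieAlgebra R g]
    (T : FreeLieAlgebra R X →ₗ⁅R⁆ g)
    (D : LieDerivation R (FreeLieAlgebra R X) (FreeLieAlgebra R X))
    (h : ∀ x, T (D (FreeLieAlgebra.of R x)) = 0) (φ : FreeLieAlgebra R X) : T (D φ) = 0 := by
  let A : FreeLieAlgebra R X →ₗ⁅R⁆ Du g :=
    graph T ((T : FreeLieAlgebra R X →ₗ[R] g).comp (D : FreeLieAlgebra R X →ₗ[R]
      FreeLieAlgebra R X)) (by
        intro a b
        change T (D ⁅a, b⁆) = ⁅T a, T (D b)⁆ + ⁅T (D a), T b⁆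
        rw [LieDerivation.apply_lie_eq_sub, map_sub, LieHom.map_lie, LieHom.map_lie,
          ← lie_skew (T b) (T (D a))]
        abel)
  let B : FreeLieAlgebra R X →ₗ⁅R⁆ Du g :=
    graph T 0 (by
        intro a b
        simp)
  have hAB : A = B := by
    apply FreeLieAlgebra.hom_ext
    intro x
    exact Prod.ext rfl (h x)
  have := congrArg (fun T : FreeLieAlgebra R X →ₗ⁅R⁆ Du g => (T φ).2) hAB
  exact this

/- N1b -/
theorem lieDer_ext {R : Type} [CommRing R] {X : Type}
    {D E : LieDerivation R (FreeLieAlgebra R X) (FreeLieAlgebra R X)}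
    (h : ∀ x, D (FreeLieAlgebra.of R x) = E (FreeLieAlgebra.of R x)) : D = E := by
  have h1 := lie_comp_der (R := R) (X := X) LieHom.id (D - E) (by
    intro x
    change (D - E) (FreeLieAlgebra.of R x) = 0
    rw [LieDerivation.sub_apply, h, sub_self])
  apply LieDerivation.ext
  intro a
  have h2 : (D - E) a = 0 := h1 a
  rw [LieDerivation.sub_apply] at h2
  exact sub_eq_zero.1 h2

end Vale.Agent.P029
end
end
end

section

section

/-!
# P029, N2: the Ihara bracket is a Lie bracket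
-/

noncomputable section

attribute [local instance 100] LieRing.ofAssociativeRing

namespace Vale.Agent.P029



namespace IhLie

theorem der_ext {D E : LieDerivation ℚ L L} (hx : D lx = E lx) (hy : D ly = E ly) : D = E := by
  apply lieDer_ext
  intro i
  fin_cases i
  · exact hx
  · exact hy

theorem isIharaDer_unique {ψ : L} {D E : LieDerivation ℚ L L} (hD : IsIharaDer ψ D)
    (hE : IsIharaDer ψ E) : D = E :=
  der_ext (by rw [hD.1, hE.1]) (by rw [hD.2, hE.2])

theorem exists_dd (ψ : L) : ∃ D : LieDerivation ℚ L L, IsIharaDer ψ D := by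
  obtain ⟨D, hD⟩ := exists_lieDer ℚ (![0, ⁅ly, ψ⁆] : Fin 2 → L)
  exact ⟨D, hD 0, hD 1⟩

/-- The derivation `D_ψ`. -/
def dd (ψ : L) : LieDerivation ℚ L L := Classical.choose (exists_dd ψ)

theorem dd_spec (ψ : L) : IsIharaDer ψ (dd ψ) := Classical.choose_spec (exists_dd ψ)

theorem dd_x (ψ : L) : dd ψ lx = 0 := (dd_spec ψ).1

theorem dd_y (ψ : L) : dd ψ ly = ⁅ly, ψ⁆ := (dd_spec ψ).2

theorem dd_add (ψ φ : L) : dd (ψ + φ) = dd ψ + dd φ := by
  apply der_ext
  · simp [dd_x]
  · simp [dd_y]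

theorem dd_smul (c : ℚ) (ψ : L) : dd (c • ψ) = c • dd ψ := by
  apply der_ext
  · simp [dd_x]
  · simp [dd_y]

/-- The Ihara bracket. -/
def ib (ψ φ : L) : L := dd ψ φ - dd φ ψ + ⁅ψ, φ⁆

theorem ib_def (ψ φ : L) : ib ψ φ = dd ψ φ - dd φ ψ + ⁅ψ, φ⁆ := rfl

theorem ib_spec (ψ φ : L) : IsIharaBracket ψ φ (ib ψ φ) :=
  ⟨dd ψ, dd φ, dd_spec ψ, dd_spec φ, rfl⟩

theorem dd_ib (ψ φ : L) : dd (ib ψ φ) = ⁅dd ψ, dd φ⁆ := by
  apply der_ext
  · rw [LieDerivation.commutator_apply, dd_x, dd_x, dd_x, map_zero, map_zero, sub_zero]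
  · rw [dd_y, LieDerivation.commutator_apply, dd_y, dd_y, ib]
    rw [LieDerivation.apply_lie_eq_add, LieDerivation.apply_lie_eq_add, dd_y, dd_y]
    rw [lie_add, lie_sub, leibniz_lie ly ψ φ, ← lie_skew ψ ⁅ly, φ⁆]
    abel

theorem ib_jacobi (a b c : L) : ib a (ib b c) = ib (ib a b) c + ib b (ib a c) := by
  rw [ib_def a (ib b c), dd_ib b c, ib_def (ib a b) c, dd_ib a b, ib_def b (ib a c), dd_ib a c]
  simp only [LieDerivation.commutator_apply, ib, map_add, map_sub, LieDerivation.apply_lie_eq_add,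
    lie_add, lie_sub, add_lie, sub_lie]
  rw [leibniz_lie a b c, ← lie_skew ((dd c) a) b]
  abel

theorem ib_add (a b c : L) : ib a (b + c) = ib a b + ib a c := by
  rw [ib_def, ib_def, ib_def, dd_add, map_add, lie_add, LieDerivation.add_apply]
  abel

theorem add_ib (a b c : L) : ib (a + b) c = ib a c + ib b c := by
  rw [ib_def, ib_def, ib_def, dd_add, map_add, add_lie, LieDerivation.add_apply]
  abel

theorem ib_self (a : L) : ib a a = 0 := by
  rw [ib_def, sub_self, lie_self, add_zero]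

theorem ib_smul (r : ℚ) (a b : L) : ib a (r • b) = r • ib a b := by
  rw [ib_def, ib_def, dd_smul, map_smul, lie_smul, LieDerivation.smul_apply, smul_add, smul_sub]

/-- `L` with the Ihara bracket. -/
structure IL : Type where
  /-- the underlying element -/
  val : L

/-- The bijection. -/
def ilEquiv : IL ≃ L where
  toFun := IL.val
  invFun := IL.mk
  left_inv _ := rfl
  right_inv _ := rfl

instance : AddCommGroup IL := ilEquiv.addCommGroup

instance : Module ℚ IL := ilEquiv.module ℚ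

/-- The linear equivalence. -/
def ilLin : IL ≃ₗ[ℚ] L := ilEquiv.linearEquiv ℚ

theorem ilLin_apply (a : IL) : ilLin a = a.val := rfl

theorem val_add (a b : IL) : (a + b).val = a.val + b.val := rfl

theorem val_zero : (0 : IL).val = 0 := rfl

theorem val_smul (r : ℚ) (a : IL) : (r • a).val = r • a.val := rfl

theorem val_injective : Function.Injective IL.val := ilEquiv.injective

instance : LieRing IL where
  bracket a b := ⟨ib a.val b.val⟩
  add_lie a b c := val_injective (add_ib a.val b.val c.val)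
  lie_add a b c := val_injective (ib_add a.val b.val c.val)
  lie_self a := val_injective (ib_self a.val)
  leibniz_lie a b c := val_injective (ib_jacobi a.val b.val c.val)

instance : LieAlgebra ℚ IL where
  lie_smul r a b := val_injective (ib_smul r a.val b.val)

theorem val_lie (a b : IL) : ⁅a, b⁆.val = ib a.val b.val := rfl

end IhLie

open IhLie

/- N2a -/
theorem ihara_unique {ψ φ χ χ' : L} (h : IsIharaBracket ψ φ χ) (h' : IsIharaBracket ψ φ χ') :
    χ = χ' := by
  obtain ⟨D, E, hD, hE, rfl⟩ := h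
  obtain ⟨D', E', hD', hE', rfl⟩ := h'
  rw [isIharaDer_unique hD hD', isIharaDer_unique hE hE']

/- N2b -/
theorem exists_ihara_hom (σ : ℕ → L) : ∃ f : F →ₗ[ℚ] L, (∀ k, f (FreeLieAlgebra.of ℚ k) = σ k) ∧
    ∀ a b, IsIharaBracket (f a) (f b) (f ⁅a, b⁆) := by
  let g : F →ₗ⁅ℚ⁆ IL := FreeLieAlgebra.lift ℚ (fun k => (⟨σ k⟩ : IL))
  refine ⟨ilLin.toLinearMap.comp (g : F →ₗ[ℚ] IL), fun k => ?_, fun a b => ?_⟩
  · simp [g, ilLin_apply]
  · have h : (ilLin.toLinearMap.comp (g : F →ₗ[ℚ] IL)) ⁅a, b⁆ =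
        ib ((ilLin.toLinearMap.comp (g : F →ₗ[ℚ] IL)) a)
          ((ilLin.toLinearMap.comp (g : F →ₗ[ℚ] IL)) b) := by
      show (g ⁅a, b⁆).val = ib (g a).val (g b).val
      rw [LieHom.map_lie, val_lie]
    rw [h]
    exact ib_spec _ _

end Vale.Agent.P029
end
end
end

section

section

/-!
# P029: injectivity of graded maps
-/

noncomputable section

attribute [local instance 100] LieRing.ofAssociativeRing

namespace Vale.Agent.P029

namespace Grade

/-- The endomorphism multiplying the letters by `2`. -/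
def dil : L →ₗ⁅ℚ⁆ L := FreeLieAlgebra.lift ℚ (fun i => (2 : ℚ) • FreeLieAlgebra.of ℚ i)

theorem dil_eval (t : Tr (Fin 2)) :
    dil (t.eval (FreeLieAlgebra.of ℚ)) =
      (2 : ℚ) ^ t.wt (fun _ : Fin 2 => 1) • t.eval (FreeLieAlgebra.of ℚ) := by
  induction t with
  | leaf x => simp [dil, Tr.eval, Tr.wt, FreeLieAlgebra.lift_of_apply]
  | node a b iha ihb =>
    rw [Tr.eval, Tr.wt, LieHom.map_lie, iha, ihb, smul_lie, lie_smul, smul_smul, pow_add]

theorem dil_mem {n : ℕ} {a : L} (ha : a ∈ wtPart ℚ (fun _ : Fin 2 => 1) n) :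
    dil a = (2 : ℚ) ^ n • a := by
  induction ha using Submodule.span_induction with
  | mem x h =>
    obtain ⟨t, rfl, rfl⟩ := h
    exact dil_eval t
  | zero => simp
  | add x y _ _ hx hy => rw [map_add, hx, hy, smul_add]
  | smul c x _ hx => rw [map_smul, hx, smul_comm]

theorem wtPart_indep : iSupIndep (fun n : ℕ => wtPart ℚ (fun _ : Fin 2 => 1) n) := by
  have h := Module.End.eigenspaces_iSupIndep (dil : L →ₗ[ℚ] L)
  have h2 : iSupIndep (fun n : ℕ => Module.End.eigenspace (dil : L →ₗ[ℚ] L) ((2 : ℚ) ^ n)) :=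
    h.comp (pow_right_injective₀ (by norm_num) (by norm_num))
  refine h2.mono fun n => ?_
  intro a ha
  rw [Module.End.mem_eigenspace_iff]
  exact dil_mem ha

/-- The sum of all `Fpart n`, as a Lie subalgebra. -/
def sub : LieSubalgebra ℚ F :=
  { (⨆ n, Fpart n : Submodule ℚ F) with
    lie_mem' := by
      intro x y hx hy
      change x ∈ (⨆ n, Fpart n : Submodule ℚ F) at hx
      change y ∈ (⨆ n, Fpart n : Submodule ℚ F) at hy
      change ⁅x, y⁆ ∈ (⨆ n, Fpart n : Submodule ℚ F)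
      have key : ∀ (m n : ℕ) (x y : F), x ∈ Fpart m → y ∈ Fpart n → ⁅x, y⁆ ∈ Fpart (m + n) := by
        intro m n x y hx hy
        induction hx using Submodule.span_induction with
        | mem x h =>
          obtain ⟨t, ht, rfl⟩ := h
          induction hy using Submodule.span_induction with
          | mem y h =>
            obtain ⟨u, hu, rfl⟩ := h
            exact Submodule.subset_span ⟨Tr.node t u, by rw [Tr.wt, ht, hu], rfl⟩
          | zero => rw [lie_zero]; exact zero_mem _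
          | add y z _ _ hy hz => rw [lie_add]; exact add_mem hy hz
          | smul c y _ hy => rw [lie_smul]; exact Submodule.smul_mem _ _ hy
        | zero => rw [zero_lie]; exact zero_mem _
        | add x z _ _ hx hz => rw [add_lie]; exact add_mem hx hz
        | smul c x _ hx => rw [smul_lie]; exact Submodule.smul_mem _ _ hx
      induction hx using Submodule.iSup_induction' with
      | mem m x hx =>
        induction hy using Submodule.iSup_induction' with
        | mem n y hy => exact Submodule.mem_iSup_of_mem (m + n) (key m n x y hx hy)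
        | zero => rw [lie_zero]; exact zero_mem _
        | add y z _ _ hy hz => rw [lie_add]; exact add_mem hy hz
      | zero => rw [zero_lie]; exact zero_mem _
      | add x z _ _ hx hz => rw [add_lie]; exact add_mem hx hz }

theorem mem_all (a : F) : a ∈ (⨆ n, Fpart n : Submodule ℚ F) := by
  let g : F →ₗ⁅ℚ⁆ sub := FreeLieAlgebra.lift ℚ (fun k : ℕ =>
    (⟨FreeLieAlgebra.of ℚ k, Submodule.mem_iSup_of_mem (2 * k + 3)
      (Submodule.subset_span ⟨Tr.leaf k, rfl, rfl⟩)⟩ : sub))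
  have hg : sub.incl.comp g = LieHom.id := by
    apply FreeLieAlgebra.hom_ext
    intro k
    simp [g, FreeLieAlgebra.lift_of_apply]
  have h : (g a : F) = a := by
    have := congrArg (fun φ : F →ₗ⁅ℚ⁆ F => φ a) hg
    exact this
  rw [← h]
  exact (g a).2

end Grade

open Grade in
theorem inj_of_graded (f : F →ₗ[ℚ] L)
    (h : ∀ n, (Fpart n).map f ≤ wtPart ℚ (fun _ : Fin 2 => 1) n)
    (hinj : ∀ n, ∀ a ∈ Fpart n, f a = 0 → a = 0) : Function.Injective f := by
  rw [injective_iff_map_eq_zero]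
  intro a ha
  obtain ⟨s, hs, rfl⟩ := (Submodule.mem_iSup_iff_exists_finsupp ..).mp (mem_all a)
  rw [Finsupp.sum, map_sum] at ha
  have h1 := (iSupIndep_iff_finsetSum_eq_zero_imp_eq_zero _).mp wtPart_indep s.support
    (fun n => f (s n)) (fun n _ => h n ⟨s n, hs n, rfl⟩) ha
  rw [Finsupp.sum]
  exact Finset.sum_eq_zero fun n hn => hinj n _ (hs n) (h1 n hn)

end Vale.Agent.P029
end
end
end

section

section

/-!
# P029: the five operators satisfy the relations of `𝔭₅`; existence of the derivations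
-/

set_option linter.all false

noncomputable section

attribute [local instance 100] LieRing.ofAssociativeRing

namespace Vale.Agent.P029

namespace Ops

variable {R A : Type} [CommRing R] [Ring A] [Algebra R A]

theorem lie_mulLeft {D : A →ₗ[R] A} (h : ∀ a b, D (a * b) = D a * b + a * D b) (a : A) :
    (⁅D, LinearMap.mulLeft R a⁆ : Module.End R A) = LinearMap.mulLeft R (D a) := by
  apply LinearMap.ext
  intro x
  rw [Ring.lie_def, LinearMap.sub_apply, Module.End.mul_apply, Module.End.mul_apply,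
    LinearMap.mulLeft_apply, LinearMap.mulLeft_apply, LinearMap.mulLeft_apply, h]
  abel

theorem lie_LL (a b : A) :
    (⁅LinearMap.mulLeft R a, LinearMap.mulLeft R b⁆ : Module.End R A) =
      LinearMap.mulLeft R ⁅a, b⁆ := by
  apply LinearMap.ext
  intro x
  rw [Ring.lie_def, LinearMap.sub_apply, Module.End.mul_apply, Module.End.mul_apply,
    LinearMap.mulLeft_apply, LinearMap.mulLeft_apply, LinearMap.mulLeft_apply,
    LinearMap.mulLeft_apply, LinearMap.mulLeft_apply, Ring.lie_def, sub_mul, mul_assoc, mul_assoc]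

end Ops

open Ops in
/- B3 -/
theorem op5_P5 {R A : Type} [CommRing R] [Ring A] [Algebra R A] {D1 D2 : A →ₗ[R] A} {p g s : A}
    (h : IsDer D1 D2 p g s) : P5 (op5 D1 D2 p g s) := by
  have e1 : ∀ a, (⁅D1, LinearMap.mulLeft R a⁆ : Module.End R A) = LinearMap.mulLeft R (D1 a) :=
    fun a => lie_mulLeft h.leib1 a
  have e2 : ∀ a, (⁅D2, LinearMap.mulLeft R a⁆ : Module.End R A) = LinearMap.mulLeft R (D2 a) :=
    fun a => lie_mulLeft h.leib2 a
  have e1' : ∀ a, (⁅LinearMap.mulLeft R a, D1⁆ : Module.End R A) = -LinearMap.mulLeft R (D1 a) :=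
    fun a => by rw [← e1, lie_skew]
  have e2' : ∀ a, (⁅LinearMap.mulLeft R a, D2⁆ : Module.End R A) = -LinearMap.mulLeft R (D2 a) :=
    fun a => by rw [← e2, lie_skew]
  have L0 : LinearMap.mulLeft R (0 : A) = 0 := by
    apply LinearMap.ext; intro x; simp
  have Ladd : ∀ a b : A, LinearMap.mulLeft R (a + b) = LinearMap.mulLeft R a + LinearMap.mulLeft R b := by
    intro a b; apply LinearMap.ext; intro x; simp [add_mul]
  have Lsub : ∀ a b : A, LinearMap.mulLeft R (a - b) = LinearMap.mulLeft R a - LinearMap.mulLeft R b := by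
    intro a b; apply LinearMap.ext; intro x; simp [sub_mul]
  constructor
  · intro i
    fin_cases i
    · show (⁅D1, D1 - LinearMap.mulLeft R g⁆ : Module.End R A) = 0
      rw [lie_sub, lie_self, e1, h.g1, L0, sub_zero]
    · show (⁅D2, LinearMap.mulLeft R s⁆ : Module.End R A) = 0
      rw [e2, h.s2, L0]
    · show (⁅D1 - LinearMap.mulLeft R g, LinearMap.mulLeft R p⁆ : Module.End R A) = 0
      rw [sub_lie, e1, h.p1, lie_LL, sub_self]
    · show (⁅LinearMap.mulLeft R s, D1⁆ : Module.End R A) = 0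
      rw [e1', h.s1, L0, neg_zero]
    · show (⁅LinearMap.mulLeft R p, D2⁆ : Module.End R A) = 0
      rw [e2', h.p2, L0, neg_zero]
  · rw [Fin.sum_univ_five]
    show (⁅D1, D2⁆ + ⁅D2, D1 - LinearMap.mulLeft R g⁆ +
      ⁅D1 - LinearMap.mulLeft R g, LinearMap.mulLeft R s⁆ +
      ⁅LinearMap.mulLeft R s, LinearMap.mulLeft R p⁆ + ⁅LinearMap.mulLeft R p, D1⁆ :
        Module.End R A) = 0
    rw [lie_sub, sub_lie, e2, e1, e1', lie_LL, lie_LL, h.g2, h.s1, h.p1, L0,
      ← lie_skew (D1 : Module.End R A) (D2 : Module.End R A)]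
    have : (-⁅D2, D1⁆ + (⁅D2, D1⁆ - LinearMap.mulLeft R (⁅p + s, g⁆ - ⁅p, s⁆)) +
        (0 - LinearMap.mulLeft R ⁅g, s⁆) + LinearMap.mulLeft R ⁅s, p⁆ + -LinearMap.mulLeft R ⁅g, p⁆ :
        Module.End R A) =
        -LinearMap.mulLeft R ((⁅p + s, g⁆ - ⁅p, s⁆) + ⁅g, s⁆ - ⁅s, p⁆ + ⁅g, p⁆) := by
      rw [Ladd, Lsub (⁅p + s, g⁆ - ⁅p, s⁆ + ⁅g, s⁆), Ladd (⁅p + s, g⁆ - ⁅p, s⁆)]
      abel
    rw [this]
    have h0 : (⁅p + s, g⁆ - ⁅p, s⁆) + ⁅g, s⁆ - ⁅s, p⁆ + ⁅g, p⁆ = 0 := by
      rw [add_lie, ← lie_skew g p, ← lie_skew g s, ← lie_skew s p]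
      abel
    rw [h0, L0, neg_zero]

namespace Ops

open TrivSqZeroExt

variable {R : Type} [CommRing R] {X : Type} (d : X → FreeAlgebra R X)

/-- algebra hom to the trivial square zero extension -/
def derHom : FreeAlgebra R X →ₐ[R] TrivSqZeroExt (FreeAlgebra R X) (FreeAlgebra R X) :=
  FreeAlgebra.lift R (fun y => inl (FreeAlgebra.ι R y) + inr (d y))

theorem fst_derHom (f : FreeAlgebra R X) : (derHom d f).fst = f := by
  induction f using FreeAlgebra.induction with
  | grade0 r => rw [AlgHom.commutes]; rfl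
  | grade1 y => simp [derHom]
  | mul a b ha hb => rw [map_mul, fst_mul, ha, hb]
  | add a b ha hb => rw [map_add, fst_add, ha, hb]

/-- the derivation of the free algebra with prescribed values on letters -/
def der : FreeAlgebra R X →ₗ[R] FreeAlgebra R X where
  toFun f := (derHom d f).snd
  map_add' a b := by rw [map_add, snd_add]
  map_smul' r a := by rw [map_smul, snd_smul]; rfl

theorem der_mul (f g : FreeAlgebra R X) : der d (f * g) = der d f * g + f * der d g := by
  show (derHom d (f * g)).snd = _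
  rw [map_mul, snd_mul, fst_derHom, fst_derHom, add_comm]
  rfl

theorem der_ι (y : X) : der d (FreeAlgebra.ι R y) = d y := by
  show (derHom d (FreeAlgebra.ι R y)).snd = _
  simp [derHom]

end Ops

open Ops in
/- B4 -/
theorem exists_isDer (R : Type) [CommRing R] : ∃ D1 D2 : FreeAlgebra R (Fin 3) →ₗ[R]
    FreeAlgebra R (Fin 3), IsDer D1 D2 (FreeAlgebra.ι R 0) (FreeAlgebra.ι R 1)
      (FreeAlgebra.ι R 2) := by
  let p : FreeAlgebra R (Fin 3) := FreeAlgebra.ι R 0
  let g : FreeAlgebra R (Fin 3) := FreeAlgebra.ι R 1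
  let s : FreeAlgebra R (Fin 3) := FreeAlgebra.ι R 2
  refine ⟨der ![⁅g, p⁆, 0, 0], der ![0, ⁅p + s, g⁆ - ⁅p, s⁆, 0], ?_⟩
  constructor
  · exact der_mul _
  · exact der_mul _
  · rw [der_ι]; rfl
  · rw [der_ι]; rfl
  · rw [der_ι]; rfl
  · rw [der_ι]; rfl
  · rw [der_ι]; rfl
  · rw [der_ι]; rfl

end Vale.Agent.P029
end
end
end

section

section

/-!
# P029: the quotient algebras `QA S`: lifting property, spanning by words, derivations, generation
-/

noncomputable section

attribute [local instance 100] LieRing.ofAssociativeRing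

namespace Vale.Agent.P029

namespace QALift

/-- The quotient map. -/
def mk (S : Fin 3 → Bool) : FreeAlgebra K2 (Fin 3) →ₐ[K2] QA S :=
  RingQuot.mkAlgHom K2 (SqRel S)

theorem mk_surj (S : Fin 3 → Bool) : Function.Surjective (mk S) :=
  RingQuot.mkAlgHom_surjective K2 (SqRel S)

theorem mk_iota (S : Fin 3 → Bool) (i : Fin 3) : mk S (FreeAlgebra.ι K2 i) = QA.lt S i := rfl

/-- induction principle -/
theorem ind (S : Fin 3 → Bool) {C : QA S → Prop} (h0 : ∀ r : K2, C (algebraMap K2 (QA S) r))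
    (h1 : ∀ i, C (QA.lt S i)) (hm : ∀ a b, C a → C b → C (a * b))
    (ha : ∀ a b, C a → C b → C (a + b)) (a : QA S) : C a := by
  obtain ⟨b, rfl⟩ := mk_surj S a
  induction b using FreeAlgebra.induction with
  | grade0 r => rw [AlgHom.commutes]; exact h0 r
  | grade1 i => rw [mk_iota]; exact h1 i
  | mul a b iha ihb => rw [map_mul]; exact hm _ _ iha ihb
  | add a b iha ihb => rw [map_add]; exact ha _ _ iha ihb

theorem br_sq {A : Type} [Ring A] (q r : A) (h : r * r = 0) : ⁅q, r⁆ * r + r * ⁅q, r⁆ = 0 := by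
  rw [Ring.lie_def]
  have e : (q * r - r * q) * r + r * (q * r - r * q) = q * (r * r) - (r * r) * q := by noncomm_ring
  rw [e, h]; simp

end QALift

open QALift

/- C1 -/
theorem QA_lift {S : Fin 3 → Bool} {B : Type} [Ring B] [Algebra K2 B] (f : Fin 3 → B)
    (hf : ∀ i, S i = true → f i * f i = 0) : ∃ φ : QA S →ₐ[K2] B, ∀ i, φ (QA.lt S i) = f i := by
  refine ⟨RingQuot.liftAlgHom K2 ⟨FreeAlgebra.lift K2 f, ?_⟩, ?_⟩
  · rintro x y ⟨i, h⟩
    simp [hf i h]
  · intro i
    have := RingQuot.liftAlgHom_mkAlgHom_apply K2 (FreeAlgebra.lift K2 f)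
      (s := SqRel S) (by rintro x y ⟨i, h⟩; simp [hf i h]) (FreeAlgebra.ι K2 i)
    rw [FreeAlgebra.lift_ι_apply] at this
    exact this

/- C2 -/
theorem QA_sq {S : Fin 3 → Bool} (i : Fin 3) (h : S i = true) : QA.lt S i * QA.lt S i = 0 := by
  have := RingQuot.mkAlgHom_rel K2 (SqRel.sq (S := S) i h)
  rw [map_mul, map_zero] at this
  exact this

/- C3 -/
theorem QA_span {S : Fin 3 → Bool} (a : QA S) :
    a ∈ Submodule.span K2 (Set.range fun w : List (Fin 3) => (w.map (QA.lt S)).prod) := by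
  refine ind S ?_ ?_ ?_ ?_ a
  · intro r
    rw [Algebra.algebraMap_eq_smul_one]
    exact Submodule.smul_mem _ _ (Submodule.subset_span ⟨[], by simp⟩)
  · intro i
    exact Submodule.subset_span ⟨[i], by simp⟩
  · intro a b ha hb
    have h := Submodule.mul_mem_mul ha hb
    rw [Submodule.span_mul_span] at h
    refine Submodule.span_mono ?_ h
    rintro _ ⟨_, ⟨u, rfl⟩, _, ⟨v, rfl⟩, rfl⟩
    exact ⟨u ++ v, by simp⟩
  · intro a b ha hb
    exact Submodule.add_mem _ ha hb

/- C4 -/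
theorem QA_der {S : Fin 3 → Bool} (d : Fin 3 → QA S)
    (hd : ∀ i, S i = true → d i * QA.lt S i + QA.lt S i * d i = 0) :
    ∃ D : QA S →ₗ[K2] QA S, (∀ i, D (QA.lt S i) = d i) ∧
      ∀ a b, D (a * b) = D a * b + a * D b := by
  obtain ⟨φ, hφ⟩ := QA_lift (S := S) (B := Matrix (Fin 2) (Fin 2) (QA S))
    (fun i => !![QA.lt S i, d i; 0, QA.lt S i]) (by
      intro i hi
      have h1 := QA_sq i hi
      have h2 := hd i hi
      ext a b
      fin_cases a <;> fin_cases b <;> simp [Matrix.mul_apply, Fin.sum_univ_two, h1]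
      rw [add_comm]; exact h2)
  have key : ∀ a : QA S, φ a 0 0 = a ∧ φ a 1 0 = 0 ∧ φ a 1 1 = a := by
    intro a
    refine ind S (C := fun a => φ a 0 0 = a ∧ φ a 1 0 = 0 ∧ φ a 1 1 = a) ?_ ?_ ?_ ?_ a
    · intro r
      rw [AlgHom.commutes]
      simp [Matrix.algebraMap_matrix_apply]
    · intro i
      rw [hφ]; simp
    · rintro a b ⟨a1, a2, a3⟩ ⟨b1, b2, b3⟩
      rw [map_mul]
      simp [Matrix.mul_apply, Fin.sum_univ_two, a1, a2, a3, b1, b2, b3]
    · rintro a b ⟨a1, a2, a3⟩ ⟨b1, b2, b3⟩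
      rw [map_add]
      simp [a1, a2, a3, b1, b2, b3]
  refine ⟨{ toFun := fun a => φ a 0 1, map_add' := ?_, map_smul' := ?_ }, ?_, ?_⟩
  · intro a b; rw [map_add]; rfl
  · intro r a; rw [map_smul]; rfl
  · intro i
    change φ (QA.lt S i) 0 1 = d i
    rw [hφ]; simp
  · intro a b
    change φ (a * b) 0 1 = φ a 0 1 * b + a * φ b 0 1
    rw [map_mul, Matrix.mul_apply, Fin.sum_univ_two, (key a).1, (key b).2.2]
    exact add_comm _ _

/- C6 -/
theorem exists_der1 : ∃ D1 D2 : QA S1 →ₗ[K2] QA S1, IsDer D1 D2 p1 g1 s1 := by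
  obtain ⟨D1, h1, l1⟩ := QA_der (S := S1) ![⁅g1, p1⁆, 0, 0] (by
    intro i hi
    fin_cases i
    · exact br_sq g1 p1 (QA_sq 0 rfl)
    · simp [S1] at hi
    · simp)
  obtain ⟨D2, h2, l2⟩ := QA_der (S := S1) ![0, ⁅p1 + s1, g1⁆ - ⁅p1, s1⁆, 0] (by
    intro i hi
    fin_cases i
    · simp
    · simp [S1] at hi
    · simp)
  exact ⟨D1, D2, ⟨l1, l2, h1 0, h1 1, h1 2, h2 0, h2 1, h2 2⟩⟩

/- C7 -/
theorem exists_der2 : ∃ D1 D2 : QA S2 →ₗ[K2] QA S2, IsDer D1 D2 p2 g2 s2 := by
  obtain ⟨D1, h1, l1⟩ := QA_der (S := S2) ![0, ⁅g2, p2⁆, 0] (by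
    intro i hi
    fin_cases i
    · simp
    · exact br_sq g2 p2 (QA_sq 1 rfl)
    · simp)
  obtain ⟨D2, h2, l2⟩ := QA_der (S := S2) ![0, 0, ⁅p2 + s2, r2⁆] (by
    intro i hi
    fin_cases i
    · simp
    · simp
    · exact br_sq (p2 + s2) r2 (QA_sq 2 rfl))
  have a0 : D1 s2 = 0 := h1 0
  have a1 : D1 p2 = ⁅g2, p2⁆ := h1 1
  have a2 : D1 r2 = 0 := h1 2
  have b0 : D2 s2 = 0 := h2 0
  have b1 : D2 p2 = 0 := h2 1
  have b2 : D2 r2 = ⁅p2 + s2, r2⁆ := h2 2
  refine ⟨D1, D2, ⟨l1, l2, a1, ?_, a0, b1, ?_, b0⟩⟩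
  · rw [g2, map_add, a2, a0, add_zero]
  · rw [g2, map_add, b2, b0, add_zero, lie_add, add_lie p2 s2 s2, lie_self, add_zero,
      add_sub_cancel_right]

/- C8 -/
theorem adjoin1 : Algebra.adjoin K2 {p1, g1, s1} = ⊤ := by
  rw [eq_top_iff]
  intro a _
  refine ind S1 (C := fun a => a ∈ Algebra.adjoin K2 {p1, g1, s1}) ?_ ?_ ?_ ?_ a
  · intro r; exact Subalgebra.algebraMap_mem _ r
  · intro i
    fin_cases i
    · exact Algebra.subset_adjoin (by simp [p1])
    · exact Algebra.subset_adjoin (by simp [g1])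
    · exact Algebra.subset_adjoin (by simp [s1])
  · intro a b ha hb; exact mul_mem ha hb
  · intro a b ha hb; exact add_mem ha hb

/- C9 -/
theorem adjoin2 : Algebra.adjoin K2 {p2, g2, s2} = ⊤ := by
  rw [eq_top_iff]
  intro a _
  have hs : s2 ∈ Algebra.adjoin K2 {p2, g2, s2} := Algebra.subset_adjoin (by simp)
  have hg : g2 ∈ Algebra.adjoin K2 {p2, g2, s2} := Algebra.subset_adjoin (by simp)
  have hp : p2 ∈ Algebra.adjoin K2 {p2, g2, s2} := Algebra.subset_adjoin (by simp)
  refine ind S2 (C := fun a => a ∈ Algebra.adjoin K2 {p2, g2, s2}) ?_ ?_ ?_ ?_ a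
  · intro r; exact Subalgebra.algebraMap_mem _ r
  · intro i
    fin_cases i
    · exact hs
    · exact hp
    · have : QA.lt S2 2 = g2 - s2 := by rw [g2, add_sub_cancel_right]; rfl
      change QA.lt S2 2 ∈ _
      rw [this]
      exact sub_mem hg hs
  · intro a b ha hb; exact mul_mem ha hb
  · intro a b ha hb; exact add_mem ha hb

end Vale.Agent.P029
end
end
end

section

section

/-!
P029, module A3: Lazard elimination, spanning part.
-/

noncomputable section

attribute [local instance 100] LieRing.ofAssociativeRing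

namespace Vale.Agent.P029

namespace ElimSpan

variable {X : Type} (w : X → ℕ) (a : X) {g : Type} [LieRing g] (f : X → g)

/-- The span of the Lie monomials of weight `n` in the letters `ad (f a) ^ i (f b)`. -/
def C (n : ℕ) : AddSubgroup g :=
  AddSubgroup.closure
      {z | ∃ v : Tr ({b : X // b ≠ a} × ℕ), v.wt (fun q => w (q.1 : X) + q.2 * w a) = n ∧
        z = v.eval (fun q => adIter (f a) (f (q.1 : X)) q.2)}

lemma lie_mem {m n : ℕ} {x y : g} (hx : x ∈ C w a f m) (hy : y ∈ C w a f n) :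
    ⁅x, y⁆ ∈ C w a f (m + n) := by
  induction hx using AddSubgroup.closure_induction with
  | mem x hx =>
    obtain ⟨v, hv, rfl⟩ := hx
    induction hy using AddSubgroup.closure_induction with
    | mem y hy =>
      obtain ⟨v', hv', rfl⟩ := hy
      refine AddSubgroup.subset_closure ⟨Tr.node v v', ?_, rfl⟩
      simp only [Tr.wt]
      rw [hv, hv']
    | zero => rw [lie_zero]; exact zero_mem _
    | add y y' _ _ h h' => rw [lie_add]; exact add_mem h h'
    | neg y _ h => rw [lie_neg]; exact neg_mem h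
  | zero => rw [zero_lie]; exact zero_mem _
  | add x x' _ _ h h' => rw [add_lie]; exact add_mem h h'
  | neg x _ h => rw [neg_lie]; exact neg_mem h

lemma ad_tree (v : Tr ({b : X // b ≠ a} × ℕ)) :
    ⁅f a, v.eval (fun q => adIter (f a) (f (q.1 : X)) q.2)⁆ ∈
      C w a f (w a + v.wt (fun q => w (q.1 : X) + q.2 * w a)) := by
  induction v with
  | leaf q =>
    refine AddSubgroup.subset_closure ⟨Tr.leaf (q.1, q.2 + 1), ?_, rfl⟩
    simp only [Tr.wt]
    ring
  | node v v' h h' =>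
    simp only [Tr.eval, Tr.wt]
    rw [leibniz_lie]
    have e1 : v.eval (fun q => adIter (f a) (f (q.1 : X)) q.2) ∈
        C w a f (v.wt (fun q => w (q.1 : X) + q.2 * w a)) :=
      AddSubgroup.subset_closure ⟨v, rfl, rfl⟩
    have e2 : v'.eval (fun q => adIter (f a) (f (q.1 : X)) q.2) ∈
        C w a f (v'.wt (fun q => w (q.1 : X) + q.2 * w a)) :=
      AddSubgroup.subset_closure ⟨v', rfl, rfl⟩
    refine add_mem ?_ ?_
    · have := lie_mem w a f h e2
      rwa [add_assoc] at this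
    · have := lie_mem w a f e1 h'
      rwa [add_left_comm] at this

lemma ad_mem {n : ℕ} {z : g} (hz : z ∈ C w a f n) : ⁅f a, z⁆ ∈ C w a f (w a + n) := by
  induction hz using AddSubgroup.closure_induction with
  | mem z hz =>
    obtain ⟨v, rfl, rfl⟩ := hz
    exact ad_tree w a f v
  | zero => rw [lie_zero]; exact zero_mem _
  | add x y _ _ h h' => rw [lie_add]; exact add_mem h h'
  | neg x _ h => rw [lie_neg]; exact neg_mem h

end ElimSpan

/- A3 -/
theorem elim_span {X : Type} (w : X → ℕ) (a : X) {g : Type} [LieRing g] (f : X → g) (u : Tr X) :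
    u = Tr.leaf a ∨ u.eval f ∈ AddSubgroup.closure
      {z | ∃ v : Tr ({b : X // b ≠ a} × ℕ), v.wt (fun q => w (q.1 : X) + q.2 * w a) = u.wt w ∧
        z = v.eval (fun q => adIter (f a) (f (q.1 : X)) q.2)} := by
  change u = Tr.leaf a ∨ u.eval f ∈ ElimSpan.C w a f (u.wt w)
  induction u with
  | leaf x =>
    by_cases hx : x = a
    · left; rw [hx]
    · right
      refine AddSubgroup.subset_closure ⟨Tr.leaf (⟨x, hx⟩, 0), ?_, rfl⟩
      simp only [Tr.wt, zero_mul, add_zero]
  | node u v hu hv =>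
    right
    simp only [Tr.eval, Tr.wt]
    rcases hu with rfl | hu
    · rcases hv with rfl | hv
      · simp only [Tr.eval, lie_self]
        exact zero_mem _
      · exact ElimSpan.ad_mem w a f hv
    · rcases hv with rfl | hv
      · have := ElimSpan.ad_mem w a f hu
        simp only [Tr.eval, Tr.wt]
        rw [← lie_skew, add_comm]
        exact neg_mem this
      · exact ElimSpan.lie_mem w a f hu hv

end Vale.Agent.P029
end
end
end

section

section

/-!
# P029: derivations of the free algebra, and injectivity in Lazard elimination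
-/

noncomputable section

attribute [local instance 100] LieRing.ofAssociativeRing

namespace Vale.Agent.P029

namespace ElimInj

/-- The matrices used to construct derivations. -/
def mat {X A : Type} [Ring A] (h d : X → A) (x : X) : Matrix (Fin 2) (Fin 2) A :=
  !![h x, d x; 0, h x]

theorem mat_entries (R : Type) [CommRing R] {X A : Type} [Ring A] [Algebra R A] (h d : X → A)
    (a : FreeAlgebra R X) :
    FreeAlgebra.lift R (mat h d) a 0 0 = FreeAlgebra.lift R h a ∧
      FreeAlgebra.lift R (mat h d) a 1 1 = FreeAlgebra.lift R h a ∧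
      FreeAlgebra.lift R (mat h d) a 1 0 = 0 := by
  induction a using FreeAlgebra.induction with
  | grade0 r =>
    simp [AlgHom.commutes, Matrix.algebraMap_matrix_apply]
  | grade1 x =>
    simp [mat, FreeAlgebra.lift_ι_apply]
  | mul a b ha hb =>
    obtain ⟨ha1, ha2, ha3⟩ := ha
    obtain ⟨hb1, hb2, hb3⟩ := hb
    simp only [map_mul, Matrix.mul_apply, Fin.sum_univ_two]
    rw [ha1, ha2, ha3, hb1, hb2, hb3]
    simp
  | add a b ha hb =>
    obtain ⟨ha1, ha2, ha3⟩ := ha
    obtain ⟨hb1, hb2, hb3⟩ := hb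
    simp only [map_add, Matrix.add_apply]
    rw [ha1, ha2, ha3, hb1, hb2, hb3]
    simp

end ElimInj

/-- Derivations along a homomorphism with given values on the letters. -/
theorem exists_der (R : Type) [CommRing R] {X A : Type} [Ring A] [Algebra R A] (h d : X → A) :
    ∃ D : FreeAlgebra R X →ₗ[R] A, (∀ x, D (FreeAlgebra.ι R x) = d x) ∧
      ∀ a b, D (a * b) = D a * FreeAlgebra.lift R h b + FreeAlgebra.lift R h a * D b := by
  refine ⟨{ toFun := fun a => FreeAlgebra.lift R (ElimInj.mat h d) a 0 1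
            map_add' := fun a b => by simp
            map_smul' := fun r a => by simp }, fun x => ?_, fun a b => ?_⟩
  · show FreeAlgebra.lift R (ElimInj.mat h d) (FreeAlgebra.ι R x) 0 1 = d x
    rw [FreeAlgebra.lift_ι_apply]
    simp [ElimInj.mat]
  · show FreeAlgebra.lift R (ElimInj.mat h d) (a * b) 0 1 =
      FreeAlgebra.lift R (ElimInj.mat h d) a 0 1 * _ +
        _ * FreeAlgebra.lift R (ElimInj.mat h d) b 0 1
    obtain ⟨ha1, -, -⟩ := ElimInj.mat_entries R h d a
    obtain ⟨-, hb2, -⟩ := ElimInj.mat_entries R h d b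
    rw [map_mul, Matrix.mul_apply, Fin.sum_univ_two, ha1, hb2, add_comm]

namespace ElimInj

theorem lift_iota (R : Type) [CommRing R] {X : Type} (a : FreeAlgebra R X) :
    FreeAlgebra.lift R (FreeAlgebra.ι R : X → FreeAlgebra R X) a = a := by
  have : FreeAlgebra.lift R (FreeAlgebra.ι R : X → FreeAlgebra R X) = AlgHom.id R _ := by
    apply FreeAlgebra.hom_ext
    funext x
    simp
  rw [this]
  rfl

/-- The operator representation: `a ↦ δ`, `b ↦` left multiplication by the letter `(b, 0)`. -/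
theorem exists_rho (R : Type) [CommRing R] {X : Type} (a : X) :
    ∃ ρ : FreeAlgebra R X →ₐ[R] Module.End R (FreeAlgebra R ({b : X // b ≠ a} × ℕ)),
      ∀ (b : {b : X // b ≠ a}) (i : ℕ),
        ρ (adIter (FreeAlgebra.ι R a) (FreeAlgebra.ι R (b : X)) i) =
          LinearMap.mulLeft R (FreeAlgebra.ι R (b, i)) := by
  classical
  obtain ⟨δ, hδ1, hδ2⟩ := exists_der R (X := {b : X // b ≠ a} × ℕ)
    (A := FreeAlgebra R ({b : X // b ≠ a} × ℕ)) (FreeAlgebra.ι R)
    (fun q => FreeAlgebra.ι R (q.1, q.2 + 1))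
  refine ⟨FreeAlgebra.lift R (fun x => if hx : x = a then δ else
    LinearMap.mulLeft R (FreeAlgebra.ι R (⟨x, hx⟩, 0))), fun b i => ?_⟩
  have hb : (b : X) ≠ a := b.2
  induction i with
  | zero =>
    show FreeAlgebra.lift R _ (FreeAlgebra.ι R (b : X)) = _
    rw [FreeAlgebra.lift_ι_apply, dif_neg hb]
  | succ i ih =>
    show FreeAlgebra.lift R _ ⁅FreeAlgebra.ι R a,
      adIter (FreeAlgebra.ι R a) (FreeAlgebra.ι R (b : X)) i⁆ = _
    rw [LieRing.of_associative_ring_bracket, map_sub, map_mul, map_mul, ih,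
      FreeAlgebra.lift_ι_apply, dif_pos rfl]
    apply LinearMap.ext
    intro z
    simp only [LinearMap.sub_apply, Module.End.mul_apply, LinearMap.mulLeft_apply, hδ2, hδ1,
      lift_iota]
    simp

end ElimInj

/-- Lazard elimination: injectivity. -/
theorem elim_injective (R : Type) [CommRing R] {X : Type} (a : X) (c : R)
    (f : FreeAlgebra R ({b : X // b ≠ a} × ℕ)) (hf : FreeAlgebra.lift R (fun _ => (0 : R)) f = 0)
    (h : c • FreeAlgebra.ι R a + FreeAlgebra.lift R (fun q : {b : X // b ≠ a} × ℕ =>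
      adIter (FreeAlgebra.ι R a) (FreeAlgebra.ι R (q.1 : X)) q.2) f = 0) : c = 0 ∧ f = 0 := by
  classical
  set θ := FreeAlgebra.lift R (fun q : {b : X // b ≠ a} × ℕ =>
      adIter (FreeAlgebra.ι R a) (FreeAlgebra.ι R (q.1 : X)) q.2) with hθ
  -- the coefficient `c`
  have hc : c = 0 := by
    let χ : FreeAlgebra R X →ₐ[R] Polynomial R :=
      FreeAlgebra.lift R (fun x => if x = a then Polynomial.X else 0)
    have h1 : χ.comp θ = (Algebra.ofId R (Polynomial R)).comp
        (FreeAlgebra.lift R (fun _ => (0 : R))) := by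
      apply FreeAlgebra.hom_ext
      funext q
      simp only [Function.comp_apply, AlgHom.comp_apply, hθ, FreeAlgebra.lift_ι_apply, map_zero]
      obtain ⟨b, i⟩ := q
      have hb : (b : X) ≠ a := b.2
      cases i with
      | zero =>
        show χ (FreeAlgebra.ι R (b : X)) = 0
        simp only [χ, FreeAlgebra.lift_ι_apply, if_neg hb]
      | succ i =>
        show χ ⁅FreeAlgebra.ι R a,
          adIter (FreeAlgebra.ι R a) (FreeAlgebra.ι R (b : X)) i⁆ = 0
        rw [LieRing.of_associative_ring_bracket, map_sub, map_mul, map_mul, mul_comm, sub_self]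
    have h2 : χ (θ f) = 0 := by
      have := DFunLike.congr_fun h1 f
      simp only [AlgHom.comp_apply] at this
      rw [this, hf, map_zero]
    have h3 := congrArg χ h
    rw [map_add, map_smul, h2, add_zero, map_zero] at h3
    have h4 : χ (FreeAlgebra.ι R a) = Polynomial.X := by
      simp [χ, FreeAlgebra.lift_ι_apply]
    rw [h4] at h3
    have h5 := congrArg (fun p => Polynomial.coeff p 1) h3
    simpa using h5
  refine ⟨hc, ?_⟩
  rw [hc, zero_smul, zero_add] at h
  obtain ⟨ρ, hρ⟩ := ElimInj.exists_rho R a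
  have h1 : ρ.comp θ = Algebra.lmul R (FreeAlgebra R ({b : X // b ≠ a} × ℕ)) := by
    apply FreeAlgebra.hom_ext
    funext q
    obtain ⟨b, i⟩ := q
    simp only [Function.comp_apply, AlgHom.comp_apply, hθ, FreeAlgebra.lift_ι_apply]
    rw [hρ b i]
    rfl
  have h2 := DFunLike.congr_fun h1 f
  simp only [AlgHom.comp_apply] at h2
  rw [h, map_zero] at h2
  have h3 := DFunLike.congr_fun h2 (1 : FreeAlgebra R ({b : X // b ≠ a} × ℕ))
  simpa using h3.symm

end Vale.Agent.P029
end
end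
end

section

section

set_option linter.all false

/-!
# P029: a basis of the weight `n` part of the free Lie algebra, by Lazard elimination
-/

noncomputable section

attribute [local instance 100] LieRing.ofAssociativeRing

namespace Vale.Agent.P029

namespace LieBasis



/-- Substitution of trees for the leaves. -/
def bind {X Y : Type} (s : X → Tr Y) : Tr X → Tr Y
  | .leaf x => s x
  | .node u v => .node (bind s u) (bind s v)

/-- The tree of `ad a ^ i b`. -/
def adT {X : Type} (a b : X) : ℕ → Tr X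
  | 0 => .leaf b
  | i + 1 => .node (.leaf a) (adT a b i)

theorem eval_bind {X Y : Type} {g : Type} [LieRing g] (s : X → Tr Y) (f : Y → g) (u : Tr X) :
    (bind s u).eval f = u.eval (fun x => (s x).eval f) := by
  induction u with
  | leaf x => rfl
  | node u v hu hv =>
    show ⁅(bind s u).eval f, (bind s v).eval f⁆ = _
    rw [hu, hv]
    rfl

theorem wt_bind {X Y : Type} (s : X → Tr Y) (w : Y → ℕ) (u : Tr X) :
    (bind s u).wt w = u.wt (fun x => (s x).wt w) := by
  induction u with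
  | leaf x => rfl
  | node u v hu hv =>
    show (bind s u).wt w + (bind s v).wt w = _
    rw [hu, hv]
    rfl

theorem eval_adT {X : Type} {g : Type} [LieRing g] (f : X → g) (a b : X) (i : ℕ) :
    (adT a b i).eval f = adIter (f a) (f b) i := by
  induction i with
  | zero => rfl
  | succ i ih =>
    show ⁅f a, (adT a b i).eval f⁆ = _
    rw [ih]
    rfl

theorem wt_adT {X : Type} (w : X → ℕ) (a b : X) (i : ℕ) :
    (adT a b i).wt w = w b + i * w a := by
  induction i with
  | zero => simp [adT, Tr.wt]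
  | succ i ih =>
    show w a + (adT a b i).wt w = _
    rw [ih]
    ring

theorem eval_lieHom {R : Type} [CommRing R] {X g h : Type} [LieRing g] [LieAlgebra R g]
    [LieRing h] [LieAlgebra R h] (φ : g →ₗ⁅R⁆ h) (f : X → g) (u : Tr X) :
    φ (u.eval f) = u.eval (fun x => φ (f x)) := by
  induction u with
  | leaf x => rfl
  | node u v hu hv =>
    show φ ⁅u.eval f, v.eval f⁆ = _
    rw [LieHom.map_lie, hu, hv]
    rfl

theorem eval_algHom {R : Type} [CommRing R] {X A B : Type} [Ring A] [Algebra R A]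
    [Ring B] [Algebra R B] (φ : A →ₐ[R] B) (f : X → A) (u : Tr X) :
    φ (u.eval f) = u.eval (fun x => φ (f x)) := by
  induction u with
  | leaf x => rfl
  | node u v hu hv =>
    show φ ⁅u.eval f, v.eval f⁆ = ⁅u.eval (fun x => φ (f x)), v.eval (fun x => φ (f x))⁆
    rw [LieRing.of_associative_ring_bracket, LieRing.of_associative_ring_bracket, map_sub,
      map_mul, map_mul, hu, hv]

theorem eval_zero {X g : Type} [LieRing g] (u : Tr X) : u.eval (fun _ => (0 : g)) = 0 := by
  induction u with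
  | leaf x => rfl
  | node u v hu hv =>
    show ⁅u.eval (fun _ => (0 : g)), v.eval (fun _ => (0 : g))⁆ = 0
    rw [hu, zero_lie]

theorem wt_le {X : Type} {w : X → ℕ} {j : ℕ} (h : ∀ x, j ≤ w x) (u : Tr X) : j ≤ u.wt w := by
  induction u with
  | leaf x => exact h x
  | node u v hu hv =>
    show j ≤ u.wt w + v.wt w
    omega

/-- The statement with an arbitrary finite index type. -/
def Good (n : ℕ) {X : Type} (w : X → ℕ) : Prop :=
  ∃ (ι : Type) (_ : Finite ι) (t : ι → Tr X), (∀ i, (t i).wt w = n) ∧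
    ∀ (R : Type) [CommRing R],
      (∀ u : Tr X, u.wt w = n → u.eval (FreeLieAlgebra.of R) ∈
        Submodule.span R (Set.range fun i => (t i).eval (FreeLieAlgebra.of R))) ∧
      LinearIndependent R (fun i => (t i).eval (FreeAlgebra.ι R))

theorem step (n : ℕ) {X : Type} (w : X → ℕ) (a : X)
    (h : Good n (fun q : {b : X // b ≠ a} × ℕ => w (q.1 : X) + q.2 * w a)) : Good n w := by
  classical
  obtain ⟨ι, hι, t, ht, H⟩ := h
  set s : {b : X // b ≠ a} × ℕ → Tr X := fun q => adT a (q.1 : X) q.2 with hs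
  have hsw : ∀ q, (s q).wt w = w (q.1 : X) + q.2 * w a := fun q => wt_adT w a _ _
  have hse : ∀ {g : Type} [LieRing g] (f : X → g) (u : Tr ({b : X // b ≠ a} × ℕ)),
      (bind s u).eval f = u.eval (fun q => adIter (f a) (f (q.1 : X)) q.2) := by
    intro g _ f u
    rw [eval_bind]
    congr 1
    funext q
    exact eval_adT f a _ _
  refine ⟨ι ⊕ PLift (w a = n), inferInstance,
    Sum.elim (fun i => bind s (t i)) (fun _ => .leaf a), ?_, ?_⟩
  · rintro (i | p)
    · simp only [Sum.elim_inl]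
      rw [wt_bind]
      simp only [hsw]
      exact ht i
    · exact p.down
  · intro R _
    obtain ⟨H1, H2⟩ := H R
    constructor
    · intro u hu
      set S := Submodule.span R (Set.range fun i => (Sum.elim (fun i => bind s (t i))
        (fun _ : PLift (w a = n) => Tr.leaf a) i).eval (FreeLieAlgebra.of R)) with hS
      rcases elim_span w a (FreeLieAlgebra.of R) u with h1 | h1
      · have h2 : w a = n := by
          rw [h1] at hu
          exact hu
        apply Submodule.subset_span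
        exact ⟨Sum.inr ⟨h2⟩, by rw [h1]; rfl⟩
      · set Φ : FreeLieAlgebra R ({b : X // b ≠ a} × ℕ) →ₗ⁅R⁆ FreeLieAlgebra R X :=
          FreeLieAlgebra.lift R (fun q => adIter (FreeLieAlgebra.of R a)
            (FreeLieAlgebra.of R (q.1 : X)) q.2) with hΦ
        have hΦe : ∀ v : Tr ({b : X // b ≠ a} × ℕ), Φ (v.eval (FreeLieAlgebra.of R)) =
            v.eval (fun q => adIter (FreeLieAlgebra.of R a)
              (FreeLieAlgebra.of R (q.1 : X)) q.2) := by
          intro v
          rw [eval_lieHom]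
          congr 1
          funext q
          simp [hΦ]
        have hsub : AddSubgroup.closure {z | ∃ v : Tr ({b : X // b ≠ a} × ℕ),
            v.wt (fun q => w (q.1 : X) + q.2 * w a) = u.wt w ∧
            z = v.eval (fun q => adIter (FreeLieAlgebra.of R a)
              (FreeLieAlgebra.of R (q.1 : X)) q.2)} ≤ S.toAddSubgroup := by
          rw [AddSubgroup.closure_le]
          rintro z ⟨v, hv, rfl⟩
          show _ ∈ S
          rw [← hΦe v]
          have h2 := H1 v (hv.trans hu)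
          have h3 : Submodule.span R (Set.range fun i => (t i).eval (FreeLieAlgebra.of R))
              ≤ S.comap (Φ : FreeLieAlgebra R ({b : X // b ≠ a} × ℕ) →ₗ[R]
                FreeLieAlgebra R X) := by
            rw [Submodule.span_le]
            rintro _ ⟨i, rfl⟩
            show Φ ((t i).eval (FreeLieAlgebra.of R)) ∈ S
            rw [hΦe]
            apply Submodule.subset_span
            exact ⟨Sum.inl i, by
              simp only [Sum.elim_inl]
              exact hse _ _⟩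
          exact h3 h2
        exact hsub h1
    · have := Fintype.ofFinite ι
      have hf : Fintype (PLift (w a = n)) := Fintype.ofFinite _
      rw [Fintype.linearIndependent_iff] at H2 ⊢
      intro c hc
      rw [Fintype.sum_sum_type] at hc
      simp only [Sum.elim_inl, Sum.elim_inr] at hc
      set f : FreeAlgebra R ({b : X // b ≠ a} × ℕ) :=
        ∑ i, c (Sum.inl i) • (t i).eval (FreeAlgebra.ι R) with hfd
      have h0 : FreeAlgebra.lift R (fun _ => (0 : R)) f = 0 := by
        rw [hfd, map_sum]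
        apply Finset.sum_eq_zero
        intro i _
        rw [map_smul, eval_algHom]
        simp only [FreeAlgebra.lift_ι_apply]
        rw [eval_zero, smul_zero]
      have h1 : FreeAlgebra.lift R (fun q : {b : X // b ≠ a} × ℕ =>
          adIter (FreeAlgebra.ι R a) (FreeAlgebra.ι R (q.1 : X)) q.2) f =
          ∑ i, c (Sum.inl i) • (bind s (t i)).eval (FreeAlgebra.ι R) := by
        rw [hfd, map_sum]
        apply Finset.sum_congr rfl
        intro i _
        rw [map_smul, eval_algHom, hse]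
        simp only [FreeAlgebra.lift_ι_apply]
      obtain ⟨k1, k2⟩ := elim_injective R a (∑ p, c (Sum.inr p)) f h0 (by
        rw [h1, ← hc, Finset.sum_smul, add_comm]
        rfl)
      have k3 := H2 _ k2
      rintro (i | p)
      · exact k3 i
      · have : Subsingleton (PLift (w a = n)) := ⟨fun x y => by
          cases x; cases y; rfl⟩
        have hu : ∀ q : PLift (w a = n), q = p := fun q => Subsingleton.elim _ _
        rw [← k1]
        exact (Fintype.sum_eq_single (f := fun q : PLift (w a = n) => c (Sum.inr q)) p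
          (fun q hq => absurd (hu q) hq)).symm

theorem fin_le {X : Type} {w : X → ℕ} (hfin : ∀ n, {x | w x = n}.Finite) (m : ℕ) :
    {x | w x ≤ m}.Finite := by
  have : {x | w x ≤ m} = ⋃ k ∈ Set.Iic m, {x | w x = k} := by
    ext x
    simp
  rw [this]
  exact (Set.finite_Iic m).biUnion fun k _ => hfin k

theorem fin' {X : Type} {w : X → ℕ} (hfin : ∀ n, {x | w x = n}.Finite) (a : X) (ha : 1 ≤ w a)
    (m : ℕ) : {q : {b : X // b ≠ a} × ℕ | w (q.1 : X) + q.2 * w a = m}.Finite := by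
  have h1 : {b : {b : X // b ≠ a} | w (b : X) ≤ m}.Finite :=
    (fin_le hfin m).preimage Subtype.val_injective.injOn
  refine (h1.prod (Set.finite_Iic m)).subset ?_
  rintro ⟨b, i⟩ hq
  simp only [Set.mem_setOf_eq] at hq
  simp only [Set.mem_prod, Set.mem_setOf_eq, Set.mem_Iic]
  constructor
  · omega
  · nlinarith

theorem main (n : ℕ) : ∀ m j : ℕ, j + m = n + 1 → 1 ≤ j → ∀ (X : Type) (w : X → ℕ),
    (∀ k, {x | w x = k}.Finite) → (∀ x, j ≤ w x) → Good n w := by
  intro m
  induction m with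
  | zero =>
    intro j hj h1 X w hfin hw
    refine ⟨Empty, inferInstance, fun e => e.elim, fun e => e.elim, fun R _ => ⟨?_, ?_⟩⟩
    · intro u hu
      have := wt_le hw u
      omega
    · exact linearIndependent_empty_type
  | succ m ih =>
    intro j hj h1
    have key : ∀ c : ℕ, ∀ (X : Type) (w : X → ℕ), (∀ k, {x | w x = k}.Finite) →
        (∀ x, j ≤ w x) → {x | w x = j}.ncard = c → Good n w := by
      intro c
      induction c with
      | zero =>
        intro X w hfin hw hc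
        rw [Set.ncard_eq_zero (hfin j)] at hc
        apply ih (j + 1) (by omega) (by omega) X w hfin
        intro x
        have h2 := hw x
        have h3 : w x ≠ j := fun h => by
          have : x ∈ ({x | w x = j} : Set X) := h
          rw [hc] at this
          exact this
        omega
      | succ c ihc =>
        intro X w hfin hw hc
        have hne : {x | w x = j}.Nonempty := by
          apply Set.nonempty_of_ncard_ne_zero
          omega
        obtain ⟨a, ha⟩ := hne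
        have ha' : w a = j := ha
        apply step n w a
        apply ihc
        · exact fin' hfin a (by omega)
        · intro q
          have := hw (q.1 : X)
          omega
        · have hinj : Set.InjOn (fun q : {b : X // b ≠ a} × ℕ => (q.1 : X))
              {q | w (q.1 : X) + q.2 * w a = j} := by
            rintro ⟨b, i⟩ hb ⟨b', i'⟩ hb' heq
            simp only [Set.mem_setOf_eq] at hb hb' heq
            have e1 := hw (b : X)
            have e2 := hw (b' : X)
            rw [ha'] at hb hb'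
            have i0 : i = 0 := by
              rcases Nat.eq_zero_or_pos i with h | h
              · exact h
              · nlinarith
            have i0' : i' = 0 := by
              rcases Nat.eq_zero_or_pos i' with h | h
              · exact h
              · nlinarith
            rw [i0, i0', Subtype.ext heq]
          have himg : (fun q : {b : X // b ≠ a} × ℕ => (q.1 : X)) ''
              {q | w (q.1 : X) + q.2 * w a = j} = {x | w x = j} \ {a} := by
            ext x
            constructor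
            · rintro ⟨⟨b, i⟩, hb, rfl⟩
              simp only [Set.mem_setOf_eq] at hb
              refine ⟨?_, b.2⟩
              have e1 := hw (b : X)
              show w (b : X) = j
              omega
            · rintro ⟨hx, hxa⟩
              refine ⟨(⟨x, hxa⟩, 0), ?_, rfl⟩
              show w x + 0 * w a = j
              rw [zero_mul, add_zero]
              exact hx
          rw [← Set.ncard_image_of_injOn hinj, himg, Set.ncard_diff_singleton_of_mem ha, hc]
          rfl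
    intro X w hfin hw
    exact key _ X w hfin hw rfl

end LieBasis

theorem lie_basis {X : Type} (w : X → ℕ) (hpos : ∀ x, 0 < w x)
    (hfin : ∀ n, {x | w x = n}.Finite) (n : ℕ) :
    ∃ (k : ℕ) (t : Fin k → Tr X), (∀ i, (t i).wt w = n) ∧ ∀ (R : Type) [CommRing R],
      (∀ u : Tr X, u.wt w = n → u.eval (FreeLieAlgebra.of R) ∈
        Submodule.span R (Set.range fun i => (t i).eval (FreeLieAlgebra.of R))) ∧
      LinearIndependent R (fun i => (t i).eval (FreeAlgebra.ι R)) := by
  obtain ⟨ι, hι, t, ht, H⟩ := LieBasis.main n n 1 (by omega) le_rfl X w hfin hpos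
  have e := (Finite.equivFin ι).symm
  refine ⟨Nat.card ι, fun i => t (e i), fun i => ht _, fun R _ => ?_⟩
  obtain ⟨H1, H2⟩ := H R
  constructor
  · intro u hu
    have h1 := H1 u hu
    have h2 : (Set.range fun i => (t (e i)).eval (FreeLieAlgebra.of R)) =
        Set.range fun i => (t i).eval (FreeLieAlgebra.of R) :=
      e.surjective.range_comp (fun i => (t i).eval (FreeLieAlgebra.of R))
    rw [h2]
    exact h1
  · exact H2.comp e e.injective

/-- The span of the basis is the weight part. -/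
theorem lie_basis_span {R : Type} [CommRing R] {X : Type} {w : X → ℕ} {n k : ℕ}
    {t : Fin k → Tr X} (ht : ∀ i, (t i).wt w = n)
    (h1 : ∀ u : Tr X, u.wt w = n → u.eval (FreeLieAlgebra.of R) ∈
      Submodule.span R (Set.range fun i => (t i).eval (FreeLieAlgebra.of R))) :
    Submodule.span R (Set.range fun i => (t i).eval (FreeLieAlgebra.of R)) = wtPart R w n := by
  apply le_antisymm
  · rw [Submodule.span_le]
    rintro _ ⟨i, rfl⟩
    exact Submodule.subset_span ⟨t i, ht i, rfl⟩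
  · unfold wtPart
    rw [Submodule.span_le]
    rintro _ ⟨u, hu, rfl⟩
    exact h1 u hu

theorem toFree_of (R : Type) [CommRing R] {X : Type} (x : X) :
    toFree R X (FreeLieAlgebra.of R x) = FreeAlgebra.ι R x := by
  simp [toFree]

theorem toFree_eval (R : Type) [CommRing R] {X : Type} (u : Tr X) :
    toFree R X (u.eval (FreeLieAlgebra.of R)) = u.eval (FreeAlgebra.ι R) := by
  rw [LieBasis.eval_lieHom]
  simp only [toFree_of]

/-- Independence in the free Lie algebra. -/
theorem lie_basis_indep {R : Type} [CommRing R] {X : Type} {k : ℕ} {t : Fin k → Tr X}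
    (h2 : LinearIndependent R (fun i => (t i).eval (FreeAlgebra.ι R))) :
    LinearIndependent R (fun i => (t i).eval (FreeLieAlgebra.of R)) := by
  apply LinearIndependent.of_comp (toFree R X : FreeLieAlgebra R X →ₗ[R] FreeAlgebra R X)
  have : (⇑(toFree R X : FreeLieAlgebra R X →ₗ[R] FreeAlgebra R X) ∘
      fun i => (t i).eval (FreeLieAlgebra.of R)) = fun i => (t i).eval (FreeAlgebra.ι R) := by
    funext i
    exact toFree_eval R (t i)
  rw [this]
  exact h2

/-- The free Lie algebra embeds into the free associative algebra, in each weight. -/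
theorem toFree_injOn {R : Type} [CommRing R] {X : Type} (w : X → ℕ) (hpos : ∀ x, 0 < w x)
    (hfin : ∀ n, {x | w x = n}.Finite) {n : ℕ} {a : FreeLieAlgebra R X}
    (ha : a ∈ wtPart R w n) (h : toFree R X a = 0) : a = 0 := by
  obtain ⟨k, t, ht, H⟩ := lie_basis w hpos hfin n
  obtain ⟨H1, H2⟩ := H R
  rw [← lie_basis_span ht H1, Submodule.mem_span_range_iff_exists_fun] at ha
  obtain ⟨c, rfl⟩ := ha
  rw [map_sum] at h
  simp only [map_smul, toFree_eval] at h
  have h3 := Fintype.linearIndependent_iff.1 H2 c h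
  simp [h3]

theorem wtPart_finite {R : Type} [CommRing R] {X : Type} (w : X → ℕ) (hpos : ∀ x, 0 < w x)
    (hfin : ∀ n, {x | w x = n}.Finite) (n : ℕ) : Module.Finite R (wtPart R w n) := by
  obtain ⟨k, t, ht, H⟩ := lie_basis w hpos hfin n
  rw [← lie_basis_span ht (H R).1]
  exact Module.Finite.span_of_finite R (Set.finite_range _)

/-- The dimension of the weight part is the number of basis elements, over every field. -/
theorem wtPart_finrank {R : Type} [Field R] {X : Type} {w : X → ℕ} {n k : ℕ}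
    {t : Fin k → Tr X} (ht : ∀ i, (t i).wt w = n)
    (h1 : ∀ u : Tr X, u.wt w = n → u.eval (FreeLieAlgebra.of R) ∈
      Submodule.span R (Set.range fun i => (t i).eval (FreeLieAlgebra.of R)))
    (h2 : LinearIndependent R (fun i => (t i).eval (FreeAlgebra.ι R))) :
    Module.finrank R (wtPart R w n) = k := by
  rw [← lie_basis_span ht h1, finrank_span_eq_card (lie_basis_indep h2), Fintype.card_fin]

end Vale.Agent.P029
end
end
end

section

section

/-!
# P029: the odd part

`G` is the image of the weight `n` part of the free Lie algebra on the letters `e k` of weight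
`2 k + 3` under `e k ↦ ι (2 k + 1)`.
-/

noncomputable section

attribute [local instance 100] LieRing.ofAssociativeRing

namespace Vale.Agent.P029

namespace OddPart

/-- Lie homomorphisms commute with the evaluation of trees. -/
theorem map_eval {R X g g' : Type} [CommRing R] [LieRing g] [LieAlgebra R g] [LieRing g']
    [LieAlgebra R g'] (φ : g →ₗ⁅R⁆ g') (f : X → g) (t : Tr X) :
    φ (t.eval f) = t.eval (fun x => φ (f x)) := by
  induction t with
  | leaf x => rfl
  | node a b iha ihb => rw [Tr.eval, Tr.eval, LieHom.map_lie, iha, ihb]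

/-- Algebra homomorphisms commute with the evaluation of trees. -/
theorem algHom_eval {R X A B : Type} [CommRing R] [Ring A] [Algebra R A] [Ring B] [Algebra R B]
    (φ : A →ₐ[R] B) (f : X → A) (t : Tr X) : φ (t.eval f) = t.eval (fun x => φ (f x)) := by
  induction t with
  | leaf x => rfl
  | node a b iha ihb =>
    rw [Tr.eval, Tr.eval, LieRing.of_associative_ring_bracket,
      LieRing.of_associative_ring_bracket, map_sub, map_mul, map_mul, iha, ihb]

/-- The letters `ι (2 k + 1)`. -/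
def odl (k : ℕ) : FreeAlgebra K2 ℕ := FreeAlgebra.ι K2 (2 * k + 1)

/-- The subspace `G`. -/
def GG (n : ℕ) : Submodule K2 (FreeAlgebra K2 ℕ) :=
  Submodule.span K2 {a | ∃ t : Tr ℕ, t.wt (fun k => 2 * k + 3) = n ∧ a = t.eval odl}

/-- Killing the even letters of a tree. -/
theorem kill_tree (t : Tr ℕ) :
    t.eval (fun m => if Even m then (0 : FreeAlgebra K2 ℕ) else FreeAlgebra.ι K2 m) = 0 ∨
      ∃ t' : Tr ℕ, t'.wt (fun k => 2 * k + 3) = t.wt (fun m => m + 2) ∧
        t.eval (fun m => if Even m then (0 : FreeAlgebra K2 ℕ) else FreeAlgebra.ι K2 m)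
          = t'.eval odl := by
  induction t with
  | leaf m =>
    by_cases hm : Even m
    · left
      show (if Even m then (0 : FreeAlgebra K2 ℕ) else FreeAlgebra.ι K2 m) = 0
      rw [if_pos hm]
    · right
      obtain ⟨k, hk⟩ := Nat.not_even_iff_odd.1 hm
      refine ⟨Tr.leaf k, ?_, ?_⟩
      · show 2 * k + 3 = m + 2
        omega
      · show (if Even m then (0 : FreeAlgebra K2 ℕ) else FreeAlgebra.ι K2 m) = odl k
        rw [if_neg hm, hk]
        rfl
  | node a b iha ihb =>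
    rcases iha with ha | ⟨a', ha1, ha2⟩
    · left
      rw [Tr.eval, ha, zero_lie]
    · rcases ihb with hb | ⟨b', hb1, hb2⟩
      · left
        rw [Tr.eval, hb, lie_zero]
      · right
        refine ⟨Tr.node a' b', ?_, ?_⟩
        · rw [Tr.wt, Tr.wt, ha1, hb1]
        · rw [Tr.eval, Tr.eval, ha2, hb2]

theorem kill_mem' {n : ℕ} {A : FreeLieAlgebra K2 ℕ}
    (hA : A ∈ wtPart K2 (fun m => m + 2) n) : killEven (toFree K2 ℕ A) ∈ GG n := by
  unfold wtPart at hA
  induction hA using Submodule.span_induction with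
  | mem x hx =>
    obtain ⟨t, ht, rfl⟩ := hx
    have e1 : toFree K2 ℕ (t.eval (FreeLieAlgebra.of K2)) = t.eval (FreeAlgebra.ι K2) := by
      rw [map_eval]
      congr 1
      funext x
      exact FreeLieAlgebra.lift_of_apply _ _
    rw [e1, algHom_eval]
    have e2 : (fun m => killEven (FreeAlgebra.ι K2 m))
        = fun m => if Even m then (0 : FreeAlgebra K2 ℕ) else FreeAlgebra.ι K2 m := by
      funext m
      unfold killEven
      rw [FreeAlgebra.lift_ι_apply]
    rw [e2]
    rcases kill_tree t with h | ⟨t', h1, h2⟩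
    · rw [h]; exact zero_mem _
    · rw [h2]
      exact Submodule.subset_span ⟨t', h1.trans ht, rfl⟩
  | zero => rw [map_zero, map_zero]; exact zero_mem _
  | add x y _ _ hx hy => rw [map_add, map_add]; exact add_mem hx hy
  | smul c x _ hx => rw [map_smul, map_smul]; exact Submodule.smul_mem _ _ hx

/-- `odd_part` from the basis theorem. -/
theorem odd_part_of {n k : ℕ} (t : Fin k → Tr ℕ) (ht : ∀ i, (t i).wt (fun k => 2 * k + 3) = n)
    (hspan : ∀ (R : Type) [CommRing R] (u : Tr ℕ), u.wt (fun k => 2 * k + 3) = n →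
      u.eval (FreeLieAlgebra.of R) ∈
        Submodule.span R (Set.range fun i => (t i).eval (FreeLieAlgebra.of R)))
    (hind : LinearIndependent ℚ (fun i => (t i).eval (FreeAlgebra.ι ℚ))) :
    FiniteDimensional K2 (GG n) ∧ Module.finrank K2 (GG n) ≤ Module.finrank ℚ (Fpart n) := by
  -- the Lie homomorphism `e k ↦ ι (2 k + 1)`
  have h1 : GG n = Submodule.span K2 (Set.range fun i => (t i).eval odl) := by
    apply le_antisymm
    · unfold GG
      rw [Submodule.span_le]
      rintro a ⟨u, hu, rfl⟩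
      have h2 := Submodule.mem_map_of_mem
        (f := (FreeLieAlgebra.lift K2 odl : FreeLieAlgebra K2 ℕ →ₗ⁅K2⁆ FreeAlgebra K2 ℕ).toLinearMap)
        (hspan K2 u hu)
      rw [Submodule.map_span, ← Set.range_comp] at h2
      have e : ∀ v : Tr ℕ, (FreeLieAlgebra.lift K2 odl : FreeLieAlgebra K2 ℕ →ₗ⁅K2⁆
          FreeAlgebra K2 ℕ).toLinearMap (v.eval (FreeLieAlgebra.of K2)) = v.eval odl := by
        intro v
        show (FreeLieAlgebra.lift K2 odl : FreeLieAlgebra K2 ℕ →ₗ⁅K2⁆
          FreeAlgebra K2 ℕ) (v.eval (FreeLieAlgebra.of K2)) = v.eval odl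
        rw [map_eval]
        congr 1
        funext x
        exact FreeLieAlgebra.lift_of_apply _ _
      have e' : (⇑(FreeLieAlgebra.lift K2 odl : FreeLieAlgebra K2 ℕ →ₗ⁅K2⁆
          FreeAlgebra K2 ℕ).toLinearMap ∘ fun i => (t i).eval (FreeLieAlgebra.of K2))
          = fun i => (t i).eval odl := funext fun i => e (t i)
      rw [e, e'] at h2
      exact h2
    · rw [Submodule.span_le]
      rintro a ⟨i, rfl⟩
      exact Submodule.subset_span ⟨t i, ht i, rfl⟩
  have h3 : Fpart n = Submodule.span ℚ (Set.range fun i => (t i).eval (FreeLieAlgebra.of ℚ)) := by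
    apply le_antisymm
    · unfold Fpart wtPart
      rw [Submodule.span_le]
      rintro a ⟨u, hu, rfl⟩
      exact hspan ℚ u hu
    · rw [Submodule.span_le]
      rintro a ⟨i, rfl⟩
      exact Submodule.subset_span ⟨t i, ht i, rfl⟩
  have h4 : LinearIndependent ℚ (fun i => (t i).eval (FreeLieAlgebra.of ℚ)) := by
    apply LinearIndependent.of_comp (toFree ℚ ℕ).toLinearMap
    have e' : (⇑(toFree ℚ ℕ).toLinearMap ∘ fun i => (t i).eval (FreeLieAlgebra.of ℚ))
        = fun i => (t i).eval (FreeAlgebra.ι ℚ) := by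
      funext i
      show toFree ℚ ℕ ((t i).eval (FreeLieAlgebra.of ℚ)) = _
      rw [map_eval]
      congr 1
      funext x
      exact FreeLieAlgebra.lift_of_apply _ _
    rw [e']
    exact hind
  have h5 : Module.finrank ℚ (Fpart n) = k := by
    rw [h3, finrank_span_eq_card h4, Fintype.card_fin]
  rw [h5, h1]
  refine ⟨FiniteDimensional.span_of_finite K2 (Set.finite_range _), ?_⟩
  exact (finrank_range_le_card (R := K2) fun i => (t i).eval odl).trans
    (le_of_eq (Fintype.card_fin k))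

end OddPart

theorem odd_part' {n : ℕ} : ∃ G : Submodule K2 (FreeAlgebra K2 ℕ), FiniteDimensional K2 G ∧
    Module.finrank K2 G ≤ Module.finrank ℚ (Fpart n) ∧
    ∀ (A : FreeLieAlgebra K2 ℕ), A ∈ wtPart K2 (fun m => m + 2) n →
      killEven (toFree K2 ℕ A) ∈ G := by
  obtain ⟨k, t, ht, h⟩ := lie_basis (fun k : ℕ => 2 * k + 3) (fun x => by simp)
    (fun m => by
      refine Set.Finite.subset (Set.finite_Iic m) fun x hx => ?_
      have hx' : 2 * x + 3 = m := hx
      rw [Set.mem_Iic]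
      omega) n
  obtain ⟨h1, h2⟩ := OddPart.odd_part_of t ht (fun R _ => (h R).1) (h ℚ).2
  exact ⟨OddPart.GG n, h1, h2, fun A hA => OddPart.kill_mem' hA⟩

end Vale.Agent.P029
end
end
end

section

section

/-!
# P029: the representation of `𝔭₅` by derivations of `F₂⟨x,w,z⟩`
-/

set_option linter.all false

noncomputable section

attribute [local instance 100] LieRing.ofAssociativeRing

namespace Vale.Agent.P029

namespace Rep2

theorem two (a : KK) : a + a = 0 := by
  have h : ((1 : K2) + 1) • a = 0 := by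
    rw [show (1 : K2) + 1 = 0 from by decide, zero_smul]
  rwa [add_smul, one_smul] at h

theorem neg_self (a : KK) : -a = a := by
  rw [neg_eq_iff_add_eq_zero]
  exact two a

theorem sub_add (a b : KK) : a - b = a + b := by
  rw [sub_eq_add_neg, neg_self]

theorem br_comm (a b : KK) : ⁅a, b⁆ = ⁅b, a⁆ := by
  rw [← lie_skew, neg_self]

/-- derivations -/
def Der (D : Module.End K2 KK) : Prop := ∀ a b, D (a * b) = D a * b + a * D b

theorem Der.one {D : Module.End K2 KK} (h : Der D) : D 1 = 0 := by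
  have h1 := h 1 1
  rw [mul_one, mul_one, one_mul] at h1
  have h2 : D 1 + 0 = D 1 + D 1 := by rw [add_zero]; exact h1
  exact (add_left_cancel h2).symm

theorem Der.lie {D : Module.End K2 KK} (h : Der D) (a b : KK) : D ⁅a, b⁆ = ⁅D a, b⁆ + ⁅a, D b⁆ := by
  rw [Ring.lie_def, Ring.lie_def, Ring.lie_def, map_sub, h, h]
  abel

theorem Der.ext {D D' : Module.End K2 KK} (h : Der D) (h' : Der D') (hx : D kx = D' kx)
    (hw : D kw = D' kw) (hz : D kz = D' kz) : D = D' := by
  apply LinearMap.ext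
  intro a
  induction a using FreeAlgebra.induction with
  | grade0 r =>
    rw [Algebra.algebraMap_eq_smul_one, map_smul, map_smul, h.one, h'.one]
  | grade1 i =>
    fin_cases i
    · exact hx
    · exact hw
    · exact hz
  | mul a b ha hb => rw [h, h', ha, hb]
  | add a b ha hb => rw [map_add, map_add, ha, hb]

theorem Der.comm {D D' : Module.End K2 KK} (h : Der D) (h' : Der D') :
    Der (D * D' - D' * D) := by
  intro a b
  simp only [LinearMap.sub_apply, Module.End.mul_apply, h a b, h' a b, map_add, h (D' a) b,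
    h a (D' b), h' (D a) b, h' a (D b)]
  noncomm_ring

theorem Der.sq {D : Module.End K2 KK} (h : Der D) : Der (D * D) := by
  intro a b
  simp only [Module.End.mul_apply, h a b, map_add, h (D a) b, h a (D b)]
  have e : D (D a) * b + D a * D b + (D a * D b + a * D (D b))
      = D (D a) * b + a * D (D b) + (D a * D b + D a * D b) := by abel
  rw [e, two, add_zero]

theorem Der.add {D D' : Module.End K2 KK} (h : Der D) (h' : Der D') : Der (D + D') := by
  intro a b
  simp only [LinearMap.add_apply, h a b, h' a b]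
  noncomm_ring

theorem Der.zero : Der 0 := by
  intro a b
  simp

/-- the inner derivation -/
def adE (u : KK) : Module.End K2 KK := LinearMap.mulLeft K2 u - LinearMap.mulRight K2 u

theorem adE_apply (u a : KK) : adE u a = u * a - a * u := rfl

theorem adE_lie (u a : KK) : adE u a = ⁅u, a⁆ := rfl

theorem der_adE (u : KK) : Der (adE u) := by
  intro a b
  rw [adE_apply, adE_apply, adE_apply]
  noncomm_ring

theorem comm_adE {D : Module.End K2 KK} (h : Der D) (u : KK) :
    D * adE u - adE u * D = adE (D u) := by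
  apply LinearMap.ext
  intro a
  rw [LinearMap.sub_apply, Module.End.mul_apply, Module.End.mul_apply, adE_apply, adE_apply,
    adE_apply, map_sub, h, h]
  abel

theorem exists_der (d : Fin 3 → KK) : ∃ D : Module.End K2 KK,
    Der D ∧ ∀ i, D (FreeAlgebra.ι K2 i) = d i := by
  let φ : KK →ₐ[K2] Matrix (Fin 2) (Fin 2) KK :=
    FreeAlgebra.lift K2 (fun i => !![FreeAlgebra.ι K2 i, d i; 0, FreeAlgebra.ι K2 i])
  have hφ : ∀ i, φ (FreeAlgebra.ι K2 i) = !![FreeAlgebra.ι K2 i, d i; 0, FreeAlgebra.ι K2 i] :=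
    fun i => FreeAlgebra.lift_ι_apply _ _
  have h1 : ∀ a : KK, φ a 0 0 = a ∧ φ a 1 1 = a ∧ φ a 1 0 = 0 := by
    intro a
    induction a using FreeAlgebra.induction with
    | grade0 r =>
      rw [AlgHom.commutes, Matrix.algebraMap_eq_diagonal]
      refine ⟨?_, ?_, ?_⟩ <;> simp
    | grade1 i => rw [hφ]; simp
    | mul a b ha hb =>
      rw [map_mul]
      simp only [Matrix.mul_apply, Fin.sum_univ_two, ha.1, ha.2.1, ha.2.2, hb.1, hb.2.1, hb.2.2]
      refine ⟨?_, ?_, ?_⟩ <;> simp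
    | add a b ha hb =>
      rw [map_add]
      simp only [Matrix.add_apply, ha.1, ha.2.1, ha.2.2, hb.1, hb.2.1, hb.2.2]
      simp
  refine ⟨{ toFun := fun a => φ a 0 1
            map_add' := fun a b => by simp
            map_smul' := fun r a => by simp }, fun a b => ?_, fun i => ?_⟩
  · show φ (a * b) 0 1 = φ a 0 1 * b + a * φ b 0 1
    rw [map_mul, Matrix.mul_apply, Fin.sum_univ_two, (h1 a).1, (h1 b).2.1]
    rw [add_comm]
  · show φ (FreeAlgebra.ι K2 i) 0 1 = d i
    rw [hφ]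
    simp

end Rep2

open Rep2

/- K1 -/
theorem exists_rep2 : ∃ Y, IsRep2 Y := by
  obtain ⟨Y0, h0, e0⟩ := Rep2.exists_der ![0, ⁅kx, kw⁆, ⁅kx, kz⁆]
  obtain ⟨Y1, h1, e1⟩ := Rep2.exists_der ![kz, ⁅kx, kw⁆, ⁅kx, kz⁆]
  obtain ⟨Y2, h2, e2⟩ := Rep2.exists_der ![0, 0, ⁅kw, kx⁆]
  obtain ⟨Y3, h3, e3⟩ := Rep2.exists_der ![0, ⁅kx, kz⁆, 0]
  obtain ⟨Y4, h4, e4⟩ := Rep2.exists_der ![kw, 0, ⁅kw, kx⁆]
  refine ⟨![Y0, Y1, Y2, Y3, Y4], ?_⟩
  constructor
  · intro i
    fin_cases i
    exacts [h0, h1, h2, h3, h4]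
  exacts [e0 0, e0 1, e0 2, e1 0, e1 1, e1 2, e2 0, e2 1, e2 2, e3 0, e3 1, e3 2, e4 0, e4 1, e4 2]

namespace Rep2

variable {Y : Fin 5 → Module.End K2 KK}

theorem der (hY : IsRep2 Y) (i : Fin 5) : Der (Y i) := hY.leib i

/-- two derivations commute when the commutator kills the letters -/
theorem comm_eq_zero {D D' : Module.End K2 KK} (h : Der D) (h' : Der D')
    (hx : D (D' kx) - D' (D kx) = 0) (hw : D (D' kw) - D' (D kw) = 0)
    (hz : D (D' kz) - D' (D kz) = 0) : D * D' - D' * D = 0 :=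
  (h.comm h').ext Der.zero hx hw hz

theorem sq_eq_zero {D : Module.End K2 KK} (h : Der D)
    (hx : D (D kx) = 0) (hw : D (D kw) = 0) (hz : D (D kz) = 0) : D * D = 0 :=
  h.sq.ext Der.zero hx hw hz

end Rep2

/- K2 -/
theorem rep2_P5 {Y : Fin 5 → Module.End K2 KK} (hY : IsRep2 Y) : P5 Y := by
  have d := der hY
  constructor
  · intro i
    fin_cases i
    · show Y 0 * Y 2 - Y 2 * Y 0 = 0
      refine comm_eq_zero (d 0) (d 2) ?_ ?_ ?_
      · rw [hY.x2, hY.x0, map_zero, map_zero, sub_zero]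
      · rw [hY.w2, hY.w0, (d 2).lie, hY.x2, hY.w2]
        simp
      · rw [hY.z2, hY.z0, (d 0).lie, (d 2).lie, hY.w0, hY.x0, hY.x2, hY.z2]
        simp only [Ring.lie_def]
        noncomm_ring
    · show Y 1 * Y 3 - Y 3 * Y 1 = 0
      refine comm_eq_zero (d 1) (d 3) ?_ ?_ ?_
      · rw [hY.x3, hY.x1, map_zero, hY.z3, sub_zero]
      · rw [hY.w3, hY.w1, (d 1).lie, (d 3).lie, hY.x1, hY.z1, hY.x3, hY.w3]
        simp
      · rw [hY.z3, hY.z1, (d 3).lie, hY.x3, hY.z3]
        simp
    · show Y 2 * Y 4 - Y 4 * Y 2 = 0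
      refine comm_eq_zero (d 2) (d 4) ?_ ?_ ?_
      · rw [hY.x4, hY.x2, hY.w2, map_zero, sub_zero]
      · rw [hY.w4, hY.w2, map_zero, map_zero, sub_zero]
      · rw [hY.z4, hY.z2, (d 2).lie, (d 4).lie, hY.w2, hY.x2, hY.w4, hY.x4]
        simp
    · show Y 3 * Y 0 - Y 0 * Y 3 = 0
      refine comm_eq_zero (d 3) (d 0) ?_ ?_ ?_
      · rw [hY.x0, hY.x3, map_zero, map_zero, sub_zero]
      · rw [hY.w0, hY.w3, (d 3).lie, (d 0).lie, hY.x3, hY.w3, hY.x0, hY.z0]
        simp
      · rw [hY.z0, hY.z3, (d 3).lie, hY.x3, hY.z3]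
        simp
    · show Y 4 * Y 1 - Y 1 * Y 4 = 0
      refine comm_eq_zero (d 4) (d 1) ?_ ?_ ?_
      · rw [hY.x1, hY.x4, hY.z4, hY.w1, br_comm kw kx, sub_self]
      · rw [hY.w1, hY.w4, (d 4).lie, hY.x4, hY.w4]
        simp
      · rw [hY.z1, hY.z4, (d 4).lie, (d 1).lie, hY.x4, hY.z4, hY.w1, hY.x1]
        simp only [Ring.lie_def]
        noncomm_ring
  · rw [Fin.sum_univ_five]
    show ((Y 0 * Y 1 - Y 1 * Y 0) + (Y 1 * Y 2 - Y 2 * Y 1) + (Y 2 * Y 3 - Y 3 * Y 2) +
      (Y 3 * Y 4 - Y 4 * Y 3) + (Y 4 * Y 0 - Y 0 * Y 4) : Module.End K2 KK) = 0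
    refine (((((d 0).comm (d 1)).add ((d 1).comm (d 2))).add ((d 2).comm (d 3))).add
      ((d 3).comm (d 4))).add ((d 4).comm (d 0)) |>.ext Der.zero ?_ ?_ ?_
    · simp only [LinearMap.add_apply, LinearMap.sub_apply, Module.End.mul_apply,
        LinearMap.zero_apply, hY.x0, hY.x1, hY.x2, hY.x3, hY.x4, hY.z0, hY.z2, hY.w3, hY.w0,
        map_zero]
      have e : ⁅kx, kz⁆ - 0 + (0 - ⁅kw, kx⁆) + (0 - 0) + (⁅kx, kz⁆ - 0) + (0 - ⁅kx, kw⁆)
          = ⁅kx, kz⁆ + ⁅kx, kz⁆ := by
        simp only [Ring.lie_def]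
        noncomm_ring
      rw [e, two]
    · simp only [LinearMap.add_apply, LinearMap.sub_apply, Module.End.mul_apply,
        LinearMap.zero_apply, hY.w0, hY.w1, hY.w2, hY.w3, hY.w4, (d _).lie, hY.x0, hY.x1, hY.x2,
        hY.x3, hY.x4, hY.z0, hY.z1, hY.z2, hY.z3, hY.z4, map_zero]
      simp only [Ring.lie_def]
      noncomm_ring
    · simp only [LinearMap.add_apply, LinearMap.sub_apply, Module.End.mul_apply,
        LinearMap.zero_apply, hY.w0, hY.w1, hY.w2, hY.w3, hY.w4, (d _).lie, hY.x0, hY.x1, hY.x2,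
        hY.x3, hY.x4, hY.z0, hY.z1, hY.z2, hY.z3, hY.z4, map_zero]
      refine Eq.trans (b := ⁅kw, kz⁆ + ⁅kw, kz⁆) ?_ (two _)
      simp only [Ring.lie_def]
      noncomm_ring

/- K3 -/
theorem rep2_sq {Y : Fin 5 → Module.End K2 KK} (hY : IsRep2 Y) :
    Y 2 * Y 2 = 0 ∧ Y 3 * Y 3 = 0 ∧ Y 4 * Y 4 = 0 := by
  have d := der hY
  refine ⟨sq_eq_zero (d 2) ?_ ?_ ?_, sq_eq_zero (d 3) ?_ ?_ ?_, sq_eq_zero (d 4) ?_ ?_ ?_⟩
  · rw [hY.x2, map_zero]
  · rw [hY.w2, map_zero]
  · rw [hY.z2, (d 2).lie, hY.w2, hY.x2]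
    simp
  · rw [hY.x3, map_zero]
  · rw [hY.w3, (d 3).lie, hY.x3, hY.z3]
    simp
  · rw [hY.z3, map_zero]
  · rw [hY.x4, hY.w4]
  · rw [hY.w4, map_zero]
  · rw [hY.z4, (d 4).lie, hY.w4, hY.x4]
    simp

namespace Rep2

variable {Y : Fin 5 → Module.End K2 KK}

/-- a derivation killing `w` and `u` kills `ad w ^ i u` -/
theorem kill_adIter {D : Module.End K2 KK} (h : Der D) (hw : D kw = 0) {u : KK} (i : ℕ) :
    D (adIter kw u i) = adIter kw (D u) i := by
  induction i with
  | zero => rfl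
  | succ i ih =>
    show D ⁅kw, adIter kw u i⁆ = ⁅kw, adIter kw (D u) i⁆
    rw [h.lie, hw, ih]
    simp

theorem adIter_self (i : ℕ) : adIter kw kw (i + 1) = 0 := by
  induction i with
  | zero => exact lie_self _
  | succ i ih =>
    show ⁅kw, adIter kw kw (i + 1)⁆ = 0
    rw [ih]
    simp

theorem adIter_zero (i : ℕ) : adIter kw (0 : KK) i = 0 := by
  induction i with
  | zero => rfl
  | succ i ih =>
    show ⁅kw, adIter kw (0 : KK) i⁆ = 0
    rw [ih]
    simp

theorem adIter_comm (i : ℕ) : adIter kw ⁅kw, kx⁆ i = adIter kw kx (i + 1) := by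
  induction i with
  | zero => rfl
  | succ i ih =>
    show ⁅kw, adIter kw ⁅kw, kx⁆ i⁆ = ⁅kw, adIter kw kx (i + 1)⁆
    rw [ih]

theorem Y4_q (hY : IsRep2 Y) (k : ℕ) : Y 4 (qk k) = pk k := by
  have d := der hY
  cases k with
  | zero =>
    show Y 4 (kx * kx) = ⁅kw, kx⁆
    rw [(d 4), hY.x4, Ring.lie_def, sub_add]
  | succ k =>
    show Y 4 ⁅kx, pk k⁆ = ⁅kw, pk k⁆
    have h1 : Y 4 (pk k) = 0 := by
      unfold pk
      rw [kill_adIter (d 4) hY.w4, hY.x4, adIter_self]
    rw [(d 4).lie, hY.x4, h1]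
    simp

theorem Y2_qr (hY : IsRep2 Y) (k : ℕ) : Y 2 (qk k + rk k) = pk k := by
  have d := der hY
  have h1 : Y 2 (rk k) = pk k := by
    unfold rk pk
    rw [kill_adIter (d 2) hY.w2, hY.z2, adIter_comm]
  have h2 : Y 2 (qk k) = 0 := by
    cases k with
    | zero =>
      show Y 2 (kx * kx) = 0
      rw [(d 2), hY.x2]
      simp
    | succ k =>
      show Y 2 ⁅kx, pk k⁆ = 0
      have h3 : Y 2 (pk k) = 0 := by
        unfold pk
        rw [kill_adIter (d 2) hY.w2, hY.x2, adIter_zero]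
      rw [(d 2).lie, hY.x2, h3]
      simp
  rw [map_add, h1, h2, zero_add]

theorem Y1_adIter (hY : IsRep2 Y) (i : ℕ) :
    Y 1 (adIter kw kx i) = ⁅kx, adIter kw kx i⁆ + adIter kw kz i := by
  have d := der hY
  induction i with
  | zero =>
    show Y 1 kx = ⁅kx, kx⁆ + kz
    rw [hY.x1, lie_self, zero_add]
  | succ i ih =>
    show Y 1 ⁅kw, adIter kw kx i⁆ = ⁅kx, ⁅kw, adIter kw kx i⁆⁆ + ⁅kw, adIter kw kz i⁆
    rw [(d 1).lie, hY.w1, ih, leibniz_lie kx kw, lie_add, add_assoc]

theorem Y0_eq (hY : IsRep2 Y) : Y 0 = adE kx := by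
  refine (der hY 0).ext (der_adE kx) ?_ ?_ ?_
  · rw [hY.x0, adE_lie, lie_self]
  · rw [hY.w0, adE_lie]
  · rw [hY.z0, adE_lie]

theorem sq_x (a : KK) : ⁅kx, ⁅kx, a⁆⁆ = ⁅kx * kx, a⁆ := by
  have h : ⁅kx, ⁅kx, a⁆⁆ = ⁅kx * kx, a⁆ + (a * kx * kx - kx * a * kx + (a * kx * kx - kx * a * kx)) := by
    simp only [Ring.lie_def]
    noncomm_ring
  rw [h, two, add_zero]

theorem Y0_sq (hY : IsRep2 Y) : Y 0 * Y 0 = adE (kx * kx) := by
  apply LinearMap.ext
  intro a
  rw [Module.End.mul_apply, Y0_eq hY, adE_lie, adE_lie, adE_lie, sq_x]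

theorem Y1_sq (hY : IsRep2 Y) : Y 1 * Y 1 = adE (kx * kx + kz) := by
  have d := der hY
  refine (d 1).sq.ext (der_adE _) ?_ ?_ ?_
  · rw [Module.End.mul_apply, hY.x1, hY.z1, adE_lie, add_lie, br_comm kz kx, Ring.lie_def (kx * kx)]
    noncomm_ring
  · rw [Module.End.mul_apply, hY.w1, (d 1).lie, hY.x1, hY.w1, adE_lie, add_lie, sq_x, add_comm]
  · rw [Module.End.mul_apply, hY.z1, (d 1).lie, hY.x1, hY.z1, adE_lie, add_lie, sq_x, add_comm]

theorem EA (hY : IsRep2 Y) (m : ℕ) : Em (Y 0) (Y 4) m = adE (eA m) := by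
  have d := der hY
  induction m with
  | zero => exact Y0_sq hY
  | succ m ih =>
    rcases Nat.even_or_odd' m with ⟨k, rfl | rfl⟩
    · have e1 : Em (Y 0) (Y 4) (2 * k + 1) = Y 4 * Em (Y 0) (Y 4) (2 * k)
          - Em (Y 0) (Y 4) (2 * k) * Y 4 := by
        rw [Em, if_pos (by simp)]
        rfl
      have e2 : eA (2 * k) = qk k := by
        unfold eA
        rw [if_pos (by simp)]
        congr 1
        omega
      have e3 : eA (2 * k + 1) = pk k := by
        unfold eA
        rw [if_neg (by simp [Nat.even_add_one])]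
        congr 1
        omega
      rw [e1, ih, comm_adE (d 4), e2, e3, Y4_q hY]
    · have e1 : Em (Y 0) (Y 4) (2 * k + 1 + 1) = Y 0 * Em (Y 0) (Y 4) (2 * k + 1)
          - Em (Y 0) (Y 4) (2 * k + 1) * Y 0 := by
        rw [Em, if_neg (by simp [Nat.even_add_one])]
        rfl
      have e2 : eA (2 * k + 1) = pk k := by
        unfold eA
        rw [if_neg (by simp [Nat.even_add_one])]
        congr 1
        omega
      have e3 : eA (2 * k + 1 + 1) = qk (k + 1) := by
        unfold eA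
        rw [if_pos (by simp [Nat.even_add_one])]
        congr 1
        omega
      rw [e1, ih, comm_adE (d 0), e2, e3, Y0_eq hY, adE_lie]
      rfl

theorem EB (hY : IsRep2 Y) (m : ℕ) : Em (Y 1) (Y 2) m = adE (eB m) := by
  have d := der hY
  induction m with
  | zero => exact Y1_sq hY
  | succ m ih =>
    rcases Nat.even_or_odd' m with ⟨k, rfl | rfl⟩
    · have e1 : Em (Y 1) (Y 2) (2 * k + 1) = Y 2 * Em (Y 1) (Y 2) (2 * k)
          - Em (Y 1) (Y 2) (2 * k) * Y 2 := by
        rw [Em, if_pos (by simp)]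
        rfl
      have e0 : 2 * k / 2 = k := by omega
      have e0' : (2 * k + 1) / 2 = k := by omega
      have e2 : eB (2 * k) = qk k + rk k := by
        unfold eB
        rw [if_pos (by simp), e0]
      have e3 : eB (2 * k + 1) = pk k := by
        unfold eB
        rw [if_neg (by simp [Nat.even_add_one]), e0']
      rw [e1, ih, comm_adE (d 2), e2, e3, Y2_qr hY]
    · have e1 : Em (Y 1) (Y 2) (2 * k + 1 + 1) = Y 1 * Em (Y 1) (Y 2) (2 * k + 1)
          - Em (Y 1) (Y 2) (2 * k + 1) * Y 1 := by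
        rw [Em, if_neg (by simp [Nat.even_add_one])]
        rfl
      have e0 : (2 * k + 1 + 1) / 2 = k + 1 := by omega
      have e0' : (2 * k + 1) / 2 = k := by omega
      have e2 : eB (2 * k + 1) = pk k := by
        unfold eB
        rw [if_neg (by simp [Nat.even_add_one]), e0']
      have e3 : eB (2 * k + 1 + 1) = qk (k + 1) + rk (k + 1) := by
        unfold eB
        rw [if_pos (by simp [Nat.even_add_one]), e0]
      rw [e1, ih, comm_adE (d 1), e2, e3]
      congr 1
      exact Y1_adIter hY (k + 1)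

end Rep2

/- K4 -/
theorem rep2_E {Y : Fin 5 → Module.End K2 KK} (hY : IsRep2 Y) (m : ℕ) (a : KK) :
    (Em (Y 0) (Y 4) m) a = eA m * a - a * eA m ∧
      (Em (Y 1) (Y 2) m) a = eB m * a - a * eB m := by
  rw [EA hY, EB hY]
  exact ⟨rfl, rfl⟩

end Vale.Agent.P029
end
end
end

section

section

/-!
# P029: E1, generation of the pure `y`-part by the elements `m_u`
-/

noncomputable section

attribute [local instance 100] LieRing.ofAssociativeRing

namespace Vale.Agent.P029

namespace Step1Gen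

/-- The free associative algebra on two letters. -/
abbrev TT : Type := FreeAlgebra K2 (Fin 2)

/-- The letter `x`. -/
def xx : TT := FreeAlgebra.ι K2 0

/-- The letter `y`. -/
def yy : TT := FreeAlgebra.ι K2 1

/-- The image of the weight `n` part. -/
def MM (n : ℕ) : Submodule K2 TT :=
  (wtPart K2 wU n).map (FreeLieAlgebra.lift K2 (mU xx yy) : FreeLieAlgebra K2 (List Bool) →ₗ[K2] TT)

theorem lift_eval {X : Type} {A : Type} [Ring A] [Algebra K2 A] (f : X → A) (t : Tr X) :
    FreeLieAlgebra.lift K2 f (t.eval (FreeLieAlgebra.of K2)) = t.eval f := by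
  induction t with
  | leaf x => simp [Tr.eval]
  | node a b iha ihb => simp [Tr.eval, iha, ihb]

theorem MM_eq (n : ℕ) : MM n =
    Submodule.span K2 {z | ∃ t : Tr (List Bool), t.wt wU = n ∧ z = t.eval (mU xx yy)} := by
  unfold MM wtPart
  rw [Submodule.map_span]
  congr 1
  ext z
  constructor
  · rintro ⟨w, ⟨t, ht, rfl⟩, rfl⟩
    exact ⟨t, ht, lift_eval _ t⟩
  · rintro ⟨t, ht, rfl⟩
    exact ⟨_, ⟨t, ht, rfl⟩, lift_eval _ t⟩

theorem MM_tr (t : Tr (List Bool)) : t.eval (mU xx yy) ∈ MM (t.wt wU) := by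
  rw [MM_eq]
  exact Submodule.subset_span ⟨t, rfl, rfl⟩

theorem MM_mU (u : List Bool) : mU xx yy u ∈ MM (wU u) := MM_tr (Tr.leaf u)

/-- To prove that `[a, M n] ⊆ M (n + k)` it suffices to look at trees. -/
theorem ad_of_tr {a : TT} {k : ℕ}
    (h : ∀ t : Tr (List Bool), ⁅a, t.eval (mU xx yy)⁆ ∈ MM (t.wt wU + k)) {n : ℕ} {z : TT}
    (hz : z ∈ MM n) : ⁅a, z⁆ ∈ MM (n + k) := by
  rw [MM_eq] at hz
  induction hz using Submodule.span_induction with
  | mem z hz =>
    obtain ⟨t, rfl, rfl⟩ := hz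
    exact h t
  | zero => rw [lie_zero]; exact zero_mem _
  | add z w _ _ hz hw => rw [lie_add]; exact add_mem hz hw
  | smul c z _ hz => rw [lie_smul]; exact Submodule.smul_mem _ c hz

theorem lie_mem {m n : ℕ} {a z : TT} (ha : a ∈ MM m) (hz : z ∈ MM n) : ⁅a, z⁆ ∈ MM (n + m) := by
  refine ad_of_tr (fun t => ?_) hz
  rw [MM_eq] at ha
  induction ha using Submodule.span_induction with
  | mem a ha =>
    obtain ⟨s, rfl, rfl⟩ := ha
    have h := MM_tr (Tr.node s t)
    rw [Tr.eval, Tr.wt, add_comm] at h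
    exact h
  | zero => rw [zero_lie]; exact zero_mem _
  | add a b _ _ ha hb => rw [add_lie]; exact add_mem ha hb
  | smul c a _ ha => rw [smul_lie]; exact Submodule.smul_mem _ c ha

/-- Letters suffice. -/
theorem ad_of_leaf {a : TT} {k : ℕ} (h : ∀ u : List Bool, ⁅a, mU xx yy u⁆ ∈ MM (wU u + k))
    {n : ℕ} {z : TT} (hz : z ∈ MM n) : ⁅a, z⁆ ∈ MM (n + k) := by
  refine ad_of_tr (fun t => ?_) hz
  clear hz
  induction t with
  | leaf u => exact h u
  | node s t ihs iht =>
    rw [Tr.eval, Tr.wt, leibniz_lie]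
    refine add_mem ?_ ?_
    · have := lie_mem ihs (MM_tr t)
      rwa [show Tr.wt wU t + (Tr.wt wU s + k) = Tr.wt wU s + Tr.wt wU t + k by ring] at this
    · have := lie_mem (MM_tr s) iht
      rwa [show Tr.wt wU t + k + Tr.wt wU s = Tr.wt wU s + Tr.wt wU t + k by ring] at this

theorem ad_x {n : ℕ} {z : TT} (hz : z ∈ MM n) : ⁅xx, z⁆ ∈ MM (n + 1) :=
  ad_of_leaf (fun u => MM_mU (false :: u)) hz

theorem two_zero (a : TT) : a + a = 0 := by
  have h : (2 : K2) = 0 := by decide
  rw [← two_smul K2 a, h, zero_smul]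

theorem sq_lie (a z : TT) : ⁅a * a, z⁆ = ⁅a, ⁅a, z⁆⁆ := by
  simp only [LieRing.of_associative_ring_bracket]
  have h : a * (a * z - z * a) - (a * z - z * a) * a
      = a * a * z - z * (a * a) - (a * z * a + a * z * a) + (z * (a * a) + z * (a * a)) := by
    noncomm_ring
  rw [h, two_zero, two_zero]
  simp

theorem ad_y {n : ℕ} {z : TT} (hz : z ∈ MM n) : ⁅yy, z⁆ ∈ MM (n + 1) := by
  refine ad_of_leaf (fun u => ?_) hz
  match u with
  | [] =>
    have h : ⁅yy, mU xx yy []⁆ = 0 := by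
      simp only [mU, LieRing.of_associative_ring_bracket, mul_assoc, sub_self]
    rw [h]; exact zero_mem _
  | false :: u => exact MM_mU (true :: u)
  | true :: u =>
    have h : ⁅yy, mU xx yy (true :: u)⁆ = ⁅mU xx yy [], mU xx yy (false :: u)⁆ :=
      (sq_lie yy (mU xx yy (false :: u))).symm
    rw [h]
    have h2 : ⁅mU xx yy [], mU xx yy (false :: u)⁆ ∈ MM (wU (false :: u) + wU []) :=
      lie_mem (MM_mU []) (MM_mU (false :: u))
    rwa [show wU (false :: u) + wU [] = wU (true :: u) + 1 by simp only [wU]] at h2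

theorem Em_y_mem (m : ℕ) : Em yy xx m ∈ MM (m + 2) := by
  induction m with
  | zero => exact MM_mU []
  | succ m ih =>
    rw [Em]
    split
    · exact ad_x ih
    · exact ad_y ih

theorem ad_Em (m : ℕ) : ∀ {n : ℕ} {z : TT}, z ∈ MM n → ⁅Em xx yy m, z⁆ ∈ MM (n + (m + 2)) := by
  induction m with
  | zero =>
    intro n z hz
    rw [Em, sq_lie]
    exact ad_x (ad_x hz)
  | succ m ih =>
    intro n z hz
    have key : ∀ c : TT, (∀ {n : ℕ} {z : TT}, z ∈ MM n → ⁅c, z⁆ ∈ MM (n + 1)) →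
        ⁅⁅c, Em xx yy m⁆, z⁆ ∈ MM (n + (m + 1 + 2)) := by
      intro c hc
      rw [lie_lie]
      refine sub_mem ?_ ?_
      · have := hc (ih hz)
        rwa [show n + (m + 2) + 1 = n + (m + 1 + 2) by ring] at this
      · have := ih (hc hz)
        rwa [show n + 1 + (m + 2) = n + (m + 1 + 2) by ring] at this
    rw [Em]
    split
    · exact key yy ad_y
    · exact key xx ad_x

/-- The pure `x`-part of a tree, evaluated. -/
def pa (t : Tr (ℕ ⊕ ℕ)) : TT := t.eval (Sum.elim (Em xx yy) (fun _ => 0))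

theorem ad_pa (t : Tr (ℕ ⊕ ℕ)) : ∀ {n : ℕ} {z : TT}, z ∈ MM n → ⁅pa t, z⁆ ∈ MM (n + t.wt wE) := by
  induction t with
  | leaf x =>
    intro n z hz
    rcases x with m | m
    · exact ad_Em m hz
    · have : pa (Tr.leaf (Sum.inr m)) = 0 := rfl
      rw [this, zero_lie]; exact zero_mem _
  | node s t ihs iht =>
    intro n z hz
    have : pa (Tr.node s t) = ⁅pa s, pa t⁆ := rfl
    rw [this, lie_lie, Tr.wt]
    refine sub_mem ?_ ?_
    · have := ihs (iht hz)
      rwa [show n + t.wt wE + s.wt wE = n + (s.wt wE + t.wt wE) by ring] at this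
    · have := iht (ihs hz)
      rwa [show n + s.wt wE + t.wt wE = n + (s.wt wE + t.wt wE) by ring] at this

theorem tr_diff (t : Tr (ℕ ⊕ ℕ)) :
    t.eval (Sum.elim (Em xx yy) (Em yy xx)) - pa t ∈ MM (t.wt wE) := by
  induction t with
  | leaf x =>
    rcases x with m | m
    · have : Tr.eval (Sum.elim (Em xx yy) (Em yy xx)) (Tr.leaf (Sum.inl m))
        - pa (Tr.leaf (Sum.inl m)) = 0 := sub_self _
      rw [this]; exact zero_mem _
    · have : Tr.eval (Sum.elim (Em xx yy) (Em yy xx)) (Tr.leaf (Sum.inr m))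
        - pa (Tr.leaf (Sum.inr m)) = Em yy xx m := sub_zero _
      rw [this]; exact Em_y_mem m
  | node s t ihs iht =>
    set f : ℕ ⊕ ℕ → TT := Sum.elim (Em xx yy) (Em yy xx) with hf
    have e : (Tr.node s t).eval f - pa (Tr.node s t)
        = ⁅pa s, t.eval f - pa t⁆ - ⁅pa t, s.eval f - pa s⁆ + ⁅s.eval f - pa s, t.eval f - pa t⁆ := by
      have h1 : (Tr.node s t).eval f = ⁅s.eval f, t.eval f⁆ := rfl
      have h2 : pa (Tr.node s t) = ⁅pa s, pa t⁆ := rfl
      rw [h1, h2]
      simp only [LieRing.of_associative_ring_bracket]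
      noncomm_ring
    rw [e, Tr.wt]
    refine add_mem (sub_mem ?_ ?_) ?_
    · have := ad_pa s iht
      rwa [show t.wt wE + s.wt wE = s.wt wE + t.wt wE by ring] at this
    · exact ad_pa t ihs
    · have := lie_mem ihs iht
      rwa [show t.wt wE + s.wt wE = s.wt wE + t.wt wE by ring] at this

theorem projA_eval (t : Tr (ℕ ⊕ ℕ)) :
    FreeLieAlgebra.lift K2 (Em xx yy) (projA (t.eval (FreeLieAlgebra.of K2))) = pa t := by
  induction t with
  | leaf x => rcases x with m | m <;> simp [pa, projA, Tr.eval]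
  | node s t ihs iht =>
    simp only [Tr.eval, LieHom.map_lie, ihs, iht]
    rfl

theorem evE_mem {n : ℕ} {P : FreeLieAlgebra K2 (ℕ ⊕ ℕ)} (hP : P ∈ wtPart K2 wE n) :
    evE xx yy P - FreeLieAlgebra.lift K2 (Em xx yy) (projA P) ∈ MM n := by
  unfold wtPart at hP
  induction hP using Submodule.span_induction with
  | mem P hP =>
    obtain ⟨t, rfl, rfl⟩ := hP
    rw [projA_eval, evE, lift_eval]
    exact tr_diff t
  | zero => simp
  | add a b _ _ ha hb =>
    rw [map_add, map_add, map_add]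
    have := add_mem ha hb
    convert this using 1
    abel
  | smul c a _ ha =>
    rw [map_smul, map_smul, map_smul, ← smul_sub]
    exact Submodule.smul_mem _ c ha

theorem lift_comp {X : Type} {A B : Type} [Ring A] [Algebra K2 A] [Ring B] [Algebra K2 B]
    (φ : A →ₐ[K2] B) (f : X → A) (Q : FreeLieAlgebra K2 X) :
    φ (FreeLieAlgebra.lift K2 f Q) = FreeLieAlgebra.lift K2 (fun x => φ (f x)) Q := by
  have h : (φ : A →ₗ⁅K2⁆ B).comp (FreeLieAlgebra.lift K2 f)
      = FreeLieAlgebra.lift K2 (fun x => φ (f x)) := by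
    apply FreeLieAlgebra.hom_ext
    intro x
    simp
  exact LieHom.congr_fun h Q

theorem map_Em {A B : Type} [Ring A] [Algebra K2 A] [Ring B] [Algebra K2 B]
    (φ : A →ₐ[K2] B) (a b : A) (m : ℕ) : φ (Em a b m) = Em (φ a) (φ b) m := by
  induction m with
  | zero => simp [Em]
  | succ m ih =>
    rw [Em, Em]
    split <;> simp [LieRing.of_associative_ring_bracket, ih]

theorem map_mU {A B : Type} [Ring A] [Algebra K2 A] [Ring B] [Algebra K2 B]
    (φ : A →ₐ[K2] B) (a b : A) (u : List Bool) : φ (mU a b u) = mU (φ a) (φ b) u := by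
  induction u with
  | nil => simp [mU]
  | cons c u ih => cases c <;> simp [mU, LieRing.of_associative_ring_bracket, ih]

end Step1Gen

open Step1Gen in
theorem step1_gen {n : ℕ} {P : FreeLieAlgebra K2 (ℕ ⊕ ℕ)} (hP : P ∈ wtPart K2 wE n)
    (hA : projA P = 0) : ∃ Q ∈ wtPart K2 wU n,
      ∀ {A : Type} [Ring A] [Algebra K2 A] (a b : A),
        evE a b P = FreeLieAlgebra.lift K2 (mU a b) Q := by
  have h := evE_mem hP
  rw [hA, map_zero, sub_zero] at h
  obtain ⟨Q, hQ, hQ2⟩ := h
  refine ⟨Q, hQ, ?_⟩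
  intro A _ _ a b
  have hQ3 : FreeLieAlgebra.lift K2 (mU xx yy) Q = evE xx yy P := hQ2
  have hx : FreeAlgebra.lift K2 ![a, b] xx = a := by simp [xx]
  have hy : FreeAlgebra.lift K2 ![a, b] yy = b := by simp [yy]
  have h1 := lift_comp (FreeAlgebra.lift K2 ![a, b]) (mU xx yy) Q
  rw [hQ3, evE, lift_comp] at h1
  have e1 : (fun x => FreeAlgebra.lift K2 ![a, b] (Sum.elim (Em xx yy) (Em yy xx) x))
      = Sum.elim (Em a b) (Em b a) := by
    funext x
    rcases x with m | m <;> simp [map_Em, hx, hy]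
  have e2 : (fun x => FreeAlgebra.lift K2 ![a, b] (mU xx yy x)) = mU a b := by
    funext u
    rw [map_mU, hx, hy]
  rw [e1, e2] at h1
  exact h1

end Vale.Agent.P029
end
end
end

section

section

/-!
# P029: D2, generation of the weight `n` part, `n ≥ 3`, by the elements `E_m^x`, `E_m^y`
-/

noncomputable section

attribute [local instance 100] LieRing.ofAssociativeRing

namespace Vale.Agent.P029

namespace EGen

open Step1Gen

/-- The letters. -/
def fE : ℕ ⊕ ℕ → TT := Sum.elim (Em xx yy) (Em yy xx)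

/-- The span of the trees of weight `n` in the letters `E_m^x`, `E_m^y`. -/
def EE (n : ℕ) : Submodule K2 TT :=
  Submodule.span K2 {z | ∃ t : Tr (ℕ ⊕ ℕ), t.wt wE = n ∧ z = t.eval fE}

theorem EE_tr (t : Tr (ℕ ⊕ ℕ)) : t.eval fE ∈ EE (t.wt wE) :=
  Submodule.subset_span ⟨t, rfl, rfl⟩

theorem EE_x (m : ℕ) : Em xx yy m ∈ EE (m + 2) := EE_tr (Tr.leaf (Sum.inl m))

theorem EE_y (m : ℕ) : Em yy xx m ∈ EE (m + 2) := EE_tr (Tr.leaf (Sum.inr m))

theorem ad_of_tr {a : TT} {k : ℕ}
    (h : ∀ t : Tr (ℕ ⊕ ℕ), ⁅a, t.eval fE⁆ ∈ EE (t.wt wE + k)) {n : ℕ} {z : TT}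
    (hz : z ∈ EE n) : ⁅a, z⁆ ∈ EE (n + k) := by
  unfold EE at hz
  induction hz using Submodule.span_induction with
  | mem z hz =>
    obtain ⟨t, rfl, rfl⟩ := hz
    exact h t
  | zero => rw [lie_zero]; exact zero_mem _
  | add z w _ _ hz hw => rw [lie_add]; exact add_mem hz hw
  | smul c z _ hz => rw [lie_smul]; exact Submodule.smul_mem _ c hz

theorem lie_mem {m n : ℕ} {a z : TT} (ha : a ∈ EE m) (hz : z ∈ EE n) : ⁅a, z⁆ ∈ EE (n + m) := by
  refine ad_of_tr (fun t => ?_) hz
  unfold EE at ha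
  induction ha using Submodule.span_induction with
  | mem a ha =>
    obtain ⟨s, rfl, rfl⟩ := ha
    have h := EE_tr (Tr.node s t)
    rw [Tr.eval, Tr.wt, add_comm] at h
    exact h
  | zero => rw [zero_lie]; exact zero_mem _
  | add a b _ _ ha hb => rw [add_lie]; exact add_mem ha hb
  | smul c a _ ha => rw [smul_lie]; exact Submodule.smul_mem _ c ha

theorem ad_of_leaf {a : TT} {k : ℕ} (h : ∀ u : ℕ ⊕ ℕ, ⁅a, fE u⁆ ∈ EE (wE u + k))
    {n : ℕ} {z : TT} (hz : z ∈ EE n) : ⁅a, z⁆ ∈ EE (n + k) := by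
  refine ad_of_tr (fun t => ?_) hz
  clear hz
  induction t with
  | leaf u => exact h u
  | node s t ihs iht =>
    rw [Tr.eval, Tr.wt, leibniz_lie]
    refine add_mem ?_ ?_
    · have := lie_mem ihs (EE_tr t)
      rwa [show Tr.wt wE t + (Tr.wt wE s + k) = Tr.wt wE s + Tr.wt wE t + k by ring] at this
    · have := lie_mem (EE_tr s) iht
      rwa [show Tr.wt wE t + k + Tr.wt wE s = Tr.wt wE s + Tr.wt wE t + k by ring] at this

theorem lie_sq (a : TT) : ⁅a, a * a⁆ = 0 := by
  simp only [LieRing.of_associative_ring_bracket, mul_assoc, sub_self]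

/-- Brackets of a letter with `Em p q m`. -/
theorem ad_letters {p q : TT} (hE : ∀ m, Em p q m ∈ EE (m + 2)) (hq : q * q ∈ EE 2) (m : ℕ) :
    ⁅p, Em p q m⁆ ∈ EE (m + 3) ∧ ⁅q, Em p q m⁆ ∈ EE (m + 3) := by
  have hp : p * p ∈ EE 2 := hE 0
  rcases m with _ | m
  · refine ⟨?_, ?_⟩
    · rw [Em, lie_sq]; exact zero_mem _
    · have := hE 1
      rw [Em] at this
      simpa using this
  · by_cases hm : Even m
    · have e1 : Em p q (m + 1) = ⁅q, Em p q m⁆ := by rw [Em, if_pos hm]
      have e2 : Em p q (m + 2) = ⁅p, Em p q (m + 1)⁆ := by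
        rw [Em, if_neg (by simpa [Nat.even_add_one] using hm)]
      refine ⟨?_, ?_⟩
      · rw [← e2]; exact hE (m + 2)
      · rw [e1, ← sq_lie]
        have := lie_mem hq (hE m)
        rwa [show m + 2 + 2 = m + 1 + 3 by ring] at this
    · have e1 : Em p q (m + 1) = ⁅p, Em p q m⁆ := by rw [Em, if_neg hm]
      have e2 : Em p q (m + 2) = ⁅q, Em p q (m + 1)⁆ := by
        rw [Em, if_pos (by simpa [Nat.even_add_one] using hm)]
      refine ⟨?_, ?_⟩
      · rw [e1, ← sq_lie]
        have := lie_mem hp (hE m)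
        rwa [show m + 2 + 2 = m + 1 + 3 by ring] at this
      · rw [← e2]; exact hE (m + 2)

theorem ad_x {n : ℕ} {z : TT} (hz : z ∈ EE n) : ⁅xx, z⁆ ∈ EE (n + 1) := by
  refine ad_of_leaf (fun u => ?_) hz
  rcases u with m | m
  · exact (ad_letters EE_x (EE_y 0) m).1
  · exact (ad_letters EE_y (EE_x 0) m).2

theorem ad_y {n : ℕ} {z : TT} (hz : z ∈ EE n) : ⁅yy, z⁆ ∈ EE (n + 1) := by
  refine ad_of_leaf (fun u => ?_) hz
  rcases u with m | m
  · exact (ad_letters EE_x (EE_y 0) m).2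
  · exact (ad_letters EE_y (EE_x 0) m).1

theorem neg_eq (a : TT) : -a = a := by
  rw [neg_eq_iff_add_eq_zero]
  exact two_zero a

theorem skew (a b : TT) : ⁅a, b⁆ = ⁅b, a⁆ := by
  rw [← lie_skew, neg_eq]

theorem x_xy : ⁅xx, ⁅xx, yy⁆⁆ ∈ EE 3 := by
  rw [← sq_lie, skew]
  exact EE_x 1

theorem y_xy : ⁅yy, ⁅xx, yy⁆⁆ ∈ EE 3 := by
  rw [skew xx yy, ← sq_lie, skew]
  exact EE_y 1

/-- The values of the trees in the letters `x`, `y`. -/
def Pd (t : Tr (Fin 2)) : Prop :=
  (t.wt (fun _ => 1) = 1 ∧ (t.eval ![xx, yy] = xx ∨ t.eval ![xx, yy] = yy)) ∨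
  (t.wt (fun _ => 1) = 2 ∧ (t.eval ![xx, yy] = 0 ∨ t.eval ![xx, yy] = ⁅xx, yy⁆)) ∨
  (3 ≤ t.wt (fun _ => 1) ∧ t.eval ![xx, yy] ∈ EE (t.wt (fun _ => 1)))

theorem ad_one {a z : TT} {n : ℕ} (ha : a = xx ∨ a = yy) (hz : z ∈ EE n) :
    ⁅a, z⁆ ∈ EE (n + 1) := by
  rcases ha with rfl | rfl
  · exact ad_x hz
  · exact ad_y hz

theorem ad_two {a z : TT} {n : ℕ} (ha : a = 0 ∨ a = ⁅xx, yy⁆) (hz : z ∈ EE n) :
    ⁅a, z⁆ ∈ EE (n + 2) := by
  rcases ha with rfl | rfl
  · rw [zero_lie]; exact zero_mem _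
  · rw [lie_lie]
    exact sub_mem (ad_x (ad_y hz)) (ad_y (ad_x hz))

theorem one_two {a z : TT} (ha : a = xx ∨ a = yy) (hz : z = 0 ∨ z = ⁅xx, yy⁆) :
    ⁅a, z⁆ ∈ EE 3 := by
  rcases hz with rfl | rfl
  · rw [lie_zero]; exact zero_mem _
  · rcases ha with rfl | rfl
    · exact x_xy
    · exact y_xy

theorem one_one {a z : TT} (ha : a = xx ∨ a = yy) (hz : z = xx ∨ z = yy) :
    ⁅a, z⁆ = 0 ∨ ⁅a, z⁆ = ⁅xx, yy⁆ := by
  rcases ha with rfl | rfl <;> rcases hz with rfl | rfl
  · left; exact lie_self _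
  · right; rfl
  · right; exact skew _ _
  · left; exact lie_self _

theorem two_two {a z : TT} (ha : a = 0 ∨ a = ⁅xx, yy⁆) (hz : z = 0 ∨ z = ⁅xx, yy⁆) :
    ⁅a, z⁆ = 0 := by
  rcases ha with rfl | rfl <;> rcases hz with rfl | rfl <;> simp

theorem pd (t : Tr (Fin 2)) : Pd t := by
  induction t with
  | leaf i =>
    left
    refine ⟨rfl, ?_⟩
    fin_cases i
    · left; rfl
    · right; rfl
  | node s t ihs iht =>
    have ew : (Tr.node s t).wt (fun _ => 1) = s.wt (fun _ => 1) + t.wt (fun _ => 1) := rfl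
    have ee : (Tr.node s t).eval ![xx, yy] = ⁅s.eval ![xx, yy], t.eval ![xx, yy]⁆ := rfl
    unfold Pd
    rw [ew, ee]
    rcases ihs with ⟨hs, hs'⟩ | ⟨hs, hs'⟩ | ⟨hs, hs'⟩ <;>
      rcases iht with ⟨ht, ht'⟩ | ⟨ht, ht'⟩ | ⟨ht, ht'⟩
    · right; left
      exact ⟨by omega, one_one hs' ht'⟩
    · right; right
      refine ⟨by omega, ?_⟩
      rw [hs, ht]
      exact one_two hs' ht'
    · right; right
      refine ⟨by omega, ?_⟩
      rw [hs, add_comm]
      exact ad_one hs' ht'
    · right; right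
      refine ⟨by omega, ?_⟩
      rw [hs, ht, skew]
      exact one_two ht' hs'
    · right; right
      refine ⟨by omega, ?_⟩
      rw [two_two hs' ht']
      exact zero_mem _
    · right; right
      refine ⟨by omega, ?_⟩
      rw [hs, add_comm]
      exact ad_two hs' ht'
    · right; right
      refine ⟨by omega, ?_⟩
      rw [ht, skew]
      exact ad_one ht' hs'
    · right; right
      refine ⟨by omega, ?_⟩
      rw [ht, skew]
      exact ad_two ht' hs'
    · right; right
      refine ⟨by omega, ?_⟩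
      rw [add_comm]
      exact lie_mem hs' ht'

theorem lift_mem {n : ℕ} (hn : 3 ≤ n) {ψ : FreeLieAlgebra K2 (Fin 2)}
    (hψ : ψ ∈ wtPart K2 (fun _ : Fin 2 => 1) n) :
    FreeLieAlgebra.lift K2 ![xx, yy] ψ ∈ EE n := by
  unfold wtPart at hψ
  induction hψ using Submodule.span_induction with
  | mem z hz =>
    obtain ⟨t, ht, rfl⟩ := hz
    rw [lift_eval]
    rcases pd t with ⟨h, _⟩ | ⟨h, _⟩ | ⟨_, h⟩
    · omega
    · omega
    · rwa [ht] at h
  | zero => rw [map_zero]; exact zero_mem _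
  | add a b _ _ ha hb => rw [map_add]; exact add_mem ha hb
  | smul c a _ ha => rw [map_smul]; exact Submodule.smul_mem _ c ha

theorem exists_P {n : ℕ} {z : TT} (hz : z ∈ EE n) : ∃ P ∈ wtPart K2 wE n, evE xx yy P = z := by
  unfold EE at hz
  induction hz using Submodule.span_induction with
  | mem z hz =>
    obtain ⟨t, ht, rfl⟩ := hz
    exact ⟨t.eval (FreeLieAlgebra.of K2), Submodule.subset_span ⟨t, ht, rfl⟩, lift_eval _ t⟩
  | zero => exact ⟨0, zero_mem _, map_zero _⟩
  | add a b _ _ ha hb =>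
    obtain ⟨P, hP, rfl⟩ := ha
    obtain ⟨Q, hQ, rfl⟩ := hb
    exact ⟨P + Q, add_mem hP hQ, map_add _ _ _⟩
  | smul c a _ ha =>
    obtain ⟨P, hP, rfl⟩ := ha
    exact ⟨c • P, Submodule.smul_mem _ c hP, map_smul _ _ _⟩

end EGen

open Step1Gen EGen in
theorem egen {n : ℕ} (hn : 3 ≤ n) {ψ : FreeLieAlgebra K2 (Fin 2)}
    (hψ : ψ ∈ wtPart K2 (fun _ : Fin 2 => 1) n) : ∃ P ∈ wtPart K2 wE n,
      ∀ {A : Type} [Ring A] [Algebra K2 A] (a b : A),
        FreeLieAlgebra.lift K2 ![a, b] ψ = evE a b P := by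
  obtain ⟨P, hP, hPz⟩ := exists_P (lift_mem hn hψ)
  refine ⟨P, hP, ?_⟩
  intro A _ _ a b
  have hx : FreeAlgebra.lift K2 ![a, b] xx = a := by simp [xx]
  have hy : FreeAlgebra.lift K2 ![a, b] yy = b := by simp [yy]
  have h1 := lift_comp (FreeAlgebra.lift K2 ![a, b]) ![xx, yy] ψ
  rw [← hPz, evE, lift_comp] at h1
  have e1 : (fun x => FreeAlgebra.lift K2 ![a, b] (Sum.elim (Em xx yy) (Em yy xx) x))
      = Sum.elim (Em a b) (Em b a) := by
    funext x
    rcases x with m | m <;> simp [map_Em, hx, hy]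
  have e2 : (fun i => FreeAlgebra.lift K2 ![a, b] (![xx, yy] i)) = ![a, b] := by
    funext i
    fin_cases i
    · exact hx
    · exact hy
  rw [e1, e2] at h1
  exact h1.symm

end Vale.Agent.P029
end
end
end

section

section

/-! P029, module E5: the elements of the first algebra which commute with `p` and `s` do not
involve the letter `g`. -/

noncomputable section

attribute [local instance 100] LieRing.ofAssociativeRing

namespace Vale.Agent.P029

namespace Centralizer

variable {S : Fin 3 → Bool}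

lemma nrm_snoc : ∀ (u : List (Fin 3)) (x : Fin 3), nrm S u = true → u.getLast? ≠ some x →
    nrm S (u ++ [x]) = true
  | [], _, _, _ => by simp [nrm]
  | [a], x, _, h2 => by
    have h3 : a ≠ x := by
      rintro rfl
      exact h2 rfl
    simp [nrm, h3]
  | a :: b :: l, x, h1, h2 => by
    have h3 : nrm S (b :: l) = true := by
      simp only [nrm, Bool.and_eq_true] at h1
      exact h1.2
    have h4 : (b :: l).getLast? ≠ some x := by
      rwa [List.getLast?_cons_cons] at h2
    have h5 := nrm_snoc (b :: l) x h3 h4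
    simp only [nrm, Bool.and_eq_true] at h1
    simp only [List.cons_append, nrm, Bool.and_eq_true] at h5 ⊢
    exact ⟨h1.1, h5⟩

variable {c : List (Fin 3) → (QA S →ₗ[K2] K2)}

lemma mul_snoc (hc : IsCoef S c) (f : QA S) (x : Fin 3) (u : List (Fin 3))
    (h : nrm S (u ++ [x]) = true) : c (u ++ [x]) (f * QA.lt S x) = c u f := by
  rw [hc.mul _ h, Finset.sum_eq_single u.length]
  · rw [hc.letter, List.drop_left, List.take_left, if_pos rfl, mul_one]
  · intro i _ hi
    rw [hc.letter, if_neg, mul_zero]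
    intro h1
    have h2 := congrArg List.length h1
    simp only [List.length_drop, List.length_append, List.length_cons, List.length_nil] at h2
    omega
  · intro h1
    simp at h1

lemma mul_not_snoc (hc : IsCoef S c) (f : QA S) (x : Fin 3) (w : List (Fin 3))
    (h : nrm S w = true) (hl : w.getLast? ≠ some x) : c w (f * QA.lt S x) = 0 := by
  rw [hc.mul _ h]
  refine Finset.sum_eq_zero fun i _ => ?_
  rw [hc.letter, if_neg, mul_zero]
  intro h1
  apply hl
  have h2 := List.take_append_drop i w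
  rw [h1] at h2
  rw [← h2]
  simp

lemma cons_mul (hc : IsCoef S c) (f : QA S) (x : Fin 3) (u : List (Fin 3))
    (h : nrm S (x :: u) = true) : c (x :: u) (QA.lt S x * f) = c u f := by
  rw [hc.mul _ h, Finset.sum_eq_single 1]
  · rw [hc.letter]
    simp
  · intro i hi hi1
    rw [hc.letter, if_neg, zero_mul]
    intro h1
    have h2 := congrArg List.length h1
    simp only [List.length_take, List.length_cons, List.length_nil, Finset.mem_range] at h2 hi
    omega
  · intro h1
    simp at h1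

lemma not_cons_mul (hc : IsCoef S c) (f : QA S) (x : Fin 3) (w : List (Fin 3))
    (h : nrm S w = true) (hl : w.head? ≠ some x) : c w (QA.lt S x * f) = 0 := by
  rw [hc.mul _ h]
  refine Finset.sum_eq_zero fun i _ => ?_
  rw [hc.letter, if_neg, zero_mul]
  intro h1
  apply hl
  have h2 := List.take_append_drop i w
  rw [h1] at h2
  rw [← h2]
  simp

/-- A nonempty word of the support of an element commuting with the letter `x` starts or ends
with `x`. -/
lemma head_or_last (hc : IsCoef S c) (f : QA S) (x : Fin 3)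
    (hx : f * QA.lt S x = QA.lt S x * f) {u : List (Fin 3)} (h0 : u ≠ []) (hu : c u f ≠ 0) :
    u.head? = some x ∨ u.getLast? = some x := by
  by_contra hcon
  rw [not_or] at hcon
  apply hu
  have hn : nrm S u = true := by
    by_contra h1
    rw [hc.nonnormal u (by simpa using h1)] at hu
    exact hu rfl
  have hn2 := nrm_snoc u x hn hcon.2
  have e1 := mul_snoc hc f x u hn2
  have e2 := not_cons_mul hc f x (u ++ [x]) hn2 (by
    cases u with
    | nil => exact absurd rfl h0
    | cons a l => simpa using hcon.1)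
  rw [← e1, hx, e2]

lemma rot (hc : IsCoef S c) (f : QA S) (x : Fin 3)
    (hx : f * QA.lt S x = QA.lt S x * f) {v : List (Fin 3)} (h1 : nrm S (x :: v) = true)
    (h2 : (x :: v).getLast? ≠ some x) : c (x :: v) f = c (v ++ [x]) f := by
  have hn2 := nrm_snoc (x :: v) x h1 h2
  have e1 := mul_snoc hc f x (x :: v) hn2
  have e2 := cons_mul hc f x (v ++ [x]) hn2
  rw [← e1, hx]
  exact e2

/-- Each word of the support can be rotated, and its first letter is not `1`. -/
lemma step (hc : IsCoef S c) (f : QA S) (h0 : f * QA.lt S 0 = QA.lt S 0 * f)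
    (h2 : f * QA.lt S 2 = QA.lt S 2 * f) {x : Fin 3} {v : List (Fin 3)}
    (hw : c (x :: v) f ≠ 0) : x ≠ 1 ∧ c (v ++ [x]) f ≠ 0 := by
  have hn : nrm S (x :: v) = true := by
    by_contra h1
    rw [hc.nonnormal _ (by simpa using h1)] at hw
    exact hw rfl
  have a0 := head_or_last hc f 0 h0 (List.cons_ne_nil x v) hw
  have a2 := head_or_last hc f 2 h2 (List.cons_ne_nil x v) hw
  rw [List.head?_cons] at a0 a2
  rcases a0 with a0 | a0
  · have hx : x = 0 := by simpa using a0
    subst hx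
    have a3 : (0 :: v).getLast? = some (2 : Fin 3) := by
      rcases a2 with a2 | a2
      · simp at a2
      · exact a2
    refine ⟨by decide, ?_⟩
    rw [← rot hc f 0 h0 hn (by rw [a3]; simp)]
    exact hw
  · rcases a2 with a2 | a2
    · have hx : x = 2 := by simpa using a2
      subst hx
      refine ⟨by decide, ?_⟩
      rw [← rot hc f 2 h2 hn (by rw [a0]; simp)]
      exact hw
    · rw [a0] at a2
      simp at a2

lemma not_mem (hc : IsCoef S c) (f : QA S) (h0 : f * QA.lt S 0 = QA.lt S 0 * f)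
    (h2 : f * QA.lt S 2 = QA.lt S 2 * f) : ∀ a b : List (Fin 3), c (a ++ b) f ≠ 0 →
    (1 : Fin 3) ∉ a
  | [], _, _ => by simp
  | x :: a, b, h => by
    obtain ⟨h3, h4⟩ := step hc f h0 h2 (v := a ++ b) (x := x) h
    rw [List.append_assoc] at h4
    have h5 := not_mem hc f h0 h2 a (b ++ [x]) h4
    rw [List.mem_cons, not_or]
    exact ⟨fun h => h3 h.symm, h5⟩

end Centralizer

/- E5 -/
theorem centralizer {c : List (Fin 3) → (QA S1 →ₗ[K2] K2)} (hc : IsCoef S1 c) (f : QA S1)
    (hp : f * p1 = p1 * f) (hs : f * s1 = s1 * f) (w : List (Fin 3)) (hw : c w f ≠ 0) :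
    (1 : Fin 3) ∉ w :=
  Centralizer.not_mem hc f hp hs w [] (by rwa [List.append_nil])

end Vale.Agent.P029
end
end
end

section

section

/-!
# P029, Step 1: the operators `m_u(D1, D2)` are inner derivations
-/

noncomputable section

attribute [local instance 100] LieRing.ofAssociativeRing

namespace Vale.Agent.P029

namespace Step1Inner

theorem add_self {S : Fin 3 → Bool} (a : QA S) : a + a = 0 := by
  have h : (2 : K2) = 0 := rfl
  rw [← two_smul K2 a, h, zero_smul]

theorem two_nsmul_zero {S : Fin 3 → Bool} (a : QA S) : (2 : ℕ) • a = 0 := by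
  rw [two_nsmul, add_self]

section

variable {D1 D2 : QA S1 →ₗ[K2] QA S1} (hD : IsDer D1 D2 p1 g1 s1)

include hD

theorem D2_one : D2 1 = 0 := by
  have h := hD.leib2 1 1
  rw [mul_one, mul_one, one_mul] at h
  simpa using h

theorem base_gen (a : QA S1) (ha : a ∈ ({p1, g1, s1} : Set (QA S1))) :
    D2 (D2 a) = ⁅p1, s1⁆ * a - a * ⁅p1, s1⁆ := by
  have hp : p1 * p1 = 0 := QA_sq 0 rfl
  have hs : s1 * s1 = 0 := QA_sq 2 rfl
  have hD2z : D2 ⁅p1, s1⁆ = 0 := by
    rw [Ring.lie_def, map_sub, hD.leib2, hD.leib2, hD.p2, hD.s2]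
    simp
  rcases ha with rfl | rfl | rfl
  · rw [hD.p2, map_zero, Ring.lie_def, eq_comm]
    have e : (p1 * s1 - s1 * p1) * p1 - p1 * (p1 * s1 - s1 * p1)
        = 2 • (p1 * s1 * p1) - s1 * (p1 * p1) - (p1 * p1) * s1 := by noncomm_ring
    rw [e, hp, two_nsmul_zero]
    simp
  · rw [hD.g2, map_sub, hD2z, sub_zero, Ring.lie_def (p1 + s1) g1, map_sub, hD.leib2, hD.leib2,
      map_add, hD.p2, hD.s2, hD.g2]
    simp only [Ring.lie_def]
    have e : (0 + 0) * g1 + (p1 + s1) * ((p1 + s1) * g1 - g1 * (p1 + s1) - (p1 * s1 - s1 * p1)) -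
        (((p1 + s1) * g1 - g1 * (p1 + s1) - (p1 * s1 - s1 * p1)) * (p1 + s1) + g1 * (0 + 0))
        = ((p1 * s1 - s1 * p1) * g1 - g1 * (p1 * s1 - s1 * p1)) +
          ((p1 * p1) * g1 + (s1 * s1) * g1 + g1 * (p1 * p1) + g1 * (s1 * s1) - (p1 * p1) * s1
            + (s1 * s1) * p1 + p1 * (s1 * s1) - s1 * (p1 * p1)) +
          2 • (s1 * p1 * g1 + g1 * p1 * s1 - (p1 + s1) * g1 * (p1 + s1) + p1 * s1 * p1
            - s1 * p1 * s1) := by noncomm_ring
    rw [e, two_nsmul_zero, hp, hs]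
    simp
  · rw [hD.s2, map_zero, Ring.lie_def, eq_comm]
    have e : (p1 * s1 - s1 * p1) * s1 - s1 * (p1 * s1 - s1 * p1)
        = p1 * (s1 * s1) + (s1 * s1) * p1 - 2 • (s1 * p1 * s1) := by noncomm_ring
    rw [e, hs, two_nsmul_zero]
    simp

theorem base (a : QA S1) : D2 (D2 a) = ⁅p1, s1⁆ * a - a * ⁅p1, s1⁆ := by
  have ha : a ∈ Algebra.adjoin K2 ({p1, g1, s1} : Set (QA S1)) := by
    rw [adjoin1]
    trivial
  induction ha using Algebra.adjoin_induction with
  | mem x hx => exact base_gen hD x hx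
  | algebraMap r =>
    rw [Algebra.algebraMap_eq_smul_one, map_smul, D2_one hD, smul_zero, map_zero]
    simp
  | add x y _ _ hx hy =>
    rw [map_add, map_add, hx, hy]
    noncomm_ring
  | mul x y _ _ hx hy =>
    rw [hD.leib2, map_add, hD.leib2, hD.leib2, hx, hy]
    have e : (⁅p1, s1⁆ * x - x * ⁅p1, s1⁆) * y + D2 x * D2 y +
        (D2 x * D2 y + x * (⁅p1, s1⁆ * y - y * ⁅p1, s1⁆))
        = ⁅p1, s1⁆ * (x * y) - x * y * ⁅p1, s1⁆ + 2 • (D2 x * D2 y) := by noncomm_ring
    rw [e, two_nsmul_zero, add_zero]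

theorem mU_eq (u : List Bool) :
    mU (A := Module.End K2 (QA S1)) D1 D2 u = LieAlgebra.ad K2 (QA S1) (phi D1 D2 u) := by
  have h1 : ∀ f : QA S1, ⁅(D1 : Module.End K2 (QA S1)), LieAlgebra.ad K2 (QA S1) f⁆
      = LieAlgebra.ad K2 (QA S1) (D1 f) := by
    intro f
    ext a
    rw [Ring.lie_def]
    simp only [LinearMap.sub_apply, Module.End.mul_apply, LieAlgebra.ad_apply, Ring.lie_def,
      map_sub, hD.leib1]
    abel
  have h2 : ∀ f : QA S1, ⁅(D2 : Module.End K2 (QA S1)), LieAlgebra.ad K2 (QA S1) f⁆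
      = LieAlgebra.ad K2 (QA S1) (D2 f) := by
    intro f
    ext a
    rw [Ring.lie_def]
    simp only [LinearMap.sub_apply, Module.End.mul_apply, LieAlgebra.ad_apply, Ring.lie_def,
      map_sub, hD.leib2]
    abel
  induction u with
  | nil =>
    ext a
    simp only [mU, phi, Module.End.mul_apply, LieAlgebra.ad_apply]
    rw [base hD a, Ring.lie_def ⁅p1, s1⁆ a]
  | cons b u ih =>
    cases b
    · simp only [mU, phi]
      rw [ih, h1]
    · simp only [mU, phi]
      rw [ih, h1, h2]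

end

end Step1Inner

open Step1Inner in
/-- The operators `Q(m_u(D1, D2))` are inner derivations. -/
theorem step1_inner {D1 D2 : QA S1 →ₗ[K2] QA S1} (hD : IsDer D1 D2 p1 g1 s1)
    (Q : FreeLieAlgebra K2 (List Bool)) (a : QA S1) :
    FreeLieAlgebra.lift K2 (mU (A := Module.End K2 (QA S1)) D1 D2) Q a =
      FreeLieAlgebra.lift K2 (phi D1 D2) Q * a - a * FreeLieAlgebra.lift K2 (phi D1 D2) Q := by
  have h : FreeLieAlgebra.lift K2 (mU (A := Module.End K2 (QA S1)) D1 D2)
      = (LieAlgebra.ad K2 (QA S1)).comp (FreeLieAlgebra.lift K2 (phi D1 D2)) := by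
    apply FreeLieAlgebra.hom_ext
    intro u
    simp [mU_eq hD]
  rw [h]
  simp [Ring.lie_def]

end Vale.Agent.P029
end
end
end

section

section

/-!
# P029: the coefficients of the words `[] [] … []` in Lie elements of weight at least three
-/

noncomputable section

attribute [local instance 100] LieRing.ofAssociativeRing

namespace Vale.Agent.P029

namespace CfNil

/-- The homomorphism that keeps one letter. -/
def chi {X : Type} [DecidableEq X] (x0 : X) : FreeAlgebra K2 X →ₐ[K2] Polynomial K2 :=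
  FreeAlgebra.lift K2 (fun x => if x = x0 then Polynomial.X else 0)

theorem prod_coeff {X : Type} [DecidableEq X] (x0 : X) (l : List X) : ∀ k : ℕ,
    ((l.map (fun x => if x = x0 then (Polynomial.X : Polynomial K2) else 0)).prod).coeff k =
      if l = List.replicate k x0 then 1 else 0 := by
  induction l with
  | nil =>
    intro k
    rw [List.map_nil, List.prod_nil, Polynomial.coeff_one]
    cases k with
    | zero => simp
    | succ k => simp [List.replicate_succ]
  | cons x l ih =>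
    intro k
    rw [List.map_cons, List.prod_cons]
    by_cases hx : x = x0
    · rw [if_pos hx]
      cases k with
      | zero => simp
      | succ k =>
        rw [Polynomial.coeff_X_mul, ih k, List.replicate_succ]
        simp [hx]
    · rw [if_neg hx, zero_mul, Polynomial.coeff_zero, if_neg]
      intro h
      cases k with
      | zero => simp at h
      | succ k =>
        rw [List.replicate_succ] at h
        exact hx (List.cons.inj h).1

theorem chi_symm {X : Type} [DecidableEq X] (x0 : X) (k : ℕ)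
    (m : MonoidAlgebra K2 (FreeMonoid X)) :
    (chi x0 (FreeAlgebra.equivMonoidAlgebraFreeMonoid.symm m)).coeff k =
      m.coeff (FreeMonoid.ofList (List.replicate k x0)) := by
  induction m using MonoidAlgebra.induction_linear with
  | zero => simp
  | add a b ha hb => simp [map_add, ha, hb]
  | single w r =>
    have h1 : FreeAlgebra.equivMonoidAlgebraFreeMonoid.symm
        (MonoidAlgebra.single w r : MonoidAlgebra K2 (FreeMonoid X)) =
        r • FreeMonoid.lift (FreeAlgebra.ι K2) w := by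
      show MonoidAlgebra.lift K2 (FreeAlgebra K2 X) (FreeMonoid X)
        (FreeMonoid.lift (FreeAlgebra.ι K2)) (MonoidAlgebra.single w r) = _
      rw [MonoidAlgebra.lift_single]
    have h2 : chi x0 (FreeMonoid.lift (FreeAlgebra.ι K2) w) =
        ((FreeMonoid.toList w).map
          (fun x => if x = x0 then (Polynomial.X : Polynomial K2) else 0)).prod := by
      rw [FreeMonoid.lift_apply, map_list_prod, List.map_map]
      congr 1
      apply List.map_congr_left
      intro x _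
      simp [chi, FreeAlgebra.lift_ι_apply]
    rw [h1, map_smul, h2, Polynomial.coeff_smul, prod_coeff, MonoidAlgebra.coeff_single]
    by_cases hw : FreeMonoid.toList w = List.replicate k x0
    · have hw' : w = FreeMonoid.ofList (List.replicate k x0) := by
        rw [← hw]; rfl
      rw [if_pos hw, hw', Finsupp.single_eq_same]
      simp
    · have hw' : ¬ w = FreeMonoid.ofList (List.replicate k x0) := by
        intro h
        apply hw
        rw [h]; rfl
      rw [if_neg hw, Finsupp.single_eq_of_ne (fun h => hw' h.symm)]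
      simp

theorem chi_coeff {X : Type} [DecidableEq X] (x0 : X) (k : ℕ) (a : FreeAlgebra K2 X) :
    (chi x0 a).coeff k = cf (List.replicate k x0) a := by
  have h := chi_symm x0 k (FreeAlgebra.equivMonoidAlgebraFreeMonoid a)
  rw [AlgEquiv.symm_apply_apply] at h
  exact h

theorem chi_toFree {n : ℕ} (hn : 3 ≤ n) {Q : FreeLieAlgebra K2 (List Bool)}
    (hQ : Q ∈ wtPart K2 wU n) : chi ([] : List Bool) (toFree K2 (List Bool) Q) = 0 := by
  unfold wtPart at hQ
  induction hQ using Submodule.span_induction with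
  | mem x hx =>
    obtain ⟨t, ht, rfl⟩ := hx
    cases t with
    | leaf u =>
      have hu : u ≠ [] := by
        rintro rfl
        change 2 = n at ht
        omega
      show chi [] (toFree K2 (List Bool) (FreeLieAlgebra.of K2 u)) = 0
      rw [toFree, FreeLieAlgebra.lift_of_apply]
      simp [chi, FreeAlgebra.lift_ι_apply, hu]
    | node a b =>
      show chi [] (toFree K2 (List Bool) ⁅a.eval (FreeLieAlgebra.of K2),
        b.eval (FreeLieAlgebra.of K2)⁆) = 0
      rw [LieHom.map_lie, LieRing.of_associative_ring_bracket, map_sub, map_mul, map_mul,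
        mul_comm, sub_self]
  | zero => simp
  | add x y _ _ hx hy => rw [map_add, map_add, hx, hy, add_zero]
  | smul r x _ hx => rw [map_smul, map_smul, hx, smul_zero]

end CfNil

theorem cf_nil {n : ℕ} (hn : 3 ≤ n) {Q : FreeLieAlgebra K2 (List Bool)}
    (hQ : Q ∈ wtPart K2 wU n) (k : ℕ) :
    cf (List.replicate k []) (toFree K2 (List Bool) Q) = 0 := by
  rw [← CfNil.chi_coeff, CfNil.chi_toFree hn hQ, Polynomial.coeff_zero]

end Vale.Agent.P029
end
end
end

section

section

/-!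
# P029: `W n = 0` for `n ≤ 2`
-/

noncomputable section

attribute [local instance 100] LieRing.ofAssociativeRing

namespace Vale.Agent.P029

namespace WSmall

theorem wt_pos (t : Tr (Fin 2)) : 1 ≤ t.wt (fun _ => 1) := by
  induction t with
  | leaf x => exact le_rfl
  | node a b iha ihb => simp only [Tr.wt]; omega

theorem mem0 {ψ : L} (h : ψ ∈ wtPart ℚ (fun _ : Fin 2 => 1) 0) : ψ = 0 := by
  have h1 : wtPart ℚ (fun _ : Fin 2 => 1) 0 ≤ ⊥ := by
    refine Submodule.span_le.2 ?_
    rintro a ⟨t, ht, -⟩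
    have := wt_pos t
    omega
  simpa using h1 h

theorem mem1 {ψ : L} (h : ψ ∈ wtPart ℚ (fun _ : Fin 2 => 1) 1) :
    ∃ a b : ℚ, a • lx + b • ly = ψ := by
  rw [← Submodule.mem_span_pair]
  have h1 : wtPart ℚ (fun _ : Fin 2 => 1) 1 ≤ Submodule.span ℚ {lx, ly} := by
    refine Submodule.span_le.2 ?_
    rintro a ⟨t, ht, rfl⟩
    cases t with
    | leaf x =>
      refine Submodule.subset_span ?_
      fin_cases x
      · exact Or.inl rfl
      · exact Or.inr rfl
    | node a b =>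
      have := wt_pos a
      have := wt_pos b
      simp only [Tr.wt] at ht
      omega
  exact h1 h

theorem wt_one {t : Tr (Fin 2)} (h : t.wt (fun _ => 1) = 1) : ∃ i, t = Tr.leaf i := by
  cases t with
  | leaf x => exact ⟨x, rfl⟩
  | node a b =>
    have := wt_pos a
    have := wt_pos b
    simp only [Tr.wt] at h
    omega

theorem mem2 {ψ : L} (h : ψ ∈ wtPart ℚ (fun _ : Fin 2 => 1) 2) :
    ∃ c : ℚ, c • ⁅lx, ly⁆ = ψ := by
  rw [← Submodule.mem_span_singleton]
  have h1 : wtPart ℚ (fun _ : Fin 2 => 1) 2 ≤ Submodule.span ℚ {⁅lx, ly⁆} := by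
    refine Submodule.span_le.2 ?_
    rintro a ⟨t, ht, rfl⟩
    cases t with
    | leaf x => simp [Tr.wt] at ht
    | node a b =>
      have ha := wt_pos a
      have hb := wt_pos b
      simp only [Tr.wt] at ht
      obtain ⟨i, rfl⟩ := wt_one (t := a) (by omega)
      obtain ⟨j, rfl⟩ := wt_one (t := b) (by omega)
      have h2 : (⁅ly, lx⁆ : L) = (-1 : ℚ) • ⁅lx, ly⁆ := by
        rw [neg_one_smul, lie_skew]
      fin_cases i <;> fin_cases j
      · show (⁅lx, lx⁆ : L) ∈ _
        rw [lie_self]; exact zero_mem _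
      · exact Submodule.subset_span rfl
      · show (⁅ly, lx⁆ : L) ∈ _
        rw [h2]
        exact Submodule.smul_mem _ _ (Submodule.subset_span rfl)
      · show (⁅ly, ly⁆ : L) ∈ _
        rw [lie_self]; exact zero_mem _
  exact h1 h

theorem subst_lx {g : Type} [LieRing g] [LieAlgebra ℚ g] (a b : g) : subst a b lx = a := by
  simp [subst, lx]

theorem subst_ly {g : Type} [LieRing g] [LieAlgebra ℚ g] (a b : g) : subst a b ly = b := by
  simp [subst, ly]

/-- The map `t 0 1, t 1 0 ↦ 1`, all other letters to zero. -/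
def f0 : FT →ₗ⁅ℚ⁆ ℚ :=
  FreeLieAlgebra.lift ℚ (fun q : Fin 4 × Fin 4 => if q = (0, 1) ∨ q = (1, 0) then (1 : ℚ) else 0)

theorem f0_tt (i j : Fin 4) : f0 (tt i j) = if (i, j) = (0, 1) ∨ (i, j) = (1, 0) then 1 else 0 := by
  simp [f0, tt]

theorem f0_lie (a b : FT) : f0 ⁅a, b⁆ = 0 := by
  rw [LieHom.map_lie, LieRing.of_associative_ring_bracket, mul_comm, sub_self]

theorem f0_ideal : T4Ideal ≤ f0.ker := by
  refine LieSubmodule.lieSpan_le.2 ?_
  rintro r hr
  show f0 r = 0
  cases hr with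
  | diag i =>
    rw [f0_tt]
    fin_cases i <;> simp
  | symm i j =>
    rw [map_sub, f0_tt, f0_tt]
    fin_cases i <;> fin_cases j <;> simp
  | comm => exact f0_lie _ _
  | tri => exact f0_lie _ _

/-- The induced map on `𝔱₄`. -/
def g0 : T4 →ₗ[ℚ] ℚ :=
  Submodule.liftQ (T4Ideal : Submodule ℚ FT) (f0 : FT →ₗ[ℚ] ℚ) (fun _ ha => f0_ideal ha)

theorem g0_t4 (i j : Fin 4) : g0 (t4 i j) = if (i, j) = (0, 1) ∨ (i, j) = (1, 0) then 1 else 0 :=
  f0_tt i j

end WSmall

open WSmall in
theorem W_small {n : ℕ} (hn : n ≤ 2) : W n = ⊥ := by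
  rw [eq_bot_iff]
  rintro ψ ⟨h0, h1, h2, h3⟩
  show ψ = 0
  interval_cases n
  · exact mem0 h0
  · obtain ⟨a, b, rfl⟩ := mem1 h0
    have e1 : a + b = 0 := by
      have h := congrArg (FreeLieAlgebra.lift ℚ (fun _ : Fin 2 => (1 : ℚ))) h1
      simp only [map_add, map_smul, subst_lx, subst_ly] at h
      simp [lx, ly] at h
      linarith
    have e2 := congrArg g0 h3
    simp only [map_add, map_smul, subst_lx, subst_ly, g0_t4] at e2
    simp at e2
    have e3 : a = 0 := by linarith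
    have e4 : b = 0 := by linarith
    rw [e3, e4]
    simp
  · obtain ⟨c, rfl⟩ := mem2 h0
    simp only [map_smul, LieHom.map_lie, subst_lx, subst_ly] at h2
    have e1 : (⁅ly, -lx - ly⁆ : L) = ⁅lx, ly⁆ := by
      rw [lie_sub, lie_neg, lie_self, sub_zero, lie_skew]
    have e2 : (⁅-lx - ly, lx⁆ : L) = ⁅lx, ly⁆ := by
      rw [sub_lie, neg_lie, lie_self, neg_zero, zero_sub, lie_skew]
    rw [e1, e2, ← smul_add, ← smul_add] at h2
    have e3 : (3 : ℚ) • (c • (⁅lx, ly⁆ : L)) = 0 := by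
      rw [← h2, smul_comm]
      congr 1
      rw [show (3 : ℚ) = 1 + 1 + 1 by norm_num, add_smul, add_smul, one_smul]
    exact (smul_eq_zero.1 e3).resolve_left (by norm_num)

end Vale.Agent.P029
end
end
end

section

section

/-!
# P029: the homomorphism from `𝔱₄` given by five elements satisfying the relations of `𝔭₅`
-/

noncomputable section

attribute [local instance 100] LieRing.ofAssociativeRing

namespace Vale.Agent.P029

namespace T4Hom

/-- The symmetric matrix of the images of the letters `t i j`. -/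
def T {g : Type} [LieRing g] (x0 x1 x2 x3 x4 : g) : Fin 4 → Fin 4 → g :=
  ![![0, x0, x3 - x0 - x1, x1 - x3 - x4],
    ![x0, 0, x1, x4 - x1 - x2],
    ![x3 - x0 - x1, x1, 0, x2],
    ![x1 - x3 - x4, x4 - x1 - x2, x2, 0]]

variable {g : Type} [LieRing g] {x0 x1 x2 x3 x4 : g}

lemma T_diag (i : Fin 4) : T x0 x1 x2 x3 x4 i i = 0 := by
  fin_cases i <;> rfl

lemma T_symm (i j : Fin 4) : T x0 x1 x2 x3 x4 i j = T x0 x1 x2 x3 x4 j i := by
  fin_cases i <;> fin_cases j <;> rfl

/-- A triangle whose sum commutes with an edge. -/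
lemma tri_of {a b S : g} (h : ⁅a, S⁆ = 0) (hb : b = S - a) : ⁅a, b⁆ = 0 := by
  rw [hb, lie_sub, lie_self, h, sub_zero]

lemma skew0 {a b : g} (h : ⁅a, b⁆ = 0) : ⁅b, a⁆ = 0 := by rw [← lie_skew, h, neg_zero]

lemma comm_a (c13 : ⁅x1, x3⁆ = 0) (c41 : ⁅x4, x1⁆ = 0) (c02 : ⁅x0, x2⁆ = 0)
    (hs : ⁅x0, x1⁆ + ⁅x1, x2⁆ + ⁅x2, x3⁆ + ⁅x3, x4⁆ + ⁅x4, x0⁆ = 0) :
    ⁅x3 - x0 - x1, x4 - x1 - x2⁆ = 0 := by
  have e04 : ⁅x0, x4⁆ = -⁅x4, x0⁆ := (lie_skew _ _).symm
  have e32 : ⁅x3, x2⁆ = -⁅x2, x3⁆ := (lie_skew _ _).symm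
  simp only [lie_sub, sub_lie, lie_self, skew0 c13, c02, e04, e32, skew0 c41]
  rw [← hs]
  abel

lemma tri_a (c24 : ⁅x2, x4⁆ = 0) (c02 : ⁅x0, x2⁆ = 0) (c13 : ⁅x1, x3⁆ = 0)
    (hs : ⁅x0, x1⁆ + ⁅x1, x2⁆ + ⁅x2, x3⁆ + ⁅x3, x4⁆ + ⁅x4, x0⁆ = 0) :
    ⁅x4 - x1 - x2, x0 - x2 - x3⁆ = 0 := by
  have e43 : ⁅x4, x3⁆ = -⁅x3, x4⁆ := (lie_skew _ _).symm
  have e10 : ⁅x1, x0⁆ = -⁅x0, x1⁆ := (lie_skew _ _).symm
  simp only [lie_sub, sub_lie, lie_self, skew0 c24, e43, e10, c13, skew0 c02]
  rw [← hs]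
  abel

lemma tri_b (c30 : ⁅x3, x0⁆ = 0) (c02 : ⁅x0, x2⁆ = 0) (c41 : ⁅x4, x1⁆ = 0)
    (hs : ⁅x0, x1⁆ + ⁅x1, x2⁆ + ⁅x2, x3⁆ + ⁅x3, x4⁆ + ⁅x4, x0⁆ = 0) :
    ⁅x3 - x0 - x1, x2 - x0 - x4⁆ = 0 := by
  have e04 : ⁅x0, x4⁆ = -⁅x4, x0⁆ := (lie_skew _ _).symm
  have e32 : ⁅x3, x2⁆ = -⁅x2, x3⁆ := (lie_skew _ _).symm
  have e10 : ⁅x1, x0⁆ = -⁅x0, x1⁆ := (lie_skew _ _).symm
  simp only [lie_sub, sub_lie, lie_self, e32, c30, c02, e04, e10, skew0 c41]
  rw [← neg_zero, ← hs]
  abel

lemma T_comm (c13 : ⁅x1, x3⁆ = 0) (c41 : ⁅x4, x1⁆ = 0) (c02 : ⁅x0, x2⁆ = 0)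
    (hs : ⁅x0, x1⁆ + ⁅x1, x2⁆ + ⁅x2, x3⁆ + ⁅x3, x4⁆ + ⁅x4, x0⁆ = 0)
    (i j k l : Fin 4) (hij : i ≠ j) (hik : i ≠ k) (hil : i ≠ l) (hjk : j ≠ k)
    (hjl : j ≠ l) (hkl : k ≠ l) :
    ⁅T x0 x1 x2 x3 x4 i j, T x0 x1 x2 x3 x4 k l⁆ = 0 := by
  have h2 := comm_a c13 c41 c02 hs
  have h3 : ⁅x1 - x3 - x4, x1⁆ = 0 := by
    simp only [sub_lie, lie_self, skew0 c13, c41, sub_zero]
  have k1 := skew0 c02
  have k2 := skew0 h2
  have k3 := skew0 h3
  fin_cases i <;> fin_cases j <;> first | exact (hij rfl).elim | skip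
  all_goals (fin_cases k <;> first | exact (hik rfl).elim | exact (hjk rfl).elim | skip)
  all_goals (fin_cases l <;> first
    | exact (hil rfl).elim | exact (hjl rfl).elim | exact (hkl rfl).elim
    | exact c02 | exact h2 | exact h3 | exact k1 | exact k2 | exact k3)

lemma T_tri (c13 : ⁅x1, x3⁆ = 0) (c41 : ⁅x4, x1⁆ = 0) (c02 : ⁅x0, x2⁆ = 0)
    (c24 : ⁅x2, x4⁆ = 0) (c30 : ⁅x3, x0⁆ = 0)
    (hs : ⁅x0, x1⁆ + ⁅x1, x2⁆ + ⁅x2, x3⁆ + ⁅x3, x4⁆ + ⁅x4, x0⁆ = 0)
    (i j k : Fin 4) (hij : i ≠ j) (hik : i ≠ k) (hjk : j ≠ k) :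
    ⁅T x0 x1 x2 x3 x4 i j, T x0 x1 x2 x3 x4 i k + T x0 x1 x2 x3 x4 j k⁆ = 0 := by
  have c03 := skew0 c30
  have c14 := skew0 c41
  have c20 := skew0 c02
  -- triangle 0 1 2, sum x3
  have a01 : ⁅x0, x3⁆ = 0 := c03
  have a12 : ⁅x1, x3⁆ = 0 := c13
  have a02 : ⁅x3 - x0 - x1, x3⁆ = 0 := by simp only [sub_lie, lie_self, c03, c13, sub_zero]
  -- triangle 1 2 3, sum x4
  have b12 : ⁅x1, x4⁆ = 0 := c14
  have b23 : ⁅x2, x4⁆ = 0 := c24
  have b13 : ⁅x4 - x1 - x2, x4⁆ = 0 := by simp only [sub_lie, lie_self, c14, c24, sub_zero]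
  -- triangle 0 1 3, sum x0 - x2 - x3
  have d01 : ⁅x0, x0 - x2 - x3⁆ = 0 := by simp only [lie_sub, lie_self, c02, c03, sub_zero]
  have d13 : ⁅x4 - x1 - x2, x0 - x2 - x3⁆ = 0 := tri_a c24 c02 c13 hs
  have d03 : ⁅x1 - x3 - x4, x0 - x2 - x3⁆ = 0 := by
    have h : x1 - x3 - x4 = (x0 - x2 - x3) - x0 - (x4 - x1 - x2) := by abel
    rw [h, sub_lie, sub_lie, lie_self, d01, d13, sub_zero, sub_zero]
  -- triangle 0 2 3, sum x2 - x0 - x4
  have e23 : ⁅x2, x2 - x0 - x4⁆ = 0 := by simp only [lie_sub, lie_self, c20, c24, sub_zero]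
  have e02 : ⁅x3 - x0 - x1, x2 - x0 - x4⁆ = 0 := tri_b c30 c02 c41 hs
  have e03 : ⁅x1 - x3 - x4, x2 - x0 - x4⁆ = 0 := by
    have h : x1 - x3 - x4 = (x2 - x0 - x4) - x2 - (x3 - x0 - x1) := by abel
    rw [h, sub_lie, sub_lie, lie_self, e23, e02, sub_zero, sub_zero]
  fin_cases i <;> fin_cases j <;> first | exact (hij rfl).elim | skip
  all_goals (fin_cases k <;> first | exact (hik rfl).elim | exact (hjk rfl).elim | skip)
  · exact tri_of a01 (show (x3 - x0 - x1) + (x1) = (x3) - (x0) by abel)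
  · exact tri_of d01 (show (x1 - x3 - x4) + (x4 - x1 - x2) = (x0 - x2 - x3) - (x0) by abel)
  · exact tri_of a02 (show (x0) + (x1) = (x3) - (x3 - x0 - x1) by abel)
  · exact tri_of e02 (show (x1 - x3 - x4) + (x2) = (x2 - x0 - x4) - (x3 - x0 - x1) by abel)
  · exact tri_of d03 (show (x0) + (x4 - x1 - x2) = (x0 - x2 - x3) - (x1 - x3 - x4) by abel)
  · exact tri_of e03 (show (x3 - x0 - x1) + (x2) = (x2 - x0 - x4) - (x1 - x3 - x4) by abel)
  · exact tri_of a01 (show (x1) + (x3 - x0 - x1) = (x3) - (x0) by abel)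
  · exact tri_of d01 (show (x4 - x1 - x2) + (x1 - x3 - x4) = (x0 - x2 - x3) - (x0) by abel)
  · exact tri_of a12 (show (x0) + (x3 - x0 - x1) = (x3) - (x1) by abel)
  · exact tri_of b12 (show (x4 - x1 - x2) + (x2) = (x4) - (x1) by abel)
  · exact tri_of d13 (show (x0) + (x1 - x3 - x4) = (x0 - x2 - x3) - (x4 - x1 - x2) by abel)
  · exact tri_of b13 (show (x1) + (x2) = (x4) - (x4 - x1 - x2) by abel)
  · exact tri_of a02 (show (x1) + (x0) = (x3) - (x3 - x0 - x1) by abel)
  · exact tri_of e02 (show (x2) + (x1 - x3 - x4) = (x2 - x0 - x4) - (x3 - x0 - x1) by abel)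
  · exact tri_of a12 (show (x3 - x0 - x1) + (x0) = (x3) - (x1) by abel)
  · exact tri_of b12 (show (x2) + (x4 - x1 - x2) = (x4) - (x1) by abel)
  · exact tri_of e23 (show (x3 - x0 - x1) + (x1 - x3 - x4) = (x2 - x0 - x4) - (x2) by abel)
  · exact tri_of b23 (show (x1) + (x4 - x1 - x2) = (x4) - (x2) by abel)
  · exact tri_of d03 (show (x4 - x1 - x2) + (x0) = (x0 - x2 - x3) - (x1 - x3 - x4) by abel)
  · exact tri_of e03 (show (x2) + (x3 - x0 - x1) = (x2 - x0 - x4) - (x1 - x3 - x4) by abel)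
  · exact tri_of d13 (show (x1 - x3 - x4) + (x0) = (x0 - x2 - x3) - (x4 - x1 - x2) by abel)
  · exact tri_of b13 (show (x2) + (x1) = (x4) - (x4 - x1 - x2) by abel)
  · exact tri_of e23 (show (x1 - x3 - x4) + (x3 - x0 - x1) = (x2 - x0 - x4) - (x2) by abel)
  · exact tri_of b23 (show (x4 - x1 - x2) + (x1) = (x4) - (x2) by abel)

end T4Hom

open T4Hom in
theorem ft_hom {g : Type} [LieRing g] [LieAlgebra ℚ g] (x : Fin 5 → g) (hx : P5 x) :
    ∃ f : FT →ₗ⁅ℚ⁆ g, (∀ z ∈ T4Ideal, f z = 0) ∧ f (tt 0 1) = x 0 ∧ f (tt 1 2) = x 1 ∧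
      f (tt 2 3) = x 2 ∧ f (tt 0 2) = x 3 - x 0 - x 1 ∧ f (tt 1 3) = x 4 - x 1 - x 2 ∧
      f (tt 0 3) = x 1 - x 3 - x 4 := by
  have c02 : ⁅x 0, x 2⁆ = 0 := hx.comm 0
  have c13 : ⁅x 1, x 3⁆ = 0 := hx.comm 1
  have c24 : ⁅x 2, x 4⁆ = 0 := hx.comm 2
  have c30 : ⁅x 3, x 0⁆ = 0 := hx.comm 3
  have c41 : ⁅x 4, x 1⁆ = 0 := hx.comm 4
  have hs : ⁅x 0, x 1⁆ + ⁅x 1, x 2⁆ + ⁅x 2, x 3⁆ + ⁅x 3, x 4⁆ + ⁅x 4, x 0⁆ = 0 := by
    have h := hx.sum
    rw [Fin.sum_univ_five] at h
    exact h
  set M := T (x 0) (x 1) (x 2) (x 3) (x 4) with hM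
  let F0 : Fin 4 × Fin 4 → g := fun p => M p.1 p.2
  let f : FT →ₗ⁅ℚ⁆ g := FreeLieAlgebra.lift ℚ F0
  have hf : ∀ i j, f (tt i j) = M i j := fun i j => FreeLieAlgebra.lift_of_apply F0 (i, j)
  refine ⟨f, ?_, hf 0 1, hf 1 2, hf 2 3, hf 0 2, hf 1 3, hf 0 3⟩
  have hker : T4Ideal ≤ f.ker := by
    refine LieSubmodule.lieSpan_le.2 ?_
    rintro r hr
    show r ∈ f.ker
    rw [LieHom.mem_ker]
    cases hr with
    | diag i => rw [hf, hM, T_diag]
    | symm i j => rw [map_sub, hf, hf, hM, T_symm i j, sub_self]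
    | comm i j k l hij hik hil hjk hjl hkl =>
      rw [LieHom.map_lie, hf, hf]
      exact T_comm c13 c41 c02 hs i j k l hij hik hil hjk hjl hkl
    | tri i j k hij hik hjk =>
      rw [LieHom.map_lie, map_add, hf, hf, hf]
      exact T_tri c13 c41 c02 c24 c30 hs i j k hij hik hjk
  intro z hz
  exact LieHom.mem_ker.1 (hker hz)

end Vale.Agent.P029
end
end
end

section

section

/-!
# P029: the five term relation for elements satisfying the relations of `𝔭₅`
-/

noncomputable section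

attribute [local instance 100] LieRing.ofAssociativeRing

namespace Vale.Agent.P029

namespace FiveTerm

/-- Lie homomorphisms commute with evaluation of Lie monomials. -/
lemma eval_map {X : Type} {g g' : Type} [LieRing g] [LieAlgebra ℚ g] [LieRing g']
    [LieAlgebra ℚ g'] (h : g →ₗ⁅ℚ⁆ g') (f : X → g) (t : Tr X) :
    h (t.eval f) = t.eval (fun x => h (f x)) := by
  induction t with
  | leaf x => rfl
  | node a b iha ihb => simp only [Tr.eval, LieHom.map_lie, iha, ihb]

/-- Lie homomorphisms commute with substitution. -/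
lemma map_subst {g g' : Type} [LieRing g] [LieAlgebra ℚ g] [LieRing g'] [LieAlgebra ℚ g']
    (h : g →ₗ⁅ℚ⁆ g') (a b : g) (ψ : L) : h (subst a b ψ) = subst (h a) (h b) ψ := by
  have e : h.comp (subst a b) = subst (h a) (h b) := by
    apply FreeLieAlgebra.hom_ext
    intro i
    fin_cases i <;> simp [subst, FreeLieAlgebra.lift_of_apply]
  exact LieHom.congr_fun e ψ

variable {g : Type} [LieRing g]

lemma skew0 {a b : g} (h : ⁅a, b⁆ = 0) : ⁅b, a⁆ = 0 := by rw [← lie_skew, h, neg_zero]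

/-- The change of the value of a Lie monomial under a shift by commuting elements. -/
def dd {X : Type} (c : X → g) : Tr X → g
  | .leaf x => c x
  | .node _ _ => 0

lemma comm_eval {X : Type} (f : X → g) (z : g) (h : ∀ y, ⁅z, f y⁆ = 0) (t : Tr X) :
    ⁅z, t.eval f⁆ = 0 := by
  induction t with
  | leaf x => exact h x
  | node a b iha ihb => simp only [Tr.eval, leibniz_lie, iha, ihb, zero_lie, lie_zero, add_zero]

lemma eval_shift {X : Type} (f c : X → g) (h1 : ∀ x y, ⁅c x, f y⁆ = 0)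
    (h2 : ∀ x y, ⁅c x, c y⁆ = 0) (t : Tr X) :
    t.eval (fun x => f x + c x) = t.eval f + dd c t := by
  have k1 : ∀ s t : Tr X, ⁅dd c s, t.eval f⁆ = 0 := by
    intro s t
    cases s with
    | leaf x => exact comm_eval f (c x) (h1 x) t
    | node a b => exact zero_lie _
  have k2 : ∀ s t : Tr X, ⁅dd c s, dd c t⁆ = 0 := by
    intro s t
    cases s with
    | leaf x =>
      cases t with
      | leaf y => exact h2 x y
      | node a b => exact lie_zero _
    | node a b => exact zero_lie _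
  induction t with
  | leaf x => rfl
  | node a b iha ihb =>
    have k3 : dd c (Tr.node a b) = 0 := rfl
    rw [k3]
    simp only [Tr.eval, iha, ihb, add_lie, lie_add, k1, k2, skew0 (k1 b a), add_zero]

/-- Shifting the arguments of an element of weight at least two by commuting elements. -/
lemma subst_shift [LieAlgebra ℚ g] {a b c1 c2 : g} (h1 : ⁅c1, a⁆ = 0) (h2 : ⁅c1, b⁆ = 0)
    (h3 : ⁅c2, a⁆ = 0) (h4 : ⁅c2, b⁆ = 0) (h5 : ⁅c1, c2⁆ = 0) {n : ℕ} (hn : 2 ≤ n) {ψ : L}
    (hψ : ψ ∈ wtPart ℚ (fun _ : Fin 2 => 1) n) :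
    subst (a + c1) (b + c2) ψ = subst a b ψ := by
  induction hψ using Submodule.span_induction with
  | mem z hz =>
    obtain ⟨t, ht, rfl⟩ := hz
    have e1 : ∀ u v : g, subst u v (t.eval (FreeLieAlgebra.of ℚ)) = t.eval ![u, v] := by
      intro u v
      rw [eval_map]
      congr 1
      funext x
      exact FreeLieAlgebra.lift_of_apply _ _
    rw [e1, e1]
    have e2 : (![a + c1, b + c2] : Fin 2 → g) = fun x => ![a, b] x + ![c1, c2] x := by
      funext x
      fin_cases x <;> rfl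
    rw [e2, eval_shift]
    · cases t with
      | leaf x => simp only [Tr.wt] at ht; omega
      | node s t => exact add_zero _
    · intro x y
      fin_cases x <;> fin_cases y <;> assumption
    · intro x y
      fin_cases x <;> fin_cases y
      · exact lie_self _
      · exact h5
      · exact skew0 h5
      · exact lie_self _
  | zero => simp
  | add x y _ _ hx hy => rw [map_add, map_add, hx, hy]
  | smul c x _ hx => rw [map_smul, map_smul, hx]

/-- The quotient map to `𝔱₄` as a Lie homomorphism. -/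
def mkHom : FT →ₗ⁅ℚ⁆ T4 :=
  { (LieSubmodule.Quotient.mk' T4Ideal : FT →ₗ⁅ℚ,FT⁆ T4) with
    map_lie' := by
      intro x y
      rfl }

lemma mkHom_apply (z : FT) : mkHom z = (LieSubmodule.Quotient.mk z : T4) := rfl

lemma mkHom_eq_zero {z : FT} (h : mkHom z = 0) : z ∈ T4Ideal := by
  rw [mkHom_apply] at h
  exact (LieSubmodule.Quotient.mk_eq_zero T4Ideal).1 h

end FiveTerm

open FiveTerm in
theorem five_term {g : Type} [LieRing g] [LieAlgebra ℚ g] (x : Fin 5 → g) (hx : P5 x) {n : ℕ}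
    (hn : 2 ≤ n) {ψ : L} (hψ : ψ ∈ W n) : ∑ i, subst (x i) (x (i + 1)) ψ = 0 := by
  obtain ⟨hw, hanti, -, hpent⟩ := hψ
  have c02 : ⁅x 0, x 2⁆ = 0 := hx.comm 0
  have c13 : ⁅x 1, x 3⁆ = 0 := hx.comm 1
  have c24 : ⁅x 2, x 4⁆ = 0 := hx.comm 2
  have c30 : ⁅x 3, x 0⁆ = 0 := hx.comm 3
  have c41 : ⁅x 4, x 1⁆ = 0 := hx.comm 4
  obtain ⟨f, hf, f01, f12, f23, f02, f13, f03⟩ := ft_hom x hx
  -- antisymmetry
  have anti : ∀ a b : g, subst a b ψ + subst b a ψ = 0 := by
    intro a b
    have h := congrArg (subst a b) hanti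
    rw [map_add, map_zero, map_subst, map_subst] at h
    have ex : subst a b lx = a := FreeLieAlgebra.lift_of_apply _ _
    have ey : subst a b ly = b := FreeLieAlgebra.lift_of_apply _ _
    rwa [ex, ey] at h
  -- pentagon
  have hp : mkHom (subst (tt 0 1) (tt 1 2 + tt 1 3) ψ + subst (tt 0 2 + tt 1 2) (tt 2 3) ψ -
      (subst (tt 1 2) (tt 2 3) ψ + subst (tt 0 1 + tt 0 2) (tt 1 3 + tt 2 3) ψ +
        subst (tt 0 1) (tt 1 2) ψ)) = 0 := by
    rw [map_sub, map_add, map_add, map_add]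
    simp only [map_subst, map_add]
    exact sub_eq_zero.2 hpent
  have hq := hf _ (mkHom_eq_zero hp)
  simp only [map_sub, map_add, map_subst, f01, f12, f23, f02, f13] at hq
  have e1 : subst (x 0) (x 1 + (x 4 - x 1 - x 2)) ψ = subst (x 0) (x 4) ψ := by
    have h : x 1 + (x 4 - x 1 - x 2) = x 4 + (- x 2) := by abel
    have h' : subst (x 0) (x 1 + (x 4 - x 1 - x 2)) ψ = subst (x 0 + 0) (x 4 + (- x 2)) ψ := by
      rw [h, add_zero]
    rw [h']
    refine subst_shift (zero_lie _) (zero_lie _) ?_ ?_ (zero_lie _) hn hw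
    · rw [neg_lie, skew0 c02, neg_zero]
    · rw [neg_lie, c24, neg_zero]
  have e2 : subst (x 3 - x 0 - x 1 + x 1) (x 2) ψ = subst (x 3) (x 2) ψ := by
    have h : x 3 - x 0 - x 1 + x 1 = x 3 + (- x 0) := by abel
    have h' : subst (x 3 - x 0 - x 1 + x 1) (x 2) ψ = subst (x 3 + (- x 0)) (x 2 + 0) ψ := by
      rw [h, add_zero]
    rw [h']
    refine subst_shift ?_ ?_ (zero_lie _) (zero_lie _) (lie_zero _) hn hw
    · rw [neg_lie, skew0 c30, neg_zero]
    · rw [neg_lie, c02, neg_zero]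
  have e3 : subst (x 0 + (x 3 - x 0 - x 1)) (x 4 - x 1 - x 2 + x 2) ψ =
      subst (x 3) (x 4) ψ := by
    have h : x 0 + (x 3 - x 0 - x 1) = x 3 + (- x 1) := by abel
    have h' : x 4 - x 1 - x 2 + x 2 = x 4 + (- x 1) := by abel
    rw [h, h']
    have k1 : ⁅-x 1, x 3⁆ = 0 := by rw [neg_lie, c13, neg_zero]
    have k2 : ⁅-x 1, x 4⁆ = 0 := by rw [neg_lie, skew0 c41, neg_zero]
    exact subst_shift k1 k2 k1 k2 (lie_self _) hn hw
  rw [e1, e2, e3] at hq
  have a1 : subst (x 0) (x 4) ψ = - subst (x 4) (x 0) ψ := eq_neg_of_add_eq_zero_left (anti _ _)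
  have a2 : subst (x 3) (x 2) ψ = - subst (x 2) (x 3) ψ := eq_neg_of_add_eq_zero_left (anti _ _)
  rw [a1, a2] at hq
  rw [Fin.sum_univ_five]
  show subst (x 0) (x 1) ψ + subst (x 1) (x 2) ψ + subst (x 2) (x 3) ψ + subst (x 3) (x 4) ψ +
    subst (x 4) (x 0) ψ = 0
  have hq' := neg_eq_zero.2 hq
  rw [← hq']
  abel

end Vale.Agent.P029
end
end
end

section

section

/-!
# P029: the Ihara bracket of integral elements (N3c)
-/

set_option linter.all false

noncomputable section

attribute [local instance 100] LieRing.ofAssociativeRing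

namespace Vale.Agent.P029

namespace BarBr

/-- Brackets of weight parts. -/
lemma lie_mem {R : Type} [CommRing R] {X : Type} {w : X → ℕ} {m n : ℕ} {a b : FreeLieAlgebra R X}
    (ha : a ∈ wtPart R w m) (hb : b ∈ wtPart R w n) : ⁅a, b⁆ ∈ wtPart R w (m + n) := by
  refine Submodule.span_induction (p := fun a _ => ⁅a, b⁆ ∈ wtPart R w (m + n)) ?_ ?_ ?_ ?_ ha
  · rintro _ ⟨t, ht, rfl⟩
    refine Submodule.span_induction (p := fun b _ => ⁅t.eval (FreeLieAlgebra.of R), b⁆ ∈
      wtPart R w (m + n)) ?_ ?_ ?_ ?_ hb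
    · rintro _ ⟨s, hs, rfl⟩
      exact Submodule.subset_span ⟨Tr.node t s, by simp [Tr.wt, ht, hs], rfl⟩
    · rw [lie_zero]; exact zero_mem _
    · intro x y _ _ hx hy
      rw [lie_add]; exact add_mem hx hy
    · intro c x _ hx
      rw [lie_smul]; exact Submodule.smul_mem _ _ hx
  · rw [zero_lie]; exact zero_mem _
  · intro x y _ _ hx hy
    rw [add_lie]; exact add_mem hx hy
  · intro c x _ hx
    rw [smul_lie]; exact Submodule.smul_mem _ _ hx

/-- The derivation `D_z` raises the weight by the weight of `z`. -/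
lemma der_mem {R : Type} [CommRing R] {i j : ℕ} {z a : FreeLieAlgebra R (Fin 2)}
    {D : LieDerivation R (FreeLieAlgebra R (Fin 2)) (FreeLieAlgebra R (Fin 2))}
    (hD : IsIDer z D) (hz : z ∈ wtPart R (fun _ : Fin 2 => 1) i)
    (ha : a ∈ wtPart R (fun _ : Fin 2 => 1) j) : D a ∈ wtPart R (fun _ : Fin 2 => 1) (i + j) := by
  have key : ∀ t : Tr (Fin 2), D (t.eval (FreeLieAlgebra.of R)) ∈
      wtPart R (fun _ : Fin 2 => 1) (i + t.wt (fun _ => 1)) := by
    intro t
    induction t with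
    | leaf x =>
      fin_cases x
      · have : D (Tr.eval (FreeLieAlgebra.of R) (Tr.leaf (0 : Fin 2))) = 0 := hD.1
        simp only [Fin.zero_eta, Fin.isValue]
        rw [this]; exact zero_mem _
      · have : D (Tr.eval (FreeLieAlgebra.of R) (Tr.leaf (1 : Fin 2))) =
            ⁅FreeLieAlgebra.of R (1 : Fin 2), z⁆ := hD.2
        simp only [Fin.mk_one, Fin.isValue]
        rw [this, Nat.add_comm]
        refine lie_mem (Submodule.subset_span ⟨Tr.leaf 1, rfl, rfl⟩) hz
    | node a b iha ihb =>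
      show D ⁅a.eval (FreeLieAlgebra.of R), b.eval (FreeLieAlgebra.of R)⁆ ∈ _
      rw [LieDerivation.apply_lie_eq_add]
      refine add_mem ?_ ?_
      · have := lie_mem (Submodule.subset_span ⟨a, rfl, rfl⟩ : a.eval (FreeLieAlgebra.of R) ∈
          wtPart R (fun _ : Fin 2 => 1) (a.wt (fun _ => 1))) ihb
        have e : a.wt (fun _ => 1) + (i + b.wt (fun _ => 1)) =
            i + (Tr.node a b).wt (fun _ => 1) := by simp only [Tr.wt]; omega
        rwa [e] at this
      · have := lie_mem iha (Submodule.subset_span ⟨b, rfl, rfl⟩ :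
          b.eval (FreeLieAlgebra.of R) ∈ wtPart R (fun _ : Fin 2 => 1) (b.wt (fun _ => 1)))
        have e : i + a.wt (fun _ => 1) + b.wt (fun _ => 1) =
            i + (Tr.node a b).wt (fun _ => 1) := by simp only [Tr.wt]; omega
        rwa [e] at this
  refine Submodule.span_induction (p := fun a _ => D a ∈ wtPart R (fun _ : Fin 2 => 1) (i + j))
    ?_ ?_ ?_ ?_ ha
  · rintro _ ⟨t, ht, rfl⟩
    have := key t
    rwa [ht] at this
  · rw [map_zero]; exact zero_mem _
  · intro x y _ _ hx hy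
    rw [map_add]; exact add_mem hx hy
  · intro c x _ hx
    rw [map_smul]; exact Submodule.smul_mem _ _ hx

/-- Base change of a letter. -/
lemma base_of (R : Type) [CommRing R] {X : Type} (x : X) :
    base R X (FreeLieAlgebra.of ℤ x) = FreeLieAlgebra.of R x :=
  FreeLieAlgebra.lift_of_apply (FreeLieAlgebra.of R) x

/-- Base change commutes with the derivations. -/
lemma map_der {Z R : Type} [CommRing Z] [CommRing R] (ρ : Z → R)
    (T : FreeLieAlgebra Z (Fin 2) →+ FreeLieAlgebra R (Fin 2))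
    (hs : ∀ c a, T (c • a) = ρ c • T a) (hl : ∀ a b, T ⁅a, b⁆ = ⁅T a, T b⁆)
    (ho : ∀ x, T (FreeLieAlgebra.of Z x) = FreeLieAlgebra.of R x)
    {j : ℕ} {z a : FreeLieAlgebra Z (Fin 2)}
    {D : LieDerivation Z (FreeLieAlgebra Z (Fin 2)) (FreeLieAlgebra Z (Fin 2))}
    {D' : LieDerivation R (FreeLieAlgebra R (Fin 2)) (FreeLieAlgebra R (Fin 2))}
    (hD : IsIDer z D) (hD' : IsIDer (T z) D')
    (ha : a ∈ wtPart Z (fun _ : Fin 2 => 1) j) :
    T (D a) = D' (T a) := by
  have key : ∀ t : Tr (Fin 2), T (D (t.eval (FreeLieAlgebra.of Z))) =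
      D' (T (t.eval (FreeLieAlgebra.of Z))) := by
    intro t
    induction t with
    | leaf x =>
      show T (D (FreeLieAlgebra.of Z x)) = D' (T (FreeLieAlgebra.of Z x))
      rw [ho]
      fin_cases x
      · simp only [Fin.zero_eta, Fin.isValue]
        rw [hD.1, hD'.1, map_zero]
      · simp only [Fin.mk_one, Fin.isValue]
        rw [hD.2, hD'.2, hl, ho]
    | node a b iha ihb =>
      show T (D ⁅a.eval (FreeLieAlgebra.of Z), b.eval (FreeLieAlgebra.of Z)⁆) =
        D' (T ⁅a.eval (FreeLieAlgebra.of Z), b.eval (FreeLieAlgebra.of Z)⁆)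
      rw [LieDerivation.apply_lie_eq_add, map_add, hl, hl, hl,
        LieDerivation.apply_lie_eq_add, iha, ihb]
  refine Submodule.span_induction (p := fun a _ => T (D a) = D' (T a)) ?_ ?_ ?_ ?_ ha
  · rintro _ ⟨t, ht, rfl⟩
    exact key t
  · rw [map_zero, map_zero, map_zero]
  · intro x y _ _ hx hy
    rw [map_add, map_add, map_add, map_add, hx, hy]
  · intro c x _ hx
    rw [map_smul, hs, hs, map_smul, hx]

end BarBr

open BarBr in
theorem bar_bracket {i j : ℕ} {z z' : FreeLieAlgebra ℤ (Fin 2)}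
    (hz : z ∈ wtPart ℤ (fun _ : Fin 2 => 1) i) (hz' : z' ∈ wtPart ℤ (fun _ : Fin 2 => 1) j) :
    ∃ y ∈ wtPart ℤ (fun _ : Fin 2 => 1) (i + j),
      IsIharaBracket (base ℚ (Fin 2) z) (base ℚ (Fin 2) z') (base ℚ (Fin 2) y) ∧
      ∃ D E : LieDerivation K2 (FreeLieAlgebra K2 (Fin 2)) (FreeLieAlgebra K2 (Fin 2)),
        IsIDer (base K2 (Fin 2) z) D ∧ IsIDer (base K2 (Fin 2) z') E ∧
          base K2 (Fin 2) y = D (base K2 (Fin 2) z') - E (base K2 (Fin 2) z) +
            ⁅base K2 (Fin 2) z, base K2 (Fin 2) z'⁆ := by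
  have hex : ∀ (R : Type) [CommRing R] (ψ : FreeLieAlgebra R (Fin 2)),
      ∃ D : LieDerivation R (FreeLieAlgebra R (Fin 2)) (FreeLieAlgebra R (Fin 2)),
        IsIDer ψ D := by
    intro R _ ψ
    obtain ⟨D, hD⟩ := exists_lieDer R ![0, ⁅FreeLieAlgebra.of R (1 : Fin 2), ψ⁆]
    exact ⟨D, by simpa using hD 0, by simpa using hD 1⟩
  obtain ⟨D, hD⟩ := hex ℤ z
  obtain ⟨E, hE⟩ := hex ℤ z'
  have hbase : ∀ (R : Type) [CommRing R]
      (D' E' : LieDerivation R (FreeLieAlgebra R (Fin 2)) (FreeLieAlgebra R (Fin 2))),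
      IsIDer (base R (Fin 2) z) D' → IsIDer (base R (Fin 2) z') E' →
      base R (Fin 2) (D z' - E z + ⁅z, z'⁆) = D' (base R (Fin 2) z') - E' (base R (Fin 2) z) +
        ⁅base R (Fin 2) z, base R (Fin 2) z'⁆ := by
    intro R _ D' E' hD' hE'
    set T : FreeLieAlgebra ℤ (Fin 2) →+ FreeLieAlgebra R (Fin 2) :=
      { toFun := base R (Fin 2), map_zero' := map_zero _, map_add' := map_add _ } with hT
    have hl : ∀ a b, T ⁅a, b⁆ = ⁅T a, T b⁆ := fun a b => LieHom.map_lie (base R (Fin 2)) a b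
    have hs : ∀ c a, T (c • a) = (Int.cast c : R) • T a := by
      intro c a
      rw [Int.cast_smul_eq_zsmul]
      exact map_zsmul T c a
    have h1 := map_der (fun c : ℤ => (Int.cast c : R)) T hs hl (base_of R) hD hD' hz'
    have h2 := map_der (fun c : ℤ => (Int.cast c : R)) T hs hl (base_of R) hE hE' hz
    show T (D z' - E z + ⁅z, z'⁆) = D' (T z') - E' (T z) + ⁅T z, T z'⁆
    rw [map_add, map_sub, hl, h1, h2]
  refine ⟨D z' - E z + ⁅z, z'⁆, ?_, ?_, ?_⟩
  · refine add_mem (sub_mem (der_mem hD hz hz') ?_) (lie_mem hz hz')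
    have := der_mem hE hz' hz
    rwa [Nat.add_comm] at this
  · obtain ⟨D', hD'⟩ := hex ℚ (base ℚ (Fin 2) z)
    obtain ⟨E', hE'⟩ := hex ℚ (base ℚ (Fin 2) z')
    exact ⟨D', E', hD', hE', hbase ℚ D' E' hD' hE'⟩
  · obtain ⟨D', hD'⟩ := hex K2 (base K2 (Fin 2) z)
    obtain ⟨E', hE'⟩ := hex K2 (base K2 (Fin 2) z')
    exact ⟨D', E', hD', hE', hbase K2 D' E' hD' hE'⟩

end Vale.Agent.P029
end
end
end

section

section

/-!
# P029, lower half: dual numbers, the derivation `D ψ`, the Ihara bracket, `P5`-systems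
-/

noncomputable section

attribute [local instance 100] LieRing.ofAssociativeRing

namespace Vale.Agent.P029.Low

/-! ### The free Lie algebra on two letters over `K` -/

/-- The free Lie algebra over `K` on `x, y`. -/
abbrev LK (K : Type) [CommRing K] : Type := FreeLieAlgebra K (Fin 2)

/-- The letter `x`. -/
def kx (K : Type) [CommRing K] : LK K := FreeLieAlgebra.of K 0

/-- The letter `y`. -/
def ky (K : Type) [CommRing K] : LK K := FreeLieAlgebra.of K 1

/-- Substitution `ψ ↦ ψ(a, b)`. -/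
def sb {K g : Type} [CommRing K] [LieRing g] [LieAlgebra K g] (a b : g) : LK K →ₗ⁅K⁆ g :=
  FreeLieAlgebra.lift K ![a, b]

/-- The weight `n` part. -/
abbrev wt2 (K : Type) [CommRing K] (n : ℕ) : Submodule K (LK K) :=
  wtPart K (fun _ : Fin 2 => 1) n

/-! ### Dual numbers `g[ε]` -/

/-- The Lie algebra `g[ε]`: pairs `a + ε a'`. -/
def Dbl (g : Type) : Type := g × g

namespace Dbl

variable {K g : Type}

/-- The element `a + ε b`. -/
def mk (a b : g) : Dbl g := (a, b)

/-- The first component. -/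
def re (a : Dbl g) : g := a.1

/-- The `ε`-component. -/
def ep (a : Dbl g) : g := a.2

@[ext] lemma ext {a b : Dbl g} (h1 : a.re = b.re) (h2 : a.ep = b.ep) : a = b := Prod.ext h1 h2

@[simp] lemma re_mk (a b : g) : (mk a b).re = a := rfl
@[simp] lemma ep_mk (a b : g) : (mk a b).ep = b := rfl

instance [AddCommGroup g] : AddCommGroup (Dbl g) := inferInstanceAs (AddCommGroup (g × g))
instance [CommRing K] [AddCommGroup g] [Module K g] : Module K (Dbl g) :=
  inferInstanceAs (Module K (g × g))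

section
variable [AddCommGroup g]
@[simp] lemma re_add (a b : Dbl g) : (a + b).re = a.re + b.re := rfl
@[simp] lemma ep_add (a b : Dbl g) : (a + b).ep = a.ep + b.ep := rfl
@[simp] lemma re_sub (a b : Dbl g) : (a - b).re = a.re - b.re := rfl
@[simp] lemma ep_sub (a b : Dbl g) : (a - b).ep = a.ep - b.ep := rfl
@[simp] lemma re_neg (a : Dbl g) : (-a).re = -a.re := rfl
@[simp] lemma ep_neg (a : Dbl g) : (-a).ep = -a.ep := rfl
@[simp] lemma re_zero : (0 : Dbl g).re = 0 := rfl
@[simp] lemma ep_zero : (0 : Dbl g).ep = 0 := rfl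
@[simp] lemma re_smul [CommRing K] [Module K g] (c : K) (a : Dbl g) : (c • a).re = c • a.re := rfl
@[simp] lemma ep_smul [CommRing K] [Module K g] (c : K) (a : Dbl g) : (c • a).ep = c • a.ep := rfl
end

instance [LieRing g] : Bracket (Dbl g) (Dbl g) :=
  ⟨fun a b => mk ⁅a.re, b.re⁆ (⁅a.re, b.ep⁆ + ⁅a.ep, b.re⁆)⟩

@[simp] lemma re_lie [LieRing g] (a b : Dbl g) : (⁅a, b⁆ : Dbl g).re = ⁅a.re, b.re⁆ := rfl
@[simp] lemma ep_lie [LieRing g] (a b : Dbl g) :
    (⁅a, b⁆ : Dbl g).ep = ⁅a.re, b.ep⁆ + ⁅a.ep, b.re⁆ := rfl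

instance [LieRing g] : LieRing (Dbl g) where
  add_lie a b c := by
    ext
    · simp
    · simp; abel
  lie_add a b c := by
    ext
    · simp
    · simp; abel
  lie_self a := by
    ext
    · simp
    · simp only [ep_lie, ep_zero]
      rw [← lie_skew, neg_add_cancel]
  leibniz_lie a b c := by
    ext
    · simp
    · simp only [ep_lie, re_lie, ep_add, lie_add, add_lie]
      rw [leibniz_lie a.re b.re c.ep, leibniz_lie a.re b.ep c.re, leibniz_lie a.ep b.re c.re]
      abel

instance [CommRing K] [LieRing g] [LieAlgebra K g] : LieAlgebra K (Dbl g) where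
  lie_smul c a b := by
    ext
    · simp
    · simp

/-- The first component as a Lie homomorphism. -/
def reHom (K g : Type) [CommRing K] [LieRing g] [LieAlgebra K g] : Dbl g →ₗ⁅K⁆ g where
  toFun := re
  map_add' _ _ := rfl
  map_smul' _ _ := rfl
  map_lie' := rfl

@[simp] lemma reHom_apply (K g : Type) [CommRing K] [LieRing g] [LieAlgebra K g] (a : Dbl g) :
    reHom K g a = a.re := rfl

/-- The `ε`-component as a linear map. -/
def epHom (K g : Type) [CommRing K] [AddCommGroup g] [Module K g] : Dbl g →ₗ[K] g where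
  toFun := ep
  map_add' _ _ := rfl
  map_smul' _ _ := rfl

@[simp] lemma epHom_apply (K g : Type) [CommRing K] [AddCommGroup g] [Module K g] (a : Dbl g) :
    epHom K g a = a.ep := rfl

/-- `a + ε a' ↦ a + ε (a' + [u, a])`, an automorphism of `g[ε]`. -/
def adE (K : Type) {g : Type} [CommRing K] [LieRing g] [LieAlgebra K g] (u : g) :
    Dbl g →ₗ⁅K⁆ Dbl g where
  toFun a := mk a.re (a.ep + ⁅u, a.re⁆)
  map_add' a b := by
    ext
    · simp
    · simp; abel
  map_smul' c a := by
    ext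
    · simp
    · simp
  map_lie' {a b} := by
    ext
    · simp
    · simp only [ep_mk, ep_lie, re_lie, re_mk, lie_add, add_lie]
      rw [leibniz_lie u a.re b.re]
      abel

end Dbl

/-! ### The derivation `D ψ` and the Ihara bracket -/

/-- The Lie homomorphism `χ ↦ χ + ε D_ψ(χ)`. -/
def dHom {K : Type} [CommRing K] (ψ : LK K) : LK K →ₗ⁅K⁆ Dbl (LK K) :=
  sb (Dbl.mk (kx K) 0) (Dbl.mk (ky K) ⁅ky K, ψ⁆)

/-- The derivation `D_ψ` with `D_ψ(x) = 0`, `D_ψ(y) = [y, ψ]`. -/
def Dp {K : Type} [CommRing K] (ψ : LK K) : LK K →ₗ[K] LK K :=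
  (Dbl.epHom K (LK K)).comp (dHom ψ : LK K →ₗ[K] Dbl (LK K))

/-- The Ihara bracket `{ψ, φ} = D_ψ(φ) - D_φ(ψ) + [ψ, φ]`. -/
def ihara {K : Type} [CommRing K] (ψ φ : LK K) : LK K := Dp ψ φ - Dp φ ψ + ⁅ψ, φ⁆

/-! ### `P5`-systems -/

/-- A `P5`-system: elements `X i j` (`i, j ∈ {0,…,4}`) satisfying the relations of `𝔭₅`. -/
structure PS {g : Type} [LieRing g] (X : Fin 5 → Fin 5 → g) : Prop where
  diag : ∀ i, X i i = 0
  symm : ∀ i j, X i j = X j i
  sum : ∀ i, ∑ j, X i j = 0
  comm : ∀ i j k l, i ≠ j → i ≠ k → i ≠ l → j ≠ k → j ≠ l → k ≠ l → ⁅X i j, X k l⁆ = 0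

/-- The pentagon of the cycle `0 1 2 3 4`. -/
def pent {K g : Type} [CommRing K] [LieRing g] [LieAlgebra K g] (X : Fin 5 → Fin 5 → g)
    (ψ : LK K) : g :=
  sb (X 0 1) (X 1 2) ψ + sb (X 1 2) (X 2 3) ψ + sb (X 2 3) (X 3 4) ψ + sb (X 3 4) (X 4 0) ψ
    + sb (X 4 0) (X 0 1) ψ

/-- Solutions of weight `n` over `K`. -/
structure Sol (K : Type) [CommRing K] (n : ℕ) (ψ : LK K) : Prop where
  wt : ψ ∈ wt2 K n
  anti : ψ + sb (ky K) (kx K) ψ = 0
  hexa : ψ + sb (ky K) (-kx K - ky K) ψ + sb (-kx K - ky K) (kx K) ψ = 0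
  penta : ∀ (g : Type) [LieRing g] [LieAlgebra K g] (X : Fin 5 → Fin 5 → g), PS X →
    pent X ψ = 0

end Vale.Agent.P029.Low
end
end
end

section

section

/-! P029 lower half: basic facts on substitutions, `D ψ`, the Ihara bracket. -/

noncomputable section

attribute [local instance 100] LieRing.ofAssociativeRing

namespace Vale.Agent.P029.Low

open Dbl

section free

variable {K X : Type} [CommRing K]

/-- Induction principle for free Lie algebras. -/
theorem free_induction {P : FreeLieAlgebra K X → Prop} (hof : ∀ x, P (FreeLieAlgebra.of K x))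
    (h0 : P 0) (hadd : ∀ a b, P a → P b → P (a + b)) (hsmul : ∀ (c : K) a, P a → P (c • a))
    (hlie : ∀ a b, P a → P b → P ⁅a, b⁆) (a : FreeLieAlgebra K X) : P a := by
  let S : LieSubalgebra K (FreeLieAlgebra K X) :=
    { carrier := {a | P a}
      add_mem' := fun {a b} ha hb => hadd a b ha hb
      zero_mem' := h0
      smul_mem' := fun c a ha => hsmul c a ha
      lie_mem' := fun {a b} ha hb => hlie a b ha hb }
  let f : FreeLieAlgebra K X →ₗ⁅K⁆ S :=
    FreeLieAlgebra.lift K fun x => ⟨FreeLieAlgebra.of K x, hof x⟩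
  have h : S.incl.comp f = LieHom.id := by
    apply FreeLieAlgebra.hom_ext
    intro x
    simp [f, FreeLieAlgebra.lift_of_apply]
  have h2 : ((f a : S) : FreeLieAlgebra K X) = a := by
    have := congrArg (fun F : FreeLieAlgebra K X →ₗ⁅K⁆ FreeLieAlgebra K X => F a) h
    simpa using this
  rw [← h2]
  exact (f a).2

end free

section
variable {K : Type} [CommRing K] {g h : Type} [LieRing g] [LieAlgebra K g] [LieRing h]
  [LieAlgebra K h]

@[simp] lemma sb_x (a b : g) : sb a b (kx K) = a := by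
  simp [sb, kx, FreeLieAlgebra.lift_of_apply]

@[simp] lemma sb_y (a b : g) : sb a b (ky K) = b := by
  simp [sb, ky, FreeLieAlgebra.lift_of_apply]

/-- Induction principle. -/
theorem lk_induction {P : LK K → Prop} (hx : P (kx K)) (hy : P (ky K)) (h0 : P 0)
    (hadd : ∀ a b, P a → P b → P (a + b)) (hsmul : ∀ (c : K) a, P a → P (c • a))
    (hlie : ∀ a b, P a → P b → P ⁅a, b⁆) (a : LK K) : P a := by
  refine free_induction ?_ h0 hadd hsmul hlie a
  intro i
  fin_cases i
  · exact hx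
  · exact hy

/-- Lie homomorphisms from `LK K` are determined by the letters. -/
theorem hom_ext' {f f' : LK K →ₗ⁅K⁆ g} (hx : f (kx K) = f' (kx K)) (hy : f (ky K) = f' (ky K)) :
    f = f' := by
  apply FreeLieAlgebra.hom_ext
  intro i
  fin_cases i
  · exact hx
  · exact hy

/-- Naturality of the substitution. -/
theorem map_sb (f : g →ₗ⁅K⁆ h) (a b : g) (ψ : LK K) : f (sb a b ψ) = sb (f a) (f b) ψ := by
  have : f.comp (sb a b) = sb (f a) (f b) := by
    apply hom_ext' <;> simp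
  rw [← this]
  rfl

@[simp] theorem sb_id (ψ : LK K) : sb (kx K) (ky K) ψ = ψ := by
  have : (sb (kx K) (ky K) : LK K →ₗ⁅K⁆ LK K) = LieHom.id := by
    apply hom_ext' <;> simp
  rw [this]
  rfl

theorem sb_sb (a b : g) (u v : LK K) (ψ : LK K) : sb a b (sb u v ψ) = sb (sb a b u) (sb a b v) ψ :=
  map_sb (sb a b) u v ψ

@[simp] theorem dHom_re (ψ χ : LK K) : (dHom ψ χ).re = χ := by
  have : (reHom K (LK K)).comp (dHom ψ) = LieHom.id := by
    apply hom_ext' <;> simp [dHom]
  have h2 := congrArg (fun F : LK K →ₗ⁅K⁆ LK K => F χ) this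
  simpa using h2

theorem dHom_ep (ψ χ : LK K) : (dHom ψ χ).ep = Dp ψ χ := rfl

theorem dHom_eq (ψ χ : LK K) : dHom ψ χ = mk χ (Dp ψ χ) := by
  ext
  · simp
  · rfl

@[simp] theorem Dp_x (ψ : LK K) : Dp ψ (kx K) = 0 := by
  rw [← dHom_ep, dHom, sb_x]; rfl

@[simp] theorem Dp_y (ψ : LK K) : Dp ψ (ky K) = ⁅ky K, ψ⁆ := by
  rw [← dHom_ep, dHom, sb_y]; rfl

theorem Dp_lie (ψ a b : LK K) : Dp ψ ⁅a, b⁆ = ⁅a, Dp ψ b⁆ + ⁅Dp ψ a, b⁆ := by
  rw [← dHom_ep, LieHom.map_lie, ep_lie, dHom_re, dHom_re, dHom_ep, dHom_ep]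

/-- Two derivations along `f` agreeing on the letters are equal. -/
theorem der_ext (f : LK K →ₗ⁅K⁆ g) {d d' : LK K →ₗ[K] g}
    (hd : ∀ a b, d ⁅a, b⁆ = ⁅f a, d b⁆ + ⁅d a, f b⁆)
    (hd' : ∀ a b, d' ⁅a, b⁆ = ⁅f a, d' b⁆ + ⁅d' a, f b⁆) (hx : d (kx K) = d' (kx K))
    (hy : d (ky K) = d' (ky K)) (a : LK K) : d a = d' a := by
  induction a using lk_induction with
  | hx => exact hx
  | hy => exact hy
  | h0 => simp
  | hadd a b ha hb => simp [ha, hb]
  | hsmul c a ha => simp [ha]
  | hlie a b ha hb => rw [hd, hd', ha, hb]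

theorem Dp_add_left (ψ ψ' a : LK K) : Dp (ψ + ψ') a = Dp ψ a + Dp ψ' a := by
  refine der_ext LieHom.id (d := Dp (ψ + ψ')) (d' := Dp ψ + Dp ψ') (fun a b => ?_)
    (fun a b => ?_) ?_ ?_ a
  · exact Dp_lie _ _ _
  · simp only [LinearMap.add_apply, Dp_lie, LieHom.id_apply, lie_add, add_lie]
    abel
  · simp
  · simp

theorem Dp_smul_left (c : K) (ψ a : LK K) : Dp (c • ψ) a = c • Dp ψ a := by
  refine der_ext LieHom.id (d := Dp (c • ψ)) (d' := c • Dp ψ) (fun a b => ?_)
    (fun a b => ?_) ?_ ?_ a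
  · exact Dp_lie _ _ _
  · simp only [LinearMap.smul_apply, Dp_lie, LieHom.id_apply, lie_smul, smul_lie, smul_add]
  · simp
  · simp

theorem Dp_zero_left (a : LK K) : Dp (0 : LK K) a = 0 := by
  have := Dp_smul_left (0 : K) (0 : LK K) a
  simpa using this

/-- `[D_ψ, D_φ] = D_{ψ, φ}`. -/
theorem Dp_ihara (ψ φ a : LK K) : Dp (ihara ψ φ) a = Dp ψ (Dp φ a) - Dp φ (Dp ψ a) := by
  refine der_ext LieHom.id (d := Dp (ihara ψ φ))
    (d' := (Dp ψ).comp (Dp φ) - (Dp φ).comp (Dp ψ)) (fun a b => ?_) (fun a b => ?_) ?_ ?_ a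
  · exact Dp_lie _ _ _
  · simp only [LinearMap.sub_apply, LinearMap.comp_apply, Dp_lie, LieHom.id_apply, map_add,
      lie_sub, sub_lie]
    abel
  · simp
  · simp only [LinearMap.sub_apply, LinearMap.comp_apply, Dp_y, Dp_lie, ihara, lie_add, lie_sub]
    rw [leibniz_lie (ky K) ψ φ, ← lie_skew ψ ⁅ky K, φ⁆]
    abel

theorem ihara_self (ψ : LK K) : ihara ψ ψ = 0 := by
  simp [ihara]

theorem ihara_add_left (ψ ψ' φ : LK K) : ihara (ψ + ψ') φ = ihara ψ φ + ihara ψ' φ := by
  simp only [ihara, Dp_add_left, map_add, add_lie]; abel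

theorem ihara_add_right (ψ φ φ' : LK K) : ihara ψ (φ + φ') = ihara ψ φ + ihara ψ φ' := by
  simp only [ihara, Dp_add_left, map_add, lie_add]; abel

theorem ihara_smul_left (c : K) (ψ φ : LK K) : ihara (c • ψ) φ = c • ihara ψ φ := by
  simp only [ihara, Dp_smul_left, map_smul, smul_lie, smul_add, smul_sub]

theorem ihara_smul_right (c : K) (ψ φ : LK K) : ihara ψ (c • φ) = c • ihara ψ φ := by
  simp only [ihara, Dp_smul_left, map_smul, lie_smul, smul_add, smul_sub]

theorem ihara_skew (ψ φ : LK K) : -ihara ψ φ = ihara φ ψ := by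
  simp only [ihara]
  rw [← lie_skew φ ψ]; abel

/-- Leibniz form of the Jacobi identity for the Ihara bracket. -/
theorem ihara_jacobi (a b c : LK K) :
    ihara a (ihara b c) = ihara (ihara a b) c + ihara b (ihara a c) := by
  have h1 := Dp_ihara b c a
  have h2 := Dp_ihara a b c
  have h3 := Dp_ihara a c b
  unfold ihara at h1 h2 h3 ⊢
  rw [h1, h2, h3]
  simp only [map_add, map_sub, Dp_lie, lie_add, lie_sub, add_lie, sub_lie]
  rw [leibniz_lie a b c]
  rw [← lie_skew b (Dp c a)]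
  abel

end

end Vale.Agent.P029.Low
end
end
end

section

section

/-! P029 lower half: substitution in dual numbers, weights, central shifts. -/

noncomputable section

attribute [local instance 100] LieRing.ofAssociativeRing

namespace Vale.Agent.P029.Low

open Dbl

section
variable {K : Type} [CommRing K] {g h : Type} [LieRing g] [LieAlgebra K g] [LieRing h]
  [LieAlgebra K h]

/-- Functoriality of the dual numbers. -/
def Dbl.map (f : g →ₗ⁅K⁆ h) : Dbl g →ₗ⁅K⁆ Dbl h where
  toFun a := mk (f a.re) (f a.ep)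
  map_add' a b := by ext <;> simp
  map_smul' c a := by ext <;> simp
  map_lie' {a b} := by ext <;> simp

@[simp] lemma Dbl.map_mk (f : g →ₗ⁅K⁆ h) (a b : g) : Dbl.map f (mk a b) = mk (f a) (f b) := rfl

@[simp] lemma Dbl.adE_mk (u a b : g) : Dbl.adE K u (mk a b) = mk a (b + ⁅u, a⁆) := rfl

/-- Substitution of `a`, `b + ε [b, ψ(a,b)]`. -/
theorem sb_dbl (a b : g) (ψ φ : LK K) :
    sb (mk a 0) (mk b ⁅b, sb a b ψ⁆) φ = mk (sb a b φ) (sb a b (Dp ψ φ)) := by
  have h1 := map_sb (Dbl.map (sb a b)) (mk (kx K) 0) (mk (ky K) ⁅ky K, ψ⁆) φ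
  simp only [Dbl.map_mk, map_zero, sb_x, sb_y, LieHom.map_lie] at h1
  rw [← h1]
  change Dbl.map (sb a b) (dHom ψ φ) = _
  rw [dHom_eq]
  simp

/-- Substitution of `a + ε [u,a]`, `b + ε ([b, ψ(a,b)] + [u,b])`. -/
theorem sb_dbl_ad (u a b : g) (ψ φ : LK K) :
    sb (mk a ⁅u, a⁆) (mk b (⁅b, sb a b ψ⁆ + ⁅u, b⁆)) φ
      = mk (sb a b φ) (sb a b (Dp ψ φ) + ⁅u, sb a b φ⁆) := by
  have h1 := congrArg (Dbl.adE K u) (sb_dbl a b ψ φ)
  rw [map_sb] at h1
  simpa using h1

theorem wt_lie {X : Type} {w : X → ℕ} {m n : ℕ} {a b : FreeLieAlgebra K X}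
    (ha : a ∈ wtPart K w m) (hb : b ∈ wtPart K w n) : ⁅a, b⁆ ∈ wtPart K w (m + n) := by
  unfold wtPart at ha hb ⊢
  induction ha using Submodule.span_induction with
  | mem a ha =>
    obtain ⟨t, ht, rfl⟩ := ha
    induction hb using Submodule.span_induction with
    | mem b hb =>
      obtain ⟨s, hs, rfl⟩ := hb
      exact Submodule.subset_span ⟨Tr.node t s, by simp [Tr.wt, ht, hs], rfl⟩
    | zero => simp
    | add a b _ _ ha hb => rw [lie_add]; exact add_mem ha hb
    | smul c a _ ha => rw [lie_smul]; exact Submodule.smul_mem _ _ ha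
  | zero => simp
  | add a b _ _ ha hb => rw [add_lie]; exact add_mem ha hb
  | smul c a _ ha => rw [smul_lie]; exact Submodule.smul_mem _ _ ha

theorem kx_wt : kx K ∈ wt2 K 1 := Submodule.subset_span ⟨Tr.leaf 0, rfl, rfl⟩
theorem ky_wt : ky K ∈ wt2 K 1 := Submodule.subset_span ⟨Tr.leaf 1, rfl, rfl⟩

theorem map_eval {g h : Type} [LieRing g] [LieAlgebra K g] [LieRing h] [LieAlgebra K h]
    {X : Type} (F : g →ₗ⁅K⁆ h) (f : X → g) (t : Tr X) :
    F (t.eval f) = t.eval (fun x => F (f x)) := by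
  induction t with
  | leaf x => rfl
  | node a b ha hb => simp [Tr.eval, ha, hb]

theorem sb_eval (a b : g) (t : Tr (Fin 2)) :
    sb a b (t.eval (FreeLieAlgebra.of K)) = t.eval ![a, b] := by
  rw [map_eval]
  congr 1
  funext i
  simp [sb, FreeLieAlgebra.lift_of_apply]

/-- Induction on the weight part. -/
theorem wt_induction {X : Type} {w : X → ℕ} {n : ℕ} {P : FreeLieAlgebra K X → Prop}
    (ht : ∀ t : Tr X, t.wt w = n → P (t.eval (FreeLieAlgebra.of K))) (h0 : P 0)
    (hadd : ∀ a b, P a → P b → P (a + b)) (hsmul : ∀ (c : K) a, P a → P (c • a))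
    {a : FreeLieAlgebra K X} (ha : a ∈ wtPart K w n) : P a := by
  unfold wtPart at ha
  induction ha using Submodule.span_induction with
  | mem a ha =>
    obtain ⟨t, h, rfl⟩ := ha
    exact ht t h
  | zero => exact h0
  | add a b _ _ ha hb => exact hadd a b ha hb
  | smul c a _ ha => exact hsmul c a ha

theorem Dp_wt {m n : ℕ} {ψ φ : LK K} (hψ : ψ ∈ wt2 K m) (hφ : φ ∈ wt2 K n) :
    Dp ψ φ ∈ wt2 K (m + n) := by
  refine wt_induction (P := fun φ => Dp ψ φ ∈ wt2 K (m + n)) ?_ (by simp)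
    (fun a b ha hb => by simpa using add_mem ha hb)
    (fun c a ha => by simpa using Submodule.smul_mem _ c ha) hφ
  intro t ht
  have key : ∀ t : Tr (Fin 2), Dp ψ (t.eval (FreeLieAlgebra.of K))
      ∈ wt2 K (m + t.wt (fun _ => 1)) := by
    intro t
    induction t with
    | leaf i =>
      fin_cases i
      · change Dp ψ (kx K) ∈ _
        simp
      · change Dp ψ (ky K) ∈ wt2 K (m + 1)
        rw [Dp_y, add_comm]
        exact wt_lie ky_wt hψ
    | node a b ha hb =>
      have ea : a.eval (FreeLieAlgebra.of K) ∈ wt2 K (a.wt (fun _ => 1)) :=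
        Submodule.subset_span ⟨a, rfl, rfl⟩
      have eb : b.eval (FreeLieAlgebra.of K) ∈ wt2 K (b.wt (fun _ => 1)) :=
        Submodule.subset_span ⟨b, rfl, rfl⟩
      change Dp ψ ⁅_, _⁆ ∈ wt2 K (m + (a.wt _ + b.wt _))
      rw [Dp_lie]
      refine add_mem ?_ ?_
      · have := wt_lie ea hb
        rwa [show a.wt (fun _ => 1) + (m + b.wt (fun _ => 1))
          = m + (a.wt (fun _ => 1) + b.wt (fun _ => 1)) by ring] at this
      · have := wt_lie ha eb
        rwa [add_assoc] at this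
  have := key t
  rwa [ht] at this

theorem ihara_wt {m n : ℕ} {ψ φ : LK K} (hψ : ψ ∈ wt2 K m) (hφ : φ ∈ wt2 K n) :
    ihara ψ φ ∈ wt2 K (m + n) := by
  refine add_mem (sub_mem (Dp_wt hψ hφ) ?_) (wt_lie hψ hφ)
  rw [add_comm]
  exact Dp_wt hφ hψ

/-- Adding a central element to the arguments does not change the value in weight `≥ 2`. -/
theorem sb_shift {n : ℕ} (hn : 2 ≤ n) {ψ : LK K} (hψ : ψ ∈ wt2 K n) {a b z z' : g}
    (h1 : ⁅z, a⁆ = 0) (h2 : ⁅z, b⁆ = 0) (h3 : ⁅z', a⁆ = 0) (h4 : ⁅z', b⁆ = 0)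
    (h5 : ⁅z, z'⁆ = 0) : sb (a + z) (b + z') ψ = sb a b ψ := by
  refine wt_induction (P := fun ψ => sb (a + z) (b + z') ψ = sb a b ψ) ?_ (by simp)
    (fun a b ha hb => by rw [map_add, map_add, ha, hb])
    (fun c a ha => by rw [map_smul, map_smul, ha]) hψ
  intro t ht
  rw [sb_eval, sb_eval]
  have key : ∀ t : Tr (Fin 2), ⁅z, t.eval ![a, b]⁆ = 0 ∧ ⁅z', t.eval ![a, b]⁆ = 0 ∧
      (∃ c c' : ℤ, t.eval ![a + z, b + z'] = t.eval ![a, b] + (c • z + c' • z')) ∧
      (2 ≤ t.wt (fun _ => 1) → t.eval ![a + z, b + z'] = t.eval ![a, b]) := by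
    intro t
    induction t with
    | leaf i =>
      fin_cases i
      · refine ⟨h1, h3, ⟨1, 0, by simp [Tr.eval]⟩, ?_⟩
        intro h; simp [Tr.wt] at h
      · refine ⟨h2, h4, ⟨0, 1, by simp [Tr.eval]⟩, ?_⟩
        intro h; simp [Tr.wt] at h
    | node u v hu hv =>
      obtain ⟨u1, u2, ⟨c, c', u3⟩, -⟩ := hu
      obtain ⟨v1, v2, ⟨d, d', v3⟩, -⟩ := hv
      have e : (Tr.node u v).eval ![a + z, b + z'] = (Tr.node u v).eval ![a, b] := by
        change ⁅_, _⁆ = ⁅_, _⁆
        have h5' : ⁅z', z⁆ = 0 := by rw [← lie_skew, h5, neg_zero]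
        have k1 : ⁅u.eval ![a, b], z⁆ = 0 := by rw [← lie_skew, u1, neg_zero]
        have k2 : ⁅u.eval ![a, b], z'⁆ = 0 := by rw [← lie_skew, u2, neg_zero]
        rw [u3, v3]
        simp only [lie_add, add_lie, lie_zsmul, zsmul_lie, k1, k2, v1, v2, h5, h5', lie_self,
          smul_zero, add_zero]
      refine ⟨?_, ?_, ⟨0, 0, by rw [e]; simp⟩, fun _ => e⟩
      · change ⁅z, ⁅_, _⁆⁆ = 0
        rw [leibniz_lie, u1, v1, zero_lie, lie_zero, add_zero]
      · change ⁅z', ⁅_, _⁆⁆ = 0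
        rw [leibniz_lie, u2, v2, zero_lie, lie_zero, add_zero]
  exact (key t).2.2.2 (by omega)

/-- An element commuting with `a` and `b` commutes with `ψ(a,b)`. -/
theorem lie_sb_zero {a b z : g} (h1 : ⁅z, a⁆ = 0) (h2 : ⁅z, b⁆ = 0) (ψ : LK K) :
    ⁅z, sb a b ψ⁆ = 0 := by
  induction ψ using lk_induction with
  | hx => simpa using h1
  | hy => simpa using h2
  | h0 => simp
  | hadd a b ha hb => rw [map_add, lie_add, ha, hb, add_zero]
  | hsmul c a ha => rw [map_smul, lie_smul, ha, smul_zero]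
  | hlie u v hu hv => rw [LieHom.map_lie, leibniz_lie, hu, hv, zero_lie, lie_zero, add_zero]

/-- In weight `≥ 2`, `ψ(a, b) = 0` if `[a, b] = 0`. -/
theorem sb_comm {n : ℕ} (hn : 2 ≤ n) {ψ : LK K} (hψ : ψ ∈ wt2 K n) {a b : g}
    (h : ⁅a, b⁆ = 0) : sb a b ψ = 0 := by
  refine wt_induction (P := fun ψ => sb a b ψ = 0) ?_ (by simp)
    (fun a b ha hb => by rw [map_add, ha, hb, add_zero])
    (fun c a ha => by rw [map_smul, ha, smul_zero]) hψ
  intro t ht
  rw [sb_eval]
  have key : ∀ t : Tr (Fin 2), (∃ c d : ℤ, t.eval ![a, b] = c • a + d • b) ∧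
      (2 ≤ t.wt (fun _ => 1) → t.eval ![a, b] = 0) := by
    intro t
    induction t with
    | leaf i =>
      fin_cases i
      · exact ⟨⟨1, 0, by simp [Tr.eval]⟩, fun h => by simp [Tr.wt] at h⟩
      · exact ⟨⟨0, 1, by simp [Tr.eval]⟩, fun h => by simp [Tr.wt] at h⟩
    | node u v hu hv =>
      obtain ⟨⟨c, d, hu⟩, -⟩ := hu
      obtain ⟨⟨c', d', hv⟩, -⟩ := hv
      have h' : ⁅b, a⁆ = 0 := by rw [← lie_skew, h, neg_zero]
      have e : (Tr.node u v).eval ![a, b] = 0 := by
        change ⁅_, _⁆ = 0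
        rw [hu, hv]
        simp only [lie_add, add_lie, lie_zsmul, zsmul_lie, h, h', lie_self, smul_zero, add_zero]
      exact ⟨⟨0, 0, by rw [e]; simp⟩, fun _ => e⟩
  exact (key t).2 (by omega)

end

end Vale.Agent.P029.Low
end
end
end

section

section

/-! P029 lower half: `P5`-systems (PS1-PS8) and the definitions `cc`, `ofP5`, `GG`, `GX`, `Zep`. -/

noncomputable section

attribute [local instance 100] LieRing.ofAssociativeRing

namespace Vale.Agent.P029.Low

open Dbl

section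
variable {K : Type} [CommRing K] {g : Type} [LieRing g] [LieAlgebra K g]

/-- All sixteen `c`-relations for a solution in a `P5`-system; `c(a,b,c) = ψ(X_ab, X_bc)`. -/
def cc (K : Type) [CommRing K] {g : Type} [LieRing g] [LieAlgebra K g] (X : Fin 5 → Fin 5 → g)
    (ψ : LK K) (a b c : Fin 5) : g := sb (X a b) (X b c) ψ

/-- The ten elements obtained from a solution `x` of the five-term presentation. -/
def ofP5 {g : Type} [LieRing g] (x : Fin 5 → g) : Fin 5 → Fin 5 → g :=
  ![![0, x 0, x 3 - x 0 - x 1, x 1 - x 3 - x 4, x 4],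
    ![x 0, 0, x 1, x 4 - x 1 - x 2, x 2 - x 4 - x 0],
    ![x 3 - x 0 - x 1, x 1, 0, x 2, x 0 - x 2 - x 3],
    ![x 1 - x 3 - x 4, x 4 - x 1 - x 2, x 2, 0, x 3],
    ![x 4, x 2 - x 4 - x 0, x 0 - x 2 - x 3, x 3, 0]]

/-- `G(x,y) = [y, ψ(x,y)] + [z, ψ(x,z)]`, `z = -x-y`. -/
def GG (ψ : LK K) : LK K :=
  ⁅ky K, ψ⁆ + ⁅-kx K - ky K, sb (kx K) (-kx K - ky K) ψ⁆

/-- `G` of the triple `a b c` in a `P5`-system. -/
def GX (K : Type) [CommRing K] {g : Type} [LieRing g] [LieAlgebra K g] (X : Fin 5 → Fin 5 → g)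
    (ψ : LK K) (a b c : Fin 5) : g :=
  ⁅X b c, cc K X ψ a b c⁆ + ⁅X a c, cc K X ψ b a c⁆

/-- The `ε`-components of the deformed system. -/
def Zep (K : Type) [Field K] {g : Type} [LieRing g] [LieAlgebra K g] (X : Fin 5 → Fin 5 → g)
    (ψ : LK K) : Fin 5 → Fin 5 → g :=
  let A := cc K X ψ 0 1 2  -- ψ(X01, X12)
  let A' := cc K X ψ 1 0 2 -- ψ(X01, X02)
  let z02 := ⁅X 0 2, A'⁆
  let z12 := ⁅X 1 2, A⁆
  let z23 := ⁅X 2 3, cc K X ψ 4 3 2⁆ -- ψ(X34, X23)
  let z24 := ⁅X 2 4, cc K X ψ 3 4 2⁆ -- ψ(X34, X24)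
  let z03 := ⁅X 0 3, A + cc K X ψ 4 3 0⁆
  let z04 := ⁅X 0 4, A + cc K X ψ 3 4 0⁆
  let z13 := ⁅X 1 3, A' + cc K X ψ 4 3 1⁆
  let z14 := ⁅X 1 4, A' + cc K X ψ 3 4 1⁆
  ![![0, 0, z02, z03, z04],
    ![0, 0, z12, z13, z14],
    ![z02, z12, 0, z23, z24],
    ![z03, z13, z23, 0, 0],
    ![z04, z14, z24, 0, 0]]

end

section
variable {g : Type} [LieRing g]

/- PS1 -/
theorem PS_perm {X : Fin 5 → Fin 5 → g} (hX : PS X) (σ : Equiv.Perm (Fin 5)) :
    PS (fun i j => X (σ i) (σ j)) where
  diag i := hX.diag _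
  symm i j := hX.symm _ _
  sum i := (Equiv.sum_comp σ (fun j => X (σ i) j)).trans (hX.sum (σ i))
  comm i j k l h1 h2 h3 h4 h5 h6 := hX.comm _ _ _ _ (σ.injective.ne h1) (σ.injective.ne h2)
    (σ.injective.ne h3) (σ.injective.ne h4) (σ.injective.ne h5) (σ.injective.ne h6)

/-- The row sum with explicit indices. -/
theorem PS_row {X : Fin 5 → Fin 5 → g} (hX : PS X) {a b c d e : Fin 5}
    (h : [a, b, c, d, e].Nodup) : X a b + X a c + X a d + X a e = 0 := by
  have hu : [a, b, c, d, e].toFinset = Finset.univ := by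
    apply Finset.eq_univ_of_card
    rw [List.toFinset_card_of_nodup h]
    rfl
  have h1 := hX.sum a
  rw [← hu, List.sum_toFinset _ h] at h1
  simp only [List.map_cons, List.map_nil, List.sum_cons, List.sum_nil, hX.diag, zero_add,
    add_zero] at h1
  rw [← h1]
  abel

/-- The remaining two indices. -/
theorem exists_nodup5 {a b c : Fin 5} (hab : a ≠ b) (hac : a ≠ c) (hbc : b ≠ c) :
    ∃ d e : Fin 5, [a, b, c, d, e].Nodup := by
  revert a b c
  decide

theorem nodup5_four {a b c d e : Fin 5} (h : [a, b, c, d, e].Nodup) : [d, a, b, c, e].Nodup := by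
  revert a b c d e
  decide

theorem nodup5_five {a b c d e : Fin 5} (h : [a, b, c, d, e].Nodup) : [e, a, b, c, d].Nodup := by
  revert a b c d e
  decide

theorem nodup5_rot {a b c d e : Fin 5} (h : [a, b, c, d, e].Nodup) : [b, c, a, d, e].Nodup := by
  revert a b c d e
  decide

theorem nodup5_swap {a b c d e : Fin 5} (h : [a, b, c, d, e].Nodup) : [b, a, c, d, e].Nodup := by
  revert a b c d e
  decide

/-- `X_bc + X_ca` commutes with `X_ab`. -/
theorem PS_tri_comm {X : Fin 5 → Fin 5 → g} (hX : PS X) {a b c d e : Fin 5}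
    (h : [a, b, c, d, e].Nodup) : ⁅X a b, X b c⁆ + ⁅X a b, X c a⁆ = 0 := by
  simp only [List.nodup_cons, List.mem_cons, List.not_mem_nil, not_or, or_false, not_false_eq_true,
    List.nodup_nil, and_true] at h
  obtain ⟨⟨hab, hac, had, hae⟩, ⟨hbc, hbd, hbe⟩, ⟨hcd, hce⟩, hde⟩ := h
  have hn : [c, a, b, d, e].Nodup := by
    simp only [List.nodup_cons, List.mem_cons, List.not_mem_nil, not_or, or_false,
      not_false_eq_true, List.nodup_nil, and_true]
    exact ⟨⟨Ne.symm hac, Ne.symm hbc, hcd, hce⟩, ⟨hab, had, hae⟩, ⟨hbd, hbe⟩, hde⟩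
  have hr := PS_row hX hn
  have e1 : X b c + X c a = -(X c d) - X c e := by
    rw [hX.symm b c]
    have : X c b + X c a = (X c a + X c b + X c d + X c e) - X c d - X c e := by abel
    rw [this, hr, zero_sub]
  rw [← lie_add, e1, lie_sub, lie_neg, hX.comm a b c d hab hac had hbc hbd hcd,
    hX.comm a b c e hab hac hae hbc hbe hce, neg_zero, sub_zero]

/-- Cyclic invariance of `[X_ab, X_bc]`. -/
theorem PS_cyc {X : Fin 5 → Fin 5 → g} (hX : PS X) {a b c d e : Fin 5}
    (h : [a, b, c, d, e].Nodup) : ⁅X a b, X b c⁆ = ⁅X b c, X c a⁆ := by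
  have h1 := PS_tri_comm hX (nodup5_rot h)
  rw [← lie_skew (X a b) (X b c)]
  exact (eq_neg_of_add_eq_zero_left h1).symm

/-- `[X_ab, X_bc] + [X_ab, X_bd] + [X_ab, X_be] = 0`. -/
theorem PS_tsum {X : Fin 5 → Fin 5 → g} (hX : PS X) {a b c d e : Fin 5}
    (h : [a, b, c, d, e].Nodup) : ⁅X a b, X b c⁆ + ⁅X a b, X b d⁆ + ⁅X a b, X b e⁆ = 0 := by
  have hr := PS_row hX (nodup5_swap h)
  have e1 : X b c + X b d + X b e = (X b a + X b c + X b d + X b e) - X a b := by
    rw [hX.symm b a]; abel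
  rw [← lie_add, ← lie_add, e1, hr, zero_sub, lie_neg, lie_self, neg_zero]

/- PS6: `X_ab + X_bc + X_ca = X_de` -/
theorem PS_tri {X : Fin 5 → Fin 5 → g} (hX : PS X) {a b c d e : Fin 5}
    (h : [a, b, c, d, e].Nodup) (h2 : ∀ u v : g, u + u = v + v → u = v) :
    X a b + X b c + X c a = X d e := by
  have ra := PS_row hX h
  have rb := PS_row hX (nodup5_swap h)
  have hc : [c, a, b, d, e].Nodup := nodup5_rot (nodup5_rot h)
  have hd : [d, a, b, c, e].Nodup := nodup5_four h
  have he : [e, a, b, c, d].Nodup := nodup5_five h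
  have rc := PS_row hX hc
  have rd := PS_row hX hd
  have re := PS_row hX he
  rw [hX.symm b a] at rb
  rw [hX.symm c a, hX.symm c b] at rc
  rw [hX.symm d a, hX.symm d b, hX.symm d c] at rd
  rw [hX.symm e a, hX.symm e b, hX.symm e c, hX.symm e d] at re
  apply h2
  rw [hX.symm c a]
  have key : X a b + X b c + X a c + (X a b + X b c + X a c) - (X d e + X d e)
      = (X a b + X a c + X a d + X a e) + (X a b + X b c + X b d + X b e)
        + (X a c + X b c + X c d + X c e) - (X a d + X b d + X c d + X d e)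
        - (X a e + X b e + X c e + X d e) := by abel
  rw [ra, rb, rc, rd, re] at key
  rw [← sub_eq_zero, key]
  abel

/- PS7 -/
theorem PS_ofP5 {x : Fin 5 → g} (hx : P5 x) : PS (ofP5 x) where
  diag i := by fin_cases i <;> rfl
  symm i j := by fin_cases i <;> fin_cases j <;> rfl
  sum i := by
    fin_cases i <;> rw [Fin.sum_univ_five] <;> simp [ofP5] <;> abel
  comm := by
    have c02 : ⁅x 0, x 2⁆ = 0 := hx.comm 0
    have c13 : ⁅x 1, x 3⁆ = 0 := hx.comm 1
    have c24 : ⁅x 2, x 4⁆ = 0 := hx.comm 2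
    have c30 : ⁅x 3, x 0⁆ = 0 := hx.comm 3
    have c41 : ⁅x 4, x 1⁆ = 0 := hx.comm 4
    have sk : ∀ {a b : g}, ⁅a, b⁆ = 0 → ⁅b, a⁆ = 0 := by
      intro a b h
      rw [← lie_skew, h, neg_zero]
    have hs : ⁅x 0, x 1⁆ + ⁅x 1, x 2⁆ + ⁅x 2, x 3⁆ + ⁅x 3, x 4⁆ + ⁅x 4, x 0⁆ = 0 := by
      have := hx.sum
      rw [Fin.sum_univ_five] at this
      exact this
    -- the three families of relations, in general position
    have F : ∀ a b c : g, ⁅a, b⁆ = 0 → ⁅a, c⁆ = 0 → ⁅a, a - b - c⁆ = 0 := by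
      intro a b c h1 h2
      rw [lie_sub, lie_sub, lie_self, h1, h2, sub_zero, sub_zero]
    have G : ∀ a b c d e : g, ⁅a, c⁆ = 0 → ⁅b, d⁆ = 0 → ⁅c, e⁆ = 0 → ⁅d, a⁆ = 0 → ⁅e, b⁆ = 0 →
        ⁅a, b⁆ + ⁅b, c⁆ + ⁅c, d⁆ + ⁅d, e⁆ + ⁅e, a⁆ = 0 →
        ⁅e - b - c, a - c - d⁆ = 0 := by
      intro a b c d e h1 h2 h3 h4 h5 h6
      have e1 : ⁅e - b - c, a - c - d⁆
          = (⁅a, b⁆ + ⁅b, c⁆ + ⁅c, d⁆ + ⁅d, e⁆ + ⁅e, a⁆) := by
        simp only [lie_sub, sub_lie]
        rw [sk h3, lie_self, h2, sk h1, ← lie_skew b a, ← lie_skew e d]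
        abel
      rw [e1, h6]
    have hs1 : ⁅x 1, x 2⁆ + ⁅x 2, x 3⁆ + ⁅x 3, x 4⁆ + ⁅x 4, x 0⁆ + ⁅x 0, x 1⁆ = 0 := by
      rw [← hs]; abel
    have hs2 : ⁅x 2, x 3⁆ + ⁅x 3, x 4⁆ + ⁅x 4, x 0⁆ + ⁅x 0, x 1⁆ + ⁅x 1, x 2⁆ = 0 := by
      rw [← hs]; abel
    have hs3 : ⁅x 3, x 4⁆ + ⁅x 4, x 0⁆ + ⁅x 0, x 1⁆ + ⁅x 1, x 2⁆ + ⁅x 2, x 3⁆ = 0 := by
      rw [← hs]; abel
    have hs4 : ⁅x 4, x 0⁆ + ⁅x 0, x 1⁆ + ⁅x 1, x 2⁆ + ⁅x 2, x 3⁆ + ⁅x 3, x 4⁆ = 0 := by
      rw [← hs]; abel
    have key : ∀ i j k l : Fin 5, i < j → k < l → i < k → j ≠ k → j ≠ l →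
        ⁅ofP5 x i j, ofP5 x k l⁆ = 0 := by
      intro i j k l h1 h2 h3 h4 h5
      have hm : (i, j, k, l) ∈ [((0 : Fin 5), (1 : Fin 5), (2 : Fin 5), (3 : Fin 5)),
          (0, 1, 2, 4), (0, 1, 3, 4), (0, 2, 1, 3), (0, 2, 1, 4), (0, 2, 3, 4), (0, 3, 1, 2),
          (0, 3, 1, 4), (0, 3, 2, 4), (0, 4, 1, 2), (0, 4, 1, 3), (0, 4, 2, 3), (1, 2, 3, 4),
          (1, 3, 2, 4), (1, 4, 2, 3)] := by
        revert i j k l
        decide
      simp only [List.mem_cons, List.not_mem_nil, or_false, Prod.mk.injEq] at hm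
      rcases hm with ⟨rfl, rfl, rfl, rfl⟩ | ⟨rfl, rfl, rfl, rfl⟩ | ⟨rfl, rfl, rfl, rfl⟩ |
        ⟨rfl, rfl, rfl, rfl⟩ | ⟨rfl, rfl, rfl, rfl⟩ | ⟨rfl, rfl, rfl, rfl⟩ |
        ⟨rfl, rfl, rfl, rfl⟩ | ⟨rfl, rfl, rfl, rfl⟩ | ⟨rfl, rfl, rfl, rfl⟩ |
        ⟨rfl, rfl, rfl, rfl⟩ | ⟨rfl, rfl, rfl, rfl⟩ | ⟨rfl, rfl, rfl, rfl⟩ |
        ⟨rfl, rfl, rfl, rfl⟩ | ⟨rfl, rfl, rfl, rfl⟩ | ⟨rfl, rfl, rfl, rfl⟩
      · exact c02
      · exact F _ _ _ c02 (sk c30)
      · exact sk c30
      · exact G _ _ _ _ _ c41 c02 c13 c24 c30 hs4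
      · exact sk (G _ _ _ _ _ c30 c41 c02 c13 c24 hs3)
      · exact sk (F _ _ _ c30 (sk c13))
      · exact sk (F _ _ _ c13 (sk c41))
      · exact G _ _ _ _ _ c24 c30 c41 c02 c13 hs2
      · exact sk (G _ _ _ _ _ c13 c24 c30 c41 c02 hs1)
      · exact c41
      · exact F _ _ _ c41 (sk c24)
      · exact sk c24
      · exact c13
      · exact G _ _ _ _ _ c02 c13 c24 c30 c41 hs
      · exact sk (F _ _ _ c24 (sk c02))
    have S : ∀ i j, ofP5 x i j = ofP5 x j i := by
      intro i j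
      fin_cases i <;> fin_cases j <;> rfl
    have key2 : ∀ i j k l : Fin 5, i < j → k < l → i ≠ k → j ≠ k → j ≠ l → i ≠ l →
        ⁅ofP5 x i j, ofP5 x k l⁆ = 0 := by
      intro i j k l h1 h2 h3 h4 h5 h6
      rcases lt_or_gt_of_ne h3 with h | h
      · exact key i j k l h1 h2 h h4 h5
      · exact sk (key k l i j h2 h1 h (Ne.symm h6) (Ne.symm h5))
    intro i j k l hij hik hil hjk hjl hkl
    rcases lt_or_gt_of_ne hij with h1 | h1 <;> rcases lt_or_gt_of_ne hkl with h2 | h2
    · exact key2 i j k l h1 h2 hik hjk hjl hil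
    · rw [S k l]
      exact key2 i j l k h1 h2 hil hjl hjk hik
    · rw [S i j]
      exact key2 j i k l h1 h2 hjk hik hil hjl
    · rw [S i j, S k l]
      exact key2 j i l k h1 h2 hjl hil hik hjk

/- PS8 -/
theorem P5_ofPS {X : Fin 5 → Fin 5 → g} (hX : PS X) :
    P5 ![X 0 1, X 1 2, X 2 3, X 3 4, X 4 0] where
  comm i := by
    fin_cases i
    · exact hX.comm 0 1 2 3 (by decide) (by decide) (by decide) (by decide) (by decide) (by decide)
    · exact hX.comm 1 2 3 4 (by decide) (by decide) (by decide) (by decide) (by decide) (by decide)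
    · exact hX.comm 2 3 4 0 (by decide) (by decide) (by decide) (by decide) (by decide) (by decide)
    · exact hX.comm 3 4 0 1 (by decide) (by decide) (by decide) (by decide) (by decide) (by decide)
    · exact hX.comm 4 0 1 2 (by decide) (by decide) (by decide) (by decide) (by decide) (by decide)
  sum := by
    rw [Fin.sum_univ_five]
    change ⁅X 0 1, X 1 2⁆ + ⁅X 1 2, X 2 3⁆ + ⁅X 2 3, X 3 4⁆ + ⁅X 3 4, X 4 0⁆ + ⁅X 4 0, X 0 1⁆ = 0
    have s1 := PS_tsum hX (a := 0) (b := 1) (c := 2) (d := 3) (e := 4) (by decide)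
    have s2 := PS_tsum hX (a := 2) (b := 3) (c := 0) (d := 1) (e := 4) (by decide)
    have s3 := PS_tsum hX (a := 0) (b := 3) (c := 1) (d := 2) (e := 4) (by decide)
    have e1 := PS_cyc hX (a := 4) (b := 0) (c := 1) (d := 2) (e := 3) (by decide)
    have e2 := PS_cyc hX (a := 1) (b := 2) (c := 3) (d := 0) (e := 4) (by decide)
    have e3 := PS_cyc hX (a := 0) (b := 3) (c := 4) (d := 1) (e := 2) (by decide)
    -- t031 = t310 = -t013
    have e4 : ⁅X 0 3, X 3 1⁆ = -⁅X 0 1, X 1 3⁆ := by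
      rw [PS_cyc hX (a := 0) (b := 3) (c := 1) (d := 2) (e := 4) (by decide), ← lie_skew,
        hX.symm 1 0, hX.symm 3 1]
    -- t032 = -t230
    have e5 : ⁅X 0 3, X 3 2⁆ = -⁅X 2 3, X 3 0⁆ := by
      rw [← lie_skew, hX.symm 3 2, hX.symm 0 3]
    rw [e4, e5] at s3
    rw [e1, e2, ← e3]
    have : ⁅X 0 1, X 1 2⁆ + ⁅X 2 3, X 3 1⁆ + ⁅X 2 3, X 3 4⁆ + ⁅X 0 3, X 3 4⁆ + ⁅X 0 1, X 1 4⁆
        = (⁅X 0 1, X 1 2⁆ + ⁅X 0 1, X 1 3⁆ + ⁅X 0 1, X 1 4⁆)
          + (⁅X 2 3, X 3 0⁆ + ⁅X 2 3, X 3 1⁆ + ⁅X 2 3, X 3 4⁆)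
          + (-⁅X 0 1, X 1 3⁆ + -⁅X 2 3, X 3 0⁆ + ⁅X 0 3, X 3 4⁆) := by abel
    rw [this, s1, s2, s3]
    abel

end

section
variable {K : Type} [CommRing K] {g : Type} [LieRing g] [LieAlgebra K g]

/- PS2 -/
theorem cc_anti {n : ℕ} {ψ : LK K} (h : Sol K n ψ) {X : Fin 5 → Fin 5 → g} (hX : PS X)
    (a b c : Fin 5) : cc K X ψ c b a = - cc K X ψ a b c := by
  have h1 := congrArg (sb (X a b) (X b c)) h.anti
  rw [map_add, sb_sb, sb_x, sb_y, map_zero] at h1
  unfold cc
  rw [hX.symm c b, hX.symm b a]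
  exact eq_neg_of_add_eq_zero_right h1

/- PS3 -/
theorem cc_hexa {n : ℕ} (hn : 2 ≤ n) {ψ : LK K} (h : Sol K n ψ) {X : Fin 5 → Fin 5 → g}
    (hX : PS X) {a b c : Fin 5} (hab : a ≠ b) (hac : a ≠ c) (hbc : b ≠ c) :
    cc K X ψ a b c + cc K X ψ b c a + cc K X ψ c a b = 0 := by
  obtain ⟨d, e, hnd⟩ := exists_nodup5 hab hac hbc
  have t1 := PS_tri_comm hX hnd
  have t2 := PS_tri_comm hX (nodup5_rot hnd)
  have t3 := PS_tri_comm hX (nodup5_rot (nodup5_rot hnd))
  set T : g := X a b + X b c + X c a with hT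
  have T1 : ⁅T, X a b⁆ = 0 := by
    have : ⁅X a b, T⁆ = 0 := by
      rw [hT, lie_add, lie_add, lie_self, zero_add, t1]
    rw [← lie_skew, this, neg_zero]
  have T2 : ⁅T, X b c⁆ = 0 := by
    have : ⁅X b c, T⁆ = 0 := by
      rw [hT, lie_add, lie_add, lie_self, add_zero, add_comm, t2]
    rw [← lie_skew, this, neg_zero]
  have hm : ⁅T, -X a b - X b c⁆ = 0 := by
    rw [lie_sub, lie_neg, T1, T2, neg_zero, sub_zero]
  have h1 := congrArg (sb (X a b) (X b c)) h.hexa
  simp only [map_add, sb_sb, map_sub, map_neg, sb_x, sb_y, map_zero] at h1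
  have hca : X c a = (-X a b - X b c) + T := by rw [hT]; abel
  have s1 : sb (X b c) (X c a) ψ = sb (X b c) (-X a b - X b c) ψ := by
    have := sb_shift hn h.wt (a := X b c) (b := -X a b - X b c) (z := 0) (z' := T)
      (zero_lie _) (zero_lie _) T2 hm (zero_lie _)
    rw [add_zero] at this
    rw [hca]
    exact this
  have s2 : sb (X c a) (X a b) ψ = sb (-X a b - X b c) (X a b) ψ := by
    have := sb_shift hn h.wt (a := -X a b - X b c) (b := X a b) (z := T) (z' := 0)
      hm T1 (zero_lie _) (zero_lie _) (lie_zero _)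
    rw [add_zero] at this
    rw [hca]
    exact this
  unfold cc
  rw [s1, s2]
  exact h1

/- PS4 -/
theorem cc_penta {n : ℕ} {ψ : LK K} (h : Sol K n ψ) {X : Fin 5 → Fin 5 → g}
    (hX : PS X) (σ : Equiv.Perm (Fin 5)) :
    cc K X ψ (σ 0) (σ 1) (σ 2) + cc K X ψ (σ 1) (σ 2) (σ 3) + cc K X ψ (σ 2) (σ 3) (σ 4)
      + cc K X ψ (σ 3) (σ 4) (σ 0) + cc K X ψ (σ 4) (σ 0) (σ 1) = 0 :=
  h.penta g (fun i j => X (σ i) (σ j)) (PS_perm hX σ)

/- PS5 -/
theorem cc_comm {ψ : LK K} {X : Fin 5 → Fin 5 → g} (hX : PS X) {a b c d e : Fin 5}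
    (h : [a, b, c, d, e].Nodup) : ⁅X d e, cc K X ψ a b c⁆ = 0 := by
  simp only [List.nodup_cons, List.mem_cons, List.not_mem_nil, not_or, or_false, not_false_eq_true,
    List.nodup_nil, and_true] at h
  obtain ⟨⟨hab, hac, had, hae⟩, ⟨hbc, hbd, hbe⟩, ⟨hcd, hce⟩, hde⟩ := h
  exact lie_sb_zero
    (hX.comm d e a b hde (Ne.symm had) (Ne.symm hbd) (Ne.symm hae) (Ne.symm hbe) hab)
    (hX.comm d e b c hde (Ne.symm hbd) (Ne.symm hcd) (Ne.symm hbe) (Ne.symm hce) hbc) ψ

end

end Vale.Agent.P029.Low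
end
end
end

section

section

/-! P029 lower half, G2: the four-term relation of `G` in a `P5`-system. -/

noncomputable section

attribute [local instance 100] LieRing.ofAssociativeRing

namespace Vale.Agent.P029.Low

open Dbl


section
variable {K : Type} [CommRing K] {g : Type} [LieRing g] [LieAlgebra K g]

/-- A row of a `P5`-system. -/
theorem gf_row {X : Fin 5 → Fin 5 → g} (hX : PS X) {a b c d e : Fin 5}
    (h : [a, b, c, d, e].Nodup) : X a b + X a c + X a d + X a e = 0 := by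
  have hu : (Finset.univ : Finset (Fin 5)) = [a, b, c, d, e].toFinset := by
    symm
    apply Finset.eq_univ_of_card
    rw [List.toFinset_card_of_nodup h]
    simp
  have hs := hX.sum a
  rw [hu, List.sum_toFinset _ h] at hs
  simp only [List.map_cons, List.map_nil, List.sum_cons, List.sum_nil, hX.diag, zero_add,
    add_zero] at hs
  rw [← hs]
  abel

/-- `X_ab + X_bc + X_ca` commutes with `ψ(X_ab, X_bc)`. -/
theorem gf_tri {ψ : LK K} {X : Fin 5 → Fin 5 → g} (hX : PS X) {a b c d e : Fin 5}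
    (h : [a, b, c, d, e].Nodup) : ⁅X a b + X b c + X c a, cc K X ψ a b c⁆ = 0 := by
  have h1 : [c, a, b, d, e].Nodup := by
    revert h; simp only [List.nodup_cons, List.mem_cons, List.not_mem_nil, or_false, not_or,
      List.nodup_nil, not_false_eq_true, and_true]
    rintro ⟨⟨p1, p2, p3, p4⟩, ⟨p5, p6, p7⟩, ⟨p8, p9⟩, p10⟩
    exact ⟨⟨Ne.symm p2, Ne.symm p5, p8, p9⟩, ⟨p1, p3, p4⟩, ⟨p6, p7⟩, p10⟩
  have h2 : [a, b, c, d, e].Nodup := h
  simp only [List.nodup_cons, List.mem_cons, List.not_mem_nil, or_false, not_or,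
      List.nodup_nil, not_false_eq_true, and_true] at h
  obtain ⟨⟨p1, p2, p3, p4⟩, ⟨p5, p6, p7⟩, ⟨p8, p9⟩, p10⟩ := h
  have r1 := gf_row hX h1
  have r2 := gf_row hX h2
  have s1 : X b c + X c a = -(X c d + X c e) := by
    rw [hX.symm b c]
    have : X c a + X c b + X c d + X c e = (X c b + X c a) + (X c d + X c e) := by abel
    rw [this] at r1
    exact eq_neg_of_add_eq_zero_left r1
  have s2 : X a b + X c a = -(X a d + X a e) := by
    rw [hX.symm c a]
    have : X a b + X a c + X a d + X a e = (X a b + X a c) + (X a d + X a e) := by abel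
    rw [this] at r2
    exact eq_neg_of_add_eq_zero_left r2
  apply lie_sb_zero
  · have : X a b + X b c + X c a = X a b + -(X c d + X c e) := by rw [← s1]; abel
    rw [this, add_lie, lie_self, neg_lie, add_lie,
      hX.comm c d a b p8 (Ne.symm p2) (Ne.symm p5) (Ne.symm p3) (Ne.symm p6) p1,
      hX.comm c e a b p9 (Ne.symm p2) (Ne.symm p5) (Ne.symm p4) (Ne.symm p7) p1]
    simp
  · have : X a b + X b c + X c a = X b c + -(X a d + X a e) := by rw [← s2]; abel
    rw [this, add_lie, lie_self, neg_lie, add_lie,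
      hX.comm a d b c p3 p1 p2 (Ne.symm p6) (Ne.symm p8) p5,
      hX.comm a e b c p4 p1 p2 (Ne.symm p7) (Ne.symm p9) p5]
    simp

/-- G2. -/
theorem G_four {n : ℕ} (hn : 2 ≤ n) {ψ : LK K} (h : Sol K n ψ) {g : Type} [LieRing g]
    [LieAlgebra K g] {X : Fin 5 → Fin 5 → g} (hX : PS X) :
    GX K X ψ 2 3 4 - GX K X ψ 0 3 4 + GX K X ψ 0 1 4 - GX K X ψ 1 2 4 = 0 := by
  -- the values of `c`
  have hx : ∀ a b c : Fin 5, a ≠ b → a ≠ c → b ≠ c →
      cc K X ψ c a b = - cc K X ψ a b c - cc K X ψ b c a := by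
    intro a b c hab hac hbc
    have := cc_hexa hn h hX hab hac hbc
    rw [← sub_eq_zero, ← this]
    abel
  have P1 := cc_penta h hX 1
  have P2 := cc_penta h hX (Equiv.swap 3 4)
  have P3 := cc_penta h hX (Equiv.swap 2 4 * Equiv.swap 3 4)
  have e1 : (Equiv.swap 3 4 : Equiv.Perm (Fin 5)) 0 = 0 := by decide
  have e2 : (Equiv.swap 3 4 : Equiv.Perm (Fin 5)) 1 = 1 := by decide
  have e3 : (Equiv.swap 3 4 : Equiv.Perm (Fin 5)) 2 = 2 := by decide
  have e4 : (Equiv.swap 3 4 : Equiv.Perm (Fin 5)) 3 = 4 := by decide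
  have e5 : (Equiv.swap 3 4 : Equiv.Perm (Fin 5)) 4 = 3 := by decide
  have f1 : (Equiv.swap 2 4 * Equiv.swap 3 4 : Equiv.Perm (Fin 5)) 0 = 0 := by decide
  have f2 : (Equiv.swap 2 4 * Equiv.swap 3 4 : Equiv.Perm (Fin 5)) 1 = 1 := by decide
  have f3 : (Equiv.swap 2 4 * Equiv.swap 3 4 : Equiv.Perm (Fin 5)) 2 = 4 := by decide
  have f4 : (Equiv.swap 2 4 * Equiv.swap 3 4 : Equiv.Perm (Fin 5)) 3 = 2 := by decide
  have f5 : (Equiv.swap 2 4 * Equiv.swap 3 4 : Equiv.Perm (Fin 5)) 4 = 3 := by decide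
  rw [e1, e2, e3, e4, e5] at P2
  rw [f1, f2, f3, f4, f5] at P3
  simp only [Equiv.Perm.coe_one, id_eq] at P1
  rw [hx 0 1 4 (by decide) (by decide) (by decide)] at P1
  rw [cc_anti h hX 3 4 2, cc_anti h hX 0 3 4, hx 0 1 3 (by decide) (by decide) (by decide)] at P2
  rw [cc_anti h hX 2 4 1, hx 2 3 4 (by decide) (by decide) (by decide),
    hx 0 1 3 (by decide) (by decide) (by decide)] at P3
  unfold GX
  rw [cc_anti h hX 4 2 3, hx 2 3 4 (by decide) (by decide) (by decide),
    cc_anti h hX 4 0 3, hx 0 3 4 (by decide) (by decide) (by decide),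
    cc_anti h hX 4 0 1, hx 0 1 4 (by decide) (by decide) (by decide),
    cc_anti h hX 4 1 2, hx 1 2 4 (by decide) (by decide) (by decide)]
  -- the commutation relations
  have t012 := gf_tri (ψ := ψ) hX (a := 0) (b := 1) (c := 2) (d := 3) (e := 4) (by decide)
  have t013 := gf_tri (ψ := ψ) hX (a := 0) (b := 1) (c := 3) (d := 2) (e := 4) (by decide)
  have t130 := gf_tri (ψ := ψ) hX (a := 1) (b := 3) (c := 0) (d := 2) (e := 4) (by decide)
  have t034 := gf_tri (ψ := ψ) hX (a := 0) (b := 3) (c := 4) (d := 1) (e := 2) (by decide)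
  have t124 := gf_tri (ψ := ψ) hX (a := 1) (b := 2) (c := 4) (d := 0) (e := 3) (by decide)
  have t342 := gf_tri (ψ := ψ) hX (a := 3) (b := 4) (c := 2) (d := 0) (e := 1) (by decide)
  have c034 := cc_comm (ψ := ψ) hX (a := 0) (b := 3) (c := 4) (d := 1) (e := 2) (by decide)
  have c123 := cc_comm (ψ := ψ) hX (a := 1) (b := 2) (c := 3) (d := 0) (e := 4) (by decide)
  have c124 := cc_comm (ψ := ψ) hX (a := 1) (b := 2) (c := 4) (d := 0) (e := 3) (by decide)
  have c230 := cc_comm (ψ := ψ) hX (a := 2) (b := 3) (c := 0) (d := 1) (e := 4) (by decide)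
  have c342 := cc_comm (ψ := ψ) hX (a := 3) (b := 4) (c := 2) (d := 0) (e := 1) (by decide)
  have r0 := gf_row hX (a := 0) (b := 1) (c := 2) (d := 3) (e := 4) (by decide)
  have r1 := gf_row hX (a := 1) (b := 0) (c := 2) (d := 3) (e := 4) (by decide)
  have r3 := gf_row hX (a := 3) (b := 0) (c := 1) (d := 2) (e := 4) (by decide)
  have r4 := gf_row hX (a := 4) (b := 0) (c := 1) (d := 2) (e := 3) (by decide)
  rw [hX.symm 2 0] at t012
  rw [hX.symm 3 0] at t013 t130
  rw [hX.symm 4 0] at t034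
  rw [hX.symm 4 1] at t124
  rw [hX.symm 4 2, hX.symm 2 3] at t342
  rw [hX.symm 1 0] at r1
  rw [hX.symm 3 0, hX.symm 3 1, hX.symm 3 2] at r3
  rw [hX.symm 4 0, hX.symm 4 1, hX.symm 4 2, hX.symm 4 3] at r4
  rw [hX.symm 3 2] at t342
  generalize cc K X ψ 0 1 2 = u012 at *
  generalize cc K X ψ 0 1 3 = u013 at *
  generalize cc K X ψ 1 3 0 = v013 at *
  generalize cc K X ψ 0 3 4 = u034 at *
  generalize cc K X ψ 3 4 0 = v034 at *
  generalize cc K X ψ 1 2 3 = u123 at *
  generalize cc K X ψ 1 2 4 = u124 at *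
  generalize cc K X ψ 2 4 1 = v124 at *
  generalize cc K X ψ 2 3 4 = u234 at *
  generalize cc K X ψ 3 4 2 = v234 at *
  generalize cc K X ψ 2 3 0 = v023 at *
  generalize cc K X ψ 0 1 4 = u014 at *
  generalize cc K X ψ 1 4 0 = v014 at *
  calc _ = -⁅X 0 4, u012 + u123 + u234 + v034 + (-u014 - v014)⁆
        + ⁅X 1 2 - X 0 3, u012 + u124 + -v234 + -u034 + (-u013 - v013)⁆
        + ⁅X 1 4, u014 + -v124 + (-u234 - v234) + v023 + (-u013 - v013)⁆
        - ⁅X 0 1 + X 1 2 + X 0 2, u012⁆ + ⁅X 0 1 + X 0 2 + X 0 3 + X 0 4, u012⁆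
        - ⁅X 0 1 + X 1 3 + X 0 3, u013⁆ + ⁅X 0 1 + X 1 2 + X 1 3 + X 1 4, u013⁆
        - ⁅X 1 3 + X 0 3 + X 0 1, v013⁆ + ⁅X 0 1 + X 1 2 + X 1 3 + X 1 4, v013⁆
        + ⁅X 1 2, u034⁆ - ⁅X 0 3 + X 3 4 + X 0 4, u034⁆
        + ⁅X 0 4, u123⁆ + ⁅X 0 3, u124⁆ - ⁅X 1 2 + X 2 4 + X 1 4, u124⁆
        + ⁅X 0 4 + X 1 4 + X 2 4 + X 3 4, u234⁆ - ⁅X 1 4, v023⁆
        - ⁅X 0 1, v234⁆ + ⁅X 3 4 + X 2 4 + X 2 3, v234⁆ + ⁅X 0 1 + X 1 2 + X 1 3 + X 1 4, v234⁆
        - ⁅X 0 3 + X 1 3 + X 2 3 + X 3 4, v234⁆ := by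
        simp only [lie_add, lie_sub, lie_neg, add_lie, sub_lie]
        abel
    _ = 0 := by
        rw [P1, P2, P3, t012, t013, t130, t034, t124, t342, c034, c123, c124, c230, c342, r0, r1,
          r3, r4]
        simp

end

end Vale.Agent.P029.Low
end
end
end

section

section

/-! P029 lower half: a symmetric cocycle of weight at least two vanishes. -/

noncomputable section

attribute [local instance 100] LieRing.ofAssociativeRing

namespace Vale.Agent.P029.Low

open Vale.Agent.P029.Low.Dbl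

section
variable {K : Type} [CommRing K] {g : Type} [LieRing g] [LieAlgebra K g]

/-- The first component of a substitution of dual numbers. -/
theorem cz_re (a b a' b' : g) (χ : LK K) : (sb (mk a a') (mk b b') χ).re = sb a b χ := by
  have h := map_sb (reHom K g) (mk a a') (mk b b') χ
  simpa using h

/-- The `ε`-component of a substitution of dual numbers is additive. -/
theorem cz_add (a b a' b' a'' b'' : g) (χ : LK K) :
    (sb (mk a (a' + a'')) (mk b (b' + b'')) χ).ep =
      (sb (mk a a') (mk b b') χ).ep + (sb (mk a a'') (mk b b'') χ).ep := by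
  refine der_ext (sb a b)
    (d := (epHom K g).comp
      ((sb (mk a (a' + a'')) (mk b (b' + b'')) : LK K →ₗ⁅K⁆ Dbl g) : LK K →ₗ[K] Dbl g))
    (d' := (epHom K g).comp
      ((sb (mk a a') (mk b b') : LK K →ₗ⁅K⁆ Dbl g) : LK K →ₗ[K] Dbl g) +
      (epHom K g).comp ((sb (mk a a'') (mk b b'') : LK K →ₗ⁅K⁆ Dbl g) : LK K →ₗ[K] Dbl g))
    (fun u v => ?_) (fun u v => ?_) ?_ ?_ χ
  · change (sb (mk a (a' + a'')) (mk b (b' + b'')) ⁅u, v⁆).ep =
      ⁅sb a b u, (sb (mk a (a' + a'')) (mk b (b' + b'')) v).ep⁆ +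
        ⁅(sb (mk a (a' + a'')) (mk b (b' + b'')) u).ep, sb a b v⁆
    rw [LieHom.map_lie, ep_lie, cz_re, cz_re]
  · change (sb (mk a a') (mk b b') ⁅u, v⁆).ep + (sb (mk a a'') (mk b b'') ⁅u, v⁆).ep =
      ⁅sb a b u, (sb (mk a a') (mk b b') v).ep + (sb (mk a a'') (mk b b'') v).ep⁆ +
        ⁅(sb (mk a a') (mk b b') u).ep + (sb (mk a a'') (mk b b'') u).ep, sb a b v⁆
    rw [LieHom.map_lie, ep_lie, LieHom.map_lie, ep_lie]
    simp only [cz_re, lie_add, add_lie]
    abel
  · change (sb (mk a (a' + a'')) (mk b (b' + b'')) (kx K)).ep =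
      (sb (mk a a') (mk b b') (kx K)).ep + (sb (mk a a'') (mk b b'') (kx K)).ep
    simp
  · change (sb (mk a (a' + a'')) (mk b (b' + b'')) (ky K)).ep =
      (sb (mk a a') (mk b b') (ky K)).ep + (sb (mk a a'') (mk b b'') (ky K)).ep
    simp

/-- The `ε`-component vanishes if both `ε`-components of the arguments vanish. -/
theorem cz_zero (a b : g) (χ : LK K) : (sb (mk a 0) (mk b 0) χ).ep = 0 := by
  have h := cz_add a b 0 0 0 0 χ
  rw [add_zero] at h
  simpa using h

/-- Homogeneity. -/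
theorem cz_homog {n : ℕ} {χ : LK K} (hχ : χ ∈ wt2 K n) (a b : g) :
    (sb (mk a a) (mk b b) χ).ep = n • sb a b χ := by
  refine wt_induction (P := fun χ => (sb (mk a a) (mk b b) χ).ep = n • sb a b χ) ?_ (by simp)
    (fun u v hu hv => by rw [map_add, ep_add, hu, hv, map_add, smul_add])
    (fun c u hu => by rw [map_smul, ep_smul, hu, map_smul, smul_comm]) hχ
  intro t ht
  rw [sb_eval, sb_eval]
  have key : ∀ t : Tr (Fin 2), (t.eval ![mk a a, mk b b]).re = t.eval ![a, b] ∧
      (t.eval ![mk a a, mk b b]).ep = (t.wt (fun _ => 1)) • t.eval ![a, b] := by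
    intro t
    induction t with
    | leaf i =>
      fin_cases i
      · exact ⟨rfl, by simp [Tr.eval, Tr.wt]⟩
      · exact ⟨rfl, by simp [Tr.eval, Tr.wt]⟩
    | node u v hu hv =>
      obtain ⟨u1, u2⟩ := hu
      obtain ⟨v1, v2⟩ := hv
      refine ⟨?_, ?_⟩
      · change (⁅u.eval _, v.eval _⁆ : Dbl g).re = ⁅_, _⁆
        rw [re_lie, u1, v1]
      · change (⁅u.eval _, v.eval _⁆ : Dbl g).ep = (u.wt _ + v.wt _) • ⁅_, _⁆
        rw [ep_lie, u1, v1, u2, v2, lie_nsmul, nsmul_lie, add_smul]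
        abel
  rw [(key t).2, ht]

end

/-- A symmetric cocycle of weight at least two vanishes. -/
theorem cocycle_zero {K : Type} [Field K] [CharZero K] {n : ℕ} (hn : 2 ≤ n) {f : LK K}
    (hf : f ∈ wt2 K n)
    (hs : ∀ (g : Type) [LieRing g] [LieAlgebra K g] (a b : g), sb b a f = sb a b f)
    (hc : ∀ (g : Type) [LieRing g] [LieAlgebra K g] (x y z : g),
      sb y z f + sb x (y + z) f = sb x y f + sb (x + y) z f) : f = 0 := by
  have h0 : ∀ u : LK K, sb (mk u 0) (mk 0 u) f = 0 := fun u => by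
    refine sb_comm hn hf ?_
    ext <;> simp
  have h1 : ∀ x y : LK K, (sb (mk x 0) (mk y y) f).ep = (sb (mk (x + y) 0) (mk 0 y) f).ep := by
    intro x y
    have h := congrArg Dbl.ep (hc (Dbl (LK K)) (mk x 0) (mk y 0) (mk 0 y))
    have e1 : (mk y 0 + mk 0 y : Dbl (LK K)) = mk y y := by ext <;> simp
    have e2 : (mk x 0 + mk y 0 : Dbl (LK K)) = mk (x + y) 0 := by ext <;> simp
    rw [h0 y, e1, e2, zero_add, ep_add, cz_zero, zero_add] at h
    exact h
  have h2 : (sb (mk (kx K) (kx K)) (mk (ky K) 0) f).ep =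
      (sb (mk (kx K + ky K) 0) (mk 0 (kx K)) f).ep := by
    rw [← hs (Dbl (LK K)) (mk (kx K) (kx K)) (mk (ky K) 0), h1, add_comm (ky K)]
  have h3 := cz_add (kx K + ky K) 0 0 (ky K) 0 (kx K) f
  rw [add_zero, ← h1, ← h2, add_comm (ky K) (kx K), h0] at h3
  have h4 := cz_add (kx K) (ky K) 0 (ky K) (kx K) 0 f
  rw [add_zero, zero_add, cz_homog hf, sb_id] at h4
  rw [← h4, ep_zero] at h3
  have h5 : (n : K) • f = 0 := by
    rw [Nat.cast_smul_eq_nsmul]
    exact h3.symm
  rcases smul_eq_zero.1 h5 with h | h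
  · exact absurd h (by exact_mod_cast (by omega : n ≠ 0))
  · exact h

end Vale.Agent.P029.Low
end
end
end

section

section

/-!
# P029: every solution of the equations is a sum of homogeneous solutions
-/

noncomputable section

attribute [local instance 100] LieRing.ofAssociativeRing

namespace Vale.Agent.P029

namespace SolGraded

/-- The sum of all weight parts of `L`, as a Lie subalgebra. -/
def sub : LieSubalgebra ℚ L :=
  { (⨆ n, wtPart ℚ (fun _ : Fin 2 => 1) n : Submodule ℚ L) with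
    lie_mem' := by
      intro x y hx hy
      change x ∈ (⨆ n, wtPart ℚ (fun _ : Fin 2 => 1) n : Submodule ℚ L) at hx
      change y ∈ (⨆ n, wtPart ℚ (fun _ : Fin 2 => 1) n : Submodule ℚ L) at hy
      change ⁅x, y⁆ ∈ (⨆ n, wtPart ℚ (fun _ : Fin 2 => 1) n : Submodule ℚ L)
      have key : ∀ (m n : ℕ) (x y : L), x ∈ wtPart ℚ (fun _ : Fin 2 => 1) m →
          y ∈ wtPart ℚ (fun _ : Fin 2 => 1) n → ⁅x, y⁆ ∈ wtPart ℚ (fun _ : Fin 2 => 1) (m + n) := by
        intro m n x y hx hy
        induction hx using Submodule.span_induction with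
        | mem x h =>
          obtain ⟨t, ht, rfl⟩ := h
          induction hy using Submodule.span_induction with
          | mem y h =>
            obtain ⟨u, hu, rfl⟩ := h
            exact Submodule.subset_span ⟨Tr.node t u, by rw [Tr.wt, ht, hu], rfl⟩
          | zero => rw [lie_zero]; exact zero_mem _
          | add y z _ _ hy hz => rw [lie_add]; exact add_mem hy hz
          | smul c y _ hy => rw [lie_smul]; exact Submodule.smul_mem _ _ hy
        | zero => rw [zero_lie]; exact zero_mem _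
        | add x z _ _ hx hz => rw [add_lie]; exact add_mem hx hz
        | smul c x _ hx => rw [smul_lie]; exact Submodule.smul_mem _ _ hx
      induction hx using Submodule.iSup_induction' with
      | mem m x hx =>
        induction hy using Submodule.iSup_induction' with
        | mem n y hy => exact Submodule.mem_iSup_of_mem (m + n) (key m n x y hx hy)
        | zero => rw [lie_zero]; exact zero_mem _
        | add y z _ _ hy hz => rw [lie_add]; exact add_mem hy hz
      | zero => rw [zero_lie]; exact zero_mem _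
      | add x z _ _ hx hz => rw [add_lie]; exact add_mem hx hz }

theorem mem_all (a : L) : a ∈ (⨆ n, wtPart ℚ (fun _ : Fin 2 => 1) n : Submodule ℚ L) := by
  let g : L →ₗ⁅ℚ⁆ sub := FreeLieAlgebra.lift ℚ (fun k : Fin 2 =>
    (⟨FreeLieAlgebra.of ℚ k, Submodule.mem_iSup_of_mem 1
      (Submodule.subset_span ⟨Tr.leaf k, rfl, rfl⟩)⟩ : sub))
  have hg : sub.incl.comp g = LieHom.id := by
    apply FreeLieAlgebra.hom_ext
    intro k
    simp [g, FreeLieAlgebra.lift_of_apply]
  have h : (g a : L) = a := by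
    have := congrArg (fun φ : L →ₗ⁅ℚ⁆ L => φ a) hg
    exact this
  rw [← h]
  exact (g a).2

theorem comp_zero {V : Type} [AddCommGroup V] [Module ℚ V] (τ : Module.End ℚ V) (E : L →ₗ[ℚ] V)
    (hE : ∀ n, ∀ a ∈ wtPart ℚ (fun _ : Fin 2 => 1) n, τ (E a) = (2 : ℚ) ^ n • E a)
    (s : ℕ →₀ L) (hs : ∀ n, s n ∈ wtPart ℚ (fun _ : Fin 2 => 1) n)
    (h : E (s.sum fun _ x => x) = 0) (n : ℕ) : E (s n) = 0 := by
  have h1 := Module.End.eigenspaces_iSupIndep τ
  have h2 : iSupIndep (fun n : ℕ => Module.End.eigenspace τ ((2 : ℚ) ^ n)) :=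
    h1.comp (pow_right_injective₀ (by norm_num) (by norm_num))
  rw [Finsupp.sum, map_sum] at h
  have h3 := (iSupIndep_iff_finsetSum_eq_zero_imp_eq_zero _).mp h2 s.support
    (fun n => E (s n)) (fun n _ => Module.End.mem_eigenspace_iff.mpr (hE n _ (hs n))) h
  by_cases hn : n ∈ s.support
  · exact h3 n hn
  · rw [Finsupp.notMem_support_iff.mp hn, map_zero]

theorem scale {g : Type} [LieRing g] [LieAlgebra ℚ g] (τ : g →ₗ[ℚ] g)
    (hτ : ∀ u v, τ ⁅u, v⁆ = ⁅τ u, τ v⁆) (a b : g) (ha : τ a = (2 : ℚ) • a)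
    (hb : τ b = (2 : ℚ) • b) {n : ℕ} {ψ : L} (hψ : ψ ∈ wtPart ℚ (fun _ : Fin 2 => 1) n) :
    τ (subst a b ψ) = (2 : ℚ) ^ n • subst a b ψ := by
  have key : ∀ t : Tr (Fin 2), τ (subst a b (t.eval (FreeLieAlgebra.of ℚ))) =
      (2 : ℚ) ^ t.wt (fun _ : Fin 2 => 1) • subst a b (t.eval (FreeLieAlgebra.of ℚ)) := by
    intro t
    induction t with
    | leaf x =>
      simp only [subst, Tr.eval, Tr.wt, FreeLieAlgebra.lift_of_apply, pow_one]
      fin_cases x
      · exact ha
      · exact hb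
    | node u v hu hv =>
      rw [Tr.eval, Tr.wt, LieHom.map_lie, hτ, hu, hv, smul_lie, lie_smul, smul_smul, pow_add]
  induction hψ using Submodule.span_induction with
  | mem x h =>
    obtain ⟨t, rfl, rfl⟩ := h
    exact key t
  | zero => simp
  | add x y _ _ hx hy => rw [map_add, map_add, hx, hy, smul_add]
  | smul c x _ hx => rw [map_smul, map_smul, hx, smul_comm]

/-- the dilation of `L` -/
abbrev dilL : L →ₗ[ℚ] L := (Grade.dil : L →ₗ[ℚ] L)

theorem dilL_lie (u v : L) : dilL ⁅u, v⁆ = ⁅dilL u, dilL v⁆ := LieHom.map_lie _ _ _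

theorem dilL_x : dilL lx = (2 : ℚ) • lx := by
  change Grade.dil lx = _
  simp [Grade.dil, lx, FreeLieAlgebra.lift_of_apply]

theorem dilL_y : dilL ly = (2 : ℚ) • ly := by
  change Grade.dil ly = _
  simp [Grade.dil, ly, FreeLieAlgebra.lift_of_apply]

/-- the dilation of `FT` -/
def dilF : FT →ₗ⁅ℚ⁆ FT := FreeLieAlgebra.lift ℚ (fun i => (2 : ℚ) • FreeLieAlgebra.of ℚ i)

theorem dilF_tt (i j : Fin 4) : dilF (tt i j) = (2 : ℚ) • tt i j := by
  simp [dilF, tt, FreeLieAlgebra.lift_of_apply]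

theorem dilF_rel (r : FT) (h : T4Rel r) : dilF r ∈ T4Ideal := by
  have hr : r ∈ T4Ideal := LieSubmodule.subset_lieSpan h
  cases h with
  | diag i => rw [dilF_tt]; exact T4Ideal.smul_mem _ hr
  | symm i j => rw [map_sub, dilF_tt, dilF_tt, ← smul_sub]; exact T4Ideal.smul_mem _ hr
  | comm i j k l _ _ _ _ _ _ =>
    rw [LieHom.map_lie, dilF_tt, dilF_tt, smul_lie, lie_smul]
    exact T4Ideal.smul_mem _ (T4Ideal.smul_mem _ hr)
  | tri i j k _ _ _ =>
    rw [LieHom.map_lie, map_add, dilF_tt, dilF_tt, dilF_tt, ← smul_add, smul_lie, lie_smul]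
    exact T4Ideal.smul_mem _ (T4Ideal.smul_mem _ hr)

theorem dilF_ideal : T4Ideal ≤ LieIdeal.comap dilF T4Ideal := by
  rw [T4Ideal, LieSubmodule.lieSpan_le]
  intro r hr
  exact dilF_rel r hr

/-- the dilation of `T4` -/
def dilT : T4 →ₗ[ℚ] T4 :=
  Submodule.mapQ T4Ideal.toSubmodule T4Ideal.toSubmodule (dilF : FT →ₗ[ℚ] FT) dilF_ideal

theorem dilT_mk (u : FT) : dilT (LieSubmodule.Quotient.mk u) = LieSubmodule.Quotient.mk (dilF u) :=
  rfl

theorem mk_surj (u : T4) : ∃ v : FT, (LieSubmodule.Quotient.mk v : T4) = u :=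
  Submodule.Quotient.mk_surjective _ u

theorem dilT_lie (u v : T4) : dilT ⁅u, v⁆ = ⁅dilT u, dilT v⁆ := by
  obtain ⟨u, rfl⟩ := mk_surj u
  obtain ⟨v, rfl⟩ := mk_surj v
  rw [← LieSubmodule.Quotient.mk_bracket, dilT_mk, LieHom.map_lie, dilT_mk, dilT_mk,
    LieSubmodule.Quotient.mk_bracket]

theorem dilT_t4 (i j : Fin 4) : dilT (t4 i j) = (2 : ℚ) • t4 i j := by
  rw [t4, dilT_mk, dilF_tt]
  rfl

end SolGraded

open SolGraded

theorem comp_isSol (s : ℕ →₀ L) (hs : ∀ n, s n ∈ wtPart ℚ (fun _ : Fin 2 => 1) n)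
    (h : IsSol (s.sum fun _ x => x)) (n : ℕ) : IsSol (s n) := by
  obtain ⟨h1, h2, h3⟩ := h
  have sc2 : ∀ a b : L, dilL a = (2 : ℚ) • a → dilL b = (2 : ℚ) • b →
      dilL (a + b) = (2 : ℚ) • (a + b) := fun a b ha hb => by rw [map_add, ha, hb, smul_add]
  have hneg : dilL (-lx - ly) = (2 : ℚ) • (-lx - ly) := by
    rw [map_sub, map_neg, dilL_x, dilL_y, smul_sub, smul_neg]
  have t2 : ∀ a b : T4, dilT a = (2 : ℚ) • a → dilT b = (2 : ℚ) • b →
      dilT (a + b) = (2 : ℚ) • (a + b) := fun a b ha hb => by rw [map_add, ha, hb, smul_add]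
  have H : ∀ i j k l : Fin 4, dilT (t4 i j + t4 k l) = (2 : ℚ) • (t4 i j + t4 k l) :=
    fun i j k l => t2 _ _ (dilT_t4 _ _) (dilT_t4 _ _)
  refine ⟨?_, ?_, ?_⟩
  · refine comp_zero dilL ((subst lx ly : L →ₗ[ℚ] L) + (subst ly lx : L →ₗ[ℚ] L)) ?_ s hs h1 n
    intro n a ha
    change dilL (subst lx ly a + subst ly lx a) = (2 : ℚ) ^ n • (subst lx ly a + subst ly lx a)
    rw [map_add, scale dilL dilL_lie _ _ dilL_x dilL_y ha, scale dilL dilL_lie _ _ dilL_y dilL_x ha,
      smul_add]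
  · refine comp_zero dilL ((subst lx ly : L →ₗ[ℚ] L) + (subst ly (-lx - ly) : L →ₗ[ℚ] L) +
      (subst (-lx - ly) lx : L →ₗ[ℚ] L)) ?_ s hs h2 n
    intro n a ha
    change dilL (subst lx ly a + subst ly (-lx - ly) a + subst (-lx - ly) lx a) =
      (2 : ℚ) ^ n • (subst lx ly a + subst ly (-lx - ly) a + subst (-lx - ly) lx a)
    rw [map_add, map_add, scale dilL dilL_lie _ _ dilL_x dilL_y ha,
      scale dilL dilL_lie _ _ dilL_y hneg ha, scale dilL dilL_lie _ _ hneg dilL_x ha,
      smul_add, smul_add]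
  · have h4 := sub_eq_zero.mpr h3
    refine sub_eq_zero.mp (comp_zero dilT (((subst (t4 0 1) (t4 1 2 + t4 1 3) : L →ₗ[ℚ] T4) +
      (subst (t4 0 2 + t4 1 2) (t4 2 3) : L →ₗ[ℚ] T4)) - ((subst (t4 1 2) (t4 2 3) : L →ₗ[ℚ] T4) +
      (subst (t4 0 1 + t4 0 2) (t4 1 3 + t4 2 3) : L →ₗ[ℚ] T4) +
      (subst (t4 0 1) (t4 1 2) : L →ₗ[ℚ] T4))) ?_ s hs h4 n)
    intro n a ha
    change dilT (subst (t4 0 1) (t4 1 2 + t4 1 3) a + subst (t4 0 2 + t4 1 2) (t4 2 3) a -
      (subst (t4 1 2) (t4 2 3) a + subst (t4 0 1 + t4 0 2) (t4 1 3 + t4 2 3) a +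
        subst (t4 0 1) (t4 1 2) a)) = (2 : ℚ) ^ n • (subst (t4 0 1) (t4 1 2 + t4 1 3) a +
      subst (t4 0 2 + t4 1 2) (t4 2 3) a - (subst (t4 1 2) (t4 2 3) a +
        subst (t4 0 1 + t4 0 2) (t4 1 3 + t4 2 3) a + subst (t4 0 1) (t4 1 2) a))
    rw [map_sub, map_add, map_add, map_add,
      scale dilT dilT_lie _ _ (dilT_t4 _ _) (H _ _ _ _) ha,
      scale dilT dilT_lie _ _ (H _ _ _ _) (dilT_t4 _ _) ha,
      scale dilT dilT_lie _ _ (dilT_t4 1 2) (dilT_t4 2 3) ha,
      scale dilT dilT_lie _ _ (H _ _ _ _) (H _ _ _ _) ha,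
      scale dilT dilT_lie _ _ (dilT_t4 0 1) (dilT_t4 1 2) ha,
      smul_sub, smul_add, smul_add, smul_add]

/-- Every solution of the equations is a finite sum of homogeneous solutions. -/
theorem sol_mem_iSup (ψ : L) (h : IsSol ψ) : ψ ∈ (⨆ n, W n : Submodule ℚ L) := by
  obtain ⟨s, hs, rfl⟩ := (Submodule.mem_iSup_iff_exists_finsupp ..).mp (mem_all ψ)
  rw [Finsupp.sum]
  exact Submodule.sum_mem _ fun n _ => Submodule.mem_iSup_of_mem n ⟨hs n, comp_isSol s hs h n⟩

/-- If a linear map from `F` maps every `Fpart n` onto `W n`, then its range consists of all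
solutions. -/
theorem range_iff_isSol (f : F →ₗ[ℚ] L) (hf : ∀ n, (Fpart n).map f = W n) (ψ : L) :
    IsSol ψ ↔ ψ ∈ LinearMap.range f := by
  constructor
  · intro h
    have h1 : (⨆ n, W n : Submodule ℚ L) ≤ LinearMap.range f := by
      refine iSup_le fun n => ?_
      rw [← hf n]
      rintro _ ⟨a, _, rfl⟩
      exact ⟨a, rfl⟩
    exact h1 (sol_mem_iSup ψ h)
  · rintro ⟨a, rfl⟩
    let S : Submodule ℚ L :=
      { carrier := {ψ | IsSol ψ}
        add_mem' := by
          rintro a b ⟨h1, h2, h3⟩ ⟨k1, k2, k3⟩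
          refine ⟨?_, ?_, ?_⟩
          · have h := congrArg₂ (· + ·) h1 k1
            simp only [map_add, add_zero] at h ⊢
            rw [← h]; abel
          · have h := congrArg₂ (· + ·) h2 k2
            simp only [map_add, add_zero] at h ⊢
            rw [← h]; abel
          · have h := congrArg₂ (· + ·) h3 k3
            simp only [map_add] at h ⊢
            have e : ∀ a b c d : T4, a + b + (c + d) = a + c + (b + d) := fun a b c d => by abel
            rw [e, h]; abel
        zero_mem' := ⟨by simp, by simp, by simp⟩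
        smul_mem' := by
          rintro c a ⟨h1, h2, h3⟩
          refine ⟨?_, ?_, ?_⟩
          · simp only [map_smul, ← smul_add, h1, smul_zero]
          · simp only [map_smul, ← smul_add, h2, smul_zero]
          · simp only [map_smul, ← smul_add, h3] }
    have h1 : (⨆ n, Fpart n : Submodule ℚ F) ≤ S.comap f := by
      refine iSup_le fun n a ha => ?_
      have : f a ∈ W n := by rw [← hf n]; exact ⟨a, ha, rfl⟩
      exact this.2
    exact h1 (Grade.mem_all a)

end Vale.Agent.P029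
end
end
end

section

section

/-!
P029, part (D): the Knizhnik-Zamolodchikov associator, target statement.
-/

open scoped Classical

noncomputable section

namespace Vale.Agent.P029.KZ

/-- The word `w` (letters `false = a`, `true = b`) evaluated at `a, b`. -/
def wd {B : Type*} [Monoid B] (a b : B) (w : List Bool) : B :=
  (w.map fun c => if c then b else a).prod

/-- Every product of `N + 1` elements of `S` vanishes. -/
def NilS {B : Type*} [Ring B] (S : Set B) (N : ℕ) : Prop :=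
  ∀ l : List B, l.length = N + 1 → (∀ x ∈ l, x ∈ S) → l.prod = 0

/-- The finite set of words of length at most `N`. -/
def words (N : ℕ) : Finset (List Bool) :=
  (Finset.range (N + 1)).biUnion fun k => (Finset.univ : Finset (List.Vector Bool k)).image
    fun v => v.toList

lemma mem_words {N : ℕ} {w : List Bool} : w ∈ words N ↔ w.length ≤ N := by
  unfold words
  constructor
  · intro h
    obtain ⟨k, hk, v, -, rfl⟩ := by simpa using h
    simpa using (by omega : k ≤ N)
  · intro h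
    simp only [Finset.mem_biUnion, Finset.mem_range, Finset.mem_image, Finset.mem_univ, true_and]
    exact ⟨w.length, by omega, ⟨w, rfl⟩, rfl⟩

/-- The series with coefficients `φ`, truncated at length `N`, evaluated at `a, b`. -/
def evS {B : Type*} [Ring B] [Algebra ℂ B] (φ : List Bool → ℂ) (N : ℕ) (a b : B) : B :=
  ∑ w ∈ words N, φ w • wd a b w

/-- `exp (c a)` truncated at degree `N`. -/
def expT {B : Type*} [Ring B] [Algebra ℂ B] (N : ℕ) (c : ℂ) (a : B) : B :=
  ∑ k ∈ Finset.range (N + 1), (c ^ k / (k.factorial : ℂ)) • a ^ k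

/-- The infinitesimal braid relations on four strands. -/
structure T4 {B : Type*} [Ring B] (t12 t13 t14 t23 t24 t34 : B) : Prop where
  c1 : t12 * t34 = t34 * t12
  c2 : t13 * t24 = t24 * t13
  c3 : t14 * t23 = t23 * t14
  -- [t_ij, t_ik + t_jk] = 0 for the triples 123, 124, 134, 234
  a1 : t12 * (t13 + t23) = (t13 + t23) * t12
  a2 : t13 * (t12 + t23) = (t12 + t23) * t13
  a3 : t23 * (t12 + t13) = (t12 + t13) * t23
  b1 : t12 * (t14 + t24) = (t14 + t24) * t12
  b2 : t14 * (t12 + t24) = (t12 + t24) * t14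
  b3 : t24 * (t12 + t14) = (t12 + t14) * t24
  d1 : t13 * (t14 + t34) = (t14 + t34) * t13
  d2 : t14 * (t13 + t34) = (t13 + t34) * t14
  d3 : t34 * (t13 + t14) = (t13 + t14) * t34
  e1 : t23 * (t24 + t34) = (t24 + t34) * t23
  e2 : t24 * (t23 + t34) = (t23 + t34) * t24
  e3 : t34 * (t23 + t24) = (t23 + t24) * t34

/-- TARGET (D): the KZ associator. One real series `φ`; all identities hold in every complete
normed `ℂ`-algebra `B` at nilpotent arguments. -/
def Target : Prop :=
  ∃ φ : List Bool → ℝ, φ [] = 1 ∧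
    -- depth one coefficients (word `a^(n-1) b`)
    (∀ n : ℕ, 2 ≤ n → φ (List.replicate (n - 1) false ++ [true]) ≠ 0) ∧
    (∀ n : ℕ, 1 ≤ n → φ (List.replicate n false) = 0) ∧
    (∀ n : ℕ, 1 ≤ n → φ (List.replicate n true) = 0) ∧
    -- group-like
    (∀ (B : Type) [NormedRing B] [NormedAlgebra ℂ B] [CompleteSpace B] (N : ℕ)
      (a b a' b' : B), NilS {a, b, a', b'} N → a * a' = a' * a → a * b' = b' * a →
      b * a' = a' * b → b * b' = b' * b →
      evS (fun w => (φ w : ℂ)) N (a + a') (b + b')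
        = evS (fun w => (φ w : ℂ)) N a b * evS (fun w => (φ w : ℂ)) N a' b') ∧
    -- inversion
    (∀ (B : Type) [NormedRing B] [NormedAlgebra ℂ B] [CompleteSpace B] (N : ℕ) (a b : B),
      NilS {a, b} N →
      evS (fun w => (φ w : ℂ)) N b a * evS (fun w => (φ w : ℂ)) N a b = 1) ∧
    -- hexagons
    (∀ (B : Type) [NormedRing B] [NormedAlgebra ℂ B] [CompleteSpace B] (N : ℕ) (a b c : B),
      NilS {a, b} N → a + b + c = 0 → ∀ σ : ℂ, σ = 1 ∨ σ = -1 →
      expT N (σ * Complex.I * Real.pi) a * evS (fun w => (φ w : ℂ)) N c a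
        * expT N (σ * Complex.I * Real.pi) c * evS (fun w => (φ w : ℂ)) N b c
        * expT N (σ * Complex.I * Real.pi) b * evS (fun w => (φ w : ℂ)) N a b = 1) ∧
    -- pentagon
    (∀ (B : Type) [NormedRing B] [NormedAlgebra ℂ B] [CompleteSpace B] (N : ℕ)
      (t12 t13 t14 t23 t24 t34 : B), NilS {t12, t13, t14, t23, t24, t34} N →
      T4 t12 t13 t14 t23 t24 t34 →
      evS (fun w => (φ w : ℂ)) N t12 (t23 + t24) * evS (fun w => (φ w : ℂ)) N (t13 + t23) t34
        = evS (fun w => (φ w : ℂ)) N t23 t34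
          * evS (fun w => (φ w : ℂ)) N (t12 + t13) (t24 + t34)
          * evS (fun w => (φ w : ℂ)) N t12 t23)

end Vale.Agent.P029.KZ
end
end
end

section

section

/-! P029 lower half, EA: a pentagon identity valid in all associative algebras is valid in all Lie
algebras. No Poincaré-Birkhoff-Witt: `a + ε a'` acts on `g × K` by `(v, c) ↦ ([a, v] + c a', 0)`,
and for the system `X + ε X` the pentagon is `pent X ψ + ε n pent X ψ`. -/

noncomputable section

attribute [local instance 100] LieRing.ofAssociativeRing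

namespace Vale.Agent.P029.Low

open Dbl

section
variable (K : Type) [CommRing K] (g : Type) [LieRing g] [LieAlgebra K g]

/-- The representation of `g[ε]` on `g × K` given by the adjoint representation and the cocycle
`a + ε a' ↦ a'`. -/
def semiRho : Dbl g →ₗ⁅K⁆ Module.End K (g × K) where
  toFun a :=
    { toFun := fun v => (⁅a.re, v.1⁆ + v.2 • a.ep, 0)
      map_add' := fun v w => by
        ext
        · simp only [Prod.fst_add, Prod.snd_add, lie_add, add_smul]
          abel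
        · simp
      map_smul' := fun c v => by
        ext
        · simp only [Prod.smul_fst, Prod.smul_snd, lie_smul, smul_eq_mul, mul_smul, smul_add,
            RingHom.id_apply]
        · simp }
  map_add' a b := by
    apply LinearMap.ext
    intro v
    ext
    · change ⁅(a + b).re, v.1⁆ + v.2 • (a + b).ep
        = (⁅a.re, v.1⁆ + v.2 • a.ep) + (⁅b.re, v.1⁆ + v.2 • b.ep)
      rw [re_add, ep_add, add_lie, smul_add]
      abel
    · change (0 : K) = 0 + 0
      rw [add_zero]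
  map_smul' c a := by
    apply LinearMap.ext
    intro v
    ext
    · change ⁅(c • a).re, v.1⁆ + v.2 • (c • a).ep = c • (⁅a.re, v.1⁆ + v.2 • a.ep)
      rw [re_smul, ep_smul, smul_lie, smul_add, smul_comm]
    · change (0 : K) = c • 0
      rw [smul_zero]
  map_lie' {a b} := by
    apply LinearMap.ext
    intro v
    ext
    · change ⁅(⁅a, b⁆ : Dbl g).re, v.1⁆ + v.2 • (⁅a, b⁆ : Dbl g).ep
        = (⁅a.re, ⁅b.re, v.1⁆ + v.2 • b.ep⁆ + (0 : K) • a.ep)
          - (⁅b.re, ⁅a.re, v.1⁆ + v.2 • a.ep⁆ + (0 : K) • b.ep)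
      rw [re_lie, ep_lie, zero_smul, zero_smul, add_zero, add_zero, lie_add, lie_add, lie_smul,
        lie_smul, smul_add, lie_lie, ← lie_skew b.re a.ep, smul_neg]
      abel
    · change (0 : K) = 0 - 0
      rw [sub_zero]

end

section
variable {K : Type} [CommRing K] {g h : Type} [LieRing g] [LieAlgebra K g] [LieRing h]
  [LieAlgebra K h]

theorem semi_PS_map {X : Fin 5 → Fin 5 → g} (hX : PS X) (f : g →ₗ⁅K⁆ h) :
    PS (fun i j => f (X i j)) where
  diag i := by rw [hX.diag, map_zero]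
  symm i j := by rw [hX.symm i j]
  sum i := by rw [← map_sum, hX.sum, map_zero]
  comm i j k l h1 h2 h3 h4 h5 h6 := by
    rw [← LieHom.map_lie, hX.comm i j k l h1 h2 h3 h4 h5 h6, map_zero]

theorem semi_pent_map (f : g →ₗ⁅K⁆ h) (X : Fin 5 → Fin 5 → g) (ψ : LK K) :
    pent (fun i j => f (X i j)) ψ = f (pent X ψ) := by
  simp only [pent, map_add, map_sb]

theorem semi_PS_dbl {X : Fin 5 → Fin 5 → g} (hX : PS X) :
    PS (fun i j => Dbl.mk (X i j) (X i j)) where
  diag i := by ext <;> simp [hX.diag]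
  symm i j := by rw [hX.symm i j]
  sum i := by
    have e : ∀ s : Finset (Fin 5), ∑ j ∈ s, Dbl.mk (X i j) (X i j)
        = Dbl.mk (∑ j ∈ s, X i j) (∑ j ∈ s, X i j) := by
      intro s
      induction s using Finset.induction_on with
      | empty => rfl
      | insert a s ha ih => rw [Finset.sum_insert ha, Finset.sum_insert ha, ih]; rfl
    rw [e, hX.sum]; rfl
  comm i j k l h1 h2 h3 h4 h5 h6 := by
    have e := hX.comm i j k l h1 h2 h3 h4 h5 h6
    ext
    · rw [re_lie, re_mk, re_mk, e]; rfl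
    · rw [ep_lie, re_mk, re_mk, ep_mk, ep_mk, e, add_zero]; rfl

end

set_option linter.unusedVariables false in
/-- EA. -/
theorem penta_of_assoc {K : Type} [Field K] [CharZero K] {n : ℕ} (hn : 2 ≤ n) {ψ : LK K}
    (hψ : ψ ∈ wt2 K n) (hanti : ψ + sb (ky K) (kx K) ψ = 0)
    (h : ∀ (B : Type) [Ring B] [Algebra K B] (X : Fin 5 → Fin 5 → B), PS X → pent X ψ = 0)
    (g : Type) [LieRing g] [LieAlgebra K g] (X : Fin 5 → Fin 5 → g) (hX : PS X) :
    pent X ψ = 0 := by
  have h1 := h (Module.End K (g × K)) (fun i j => semiRho K g (Dbl.mk (X i j) (X i j)))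
    (semi_PS_map (semi_PS_dbl hX) (semiRho K g))
  rw [semi_pent_map (semiRho K g) (fun i j => Dbl.mk (X i j) (X i j)) ψ] at h1
  have h2 := congrArg (fun F : Module.End K (g × K) => (F (0, 1)).1) h1
  have h3 : ((semiRho K g (pent (fun i j => Dbl.mk (X i j) (X i j)) ψ)) (0, 1)).1
      = (pent (fun i j => Dbl.mk (X i j) (X i j)) ψ).ep := by
    change ⁅_, (0 : g)⁆ + (1 : K) • _ = _
    rw [lie_zero, zero_add, one_smul]
  have h4 : (pent (fun i j => Dbl.mk (X i j) (X i j)) ψ).ep = n • pent X ψ := by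
    simp only [pent, ep_add, cz_homog hψ, smul_add]
  have h5 : n • pent X ψ = 0 := by
    rw [← h4, ← h3]
    exact h2
  rw [← Nat.cast_smul_eq_nsmul K] at h5
  exact (smul_eq_zero.mp h5).resolve_left (Nat.cast_ne_zero.mpr (by omega))

end Vale.Agent.P029.Low
end
end
end

section

section

/-!
# P029: the centre of `F₂⟨x,w,z⟩` and the inner derivations `ψ(X₁, X₂)`
-/

noncomputable section

attribute [local instance 100] LieRing.ofAssociativeRing

namespace Vale.Agent.P029

namespace Theta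

theorem coeff_zero (a : KK) (h : ∀ b, a * b - b * a = 0) (c : Fin 3) (u : FreeMonoid (Fin 3)) :
    (FreeAlgebra.equivMonoidAlgebraFreeMonoid a).coeff (FreeMonoid.of c * u) = 0 := by
  obtain ⟨i, hi⟩ : ∃ i : Fin 3, i ≠ c := exists_ne c
  have h1 := sub_eq_zero.1 (h (FreeAlgebra.ι K2 i))
  have h2 := congrArg FreeAlgebra.equivMonoidAlgebraFreeMonoid h1
  have h3 : FreeAlgebra.equivMonoidAlgebraFreeMonoid (FreeAlgebra.ι K2 i) =
      MonoidAlgebra.single (FreeMonoid.of i) (1 : K2) := by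
    simp [FreeAlgebra.equivMonoidAlgebraFreeMonoid, MonoidAlgebra.of_apply]
  rw [map_mul, map_mul, h3] at h2
  have h4 := congrArg (fun f => MonoidAlgebra.coeff f (FreeMonoid.of c * u * FreeMonoid.of i)) h2
  beta_reduce at h4
  rw [MonoidAlgebra.coeff_mul_single_eq_coeff_mul (FreeMonoid.of c * u)
    (fun m' _ => mul_left_inj _), mul_one,
    MonoidAlgebra.coeff_single_mul_of_forall_mul_ne] at h4
  · exact h4
  · intro d hd
    have := congrArg (fun l => (FreeMonoid.toList l).head?) hd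
    simp only [FreeMonoid.toList_mul, FreeMonoid.toList_of,
      List.head?_cons, List.cons_append, Option.some.injEq] at this
    exact hi this

end Theta

/- K6 -/
theorem center_KK (a : KK) (h : ∀ b, a * b - b * a = 0) (h0 : FreeAlgebra.algebraMapInv a = 0) :
    a = 0 := by
  have h1 : FreeAlgebra.equivMonoidAlgebraFreeMonoid a =
      MonoidAlgebra.single 1 ((FreeAlgebra.equivMonoidAlgebraFreeMonoid a).coeff 1) := by
    ext w
    induction w using FreeMonoid.casesOn with
    | one => simp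
    | of_mul c u =>
      have hne : (FreeMonoid.of c * u) ≠ 1 := by
        intro hh
        have := congrArg FreeMonoid.length hh
        rw [FreeMonoid.length_mul, FreeMonoid.length_of, FreeMonoid.length_one] at this
        omega
      rw [Theta.coeff_zero a h c u, MonoidAlgebra.coeff_single, Finsupp.single_eq_of_ne hne]
  have h2 : a = algebraMap K2 KK ((FreeAlgebra.equivMonoidAlgebraFreeMonoid a).coeff 1) := by
    apply FreeAlgebra.equivMonoidAlgebraFreeMonoid.injective
    rw [AlgEquiv.commutes]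
    exact h1
  rw [h2] at h0 ⊢
  rw [AlgHom.commutes] at h0
  rw [show (FreeAlgebra.equivMonoidAlgebraFreeMonoid a).coeff 1 = 0 from h0, map_zero]

namespace Theta

theorem der_one {D : Module.End K2 KK} (hD : ∀ a b, D (a * b) = D a * b + a * D b) (r : K2) :
    D (algebraMap K2 KK r) = 0 := by
  have h1 : D 1 = 0 := by
    have := hD 1 1
    rw [mul_one, mul_one, one_mul] at this
    simpa using this
  rw [Algebra.algebraMap_eq_smul_one, map_smul, h1, smul_zero]

theorem der_ext {D E : Module.End K2 KK} (hD : ∀ a b, D (a * b) = D a * b + a * D b)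
    (hE : ∀ a b, E (a * b) = E a * b + a * E b) (h : ∀ i, D (FreeAlgebra.ι K2 i) =
      E (FreeAlgebra.ι K2 i)) (a : KK) : D a = E a := by
  induction a using FreeAlgebra.induction with
  | grade0 r => rw [der_one hD, der_one hE]
  | grade1 i => exact h i
  | mul a b ha hb => rw [hD, hE, ha, hb]
  | add a b ha hb => rw [map_add, map_add, ha, hb]

/-- `ad θ` -/
def inn (θ : KK) : Module.End K2 KK := LinearMap.mulLeft K2 θ - LinearMap.mulRight K2 θ

theorem inn_apply (θ a : KK) : inn θ a = θ * a - a * θ := rfl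

theorem inn_leib (θ a b : KK) : inn θ (a * b) = inn θ a * b + a * inn θ b := by
  simp only [inn_apply]; noncomm_ring

theorem Y0_eq {Y : Fin 5 → Module.End K2 KK} (hY : IsRep2 Y) : Y 0 = inn kx := by
  refine LinearMap.ext fun a => der_ext (hY.leib 0) (inn_leib kx) ?_ a
  intro i
  fin_cases i
  · change Y 0 kx = inn kx kx
    rw [hY.x0, inn_apply, sub_self]
  · exact hY.w0
  · exact hY.z0

theorem d_leib {Y : Fin 5 → Module.End K2 KK} (hY : IsRep2 Y) (a b : KK) :
    (Y 1 - Y 0) (a * b) = (Y 1 - Y 0) a * b + a * (Y 1 - Y 0) b := by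
  simp only [LinearMap.sub_apply, hY.leib]; noncomm_ring

theorem d_mem {Y : Fin 5 → Module.End K2 KK} (hY : IsRep2 Y) {θ : KK}
    (hθ : θ ∈ Algebra.adjoin K2 {kx, kz}) :
    (Y 1 - Y 0) θ ∈ Algebra.adjoin K2 {kx, kz} ∧
      FreeAlgebra.algebraMapInv ((Y 1 - Y 0) θ) = 0 := by
  induction hθ using Algebra.adjoin_induction with
  | mem x hx =>
    rcases hx with rfl | hx
    · have e : (Y 1 - Y 0) kx = kz := by
        rw [LinearMap.sub_apply, hY.x1, hY.x0, sub_zero]
      rw [e]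
      exact ⟨Algebra.subset_adjoin (by simp), by simp [kz, FreeAlgebra.algebraMapInv]⟩
    · have e : (Y 1 - Y 0) kz = 0 := by
        rw [LinearMap.sub_apply, hY.z1, hY.z0, sub_self]
      have hx' : x = kz := hx
      rw [hx', e]
      exact ⟨zero_mem _, map_zero _⟩
  | algebraMap r =>
    rw [der_one (d_leib hY)]
    exact ⟨zero_mem _, map_zero _⟩
  | add a b _ _ ha hb =>
    rw [map_add, map_add, ha.2, hb.2]
    exact ⟨add_mem ha.1 hb.1, add_zero _⟩
  | mul a b hha hhb ha hb =>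
    rw [d_leib hY, map_add, map_mul, map_mul, ha.2, hb.2]
    exact ⟨add_mem (mul_mem ha.1 hhb) (mul_mem hha hb.1), by simp⟩

theorem tree {Y : Fin 5 → Module.End K2 KK} (hY : IsRep2 Y) (t : Tr (Fin 2)) :
    ∃ θ ∈ Algebra.adjoin K2 {kx, kz}, ∃ e : K2, FreeAlgebra.algebraMapInv θ = 0 ∧
      (2 ≤ t.wt (fun _ => 1) → e = 0) ∧
      t.eval ![Y 0, Y 1] = inn θ + e • (Y 1 - Y 0) := by
  induction t with
  | leaf i =>
    have hk : (kx : KK) ∈ Algebra.adjoin K2 {kx, kz} := Algebra.subset_adjoin (by simp)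
    have h0 : FreeAlgebra.algebraMapInv (kx : KK) = 0 := by
      simp [kx, FreeAlgebra.algebraMapInv]
    refine ⟨kx, hk, if i = 0 then 0 else 1, h0, ?_, ?_⟩
    · intro h; simp [Tr.wt] at h
    · fin_cases i
      · simp [Tr.eval, Y0_eq hY]
      · simp [Tr.eval, Y0_eq hY]
  | node a b iha ihb =>
    obtain ⟨θ, hθ, e, h1, -, h3⟩ := iha
    obtain ⟨η, hη, f, k1, -, k3⟩ := ihb
    have dθ := d_mem hY hθ
    have dη := d_mem hY hη
    refine ⟨θ * η - η * θ - f • (Y 1 - Y 0) θ + e • (Y 1 - Y 0) η, ?_, 0, ?_, fun _ => rfl, ?_⟩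
    · exact add_mem (sub_mem (sub_mem (mul_mem hθ hη) (mul_mem hη hθ))
        (Subalgebra.smul_mem _ dθ.1 _)) (Subalgebra.smul_mem _ dη.1 _)
    · rw [map_add, map_sub, map_sub, map_mul, map_mul, map_smul, map_smul, dθ.2, dη.2, h1, k1]
      simp
    · have hl := d_leib hY
      generalize hd : Y 1 - Y 0 = d at *
      rw [Tr.eval, h3, k3, Ring.lie_def]
      refine LinearMap.ext fun a => ?_
      simp only [zero_smul, add_zero, LinearMap.sub_apply, Module.End.mul_apply,
        LinearMap.add_apply, LinearMap.smul_apply, inn_apply, map_add, map_sub, map_smul, hl,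
        smul_add, smul_sub, mul_add, mul_sub, add_mul, sub_mul, smul_mul_assoc, mul_smul_comm,
        ← mul_assoc]
      rw [smul_comm f e]
      abel

theorem lift_eval {X g : Type} [LieRing g] [LieAlgebra K2 g] (f : X → g) (t : Tr X) :
    FreeLieAlgebra.lift K2 f (t.eval (FreeLieAlgebra.of K2)) = t.eval f := by
  induction t with
  | leaf x => simp [Tr.eval]
  | node a b ha hb => rw [Tr.eval, LieHom.map_lie, ha, hb, Tr.eval]

end Theta

/- K5 -/
theorem rep2_theta {Y : Fin 5 → Module.End K2 KK} (hY : IsRep2 Y) {n : ℕ} (hn : 2 ≤ n)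
    {ψ : FreeLieAlgebra K2 (Fin 2)} (hψ : ψ ∈ wtPart K2 (fun _ : Fin 2 => 1) n) :
    ∃ θ ∈ Algebra.adjoin K2 {kx, kz}, FreeAlgebra.algebraMapInv θ = 0 ∧
      ∀ a : KK, (FreeLieAlgebra.lift K2 ![Y 0, Y 1] ψ) a = θ * a - a * θ := by
  refine Submodule.span_induction (p := fun ψ _ => ∃ θ ∈ Algebra.adjoin K2 {kx, kz},
    FreeAlgebra.algebraMapInv θ = 0 ∧
      ∀ a : KK, (FreeLieAlgebra.lift K2 ![Y 0, Y 1] ψ) a = θ * a - a * θ) ?_ ?_ ?_ ?_ hψ
  · rintro _ ⟨t, ht, rfl⟩
    obtain ⟨θ, h1, e, h2, h3, h4⟩ := Theta.tree hY t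
    refine ⟨θ, h1, h2, fun a => ?_⟩
    rw [Theta.lift_eval, h4, h3 (ht ▸ hn), zero_smul, add_zero, Theta.inn_apply]
  · exact ⟨0, zero_mem _, map_zero _, fun a => by simp⟩
  · rintro x y - - ⟨θ, h1, h2, h3⟩ ⟨η, k1, k2, k3⟩
    refine ⟨θ + η, add_mem h1 k1, by rw [map_add, h2, k2, add_zero], fun a => ?_⟩
    rw [map_add, LinearMap.add_apply, h3, k3]; noncomm_ring
  · rintro r x - ⟨θ, h1, h2, h3⟩
    refine ⟨r • θ, Subalgebra.smul_mem _ h1 _, by rw [map_smul, h2, smul_zero], fun a => ?_⟩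
    rw [map_smul, LinearMap.smul_apply, h3, smul_sub, smul_mul_assoc, mul_smul_comm]

end Vale.Agent.P029
end
end
end

section

section

/-!
# P029, K7: the elements `p_k, q_k, r_k` of `F₂⟨x,w,z⟩` are free
-/

noncomputable section

attribute [local instance 100] LieRing.ofAssociativeRing

namespace Vale.Agent.P029

namespace PQRFree

/-- The letters after eliminating `w`. -/
abbrev Y : Type := {b : Fin 3 // b ≠ 1} × ℕ

/-- The letters `p, q, r`. -/
abbrev I : Type := ℕ ⊕ (ℕ ⊕ ℕ)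

/-- `X k` corresponds to `ad w ^ k x`. -/
def X (k : ℕ) : FreeAlgebra K2 Y := FreeAlgebra.ι K2 (⟨0, by decide⟩, k)

/-- `Z k` corresponds to `ad w ^ k z`. -/
def Z (k : ℕ) : FreeAlgebra K2 Y := FreeAlgebra.ι K2 (⟨2, by decide⟩, k)

/-- `q_0 = X 0 ^ 2`, `q_(k+1) = [X 0, X (k+1)]`. -/
def Q : ℕ → FreeAlgebra K2 Y
  | 0 => X 0 * X 0
  | k + 1 => ⁅X 0, X (k + 1)⁆

/-- The generators in the free algebra on the letters `Y`. -/
def gen : I → FreeAlgebra K2 Y := Sum.elim (fun k => X (k + 1)) (Sum.elim Q Z)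

/-- Lazard elimination map. -/
def th : FreeAlgebra K2 Y →ₐ[K2] KK :=
  FreeAlgebra.lift K2 (fun q : Y => adIter (FreeAlgebra.ι K2 (1 : Fin 3))
    (FreeAlgebra.ι K2 (q.1 : Fin 3)) q.2)

theorem th_X (k : ℕ) : th (X k) = adIter kw kx k := by
  simp [th, X, kw, kx]

theorem th_Z (k : ℕ) : th (Z k) = adIter kw kz k := by
  simp [th, Z, kw, kz]

theorem th_Q (k : ℕ) : th (Q k) = qk k := by
  cases k with
  | zero => simp [Q, qk, th_X, adIter]
  | succ k =>
    simp only [Q, qk, LieRing.of_associative_ring_bracket, map_sub, map_mul, th_X, pk]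
    rfl

theorem th_gen : (th.comp (FreeAlgebra.lift K2 gen)) =
    FreeAlgebra.lift K2 (Sum.elim pk (Sum.elim qk rk)) := by
  apply FreeAlgebra.hom_ext
  funext i
  rcases i with k | k | k
  · simp [gen, th_X, pk]
  · simp [gen, th_Q]
  · simp [gen, th_Z, rk]

/-- the matrix of the letter `i`. -/
def mat : Y → Matrix (Fin 2) (Fin 2) (FreeAlgebra K2 I)
  | (⟨0, _⟩, 0) => !![0, 1; FreeAlgebra.ι K2 (Sum.inr (Sum.inl 0)), 0]
  | (⟨0, _⟩, k + 1) => !![FreeAlgebra.ι K2 (Sum.inl k), 0;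
      FreeAlgebra.ι K2 (Sum.inr (Sum.inl (k + 1))), FreeAlgebra.ι K2 (Sum.inl k)]
  | (⟨_, _⟩, k) => !![FreeAlgebra.ι K2 (Sum.inr (Sum.inr k)), 0; 0, 0]

/-- The representation. -/
def rho : FreeAlgebra K2 Y →ₐ[K2] Matrix (Fin 2) (Fin 2) (FreeAlgebra K2 I) :=
  FreeAlgebra.lift K2 mat

theorem rho_X0 : rho (X 0) = !![0, 1; FreeAlgebra.ι K2 (Sum.inr (Sum.inl 0)), 0] := by
  simp [rho, X, mat]

theorem rho_X (k : ℕ) : rho (X (k + 1)) = !![FreeAlgebra.ι K2 (Sum.inl k), 0;
      FreeAlgebra.ι K2 (Sum.inr (Sum.inl (k + 1))), FreeAlgebra.ι K2 (Sum.inl k)] := by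
  simp [rho, X, mat]

theorem rho_Z (k : ℕ) : rho (Z k) = !![FreeAlgebra.ι K2 (Sum.inr (Sum.inr k)), 0; 0, 0] := by
  simp [rho, Z, mat]

theorem add_self (a : FreeAlgebra K2 I) : a + a = 0 := by
  have : (2 : K2) = 0 := by decide
  have h : (2 : K2) • a = 0 := by rw [this, zero_smul]
  rwa [two_smul] at h

theorem sub_eq_add' (a b : FreeAlgebra K2 I) : a - b = a + b := by
  rw [sub_eq_add_neg, neg_eq_of_add_eq_zero_left (add_self b)]

theorem rho_gen (i : I) : rho (gen i) 0 1 = 0 ∧ rho (gen i) 0 0 = FreeAlgebra.ι K2 i := by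
  rcases i with k | k | k
  · simp [gen, rho_X]
  · cases k with
    | zero => simp [gen, Q, rho_X0, Matrix.mul_apply, Fin.sum_univ_two]
    | succ k =>
      simp [gen, Q, LieRing.of_associative_ring_bracket, rho_X0, rho_X, Matrix.mul_apply,
        Fin.sum_univ_two, Matrix.sub_apply]
  · simp [gen, rho_Z]

theorem rho_lift (f : FreeAlgebra K2 I) : rho (FreeAlgebra.lift K2 gen f) 0 1 = 0 ∧
    rho (FreeAlgebra.lift K2 gen f) 0 0 = f := by
  induction f using FreeAlgebra.induction with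
  | grade0 r =>
    rw [AlgHom.commutes, AlgHom.commutes]
    simp [Matrix.algebraMap_matrix_apply]
  | grade1 i => simpa using rho_gen i
  | mul a b ha hb =>
    simp only [map_mul, Matrix.mul_apply, Fin.sum_univ_two, ha.1, ha.2, hb.1, hb.2]
    simp
  | add a b ha hb =>
    simp only [map_add, Matrix.add_apply, ha.1, ha.2, hb.1, hb.2]
    simp

theorem aug_th (f : FreeAlgebra K2 Y) :
    FreeAlgebra.lift K2 (fun _ : Fin 3 => (0 : K2)) (th f) =
      FreeAlgebra.lift K2 (fun _ : Y => (0 : K2)) f := by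
  have h : (FreeAlgebra.lift K2 (fun _ : Fin 3 => (0 : K2))).comp th =
      FreeAlgebra.lift K2 (fun _ : Y => (0 : K2)) := by
    apply FreeAlgebra.hom_ext
    funext q
    obtain ⟨b, k⟩ := q
    cases k with
    | zero => simp [th, adIter]
    | succ k =>
      simp only [th, Function.comp_apply, AlgHom.coe_comp, FreeAlgebra.lift_ι_apply, adIter,
        LieRing.of_associative_ring_bracket, map_sub, map_mul]
      simp
  exact AlgHom.congr_fun h f

end PQRFree

open PQRFree

theorem pqr_free : Function.Injective (FreeAlgebra.lift K2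
    (Sum.elim pk (Sum.elim qk rk) : ℕ ⊕ (ℕ ⊕ ℕ) → KK)) := by
  rw [injective_iff_map_eq_zero]
  intro f hf
  rw [← th_gen] at hf
  have hf' : th (FreeAlgebra.lift K2 gen f) = 0 := hf
  have h0 : FreeAlgebra.lift K2 (fun _ : Y => (0 : K2)) (FreeAlgebra.lift K2 gen f) = 0 := by
    rw [← aug_th, hf', map_zero]
  have h1 := elim_injective K2 (1 : Fin 3) 0 (FreeAlgebra.lift K2 gen f) h0
    (by rw [zero_smul, zero_add]; exact hf')
  have h2 := (rho_lift f).2
  rw [h1.2, map_zero] at h2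
  exact h2.symm

end Vale.Agent.P029
end
end
end

section

section

/-!
# P029: exact Step 2
-/

noncomputable section

attribute [local instance 100] LieRing.ofAssociativeRing

namespace Vale.Agent.P029


namespace Step2x

lemma lift_eval {X : Type} {A : Type} [Ring A] [Algebra K2 A] (f : X → A) (t : Tr X) :
    FreeLieAlgebra.lift K2 f (t.eval (FreeLieAlgebra.of K2)) = t.eval f := by
  induction t with
  | leaf x => simp [Tr.eval]
  | node a b iha ihb => simp only [Tr.eval, LieHom.map_lie, iha, ihb]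

lemma eval_single {X : Type} {A : Type} [Ring A] [Algebra K2 A] (x0 : X) (f : X → A)
    (hf : ∀ x, x ≠ x0 → f x = 0) (t : Tr X) : ∃ c : K2, t.eval f = c • f x0 := by
  induction t with
  | leaf x =>
    by_cases h : x = x0
    · exact ⟨1, by rw [h, one_smul]; rfl⟩
    · exact ⟨0, by rw [zero_smul]; exact hf x h⟩
  | node a b iha ihb =>
    obtain ⟨c, hc⟩ := iha
    obtain ⟨d, hd⟩ := ihb
    refine ⟨0, ?_⟩
    simp only [Tr.eval, hc, hd, zero_smul, Ring.lie_def]
    rw [smul_mul_smul_comm, smul_mul_smul_comm, mul_comm d c, sub_self]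

end Step2x

open Step2x

theorem lie_single {X : Type} {w : X → ℕ} {n : ℕ} {Q : FreeLieAlgebra K2 X}
    (hQ : Q ∈ wtPart K2 w n) (x0 : X) (hx0 : w x0 ≠ n) {A : Type} [Ring A] [Algebra K2 A]
    (f : X → A) (hf : ∀ x, x ≠ x0 → f x = 0) : FreeLieAlgebra.lift K2 f Q = 0 := by
  unfold wtPart at hQ
  induction hQ using Submodule.span_induction with
  | mem a ha =>
    obtain ⟨t, ht, rfl⟩ := ha
    rw [lift_eval]
    cases t with
    | leaf x =>
      have hx : x ≠ x0 := by
        rintro rfl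
        exact hx0 ht
      exact hf x hx
    | node a b =>
      obtain ⟨c, hc⟩ := eval_single x0 f hf a
      obtain ⟨d, hd⟩ := eval_single x0 f hf b
      simp only [Tr.eval, hc, hd, Ring.lie_def]
      rw [smul_mul_smul_comm, smul_mul_smul_comm, mul_comm d c, sub_self]
  | zero => simp
  | add a b _ _ ha hb => rw [map_add, ha, hb, add_zero]
  | smul c a _ ha => rw [map_smul, ha, smul_zero]

namespace Step2x

lemma lift_toFree {X : Type} {A : Type} [Ring A] [Algebra K2 A] (f : X → A)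
    (G : FreeLieAlgebra K2 X) :
    FreeLieAlgebra.lift K2 f G = FreeAlgebra.lift K2 f (toFree K2 X G) := by
  have h : FreeLieAlgebra.lift K2 f =
      (AlgHom.toLieHom (FreeAlgebra.lift K2 f)).comp (toFree K2 X) := by
    apply FreeLieAlgebra.hom_ext
    intro x
    simp [toFree]
  rw [h]
  rfl

lemma lift_comp_lift {X Y A : Type} [Ring A] [Algebra K2 A] (g : Y → A)
    (f : X → FreeAlgebra K2 Y) (a : FreeAlgebra K2 X) :
    FreeAlgebra.lift K2 g (FreeAlgebra.lift K2 f a) =
      FreeAlgebra.lift K2 (fun x => FreeAlgebra.lift K2 g (f x)) a := by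
  have h : (FreeAlgebra.lift K2 g).comp (FreeAlgebra.lift K2 f) =
      FreeAlgebra.lift K2 (fun x => FreeAlgebra.lift K2 g (f x)) := by
    ext x
    simp
  rw [← h]
  rfl

lemma lift_id {X : Type} (a : FreeAlgebra K2 X) :
    FreeAlgebra.lift K2 (fun x => FreeAlgebra.ι K2 x) a = a := by
  have h : FreeAlgebra.lift K2 (fun x => FreeAlgebra.ι K2 x) = AlgHom.id K2 (FreeAlgebra K2 X) := by
    ext x
    simp
  rw [h]
  rfl

/-- An algebra homomorphism commutes with the evaluation of Lie polynomials. -/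
lemma map_lift {X : Type} {A B : Type} [Ring A] [Algebra K2 A] [Ring B] [Algebra K2 B]
    (φ : A →ₐ[K2] B) (f : X → A) (Q : FreeLieAlgebra K2 X) :
    φ (FreeLieAlgebra.lift K2 f Q) = FreeLieAlgebra.lift K2 (fun x => φ (f x)) Q := by
  have h : (AlgHom.toLieHom φ).comp (FreeLieAlgebra.lift K2 f) =
      FreeLieAlgebra.lift K2 (fun x => φ (f x)) := by
    apply FreeLieAlgebra.hom_ext
    intro x
    simp
  rw [← h]
  rfl

lemma lift_zero {X : Type} {A : Type} [Ring A] [Algebra K2 A] (Q : FreeLieAlgebra K2 X) :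
    FreeLieAlgebra.lift K2 (fun _ : X => (0 : A)) Q = 0 := by
  have h : FreeLieAlgebra.lift K2 (fun _ : X => (0 : A)) = 0 := by
    apply FreeLieAlgebra.hom_ext
    intro x
    simp
  rw [h]
  rfl

/-- The evaluation at inner derivations is inner. -/
lemma lift_inner {X : Type} {A : Type} [Ring A] [Algebra K2 A] (g : X → Module.End K2 A)
    (f : X → A) (h : ∀ x a, g x a = f x * a - a * f x) (Q : FreeLieAlgebra K2 X) (a : A) :
    (FreeLieAlgebra.lift K2 g Q) a =
      FreeLieAlgebra.lift K2 f Q * a - a * FreeLieAlgebra.lift K2 f Q := by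
  have e : FreeLieAlgebra.lift K2 g = (LieAlgebra.ad K2 A).comp (FreeLieAlgebra.lift K2 f) := by
    apply FreeLieAlgebra.hom_ext
    intro x
    apply LinearMap.ext
    intro a
    simp [h, Ring.lie_def]
  rw [e]
  simp [Ring.lie_def]

lemma Em_zero {A : Type} [Ring A] (a b : A) (h : a * a = 0) (m : ℕ) : Em a b m = 0 := by
  induction m with
  | zero => exact h
  | succ m ih =>
    unfold Em
    rw [ih]
    split_ifs <;> simp

lemma evE_of_sq {A : Type} [Ring A] [Algebra K2 A] (a b : A) (h : b * b = 0)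
    (P : FreeLieAlgebra K2 (ℕ ⊕ ℕ)) :
    evE a b P = FreeLieAlgebra.lift K2 (Em a b) (projA P) := by
  have e : evE a b = (FreeLieAlgebra.lift K2 (Em a b)).comp projA := by
    apply FreeLieAlgebra.hom_ext
    intro x
    rcases x with m | m
    · simp [evE, projA]
    · simp [evE, projA, Em_zero b a h]
  rw [e]
  rfl

lemma evE_zero {A : Type} [Ring A] [Algebra K2 A] (a b : A) (h : b * b = 0) (h' : a * a = 0)
    (P : FreeLieAlgebra K2 (ℕ ⊕ ℕ)) : evE a b P = 0 := by
  rw [evE_of_sq a b h]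
  have : Em a b = fun _ => 0 := funext fun m => Em_zero a b h' m
  rw [this, lift_zero]

lemma projA_mem {n : ℕ} {P : FreeLieAlgebra K2 (ℕ ⊕ ℕ)} (hP : P ∈ wtPart K2 wE n) :
    projA P ∈ wtPart K2 (fun m => m + 2) n := by
  have key : ∀ t : Tr (ℕ ⊕ ℕ), projA (t.eval (FreeLieAlgebra.of K2)) = 0 ∨
      ∃ t' : Tr ℕ, t'.wt (fun m => m + 2) = t.wt wE ∧
        projA (t.eval (FreeLieAlgebra.of K2)) = t'.eval (FreeLieAlgebra.of K2) := by
    intro t
    induction t with
    | leaf x =>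
      rcases x with m | m
      · exact Or.inr ⟨Tr.leaf m, rfl, by simp [Tr.eval, projA]⟩
      · exact Or.inl (by simp [Tr.eval, projA])
    | node a b iha ihb =>
      rcases iha with ha | ⟨a', ha', ha⟩
      · left; simp only [Tr.eval, LieHom.map_lie, ha, zero_lie]
      rcases ihb with hb | ⟨b', hb', hb⟩
      · left; simp only [Tr.eval, LieHom.map_lie, hb, lie_zero]
      · right
        exact ⟨Tr.node a' b', by simp only [Tr.wt, ha', hb'],
          by simp only [Tr.eval, LieHom.map_lie, ha, hb]⟩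
  unfold wtPart at hP
  induction hP using Submodule.span_induction with
  | mem a ha =>
    obtain ⟨t, ht, rfl⟩ := ha
    rcases key t with h | ⟨t', h1, h2⟩
    · rw [h]; exact zero_mem _
    · rw [h2]; exact Submodule.subset_span ⟨t', by rw [h1, ht], rfl⟩
  | zero => rw [map_zero]; exact zero_mem _
  | add a b _ _ ha hb => rw [map_add]; exact add_mem ha hb
  | smul c a _ ha => rw [map_smul]; exact Submodule.smul_mem _ _ ha

/-- Kill `w`. -/
def eta : KK →ₐ[K2] KK := FreeAlgebra.lift K2 ![kx, 0, kz]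

lemma eta_x : eta kx = kx := by
  show FreeAlgebra.lift K2 ![kx, 0, kz] (FreeAlgebra.ι K2 0) = kx
  simp

lemma eta_w : eta kw = 0 := by
  show FreeAlgebra.lift K2 ![kx, 0, kz] (FreeAlgebra.ι K2 1) = 0
  simp

lemma eta_z : eta kz = kz := by
  show FreeAlgebra.lift K2 ![kx, 0, kz] (FreeAlgebra.ι K2 2) = kz
  simp

lemma eta_pk (k : ℕ) : eta (pk k) = 0 := by
  show eta ⁅kw, adIter kw kx k⁆ = 0
  simp [Ring.lie_def, eta_w]

lemma eta_qk (k : ℕ) (hk : k ≠ 0) : eta (qk k) = 0 := by
  obtain ⟨k, rfl⟩ := Nat.exists_eq_succ_of_ne_zero hk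
  show eta ⁅kx, pk k⁆ = 0
  simp [Ring.lie_def, eta_pk]

lemma eta_rk (k : ℕ) (hk : k ≠ 0) : eta (rk k) = 0 := by
  obtain ⟨k, rfl⟩ := Nat.exists_eq_succ_of_ne_zero hk
  show eta ⁅kw, adIter kw kz k⁆ = 0
  simp [Ring.lie_def, eta_w]

lemma half_ne {m : ℕ} (h : Even m) (hm : m ≠ 0) : m / 2 ≠ 0 := by
  obtain ⟨r, rfl⟩ := h
  omega

lemma eta_eA (m : ℕ) (hm : m ≠ 0) : eta (eA m) = 0 := by
  unfold eA
  split_ifs with h
  · exact eta_qk _ (half_ne h hm)
  · exact eta_pk _

lemma eta_eB (m : ℕ) (hm : m ≠ 0) : eta (eB m) = 0 := by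
  unfold eB
  split_ifs with h
  · rw [map_add, eta_qk _ (half_ne h hm), eta_rk _ (half_ne h hm), add_zero]
  · exact eta_pk _

lemma eta_adjoin {θ : KK} (h : θ ∈ Algebra.adjoin K2 {kx, kz}) : eta θ = θ := by
  induction h using Algebra.adjoin_induction with
  | mem x hx =>
    rcases hx with rfl | hx
    · exact eta_x
    · rw [Set.mem_singleton_iff] at hx
      rw [hx]; exact eta_z
  | algebraMap r => exact eta.commutes r
  | add x y _ _ hx hy => rw [map_add, hx, hy]
  | mul x y _ _ hx hy => rw [map_mul, hx, hy]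

lemma inv_x : FreeAlgebra.algebraMapInv kx = (0 : K2) := by
  simp [kx, FreeAlgebra.algebraMapInv]

lemma inv_z : FreeAlgebra.algebraMapInv kz = (0 : K2) := by
  simp [kz, FreeAlgebra.algebraMapInv]

lemma inv_lie (a b : KK) : FreeAlgebra.algebraMapInv ⁅a, b⁆ = (0 : K2) := by
  rw [Ring.lie_def, map_sub, map_mul, map_mul, mul_comm, sub_self]

lemma inv_pk (k : ℕ) : FreeAlgebra.algebraMapInv (pk k) = (0 : K2) := inv_lie _ _

lemma inv_qk (k : ℕ) : FreeAlgebra.algebraMapInv (qk k) = (0 : K2) := by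
  cases k with
  | zero => rw [show qk 0 = kx * kx from rfl, map_mul, inv_x, zero_mul]
  | succ k => exact inv_lie _ _

lemma inv_rk (k : ℕ) : FreeAlgebra.algebraMapInv (rk k) = (0 : K2) := by
  cases k with
  | zero => exact inv_z
  | succ k => exact inv_lie _ _

lemma inv_eA (m : ℕ) : FreeAlgebra.algebraMapInv (eA m) = (0 : K2) := by
  unfold eA
  split_ifs
  · exact inv_qk _
  · exact inv_pk _

lemma inv_eB (m : ℕ) : FreeAlgebra.algebraMapInv (eB m) = (0 : K2) := by
  unfold eB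
  split_ifs
  · rw [map_add, inv_qk, inv_rk, add_zero]
  · exact inv_pk _

end Step2x

theorem step2x {n : ℕ} (hn : 3 ≤ n) {ψ : FreeLieAlgebra K2 (Fin 2)}
    (hψ : ψ ∈ wtPart K2 (fun _ : Fin 2 => 1) n) (hanti : Anti ψ) (h5 : FiveAll ψ)
    {P : FreeLieAlgebra K2 (ℕ ⊕ ℕ)} (hP : P ∈ wtPart K2 wE n)
    (hψP : ∀ {A : Type} [Ring A] [Algebra K2 A] (a b : A),
      FreeLieAlgebra.lift K2 ![a, b] ψ = evE a b P) :
    killEven (toFree K2 ℕ (projA P)) = toFree K2 ℕ (projA P) := by
  obtain ⟨Y, hY⟩ := exists_rep2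
  obtain ⟨s2, s3, s4⟩ := rep2_sq hY
  have hfive := h5 (Module.End K2 KK) Y (rep2_P5 hY)
  unfold Five at hfive
  rw [Fin.sum_univ_five] at hfive
  have t1 : FreeLieAlgebra.lift K2 ![Y 1, Y 2] ψ =
      FreeLieAlgebra.lift K2 (Em (Y 1) (Y 2)) (projA P) := by
    rw [hψP, evE_of_sq _ _ s2]
  have t2 : FreeLieAlgebra.lift K2 ![Y 2, Y 3] ψ = 0 := by
    rw [hψP, evE_zero _ _ s3 s2]
  have t3 : FreeLieAlgebra.lift K2 ![Y 3, Y 4] ψ = 0 := by
    rw [hψP, evE_zero _ _ s4 s3]
  have t4 : FreeLieAlgebra.lift K2 ![Y 4, Y 0] ψ =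
      - FreeLieAlgebra.lift K2 (Em (Y 0) (Y 4)) (projA P) := by
    have h := congrArg (FreeAlgebra.lift K2 ![Y 0, Y 4]) hanti
    rw [map_add, map_zero, map_lift, map_lift] at h
    have e1 : (fun x => FreeAlgebra.lift K2 ![Y 0, Y 4]
        (![FreeAlgebra.ι K2 (0 : Fin 2), FreeAlgebra.ι K2 1] x)) = ![Y 0, Y 4] := by
      funext x
      fin_cases x <;> simp
    have e2 : (fun x => FreeAlgebra.lift K2 ![Y 0, Y 4]
        (![FreeAlgebra.ι K2 (1 : Fin 2), FreeAlgebra.ι K2 0] x)) = ![Y 4, Y 0] := by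
      funext x
      fin_cases x <;> simp
    rw [e1, e2, hψP (Y 0) (Y 4), evE_of_sq _ _ s4] at h
    exact eq_neg_of_add_eq_zero_right h
  obtain ⟨θ, hθ, hθ0, hθad⟩ := rep2_theta hY (by omega) hψ
  set Q := projA P with hQ
  set LA := FreeLieAlgebra.lift K2 eA Q with hLA
  set LB := FreeLieAlgebra.lift K2 eB Q with hLB
  have hcen : θ + LB - LA = 0 := by
    apply center_KK
    · intro a
      have h := congrArg (fun F : Module.End K2 KK => F a) hfive
      have hA := lift_inner (Em (Y 0) (Y 4)) eA (fun m a => (rep2_E hY m a).1) Q a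
      have hB := lift_inner (Em (Y 1) (Y 2)) eB (fun m a => (rep2_E hY m a).2) Q a
      have i0 : (0 : Fin 5) + 1 = 1 := rfl
      have i1 : (1 : Fin 5) + 1 = 2 := rfl
      have i2 : (2 : Fin 5) + 1 = 3 := rfl
      have i3 : (3 : Fin 5) + 1 = 4 := rfl
      have i4 : (4 : Fin 5) + 1 = 0 := rfl
      rw [i0, i1, i2, i3, i4, t1, t2, t3, t4] at h
      simp only [LinearMap.add_apply, LinearMap.neg_apply, LinearMap.zero_apply, hA, hB,
        hθad] at h
      rw [← hLA, ← hLB] at h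
      rw [← h]
      noncomm_ring
    · have hA0 : FreeAlgebra.algebraMapInv LA = (0 : K2) := by
        rw [hLA]
        have := map_lift (FreeAlgebra.algebraMapInv (R := K2) (X := Fin 3)) eA Q
        rw [this]
        simp only [inv_eA]
        exact lift_zero Q
      have hB0 : FreeAlgebra.algebraMapInv LB = (0 : K2) := by
        rw [hLB]
        have := map_lift (FreeAlgebra.algebraMapInv (R := K2) (X := Fin 3)) eB Q
        rw [this]
        simp only [inv_eB]
        exact lift_zero Q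
      rw [map_sub, map_add, hθ0, hA0, hB0]
      simp
  have hQn := projA_mem hP
  have h02 : (fun m : ℕ => m + 2) 0 ≠ n := by
    show 0 + 2 ≠ n
    omega
  have hetaA : eta LA = 0 := by
    rw [hLA, map_lift]
    exact lie_single hQn 0 h02 _ (fun x hx => eta_eA x hx)
  have hetaB : eta LB = 0 := by
    rw [hLB, map_lift]
    exact lie_single hQn 0 h02 _ (fun x hx => eta_eB x hx)
  have hθz : θ = 0 := by
    have h := congrArg eta hcen
    rw [map_sub, map_add, hetaA, hetaB, map_zero, eta_adjoin hθ] at h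
    simpa using h
  have hAB : LB = LA := by
    rw [hθz, zero_add] at hcen
    exact sub_eq_zero.mp hcen
  rw [hLA, hLB, lift_toFree, lift_toFree] at hAB
  set A := toFree K2 ℕ Q with hA
  set ι' : ℕ ⊕ (ℕ ⊕ ℕ) → FreeAlgebra K2 (ℕ ⊕ (ℕ ⊕ ℕ)) := FreeAlgebra.ι K2 with hι'
  set εA : ℕ → FreeAlgebra K2 (ℕ ⊕ (ℕ ⊕ ℕ)) := fun m =>
    if Even m then ι' (Sum.inr (Sum.inl (m / 2))) else ι' (Sum.inl (m / 2)) with hεA
  set εB : ℕ → FreeAlgebra K2 (ℕ ⊕ (ℕ ⊕ ℕ)) := fun m =>
    if Even m then ι' (Sum.inr (Sum.inl (m / 2))) + ι' (Sum.inr (Sum.inr (m / 2)))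
    else ι' (Sum.inl (m / 2)) with hεB
  have hinj : FreeAlgebra.lift K2 εB A = FreeAlgebra.lift K2 εA A := by
    apply pqr_free
    rw [lift_comp_lift, lift_comp_lift]
    have a1 : (fun x => FreeAlgebra.lift K2
        (Sum.elim pk (Sum.elim qk rk) : ℕ ⊕ (ℕ ⊕ ℕ) → KK) (εB x)) = eB := by
      funext m
      by_cases h : Even m <;> simp [hεB, hι', eB, h]
    have a2 : (fun x => FreeAlgebra.lift K2
        (Sum.elim pk (Sum.elim qk rk) : ℕ ⊕ (ℕ ⊕ ℕ) → KK) (εA x)) = eA := by
      funext m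
      by_cases h : Even m <;> simp [hεA, hι', eA, h]
    rw [a1, a2]
    exact hAB
  set κ : ℕ ⊕ (ℕ ⊕ ℕ) → FreeAlgebra K2 ℕ := Sum.elim (fun k => FreeAlgebra.ι K2 (2 * k + 1))
    (Sum.elim (fun _ => 0) (fun k => FreeAlgebra.ι K2 (2 * k))) with hκ
  have hfin := congrArg (FreeAlgebra.lift K2 κ) hinj
  rw [lift_comp_lift, lift_comp_lift] at hfin
  have b1 : (fun x => FreeAlgebra.lift K2 κ (εB x)) = fun x => FreeAlgebra.ι K2 x := by
    funext m
    by_cases h : Even m
    · have hm : 2 * (m / 2) = m := Nat.two_mul_div_two_of_even h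
      simp [hεB, hι', hκ, h, hm]
    · have hm : 2 * (m / 2) + 1 = m := Nat.two_mul_div_two_add_one_of_odd (Nat.not_even_iff_odd.mp h)
      simp [hεB, hι', hκ, h, hm]
  have b2 : (fun x => FreeAlgebra.lift K2 κ (εA x)) =
      fun m => if Even m then 0 else FreeAlgebra.ι K2 m := by
    funext m
    by_cases h : Even m
    · simp [hεA, hι', hκ, h]
    · have hm : 2 * (m / 2) + 1 = m := Nat.two_mul_div_two_add_one_of_odd (Nat.not_even_iff_odd.mp h)
      simp [hεA, hι', hκ, h, hm]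
  rw [b1, b2, lift_id] at hfin
  exact hfin.symm

end Vale.Agent.P029
end
end
end

section

section

/-!
# P029: triangularity (leading words)
-/

noncomputable section

attribute [local instance 100] LieRing.ofAssociativeRing

namespace Vale.Agent.P029

namespace Triangular

/-- The free algebra lift through the coefficients. -/
theorem lift_eq {A : Type} [Ring A] [Algebra K2 A] {I : Type} (g : I → A)
    (Q : FreeAlgebra K2 I) :
    FreeAlgebra.lift K2 g Q = (FreeAlgebra.equivMonoidAlgebraFreeMonoid Q).coeff.sum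
      fun l b => b • ((FreeMonoid.toList l).map g).prod := by
  have h : FreeAlgebra.lift K2 g = (MonoidAlgebra.lift K2 A (FreeMonoid I)
      (FreeMonoid.lift g)).comp (FreeAlgebra.equivMonoidAlgebraFreeMonoid :
        FreeAlgebra K2 I ≃ₐ[K2] _).toAlgHom := by
    ext x
    simp [FreeAlgebra.equivMonoidAlgebraFreeMonoid]
  rw [h, AlgHom.comp_apply, MonoidAlgebra.lift_apply]
  simp only [FreeMonoid.lift_apply]
  rfl

variable {S : Fin 3 → Bool} {c : List (Fin 3) → (QA S →ₗ[K2] K2)} (hc : IsCoef S c)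
  {I : Type} (g : I → QA S) (v : I → List (Fin 3))

include hc in
theorem split {w : List (Fin 3)} {a b : QA S} (h : c w (a * b) ≠ 0) :
    ∃ w1 w2, w = w1 ++ w2 ∧ c w1 a ≠ 0 ∧ c w2 b ≠ 0 := by
  have hn : nrm S w = true := by
    by_contra hn
    rw [hc.nonnormal w (by simpa using hn)] at h
    exact h rfl
  rw [hc.mul w hn] at h
  obtain ⟨k, -, hk⟩ := Finset.exists_ne_zero_of_sum_ne_zero h
  exact ⟨w.take k, w.drop k, (List.take_append_drop k w).symm, left_ne_zero_of_mul hk,
    right_ne_zero_of_mul hk⟩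

include hc in
theorem count_le (h2 : ∀ i w, c w (g i) ≠ 0 → 1 ≤ w.count 0) (l : List I) :
    ∀ w, c w ((l.map g).prod) ≠ 0 → l.length ≤ w.count 0 := by
  induction l with
  | nil => intro w _; exact Nat.zero_le _
  | cons i l ih =>
    intro w hw
    rw [List.map_cons, List.prod_cons] at hw
    obtain ⟨w1, w2, rfl, h1, h3⟩ := split hc hw
    have e1 := h2 i w1 h1
    have e2 := ih w2 h3
    rw [List.count_append, List.length_cons]
    omega

theorem count_ell (h0 : ∀ i, (0 : Fin 3) ∉ v i) (l : List I) :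
    (l.flatMap fun i => 0 :: v i).count 0 = l.length := by
  induction l with
  | nil => rfl
  | cons i l ih =>
    rw [List.flatMap_cons, List.count_append, ih, List.count_cons_self,
      List.count_eq_zero_of_not_mem (h0 i), List.length_cons]
    omega

include hc in
theorem coef_self (h1 : ∀ i, c (0 :: v i) (g i) = 1)
    (h2 : ∀ i w, c w (g i) ≠ 0 → w.length = (v i).length + 1)
    (h4 : ∀ l : List I, nrm S (l.flatMap fun i => 0 :: v i) = true) (l : List I) :
    c (l.flatMap fun i => 0 :: v i) ((l.map g).prod) = 1 := by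
  induction l with
  | nil => simp [hc.one]
  | cons i l ih =>
    rw [List.map_cons, List.prod_cons, hc.mul _ (h4 (i :: l)),
      Finset.sum_eq_single ((v i).length + 1)]
    · have e1 : ((i :: l).flatMap fun i => 0 :: v i).take ((v i).length + 1) = 0 :: v i := by
        rw [List.flatMap_cons, List.take_append_of_le_length (by simp)]
        exact List.take_of_length_le (by simp)
      have e2 : ((i :: l).flatMap fun i => 0 :: v i).drop ((v i).length + 1) =
          l.flatMap fun i => 0 :: v i := by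
        rw [List.flatMap_cons]
        exact List.drop_left' (by simp)
      rw [e1, e2, h1, ih, one_mul]
    · intro k hk hne
      by_contra h
      have h' := h2 i _ (left_ne_zero_of_mul h)
      rw [Finset.mem_range] at hk
      rw [List.length_take] at h'
      omega
    · intro h
      exfalso
      apply h
      rw [Finset.mem_range, List.flatMap_cons, List.length_append, List.length_cons]
      omega

include hc in
theorem coef_other (h0 : ∀ i, (0 : Fin 3) ∉ v i)
    (h2 : ∀ i w, c w (g i) ≠ 0 → w.length = (v i).length + 1 ∧ 1 ≤ w.count 0 ∧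
      (w = 0 :: v i ∨ 2 ≤ w.count 0 ∨ w.head? ≠ some 0))
    (h5 : Function.Injective v) (l : List I) : ∀ l' : List I, l'.length = l.length →
      c (l.flatMap fun i => 0 :: v i) ((l'.map g).prod) ≠ 0 →
        l' = l ∨ l'.map (fun i => (v i).length) < l.map (fun i => (v i).length) := by
  induction l with
  | nil =>
    intro l' hl _
    left
    exact List.length_eq_zero_iff.mp hl
  | cons i l ih =>
    intro l' hl hne
    cases l' with
    | nil => simp at hl
    | cons i' l' =>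
      rw [List.map_cons, List.prod_cons] at hne
      obtain ⟨w1, w2, hw, hw1, hw2⟩ := split hc hne
      have hcl := count_ell v h0 (i :: l)
      rw [hw, List.count_append] at hcl
      have hc2 := count_le hc g (fun i w h => (h2 i w h).2.1) l' w2 hw2
      obtain ⟨hlen, hc1, h3⟩ := h2 i' w1 hw1
      simp only [List.length_cons] at hl hcl
      have hw0 : w1 = 0 :: v i' := by
        rcases h3 with h3 | h3 | h3
        · exact h3
        · omega
        · exfalso
          apply h3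
          cases w1 with
          | nil => simp at hlen
          | cons x w1 =>
            rw [List.flatMap_cons, List.cons_append, List.cons_append] at hw
            rw [List.head?_cons, ← (List.cons.inj hw).1]
      subst hw0
      rw [List.flatMap_cons, List.cons_append, List.cons_append] at hw
      have hw' := (List.cons.inj hw).2
      simp only [List.map_cons, List.cons_lt_cons_iff]
      rcases lt_trichotomy (v i').length (v i).length with hlt | heq | hgt
      · right; left; exact hlt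
      · obtain ⟨e1, e2⟩ := List.append_inj hw' heq.symm
        have e3 : i' = i := h5 e1.symm
        subst e3
        rw [← e2] at hw2
        rcases ih l' (by omega) hw2 with h | h
        · left; rw [h]
        · right; right; exact ⟨rfl, h⟩
      · exfalso
        rcases List.append_eq_append_iff.mp hw' with ⟨u, hu, hu'⟩ | ⟨u, hu, hu'⟩
        · -- v i' = v i ++ u, flatMap = u ++ w2
          cases u with
          | nil => rw [hu, List.append_nil] at hgt; exact lt_irrefl _ hgt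
          | cons x u =>
            cases l with
            | nil => simp at hu'
            | cons j l =>
              rw [List.flatMap_cons, List.cons_append, List.cons_append] at hu'
              have hx := (List.cons.inj hu').1
              apply h0 i'
              rw [hu, ← hx]
              simp
        · rw [hu, List.length_append] at hgt
          omega

end Triangular

open Triangular in
theorem triangular {S : Fin 3 → Bool} {c : List (Fin 3) → (QA S →ₗ[K2] K2)} (hc : IsCoef S c)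
    {I : Type} (g : I → QA S) (v : I → List (Fin 3)) (h0 : ∀ i, (0 : Fin 3) ∉ v i)
    (h1 : ∀ i, c (0 :: v i) (g i) = 1)
    (h2 : ∀ i w, c w (g i) ≠ 0 → w.length = (v i).length + 1 ∧ 1 ≤ w.count 0 ∧
      (w = 0 :: v i ∨ 2 ≤ w.count 0 ∨ w.head? ≠ some 0))
    (h4 : ∀ l : List I, nrm S (l.flatMap fun i => 0 :: v i) = true)
    (h5 : Function.Injective v) (Q : FreeAlgebra K2 I) (hQ : Q ≠ 0) :
    ∃ l : List I, cf l Q ≠ 0 ∧ c (l.flatMap fun i => 0 :: v i) (FreeAlgebra.lift K2 g Q) ≠ 0 := by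
  classical
  set m := (FreeAlgebra.equivMonoidAlgebraFreeMonoid Q).coeff with hm
  have hm0 : m ≠ 0 := by
    intro h
    apply hQ
    apply (FreeAlgebra.equivMonoidAlgebraFreeMonoid : FreeAlgebra K2 I ≃ₐ[K2] _).injective
    rw [map_zero]
    ext x
    rw [← hm, h]
    rfl
  let f : FreeMonoid I → List ℕ := fun l =>
    (FreeMonoid.toList l).length :: (FreeMonoid.toList l).map (fun i => (v i).length)
  obtain ⟨l, hl, hmin⟩ := Finset.exists_min_image m.support f (Finsupp.support_nonempty_iff.mpr hm0)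
  refine ⟨FreeMonoid.toList l, Finsupp.mem_support_iff.mp hl, ?_⟩
  rw [lift_eq, ← hm, Finsupp.sum, map_sum, Finset.sum_eq_single l]
  · rw [map_smul, coef_self hc g v h1 (fun i w h => (h2 i w h).1) h4, smul_eq_mul, mul_one]
    exact Finsupp.mem_support_iff.mp hl
  · intro l' hl' hne
    rw [map_smul]
    by_contra h
    have h' : c ((FreeMonoid.toList l).flatMap fun i => 0 :: v i)
        (((FreeMonoid.toList l').map g).prod) ≠ 0 := fun h0 => h (by rw [h0, smul_zero])
    have hcnt := count_le hc g (fun i w h => (h2 i w h).2.1) _ _ h'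
    rw [count_ell v h0] at hcnt
    have hle := hmin l' hl'
    have hnlt : ¬ f l' < f l := not_lt.mpr hle
    apply hnlt
    simp only [f, List.cons_lt_cons_iff]
    rcases hcnt.lt_or_eq with hlt | heq
    · left; exact hlt
    · right
      refine ⟨heq, ?_⟩
      rcases coef_other hc g v h0 h2 h5 _ _ heq h' with h3 | h3
      · exact absurd (FreeMonoid.toList.injective h3) hne
      · exact h3
  · intro h
    exact absurd hl h

end Vale.Agent.P029
end
end
end

section

section

/-!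
# P029, E3 + E4: leading words of `phi`
-/

noncomputable section

attribute [local instance 100] LieRing.ofAssociativeRing

namespace Vale.Agent.P029

namespace Step1Coef

/-- the value of a word -/
def wo (w : List (Fin 3)) : QA S1 := (w.map (QA.lt S1)).prod

theorem wo_nil : wo [] = 1 := rfl

theorem wo_cons (a : Fin 3) (w : List (Fin 3)) : wo (a :: w) = QA.lt S1 a * wo w := by
  simp [wo]

theorem wo_append (v w : List (Fin 3)) : wo (v ++ w) = wo v * wo w := by
  simp [wo]

theorem wo_single (a : Fin 3) : wo [a] = QA.lt S1 a := by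
  simp [wo]

/-- span of words with a property -/
def Sp (P : List (Fin 3) → Prop) : Submodule K2 (QA S1) := Submodule.span K2 {a | ∃ w, P w ∧ a = wo w}

theorem wo_mem {P : List (Fin 3) → Prop} {w : List (Fin 3)} (h : P w) : wo w ∈ Sp P :=
  Submodule.subset_span ⟨w, h, rfl⟩

theorem Sp_mono {P Q : List (Fin 3) → Prop} (h : ∀ w, P w → Q w) : Sp P ≤ Sp Q := by
  apply Submodule.span_mono
  rintro a ⟨w, hw, rfl⟩
  exact ⟨w, h w hw, rfl⟩

theorem Sp_induction {P : List (Fin 3) → Prop} {N : Submodule K2 (QA S1)} (f : QA S1 →ₗ[K2] QA S1)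
    (h : ∀ w, P w → f (wo w) ∈ N) {a : QA S1} (ha : a ∈ Sp P) : f a ∈ N := by
  have : Sp P ≤ N.comap f := by
    apply Submodule.span_le.2
    rintro a ⟨w, hw, rfl⟩
    exact h w hw
  exact this ha

theorem mul_left_mem {P Q : List (Fin 3) → Prop} (a : Fin 3) (h : ∀ w, P w → Q (a :: w))
    {b : QA S1} (hb : b ∈ Sp P) : QA.lt S1 a * b ∈ Sp Q :=
  Sp_induction (LinearMap.mulLeft K2 (QA.lt S1 a)) (fun w hw => by
    rw [LinearMap.mulLeft_apply, ← wo_cons]
    exact wo_mem (h w hw)) hb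

variable {D1 D2 : QA S1 →ₗ[K2] QA S1}

theorem p1_eq : p1 = wo [0] := by rw [wo_single]; rfl
theorem g1_eq : g1 = wo [1] := by rw [wo_single]; rfl
theorem s1_eq : s1 = wo [2] := by rw [wo_single]; rfl

theorem D_one (D : QA S1 →ₗ[K2] QA S1) (h : ∀ a b, D (a * b) = D a * b + a * D b) : D 1 = 0 := by
  have := h 1 1
  simp only [mul_one, one_mul] at this
  exact left_eq_add.1 this

/-- `D1` of a letter. -/
theorem D1_wo (hD : IsDer D1 D2 p1 g1 s1) (w : List (Fin 3)) :
    D1 (wo w) ∈ Sp fun w' => w'.length = w.length + 1 ∧ w'.count 0 = w.count 0 ∧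
      (w.head? ≠ some 0 → w'.head? ≠ some 0) := by
  induction w with
  | nil =>
    rw [wo_nil, D_one D1 hD.leib1]
    exact zero_mem _
  | cons a w ih =>
    rw [wo_cons, hD.leib1]
    apply add_mem
    · fin_cases a
      · show D1 p1 * wo w ∈ _
        rw [hD.p1, LieRing.of_associative_ring_bracket, sub_mul, g1_eq, p1_eq, ← wo_append,
          ← wo_append, ← wo_append, ← wo_append]
        apply sub_mem
        · apply wo_mem
          simp
        · apply wo_mem
          simp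
      · show D1 g1 * wo w ∈ _
        rw [hD.g1, zero_mul]
        exact zero_mem _
      · show D1 s1 * wo w ∈ _
        rw [hD.s1, zero_mul]
        exact zero_mem _
    · apply mul_left_mem a _ ih
      rintro w' ⟨h1, h2, h3⟩
      refine ⟨by simp [h1], by simp [List.count_cons, h2], by simp⟩

/-- `D2` of a word. -/
theorem D2_wo (hD : IsDer D1 D2 p1 g1 s1) (w : List (Fin 3)) :
    D2 (wo w) ∈ Sp fun w' => w'.length = w.length + 1 ∧ w.count 0 ≤ w'.count 0 ∧
      (w.head? ≠ some 0 → w'.head? ≠ some 0 ∨ w.count 0 + 1 ≤ w'.count 0) := by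
  induction w with
  | nil =>
    rw [wo_nil, D_one D2 hD.leib2]
    exact zero_mem _
  | cons a w ih =>
    rw [wo_cons, hD.leib2]
    apply add_mem
    · fin_cases a
      · show D2 p1 * wo w ∈ _
        rw [hD.p2, zero_mul]
        exact zero_mem _
      · show D2 g1 * wo w ∈ _
        have e : D2 g1 * wo w = wo ([0, 1] ++ w) + wo ([2, 1] ++ w) - wo ([1, 0] ++ w) -
            wo ([1, 2] ++ w) - wo ([0, 2] ++ w) + wo ([2, 0] ++ w) := by
          simp only [wo_append]
          rw [hD.g2, LieRing.of_associative_ring_bracket, LieRing.of_associative_ring_bracket,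
            p1_eq, g1_eq, s1_eq]
          rw [show ([0, 1] : List (Fin 3)) = [0] ++ [1] from rfl,
            show ([2, 1] : List (Fin 3)) = [2] ++ [1] from rfl,
            show ([1, 0] : List (Fin 3)) = [1] ++ [0] from rfl,
            show ([1, 2] : List (Fin 3)) = [1] ++ [2] from rfl,
            show ([0, 2] : List (Fin 3)) = [0] ++ [2] from rfl,
            show ([2, 0] : List (Fin 3)) = [2] ++ [0] from rfl]
          simp only [wo_append]
          noncomm_ring
        rw [e]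
        refine add_mem (sub_mem (sub_mem (sub_mem (add_mem ?_ ?_) ?_) ?_) ?_) ?_ <;>
          · apply wo_mem
            simp
      · show D2 s1 * wo w ∈ _
        rw [hD.s2, zero_mul]
        exact zero_mem _
    · apply mul_left_mem a _ ih
      rintro w' ⟨h1, h2, h3⟩
      refine ⟨by simp [h1], ?_, ?_⟩
      · simp only [List.count_cons]
        omega
      · intro h
        left
        simpa using h

/-- `D2` of a word without `p`. -/
theorem D2_gs (hD : IsDer D1 D2 p1 g1 s1) (w : List (Fin 3)) (hw : (0 : Fin 3) ∉ w) :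
    D2 (wo w) - (s1 * wo w - wo w * s1) ∈ Sp fun w' => w'.length = w.length + 1 ∧
      1 ≤ w'.count 0 := by
  induction w with
  | nil =>
    rw [wo_nil, D_one D2 hD.leib2, mul_one, one_mul, sub_self, sub_self]
    exact zero_mem _
  | cons a w ih =>
    have h1 : (0 : Fin 3) ∉ w := fun h => hw (List.mem_cons_of_mem _ h)
    have h2 : a ≠ 0 := fun h => hw (by rw [h]; exact List.mem_cons_self)
    have ih' := ih h1
    have e : D2 (wo (a :: w)) - (s1 * wo (a :: w) - wo (a :: w) * s1) =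
        (D2 (QA.lt S1 a) - (s1 * QA.lt S1 a - QA.lt S1 a * s1)) * wo w +
          QA.lt S1 a * (D2 (wo w) - (s1 * wo w - wo w * s1)) := by
      rw [wo_cons, hD.leib2]
      noncomm_ring
    rw [e]
    apply add_mem
    · have ha : a = 1 ∨ a = 2 := by
        revert h2
        fin_cases a <;> simp
      rcases ha with rfl | rfl
      · have e2 : (D2 (QA.lt S1 1) - (s1 * QA.lt S1 1 - QA.lt S1 1 * s1)) * wo w =
            wo ([0, 1] ++ w) - wo ([1, 0] ++ w) - wo ([0, 2] ++ w) + wo ([2, 0] ++ w) := by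
          show (D2 g1 - (s1 * g1 - g1 * s1)) * wo w = _
          simp only [wo_append]
          rw [hD.g2, LieRing.of_associative_ring_bracket, LieRing.of_associative_ring_bracket,
            p1_eq, g1_eq, s1_eq]
          rw [show ([0, 1] : List (Fin 3)) = [0] ++ [1] from rfl,
            show ([1, 0] : List (Fin 3)) = [1] ++ [0] from rfl,
            show ([0, 2] : List (Fin 3)) = [0] ++ [2] from rfl,
            show ([2, 0] : List (Fin 3)) = [2] ++ [0] from rfl]
          simp only [wo_append]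
          noncomm_ring
        rw [e2]
        refine add_mem (sub_mem (sub_mem ?_ ?_) ?_) ?_ <;>
          · apply wo_mem
            simp
      · show (D2 s1 - (s1 * s1 - s1 * s1)) * wo w ∈ _
        rw [hD.s2, sub_self, sub_self, zero_mul]
        exact zero_mem _
    · apply mul_left_mem a _ ih'
      rintro w' ⟨h3, h4⟩
      refine ⟨by simp [h3], ?_⟩
      simp only [List.count_cons]
      omega

/-- The negligible words of length `n`. -/
def Ng (n : ℕ) (w : List (Fin 3)) : Prop :=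
  w.length = n ∧ 1 ≤ w.count 0 ∧ (2 ≤ w.count 0 ∨ w.head? ≠ some 0)

theorem Ng_D1 (hD : IsDer D1 D2 p1 g1 s1) {n : ℕ} {a : QA S1} (ha : a ∈ Sp (Ng n)) :
    D1 a ∈ Sp (Ng (n + 1)) := by
  refine Sp_induction D1 (fun w hw => ?_) ha
  refine Sp_mono ?_ (D1_wo hD w)
  rintro w' ⟨h1, h2, h3⟩
  obtain ⟨g1, g2, g3⟩ := hw
  refine ⟨by omega, by omega, ?_⟩
  rcases g3 with g3 | g3
  · left
    omega
  · right
    exact h3 g3

theorem Ng_D2 (hD : IsDer D1 D2 p1 g1 s1) {n : ℕ} {a : QA S1} (ha : a ∈ Sp (Ng n)) :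
    D2 a ∈ Sp (Ng (n + 1)) := by
  refine Sp_induction D2 (fun w hw => ?_) ha
  refine Sp_mono ?_ (D2_wo hD w)
  rintro w' ⟨h1, h2, h3⟩
  obtain ⟨g1, g2, g3⟩ := hw
  refine ⟨by omega, by omega, ?_⟩
  rcases g3 with g3 | g3
  · left
    omega
  · rcases h3 g3 with h4 | h4
    · right
      exact h4
    · left
      omega

theorem D1_blk (hD : IsDer D1 D2 p1 g1 s1) (w : List (Fin 3)) (hw : (0 : Fin 3) ∉ w) :
    D1 (wo w) = 0 := by
  induction w with
  | nil => rw [wo_nil, D_one D1 hD.leib1]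
  | cons a w ih =>
    have h1 : (0 : Fin 3) ∉ w := fun h => hw (List.mem_cons_of_mem _ h)
    have h2 : a ≠ 0 := fun h => hw (by rw [h]; exact List.mem_cons_self)
    rw [wo_cons, hD.leib1, ih h1, mul_zero, add_zero]
    have ha : a = 1 ∨ a = 2 := by
      revert h2
      fin_cases a <;> simp
    rcases ha with rfl | rfl
    · show D1 g1 * _ = 0
      rw [hD.g1, zero_mul]
    · show D1 s1 * _ = 0
      rw [hD.s1, zero_mul]

theorem zero_notMem_blk (u : List Bool) : (0 : Fin 3) ∉ blk u := by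
  induction u with
  | nil => simp [blk]
  | cons b u ih =>
    cases b
    · simp [blk, ih]
    · simp [blk, ih]

/-- `D1` of the main term. -/
theorem main_D1 (hD : IsDer D1 D2 p1 g1 s1) (v : List (Fin 3)) (hv : (0 : Fin 3) ∉ v)
    {a : QA S1} (ha : a - wo (0 :: v) ∈ Sp (Ng (v.length + 1))) :
    D1 a - wo (0 :: 1 :: v) ∈ Sp (Ng (v.length + 2)) := by
  have h1 := Ng_D1 hD ha
  have e : D1 a - wo (0 :: 1 :: v) = D1 (a - wo (0 :: v)) +
      (wo (1 :: 0 :: v) - wo (0 :: 1 :: v) - wo (0 :: 1 :: v)) := by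
    rw [map_sub, wo_cons 0 v, hD.leib1, D1_blk hD v hv]
    have : D1 (QA.lt S1 0) = ⁅g1, p1⁆ := hD.p1
    rw [this, LieRing.of_associative_ring_bracket]
    simp only [wo_cons]
    show _ = _ + (g1 * (p1 * wo v) - p1 * (g1 * wo v) - p1 * (g1 * wo v))
    noncomm_ring
  have two : wo (0 :: 1 :: v) + wo (0 :: 1 :: v) = 0 := by
    have : (2 : K2) = 0 := by decide
    have h : (2 : K2) • wo (0 :: 1 :: v) = 0 := by rw [this, zero_smul]
    rwa [two_smul] at h
  have e2 : wo (1 :: 0 :: v) - wo (0 :: 1 :: v) - wo (0 :: 1 :: v) = wo (1 :: 0 :: v) := by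
    rw [sub_sub, two, sub_zero]
  rw [e, e2]
  apply add_mem h1
  apply wo_mem
  refine ⟨by simp, by simp, Or.inr (by simp)⟩

/-- `D2` of the main term. -/
theorem main_D2 (hD : IsDer D1 D2 p1 g1 s1) (v : List (Fin 3)) (hv : (0 : Fin 3) ∉ v)
    (hs : wo v * s1 = 0)
    {a : QA S1} (ha : a - wo (0 :: v) ∈ Sp (Ng (v.length + 1))) :
    D2 a - wo (0 :: 2 :: v) ∈ Sp (Ng (v.length + 2)) := by
  have h1 := Ng_D2 hD ha
  have h2 := D2_gs hD v hv
  rw [hs, sub_zero] at h2
  have h3 : QA.lt S1 0 * (D2 (wo v) - s1 * wo v) ∈ Sp (Ng (v.length + 2)) := by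
    apply mul_left_mem 0 _ h2
    rintro w' ⟨h4, h5⟩
    have h6 : (0 :: w').count 0 = w'.count 0 + 1 := by simp
    refine ⟨by simp [h4], by omega, Or.inl (by omega)⟩
  have e : D2 a - wo (0 :: 2 :: v) = D2 (a - wo (0 :: v)) +
      QA.lt S1 0 * (D2 (wo v) - s1 * wo v) := by
    rw [map_sub, wo_cons 0 v, hD.leib2]
    have : D2 (QA.lt S1 0) = 0 := hD.p2
    rw [this]
    simp only [wo_cons]
    show _ = _ + p1 * (D2 (wo v) - s1 * wo v)
    show _ - p1 * (s1 * wo v) = D2 a - (0 * wo v + p1 * D2 (wo v)) + _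
    noncomm_ring
  rw [e]
  exact add_mem h1 h3

theorem wo_blk_s (u : List Bool) : wo (blk u) * s1 = 0 := by
  induction u with
  | nil =>
    show wo [2] * s1 = 0
    rw [wo_single]
    exact QA_sq 2 rfl
  | cons b u ih =>
    cases b
    · rw [blk, wo_cons, mul_assoc, ih, mul_zero]
    · rw [blk, wo_cons, wo_cons, mul_assoc, mul_assoc, ih, mul_zero, mul_zero]

theorem phi_main (hD : IsDer D1 D2 p1 g1 s1) (u : List Bool) :
    phi D1 D2 u - wo (0 :: blk u) ∈ Sp (Ng ((blk u).length + 1)) := by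
  induction u with
  | nil =>
    have e : phi D1 D2 [] - wo (0 :: blk []) = - wo [2, 0] := by
      show ⁅p1, s1⁆ - wo ([0] ++ [2]) = - wo ([2] ++ [0])
      rw [wo_append, wo_append, LieRing.of_associative_ring_bracket, p1_eq, s1_eq]
      noncomm_ring
    rw [e]
    apply neg_mem
    apply wo_mem
    refine ⟨rfl, by simp, Or.inr (by simp)⟩
  | cons b u ih =>
    have h1 := main_D1 hD (blk u) (zero_notMem_blk u) ih
    cases b
    · exact h1
    · have h2 : (0 : Fin 3) ∉ (1 :: blk u) := by simp [zero_notMem_blk]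
      have h3 : wo (1 :: blk u) * s1 = 0 := by rw [wo_cons, mul_assoc, wo_blk_s, mul_zero]
      exact main_D2 hD (1 :: blk u) h2 h3 h1

theorem c_wo {c : List (Fin 3) → (QA S1 →ₗ[K2] K2)} (hc : IsCoef S1 c) (w v : List (Fin 3))
    (h : c w (wo v) ≠ 0) : w = v := by
  induction v generalizing w with
  | nil =>
    rw [wo_nil, hc.one] at h
    by_contra h2
    exact h (if_neg h2)
  | cons a v ih =>
    by_cases hw : nrm S1 w = true
    · rw [wo_cons, hc.mul w hw] at h
      obtain ⟨i, hi, h2⟩ := Finset.exists_ne_zero_of_sum_ne_zero h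
      rw [hc.letter] at h2
      by_cases h3 : w.take i = [a]
      · have h4 : c (w.drop i) (wo v) ≠ 0 := fun h5 => h2 (by rw [h5, mul_zero])
        have h5 := ih _ h4
        rw [← List.take_append_drop i w, h3, h5]
        rfl
      · rw [if_neg h3, zero_mul] at h2
        exact absurd rfl h2
    · rw [hc.nonnormal w (by simpa using hw)] at h
      exact absurd rfl h

theorem c_wo_self {c : List (Fin 3) → (QA S1 →ₗ[K2] K2)} (hc : IsCoef S1 c) (v : List (Fin 3))
    (h : nrm S1 v = true) : c v (wo v) = 1 := by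
  induction v with
  | nil =>
    rw [wo_nil, hc.one, if_pos rfl]
  | cons a v ih =>
    have hv : nrm S1 v = true := by
      cases v with
      | nil => rfl
      | cons b v =>
        simp only [nrm, Bool.and_eq_true] at h
        exact h.2
    rw [wo_cons, hc.mul _ h, Finset.sum_eq_single 1]
    · simp [hc.letter, ih hv]
    · intro n hn hn1
      rw [hc.letter, if_neg, zero_mul]
      intro h
      apply hn1
      have h2 := congrArg List.length h
      simp only [List.length_take, List.length_cons, List.length_nil, Finset.mem_range] at h2 hn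
      omega
    · intro h
      simp at h

theorem c_Sp {c : List (Fin 3) → (QA S1 →ₗ[K2] K2)} (hc : IsCoef S1 c)
    {P : List (Fin 3) → Prop} {a : QA S1} (ha : a ∈ Sp P) (w : List (Fin 3)) (h : c w a ≠ 0) :
    P w := by
  by_contra hP
  apply h
  have : Sp P ≤ LinearMap.ker (c w) := by
    apply Submodule.span_le.2
    rintro b ⟨v, hv, rfl⟩
    show c w (wo v) = 0
    by_contra h2
    rw [c_wo hc w v h2] at hP
    exact hP hv
  exact this ha

theorem nrm_cons (a : Fin 3) (l : List (Fin 3)) : nrm S1 (a :: l) = true ↔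
    ((S1 a = true → l.head? ≠ some a) ∧ nrm S1 l = true) := by
  cases l with
  | nil => simp [nrm]
  | cons b l =>
    simp only [nrm, List.head?_cons, Bool.and_eq_true, Bool.not_eq_true', Bool.and_eq_false_iff,
      beq_eq_false_iff_ne, ne_eq, Option.some.injEq]
    constructor
    · rintro ⟨h1, h2⟩
      refine ⟨fun h3 h4 => ?_, h2⟩
      rcases h1 with h1 | h1
      · exact h1 h4.symm
      · rw [h1] at h3
        exact absurd h3 (by simp)
    · rintro ⟨h1, h2⟩
      refine ⟨?_, h2⟩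
      by_cases h3 : S1 a = true
      · left
        exact fun h4 => h1 h3 h4.symm
      · right
        simpa using h3

theorem blk_head (u : List Bool) (l : List (Fin 3)) : (blk u ++ l).head? ≠ some 0 := by
  cases u with
  | nil => simp [blk]
  | cons b u => cases b <;> simp [blk]

theorem nrm_blk_append (u : List Bool) (l : List (Fin 3)) (hl : nrm S1 l = true)
    (h2 : l.head? ≠ some 2) : nrm S1 (blk u ++ l) = true := by
  induction u with
  | nil =>
    show nrm S1 (2 :: l) = true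
    rw [nrm_cons]
    exact ⟨fun _ => h2, hl⟩
  | cons b u ih =>
    cases b
    · show nrm S1 (1 :: (blk u ++ l)) = true
      rw [nrm_cons]
      exact ⟨fun h => absurd h (by decide), ih⟩
    · show nrm S1 (2 :: 1 :: (blk u ++ l)) = true
      rw [nrm_cons, nrm_cons]
      exact ⟨fun _ => by simp, fun h => absurd h (by decide), ih⟩

theorem nrm_zero_blk_append (u : List Bool) (l : List (Fin 3)) (hl : nrm S1 l = true)
    (h2 : l.head? ≠ some 2) : nrm S1 (0 :: (blk u ++ l)) = true := by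
  rw [nrm_cons]
  exact ⟨fun _ => blk_head u l, nrm_blk_append u l hl h2⟩

theorem nrm_zero_blk (u : List Bool) : nrm S1 (0 :: blk u) = true := by
  have := nrm_zero_blk_append u [] rfl (by simp)
  rwa [List.append_nil] at this

theorem blk_injective : Function.Injective blk := by
  intro u
  induction u with
  | nil =>
    intro v h
    cases v with
    | nil => rfl
    | cons b v => cases b <;> simp [blk] at h
  | cons b u ih =>
    intro v h
    cases v with
    | nil => cases b <;> simp [blk] at h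
    | cons b' v =>
      cases b <;> cases b' <;> simp [blk] at h
      · rw [ih h]
      · rw [ih h]

theorem flatMap_head (l : List (List Bool)) :
    (l.flatMap fun u => 0 :: blk u).head? ≠ some 2 := by
  cases l with
  | nil => simp
  | cons u l => simp

theorem nrm_flatMap (l : List (List Bool)) : nrm S1 (l.flatMap fun u => 0 :: blk u) = true := by
  induction l with
  | nil => rfl
  | cons u l ih =>
    rw [List.flatMap_cons, List.cons_append]
    exact nrm_zero_blk_append u _ ih (flatMap_head l)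

theorem eq_nil_of_one (u : List Bool) (h : (1 : Fin 3) ∉ blk u) : u = [] := by
  cases u with
  | nil => rfl
  | cons b u => cases b <;> simp [blk] at h

end Step1Coef

open Step1Coef

/- E4 -/
theorem blk_facts : Function.Injective blk ∧ (∀ u, (0 : Fin 3) ∉ blk u) ∧
    (∀ l : List (List Bool), nrm S1 (l.flatMap fun u => 0 :: blk u) = true) ∧
    (∀ l : List (List Bool), (1 : Fin 3) ∉ (l.flatMap fun u => 0 :: blk u) →
      l = List.replicate l.length []) := by
  refine ⟨blk_injective, zero_notMem_blk, nrm_flatMap, fun l h => ?_⟩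
  rw [List.eq_replicate_iff]
  refine ⟨rfl, fun u hu => eq_nil_of_one u fun h1 => h ?_⟩
  rw [List.mem_flatMap]
  exact ⟨u, hu, List.mem_cons_of_mem _ h1⟩

/- E3 -/
theorem phi_coef {c : List (Fin 3) → (QA S1 →ₗ[K2] K2)} (hc : IsCoef S1 c)
    {D1 D2 : QA S1 →ₗ[K2] QA S1} (hD : IsDer D1 D2 p1 g1 s1) (u : List Bool) :
    c (0 :: blk u) (phi D1 D2 u) = 1 ∧ ∀ w, c w (phi D1 D2 u) ≠ 0 →
      w.length = (blk u).length + 1 ∧ 1 ≤ w.count 0 ∧
      (w = 0 :: blk u ∨ 2 ≤ w.count 0 ∨ w.head? ≠ some 0) := by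
  have h := phi_main hD u
  have e : phi D1 D2 u = wo (0 :: blk u) + (phi D1 D2 u - wo (0 :: blk u)) := by abel
  have hcount : (0 :: blk u).count 0 = 1 := by
    have := List.count_eq_zero.2 (zero_notMem_blk u)
    simp [this]
  constructor
  · rw [e, map_add, c_wo_self hc _ (nrm_zero_blk u)]
    have h0 : c (0 :: blk u) (phi D1 D2 u - wo (0 :: blk u)) = 0 := by
      by_contra h1
      obtain ⟨h2, h3, h4⟩ := c_Sp hc h _ h1
      rcases h4 with h4 | h4
      · omega
      · simp at h4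
    rw [h0, add_zero]
  · intro w hw
    by_cases h1 : w = 0 :: blk u
    · subst h1
      exact ⟨by simp, by omega, Or.inl rfl⟩
    · have h2 : c w (phi D1 D2 u - wo (0 :: blk u)) ≠ 0 := by
        rw [e, map_add] at hw
        have h3 : c w (wo (0 :: blk u)) = 0 := by
          by_contra h4
          exact h1 (c_wo hc _ _ h4)
        rwa [h3, zero_add] at hw
      obtain ⟨h3, h4, h5⟩ := c_Sp hc h _ h2
      exact ⟨h3, h4, Or.inr h5⟩

end Vale.Agent.P029
end
end
end

section

section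

/-!
# P029: the five term relation and antisymmetry modulo two

The five term relation of the integral representative of an element of `W n` holds in every
`K2`-algebra with elements satisfying the relations of `𝔭₅`: a module over `ℤ` which is torsion free
(words in two letters with coefficients in `ℤ⟨p, g, s⟩`), with five operators satisfying the
relations, maps onto it.
-/

set_option linter.all false

noncomputable section

attribute [local instance 100] LieRing.ofAssociativeRing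

namespace Vale.Agent.P029

namespace Transport

/-! ### base change of the free algebra -/

/-- The ring homomorphism `ℤ⟨X⟩ → R⟨X⟩`. -/
def jj (R : Type) [CommRing R] (X : Type) : FreeAlgebra ℤ X →+* FreeAlgebra R X :=
  (FreeAlgebra.lift ℤ (FreeAlgebra.ι R) : FreeAlgebra ℤ X →ₐ[ℤ] FreeAlgebra R X).toRingHom

theorem jj_ι (R : Type) [CommRing R] {X : Type} (x : X) :
    jj R X (FreeAlgebra.ι ℤ x) = FreeAlgebra.ι R x :=
  FreeAlgebra.lift_ι_apply _ _

theorem basis_eq (R : Type) [CommRing R] {X : Type} (w : FreeMonoid X) :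
    FreeAlgebra.basisFreeMonoid R X w = FreeMonoid.lift (FreeAlgebra.ι R) w := by
  show MonoidAlgebra.lift R (FreeAlgebra R X) (FreeMonoid X)
    (FreeMonoid.lift (FreeAlgebra.ι R)) (MonoidAlgebra.single w (1 : R)) = _
  rw [MonoidAlgebra.lift_single, one_smul]

theorem jj_basis (R : Type) [CommRing R] {X : Type} (w : FreeMonoid X) :
    jj R X (FreeAlgebra.basisFreeMonoid ℤ X w) = FreeAlgebra.basisFreeMonoid R X w := by
  rw [basis_eq, basis_eq]
  induction w using FreeMonoid.inductionOn' with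
  | one => rw [map_one, map_one, map_one]
  | of_mul x w ih => rw [map_mul, map_mul, map_mul, ih, FreeMonoid.lift_eval_of,
      FreeMonoid.lift_eval_of, jj_ι]

theorem jj_inj {X : Type} : Function.Injective (jj ℚ X) := by
  rw [injective_iff_map_eq_zero]
  intro f hf
  let b := FreeAlgebra.basisFreeMonoid ℤ X
  let b' := FreeAlgebra.basisFreeMonoid ℚ X
  have h1 : f = ∑ w ∈ (b.repr f).support, (b.repr f w) • b w :=
    (b.linearCombination_repr f).symm
  have h2 : ∑ w ∈ (b.repr f).support, ((b.repr f w : ℤ) : ℚ) • b' w = 0 := by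
    rw [h1, map_sum] at hf
    rw [← hf]
    refine Finset.sum_congr rfl fun w _ => ?_
    rw [map_zsmul, jj_basis, Int.cast_smul_eq_zsmul]
  have h3 := linearIndependent_iff'.1 b'.linearIndependent _ _ h2
  apply b.repr.injective
  rw [map_zero]
  ext w
  by_cases hw : w ∈ (b.repr f).support
  · exact_mod_cast h3 w hw
  · exact Finsupp.notMem_support_iff.1 hw

/-! ### The module and the five operators -/

variable {R A : Type} [CommRing R] [Ring A] [Algebra R A]

/-- Words in two letters with coefficients in `A`. -/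
def NN (A : Type) [Ring A] : Type := List (Fin 2) →₀ A

instance : AddCommGroup (NN A) := inferInstanceAs (AddCommGroup (List (Fin 2) →₀ A))

instance : Module R (NN A) := inferInstanceAs (Module R (List (Fin 2) →₀ A))

/-- The word `w` with coefficient `a`. -/
def sg (w : List (Fin 2)) : A →+ NN A := Finsupp.singleAddHom w

theorem ext_sg {T S : Module.End R (NN A)} (h : ∀ w a, T (sg w a) = S (sg w a)) : T = S :=
  Finsupp.lhom_ext (M := A) (R := R) (N := NN A) (α := List (Fin 2)) h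

/-- Coefficientwise action. -/
def up (T : A →ₗ[R] A) : Module.End R (NN A) :=
  (Finsupp.mapRange.linearMap T : (List (Fin 2) →₀ A) →ₗ[R] (List (Fin 2) →₀ A))

/-- Prepending a letter. -/
def sh (R A : Type) [CommRing R] [Ring A] [Algebra R A] (i : Fin 2) : Module.End R (NN A) :=
  Finsupp.lmapDomain A R (List.cons i)

theorem up_sg (T : A →ₗ[R] A) (w : List (Fin 2)) (a : A) : up T (sg w a) = sg w (T a) :=
  Finsupp.mapRange_single (hf := T.map_zero)

theorem sh_sg (i : Fin 2) (w : List (Fin 2)) (a : A) : sh R A i (sg w a) = sg (i :: w) a :=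
  Finsupp.mapDomain_single

/-- Left multiplication of the coefficients. -/
def lm (R : Type) {A : Type} [CommRing R] [Ring A] [Algebra R A] (a : A) :
    Module.End R (NN A) := up (LinearMap.mulLeft R a)

theorem lm_sg (w : List (Fin 2)) (a b : A) :
    lm R a (sg w b) = sg w (a * b) := up_sg _ _ _

/-- The five operators. -/
def opN (D1 D2 : A →ₗ[R] A) (p g s : A) : Fin 5 → Module.End R (NN A) :=
  ![up D1 + sh R A 0, up D2 + sh R A 1, up D1 + sh R A 0 - lm R g, lm R s, lm R p]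

theorem lie_up {D : A →ₗ[R] A} (h : ∀ a b, D (a * b) = D a * b + a * D b) (i : Fin 2) (a : A) :
    (⁅up D + sh R A i, lm R a⁆ : Module.End R (NN A)) = lm R (D a) := by
  apply ext_sg
  intro w b
  rw [Ring.lie_def, LinearMap.sub_apply, Module.End.mul_apply, Module.End.mul_apply,
    LinearMap.add_apply, LinearMap.add_apply, map_add, up_sg, lm_sg, lm_sg, up_sg,
    sh_sg, sh_sg, lm_sg, lm_sg, h, map_add]
  abel

theorem lm_lie (a b : A) :
    (⁅lm R a, lm R b⁆ : Module.End R (NN A)) = lm R ⁅a, b⁆ := by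
  apply ext_sg
  intro w c
  rw [Ring.lie_def, LinearMap.sub_apply, Module.End.mul_apply, Module.End.mul_apply,
    lm_sg, lm_sg, lm_sg, lm_sg, lm_sg, Ring.lie_def, ← map_sub,
    sub_mul, mul_assoc, mul_assoc]

theorem lm_zero : lm R (0 : A) = 0 := by
  apply ext_sg
  intro w c
  rw [lm_sg, zero_mul, map_zero]
  rfl

theorem lm_add (a b : A) : lm R (a + b) = lm R a + lm R b := by
  apply ext_sg
  intro w c
  rw [LinearMap.add_apply, lm_sg, lm_sg, lm_sg, add_mul, map_add]

theorem lm_sub (a b : A) : lm R (a - b) = lm R a - lm R b := by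
  apply ext_sg
  intro w c
  rw [LinearMap.sub_apply, lm_sg, lm_sg, lm_sg, sub_mul, map_sub]

theorem opN_P5 {D1 D2 : A →ₗ[R] A} {p g s : A} (h : IsDer D1 D2 p g s) :
    P5 (opN D1 D2 p g s) := by
  have e1 := fun a => lie_up (R := R) h.leib1 0 a
  have e2 := fun a => lie_up (R := R) h.leib2 1 a
  have e1' : ∀ a, (⁅lm R a, up D1 + sh R A 0⁆ : Module.End R (NN A)) =
      -lm R (D1 a) := fun a => by rw [← e1, lie_skew]
  have e2' : ∀ a, (⁅lm R a, up D2 + sh R A 1⁆ : Module.End R (NN A)) =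
      -lm R (D2 a) := fun a => by rw [← e2, lie_skew]
  unfold opN
  generalize up D1 + sh R A 0 = X at *
  generalize up D2 + sh R A 1 = Y at *
  constructor
  · intro i
    fin_cases i
    · show ⁅X, X - lm R g⁆ = 0
      rw [lie_sub, lie_self, e1, h.g1, lm_zero, sub_zero]
    · show ⁅Y, lm R s⁆ = 0
      rw [e2, h.s2, lm_zero]
    · show ⁅X - lm R g, lm R p⁆ = 0
      rw [sub_lie, e1, h.p1, lm_lie, sub_self]
    · show ⁅lm R s, X⁆ = 0
      rw [e1', h.s1, lm_zero, neg_zero]
    · show ⁅lm R p, Y⁆ = 0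
      rw [e2', h.p2, lm_zero, neg_zero]
  · rw [Fin.sum_univ_five]
    show ⁅X, Y⁆ + ⁅Y, X - lm R g⁆ + ⁅X - lm R g, lm R s⁆ + ⁅lm R s, lm R p⁆ + ⁅lm R p, X⁆ = 0
    rw [lie_sub, sub_lie, e2, e1, e1', h.g2, h.s1, h.p1, lm_zero, ← lie_skew X Y, lm_sub,
      ← lm_lie, ← lm_lie, ← lm_lie, lm_add, add_lie, ← lie_skew (lm R g) (lm R p),
      ← lie_skew (lm R g) (lm R s), ← lie_skew (lm R s) (lm R p)]
    abel

/-! ### Intertwining -/

/-- If `φ` intertwines the letters, it intertwines the Lie monomials. -/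
theorem eval_inter {M N R S X : Type} [CommRing R] [CommRing S] [AddCommGroup M] [AddCommGroup N]
    [Module R M] [Module S N] (φ : M →+ N) {f : X → Module.End R M} {f' : X → Module.End S N}
    (h : ∀ x m, φ (f x m) = f' x (φ m)) (t : Tr X) (m : M) :
    φ (t.eval f m) = t.eval f' (φ m) := by
  induction t generalizing m with
  | leaf x => exact h x m
  | node a b iha ihb =>
    show φ (⁅a.eval f, b.eval f⁆ m) = (⁅a.eval f', b.eval f'⁆ : Module.End S N) (φ m)
    rw [Ring.lie_def, Ring.lie_def, LinearMap.sub_apply, LinearMap.sub_apply,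
      Module.End.mul_apply, Module.End.mul_apply, Module.End.mul_apply, Module.End.mul_apply,
      map_sub, iha, ihb, ihb, iha]

theorem eval_hom {g h X : Type} [LieRing g] [LieRing h] (φ : g → h)
    (hφ : ∀ a b, φ ⁅a, b⁆ = ⁅φ a, φ b⁆) (f : X → g) (t : Tr X) :
    φ (t.eval f) = t.eval (fun x => φ (f x)) := by
  induction t with
  | leaf x => rfl
  | node a b iha ihb =>
    show φ ⁅a.eval f, b.eval f⁆ = ⁅a.eval _, b.eval _⁆
    rw [hφ, iha, ihb]

theorem lift_eval {g X : Type} [CommRing R] [LieRing g] [LieAlgebra R g] (f : X → g) (t : Tr X) :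
    FreeLieAlgebra.lift R f (t.eval (FreeLieAlgebra.of R)) = t.eval f := by
  rw [eval_hom (FreeLieAlgebra.lift R f) (fun a b => LieHom.map_lie _ a b)]
  congr 1
  funext x
  exact FreeLieAlgebra.lift_of_apply f x

theorem der_compat {C X : Type} [Ring C] (π : FreeAlgebra ℤ X →+* C)
    (D : FreeAlgebra ℤ X →+ FreeAlgebra ℤ X) (hD : ∀ a b, D (a * b) = D a * b + a * D b)
    (δ : C →+ C) (hδ : ∀ a b, δ (a * b) = δ a * b + a * δ b)
    (h : ∀ x, π (D (FreeAlgebra.ι ℤ x)) = δ (π (FreeAlgebra.ι ℤ x))) (a : FreeAlgebra ℤ X) :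
    π (D a) = δ (π a) := by
  have h1 : D 1 = 0 := by
    have := hD 1 1
    rw [mul_one, mul_one, one_mul] at this
    exact left_eq_add.1 this
  have h2 : δ 1 = 0 := by
    have := hδ 1 1
    rw [mul_one, mul_one, one_mul] at this
    exact left_eq_add.1 this
  induction a using FreeAlgebra.induction with
  | grade0 r =>
    have k1 := zsmul_one (R := FreeAlgebra ℤ X) r
    have k2 := zsmul_one (R := C) r
    rw [eq_intCast (algebraMap ℤ (FreeAlgebra ℤ X)) r, map_intCast π, ← k1, ← k2, map_zsmul D,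
      map_zsmul δ, h1, h2, smul_zero, smul_zero, map_zero]
  | grade1 x => exact h x
  | mul a b ha hb => rw [hD, map_add, map_mul π, map_mul π, ha, hb, ← hδ, map_mul π]
  | add a b ha hb => rw [map_add D, map_add π, ha, hb, ← map_add δ, ← map_add π]

theorem add_ext {N : Type} [AddCommGroup N] {F G : NN A →+ N}
    (h : ∀ w a, F (sg w a) = G (sg w a)) : F = G := Finsupp.addHom_ext h

/-- The map of modules induced by a homomorphism of the coefficients. -/
def JJ {A A' : Type} [Ring A] [Ring A'] (j : A →+* A') : NN A →+ NN A' :=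
  Finsupp.mapRange.addMonoidHom j.toAddMonoidHom

theorem JJ_sg {A A' : Type} [Ring A] [Ring A'] (j : A →+* A') (w : List (Fin 2)) (a : A) :
    JJ j (sg w a) = sg w (j a) :=
  Finsupp.mapRange_single (hf := map_zero _)

theorem JJ_inj {A A' : Type} [Ring A] [Ring A'] {j : A →+* A'} (hj : Function.Injective j) :
    Function.Injective (JJ j) :=
  Finsupp.mapRange_injective _ (map_zero _) hj

theorem JJ_op {S A' : Type} [CommRing S] [Ring A'] [Algebra S A'] (j : A →+* A')
    {D1 D2 : A →ₗ[R] A} {D1' D2' : A' →ₗ[S] A'} (c1 : ∀ a, j (D1 a) = D1' (j a))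
    (c2 : ∀ a, j (D2 a) = D2' (j a)) (p g s : A) (i : Fin 5) (n : NN A) :
    JJ j (opN D1 D2 p g s i n) = opN D1' D2' (j p) (j g) (j s) i (JJ j n) := by
  have hu : ∀ (T : A →ₗ[R] A) (T' : A' →ₗ[S] A'),
      (∀ a, j (T a) = T' (j a)) → ∀ n, JJ j (up T n) = up T' (JJ j n) := by
    intro T T' hT n
    have : (JJ j).comp (up T).toAddMonoidHom = (up T').toAddMonoidHom.comp (JJ j) := by
      apply add_ext
      intro w a
      show JJ j (up T (sg w a)) = up T' (JJ j (sg w a))
      rw [up_sg, JJ_sg, JJ_sg, up_sg, hT]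
    exact DFunLike.congr_fun this n
  have hs : ∀ i n, JJ j (sh R _ i n) = sh S _ i (JJ j n) := by
    intro i n
    have : (JJ j).comp (sh R _ i).toAddMonoidHom = (sh S _ i).toAddMonoidHom.comp (JJ j) := by
      apply add_ext
      intro w a
      show JJ j (sh R _ i (sg w a)) = sh S _ i (JJ j (sg w a))
      rw [sh_sg, JJ_sg, JJ_sg, sh_sg]
    exact DFunLike.congr_fun this n
  have hl : ∀ (x : A) n, JJ j (lm R x n) = lm S (j x) (JJ j n) := by
    intro x n
    refine hu _ _ (fun a => ?_) n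
    rw [LinearMap.mulLeft_apply, LinearMap.mulLeft_apply, map_mul]
  fin_cases i
  · show JJ j (up D1 n + sh R _ 0 n) = up D1' (JJ j n) + sh S _ 0 (JJ j n)
    rw [map_add, hu _ _ c1, hs]
  · show JJ j (up D2 n + sh R _ 1 n) = up D2' (JJ j n) + sh S _ 1 (JJ j n)
    rw [map_add, hu _ _ c2, hs]
  · show JJ j (up D1 n + sh R _ 0 n - lm R g n) =
      up D1' (JJ j n) + sh S _ 0 (JJ j n) - lm S (j g) (JJ j n)
    rw [map_sub, map_add, hu _ _ c1, hs, hl]
  · exact hl s n
  · exact hl p n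

/-- The value of a word. -/
def bet {C : Type} [Ring C] (x : Fin 5 → C) (w : List (Fin 2)) : C := (w.map ![x 0, x 1]).prod

/-- The map onto `C`. -/
def Pi {A C : Type} [Ring A] [Ring C] (π : A →+* C) (x : Fin 5 → C) : NN A →+ C :=
  Finsupp.liftAddHom (fun w => (AddMonoidHom.mulRight (bet x w)).comp π.toAddMonoidHom)

theorem Pi_sg {A C : Type} [Ring A] [Ring C] (π : A →+* C) (x : Fin 5 → C) (w : List (Fin 2))
    (a : A) : Pi π x (sg w a) = π a * bet x w := by
  show Finsupp.liftAddHom _ (Finsupp.single w a) = _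
  rw [Finsupp.liftAddHom_apply_single]
  rfl

theorem Pi_op {C : Type} [Ring C] (π : A →+* C) {x : Fin 5 → C}
    {D1 D2 : A →ₗ[R] A} (c1 : ∀ a, π (D1 a) = x 0 * π a - π a * x 0)
    (c2 : ∀ a, π (D2 a) = x 1 * π a - π a * x 1) {p g s : A} (hp : π p = x 4)
    (hg : π g = x 0 - x 2) (hs : π s = x 3) (i : Fin 5) (n : NN A) :
    Pi π x (opN D1 D2 p g s i n) = x i * Pi π x n := by
  have ext : ∀ (T : Module.End R (NN A)) (c : C),
      (∀ w a, Pi π x (T (sg w a)) = c * (π a * bet x w)) → ∀ n, Pi π x (T n) = c * Pi π x n := by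
    intro T c h n
    have : (Pi π x).comp T.toAddMonoidHom = (AddMonoidHom.mulLeft c).comp (Pi π x) := by
      apply add_ext
      intro w a
      show Pi π x (T (sg w a)) = c * Pi π x (sg w a)
      rw [h, Pi_sg]
    exact DFunLike.congr_fun this n
  have hl : ∀ (y : A) n, Pi π x (lm R y n) = π y * Pi π x n := by
    intro y n
    apply ext
    intro w a
    rw [lm_sg, Pi_sg, map_mul, mul_assoc]
  have h0 : ∀ n, Pi π x ((up D1 + sh R A 0) n) = x 0 * Pi π x n := by
    apply ext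
    intro w a
    rw [LinearMap.add_apply, up_sg, sh_sg, map_add, Pi_sg, Pi_sg, c1]
    show _ + π a * (x 0 * bet x w) = _
    noncomm_ring
  have h1 : ∀ n, Pi π x ((up D2 + sh R A 1) n) = x 1 * Pi π x n := by
    apply ext
    intro w a
    rw [LinearMap.add_apply, up_sg, sh_sg, map_add, Pi_sg, Pi_sg, c2]
    show _ + π a * (x 1 * bet x w) = _
    noncomm_ring
  fin_cases i
  · exact h0 n
  · exact h1 n
  · show Pi π x ((up D1 + sh R A 0) n - lm R g n) = x 2 * Pi π x n
    rw [map_sub, h0, hl, hg]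
    noncomm_ring
  · exact (hl s n).trans (congrArg (· * Pi π x n) hs)
  · exact (hl p n).trans (congrArg (· * Pi π x n) hp)

/-- The reduction of an integral Lie polynomial. -/
theorem main {R S A A' C X : Type} [CommRing R] [CommRing S] [Ring A] [Ring A'] [Ring C]
    [Algebra R A] [Algebra S A'] {D1 D2 : A →ₗ[R] A} {D1' D2' : A' →ₗ[S] A'}
    (j : A →+* A') (hj : Function.Injective j)
    (c1 : ∀ a, j (D1 a) = D1' (j a)) (c2 : ∀ a, j (D2 a) = D2' (j a))
    (π : A →+* C) {x : Fin 5 → C} (d1 : ∀ a, π (D1 a) = x 0 * π a - π a * x 0)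
    (d2 : ∀ a, π (D2 a) = x 1 * π a - π a * x 1) {p g s : A} (hp : π p = x 4)
    (hg : π g = x 0 - x 2) (hs : π s = x 3) {k : ℕ} (t : Fin k → Tr (Fin 2)) (c : Fin k → ℤ)
    (h : ∑ i, ∑ j', c j' • (t j').eval ![opN D1' D2' (j p) (j g) (j s) i,
      opN D1' D2' (j p) (j g) (j s) (i + 1)] = 0) :
    ∑ i, ∑ j', c j' • (t j').eval ![x i, x (i + 1)] = 0 := by
  have e1 : ∀ (i : Fin 5) (u : Tr (Fin 2)) (n : NN A), JJ j (u.eval ![opN D1 D2 p g s i,
      opN D1 D2 p g s (i + 1)] n) = u.eval ![opN D1' D2' (j p) (j g) (j s) i,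
      opN D1' D2' (j p) (j g) (j s) (i + 1)] (JJ j n) := by
    intro i u n
    apply eval_inter
    intro y m
    fin_cases y
    · exact JJ_op j c1 c2 p g s i m
    · exact JJ_op j c1 c2 p g s (i + 1) m
  have e2 : ∀ (i : Fin 5) (u : Tr (Fin 2)) (n : NN A), Pi π x (u.eval ![opN D1 D2 p g s i,
      opN D1 D2 p g s (i + 1)] n) = u.eval ![x i, x (i + 1)] * Pi π x n := by
    intro i u n
    have h2 : (u.eval ![LinearMap.mulLeft ℤ (x i), LinearMap.mulLeft ℤ (x (i + 1))] :
        Module.End ℤ C) = LinearMap.mulLeft ℤ (u.eval ![x i, x (i + 1)]) := by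
      rw [eval_hom (fun a : C => (LinearMap.mulLeft ℤ a : Module.End ℤ C))
        (fun a b => (Ops.lie_LL a b).symm)]
      congr 1
      funext y
      fin_cases y <;> rfl
    rw [← LinearMap.mulLeft_apply (R := ℤ), ← h2]
    apply eval_inter
    intro y m
    fin_cases y
    · exact Pi_op π d1 d2 hp hg hs i m
    · exact Pi_op π d1 d2 hp hg hs (i + 1) m
  have e3 : JJ j (∑ i, ∑ j', c j' • (t j').eval ![opN D1 D2 p g s i,
      opN D1 D2 p g s (i + 1)] (sg [] 1)) = 0 := by
    have := DFunLike.congr_fun h (JJ j (sg [] 1))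
    rw [LinearMap.zero_apply, LinearMap.sum_apply] at this
    rw [← this, map_sum]
    refine Finset.sum_congr rfl fun i _ => ?_
    rw [map_sum, LinearMap.sum_apply]
    refine Finset.sum_congr rfl fun l _ => ?_
    rw [map_zsmul, e1]
    rfl
  have e4 := JJ_inj hj (e3.trans (map_zero _).symm)
  have e5 := congrArg (Pi π x) e4
  rw [map_zero, map_sum] at e5
  rw [← e5]
  refine Finset.sum_congr rfl fun i _ => ?_
  rw [map_sum]
  refine Finset.sum_congr rfl fun l _ => ?_
  rw [map_zsmul, e2, Pi_sg, map_one, one_mul]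
  show _ = c l • (_ * ([] : List C).prod)
  rw [List.prod_nil, mul_one]

theorem lift_sum {X g : Type} [CommRing R] [LieRing g] [LieAlgebra R g] (f : X → g) {k : ℕ}
    (t : Fin k → Tr X) (c : Fin k → ℤ) :
    FreeLieAlgebra.lift R f (∑ j, (c j : R) • (t j).eval (FreeLieAlgebra.of R)) =
      ∑ j, c j • (t j).eval f := by
  rw [map_sum]
  refine Finset.sum_congr rfl fun j _ => ?_
  rw [map_smul, lift_eval, Int.cast_smul_eq_zsmul]

theorem forall3 {P : Fin 3 → Prop} (h0 : P 0) (h1 : P 1) (h2 : P 2) (x : Fin 3) : P x := by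
  fin_cases x
  exacts [h0, h1, h2]

end Transport

open Transport in
/- B5' -/
theorem five_all {k n : ℕ} (hn : 2 ≤ n) (t : Fin k → Tr (Fin 2)) (c : Fin k → ℤ)
    (hW : ∑ j, (c j : ℚ) • (t j).eval (FreeLieAlgebra.of ℚ) ∈ W n) :
    FiveAll (∑ j, (c j : K2) • (t j).eval (FreeLieAlgebra.of K2)) := by
  intro C _ _ x hx
  obtain ⟨D1, D2, h⟩ := exists_isDer ℤ
  obtain ⟨D1', D2', h'⟩ := exists_isDer ℚ
  have f := five_term _ (opN_P5 h') hn hW
  let π : FreeAlgebra ℤ (Fin 3) →+* C :=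
    (FreeAlgebra.lift ℤ ![x 4, x 0 - x 2, x 3] : FreeAlgebra ℤ (Fin 3) →ₐ[ℤ] C).toRingHom
  have p0 : π (FreeAlgebra.ι ℤ 0) = x 4 := FreeAlgebra.lift_ι_apply _ _
  have p1 : π (FreeAlgebra.ι ℤ 1) = x 0 - x 2 := FreeAlgebra.lift_ι_apply _ _
  have p2 : π (FreeAlgebra.ι ℤ 2) = x 3 := FreeAlgebra.lift_ι_apply _ _
  have j0 := jj_ι ℚ (0 : Fin 3)
  have j1 := jj_ι ℚ (1 : Fin 3)
  have j2 := jj_ι ℚ (2 : Fin 3)
  have q0 : x 0 * x 2 = x 2 * x 0 := sub_eq_zero.1 (hx.comm 0)
  have q1 : x 1 * x 3 = x 3 * x 1 := sub_eq_zero.1 (hx.comm 1)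
  have q2 : x 2 * x 4 = x 4 * x 2 := sub_eq_zero.1 (hx.comm 2)
  have q3 : x 3 * x 0 = x 0 * x 3 := sub_eq_zero.1 (hx.comm 3)
  have q4 : x 4 * x 1 = x 1 * x 4 := sub_eq_zero.1 (hx.comm 4)
  have qs : (x 0 * x 1 - x 1 * x 0) + (x 1 * x 2 - x 2 * x 1) + (x 2 * x 3 - x 3 * x 2) +
      (x 3 * x 4 - x 4 * x 3) + (x 4 * x 0 - x 0 * x 4) = 0 := by
    have := hx.sum
    rw [Fin.sum_univ_five] at this
    exact this
  have δadd : ∀ (y a b : C), (AddMonoidHom.mulLeft y - AddMonoidHom.mulRight y) (a * b) =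
      (AddMonoidHom.mulLeft y - AddMonoidHom.mulRight y) a * b +
        a * (AddMonoidHom.mulLeft y - AddMonoidHom.mulRight y) b := by
    intro y a b
    show y * (a * b) - a * b * y = (y * a - a * y) * b + a * (y * b - b * y)
    noncomm_ring
  have key := main (R := ℤ) (S := ℚ) (X := Unit) (D1 := D1) (D2 := D2) (D1' := D1') (D2' := D2')
    (jj ℚ (Fin 3)) jj_inj ?_ ?_ π (x := x) ?_ ?_ p0 p1 p2 t c ?_
  · show ∑ i, FreeLieAlgebra.lift K2 ![x i, x (i + 1)] _ = 0
    rw [← key]
    refine Finset.sum_congr rfl fun i _ => ?_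
    rw [lift_sum]
  · refine der_compat _ D1.toAddMonoidHom h.leib1 D1'.toAddMonoidHom h'.leib1 (forall3 ?_ ?_ ?_)
    · show jj ℚ (Fin 3) (D1 _) = D1' (jj ℚ (Fin 3) _)
      rw [h.p1, j0, h'.p1, Ring.lie_def, Ring.lie_def, map_sub, map_mul, map_mul, j0, j1]
    · show jj ℚ (Fin 3) (D1 _) = D1' (jj ℚ (Fin 3) _)
      rw [h.g1, j1, h'.g1, map_zero]
    · show jj ℚ (Fin 3) (D1 _) = D1' (jj ℚ (Fin 3) _)
      rw [h.s1, j2, h'.s1, map_zero]
  · refine der_compat _ D2.toAddMonoidHom h.leib2 D2'.toAddMonoidHom h'.leib2 (forall3 ?_ ?_ ?_)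
    · show jj ℚ (Fin 3) (D2 _) = D2' (jj ℚ (Fin 3) _)
      rw [h.p2, j0, h'.p2, map_zero]
    · show jj ℚ (Fin 3) (D2 _) = D2' (jj ℚ (Fin 3) _)
      rw [h.g2, j1, h'.g2]
      simp only [Ring.lie_def, map_sub, map_mul, map_add, j0, j1, j2]
    · show jj ℚ (Fin 3) (D2 _) = D2' (jj ℚ (Fin 3) _)
      rw [h.s2, j2, h'.s2, map_zero]
  · refine der_compat π D1.toAddMonoidHom h.leib1
      (AddMonoidHom.mulLeft (x 0) - AddMonoidHom.mulRight (x 0)) (δadd (x 0)) (forall3 ?_ ?_ ?_)
    · show π (D1 _) = x 0 * π _ - π _ * x 0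
      rw [h.p1, Ring.lie_def, map_sub, map_mul, map_mul, p0, p1, sub_mul, mul_sub, q2]
      abel
    · show π (D1 _) = x 0 * π _ - π _ * x 0
      rw [h.g1, map_zero, p1, mul_sub, sub_mul, q0]
      abel
    · show π (D1 _) = x 0 * π _ - π _ * x 0
      rw [h.s1, map_zero, p2, q3, sub_self]
  · refine der_compat π D2.toAddMonoidHom h.leib2
      (AddMonoidHom.mulLeft (x 1) - AddMonoidHom.mulRight (x 1)) (δadd (x 1)) (forall3 ?_ ?_ ?_)
    · show π (D2 _) = x 1 * π _ - π _ * x 1
      rw [h.p2, map_zero, p0, q4, sub_self]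
    · show π (D2 _) = x 1 * π _ - π _ * x 1
      rw [h.g2]
      simp only [Ring.lie_def, map_sub, map_mul, map_add, p0, p1, p2]
      have e : ∀ u v : C, u - v = 0 → u = v := fun u v => sub_eq_zero.1
      apply e
      rw [← qs]
      simp only [mul_sub, sub_mul, add_mul, mul_add, q2, q3]
      abel
    · show π (D2 _) = x 1 * π _ - π _ * x 1
      rw [h.s2, map_zero, p2, q1, sub_self]
  · rw [j0, j1, j2, ← f]
    refine Finset.sum_congr rfl fun i _ => ?_
    exact (lift_sum _ t c).symm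

open Transport in
/- B6 -/
theorem anti_mod2 {k n : ℕ} (t : Fin k → Tr (Fin 2)) (c : Fin k → ℤ)
    (hW : ∑ j, (c j : ℚ) • (t j).eval (FreeLieAlgebra.of ℚ) ∈ W n) :
    Anti (∑ j, (c j : K2) • (t j).eval (FreeLieAlgebra.of K2)) := by
  have h1 := hW.2.1
  have h2 : ∀ a b : L, subst a b (∑ j, (c j : ℚ) • (t j).eval (FreeLieAlgebra.of ℚ)) =
      ∑ j, c j • (t j).eval ![a, b] := fun a b => lift_sum _ t c
  rw [h2, h2] at h1
  have h3 := congrArg (toFree ℚ (Fin 2)) h1
  have h4 : ∀ (R : Type) [CommRing R] (a b : Fin 2),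
      jj R (Fin 2) (∑ j, c j • (t j).eval ![FreeAlgebra.ι ℤ a, FreeAlgebra.ι ℤ b]) =
      ∑ j, c j • (t j).eval ![FreeAlgebra.ι R a, FreeAlgebra.ι R b] := by
    intro R _ a b
    rw [map_sum]
    refine Finset.sum_congr rfl fun j _ => ?_
    rw [map_zsmul, eval_hom (jj R (Fin 2)) (fun u v => by
      rw [Ring.lie_def, Ring.lie_def, map_sub, map_mul, map_mul])]
    congr 2
    funext y
    fin_cases y
    · exact jj_ι R a
    · exact jj_ι R b
  have h5 : ∀ a b : Fin 2, toFree ℚ (Fin 2) (∑ j, c j • (t j).eval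
      ![FreeLieAlgebra.of ℚ a, FreeLieAlgebra.of ℚ b]) =
      ∑ j, c j • (t j).eval ![FreeAlgebra.ι ℚ a, FreeAlgebra.ι ℚ b] := by
    intro a b
    rw [map_sum]
    refine Finset.sum_congr rfl fun j _ => ?_
    rw [map_zsmul, eval_hom (toFree ℚ (Fin 2)) (fun u v => LieHom.map_lie _ u v)]
    congr 2
    funext y
    fin_cases y
    · exact FreeLieAlgebra.lift_of_apply _ _
    · exact FreeLieAlgebra.lift_of_apply _ _
  rw [map_add, map_zero] at h3
  have h6 := h3
  unfold lx ly at h6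
  rw [h5, h5, ← h4 ℚ 0 1, ← h4 ℚ 1 0, ← map_add] at h6
  have h7 := jj_inj (h6.trans (map_zero _).symm)
  have h8 := congrArg (jj K2 (Fin 2)) h7
  rw [map_add, map_zero, h4, h4] at h8
  unfold Anti
  rw [lift_sum, lift_sum]
  exact h8

end Vale.Agent.P029
end
end
end

section

section

/-!
# P029: reductions of integral elements of `W n` satisfy the equations modulo two (N3b)
-/

noncomputable section

attribute [local instance 100] LieRing.ofAssociativeRing

namespace Vale.Agent.P029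


namespace BarW

/-- Base change of a Lie monomial. -/
lemma base_eval (R : Type) [CommRing R] {X : Type} (t : Tr X) :
    base R X (t.eval (FreeLieAlgebra.of ℤ)) = t.eval (FreeLieAlgebra.of R) := by
  induction t with
  | leaf x => exact FreeLieAlgebra.lift_of_apply (FreeLieAlgebra.of R) x
  | node a b iha ihb =>
    show base R X ⁅a.eval _, b.eval _⁆ = ⁅a.eval _, b.eval _⁆
    rw [LieHom.map_lie, iha, ihb]

/-- An integral element of weight `n` is an integral combination of Lie monomials. -/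
lemma exists_rep {X : Type} {w : X → ℕ} {n : ℕ} {z : FreeLieAlgebra ℤ X} (hz : z ∈ wtPart ℤ w n) :
    ∃ (k : ℕ) (t : Fin k → Tr X) (c : Fin k → ℤ), (∀ j, (t j).wt w = n) ∧
      z = ∑ j, c j • (t j).eval (FreeLieAlgebra.of ℤ) := by
  refine Submodule.span_induction (p := fun z _ => ∃ (k : ℕ) (t : Fin k → Tr X) (c : Fin k → ℤ),
    (∀ j, (t j).wt w = n) ∧ z = ∑ j, c j • (t j).eval (FreeLieAlgebra.of ℤ)) ?_ ?_ ?_ ?_ hz
  · rintro _ ⟨t, ht, rfl⟩
    exact ⟨1, fun _ => t, fun _ => 1, fun _ => ht, by simp⟩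
  · exact ⟨0, Fin.elim0, Fin.elim0, fun j => j.elim0, by simp⟩
  · rintro x y - - ⟨k, t, c, ht, rfl⟩ ⟨k', t', c', ht', rfl⟩
    refine ⟨k + k', Fin.append t t', Fin.append c c', fun j => ?_, ?_⟩
    · refine Fin.addCases (fun i => ?_) (fun i => ?_) j
      · rw [Fin.append_left]; exact ht i
      · rw [Fin.append_right]; exact ht' i
    · rw [Fin.sum_univ_add]
      simp only [Fin.append_left, Fin.append_right]
  · rintro a x - ⟨k, t, c, ht, rfl⟩
    refine ⟨k, t, fun j => a * c j, ht, ?_⟩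
    have h1 : ∀ x : FreeLieAlgebra ℤ X, (DistribMulAction.toDistribSMul.toSMul.smul a x :
        FreeLieAlgebra ℤ X) = a • x := fun x => Int.cast_smul_eq_zsmul ℤ a x
    refine (h1 _).trans ?_
    rw [Finset.smul_sum]
    simp only [mul_smul]

lemma base_sum (R : Type) [CommRing R] {X : Type} {k : ℕ} (t : Fin k → Tr X) (c : Fin k → ℤ) :
    base R X (∑ j, c j • (t j).eval (FreeLieAlgebra.of ℤ)) =
      ∑ j, (c j : R) • (t j).eval (FreeLieAlgebra.of R) := by
  rw [map_sum]
  refine Finset.sum_congr rfl fun j _ => ?_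
  rw [map_smul, base_eval, Int.cast_smul_eq_zsmul]

lemma base_wtPart (R : Type) [CommRing R] {X : Type} {w : X → ℕ} {n : ℕ}
    {z : FreeLieAlgebra ℤ X} (hz : z ∈ wtPart ℤ w n) : base R X z ∈ wtPart R w n := by
  obtain ⟨k, t, c, ht, rfl⟩ := exists_rep hz
  rw [base_sum]
  exact Submodule.sum_mem _ fun j _ => Submodule.smul_mem _ _ (Submodule.subset_span ⟨t j, ht j, rfl⟩)

end BarW

open BarW in
theorem bar_W {n : ℕ} (hn : 2 ≤ n) {ψ : FreeLieAlgebra K2 (Fin 2)} (hψ : ψ ∈ bar n (W n)) :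
    ψ ∈ wtPart K2 (fun _ : Fin 2 => 1) n ∧ Anti ψ ∧ FiveAll ψ := by
  obtain ⟨z, hz, hzW, rfl⟩ := hψ
  refine ⟨base_wtPart K2 hz, ?_⟩
  obtain ⟨k, t, c, ht, rfl⟩ := exists_rep hz
  rw [base_sum] at hzW ⊢
  exact ⟨anti_mod2 t c hzW, five_all hn t c hzW⟩

end Vale.Agent.P029
end
end
end

section

section

/-!
# P029: the relation `Rel` and the Ihara bracket; injectivity
-/

noncomputable section

attribute [local instance 100] LieRing.ofAssociativeRing

namespace Vale.Agent.P029

namespace RelBr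

/-- Induction for the free Lie algebra. -/
theorem ind {R : Type} [CommRing R] {X : Type} (S : LieSubalgebra R (FreeLieAlgebra R X))
    (h : ∀ x, FreeLieAlgebra.of R x ∈ S) (a : FreeLieAlgebra R X) : a ∈ S := by
  let f : FreeLieAlgebra R X →ₗ⁅R⁆ S :=
    FreeLieAlgebra.lift R (fun x => (⟨FreeLieAlgebra.of R x, h x⟩ : S))
  have e : S.incl.comp f = LieHom.id := by
    apply FreeLieAlgebra.hom_ext
    intro x
    simp [f]
  have e2 : (S.incl.comp f) a = a := by rw [e]; rfl
  rw [← e2]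
  exact (f a).2

theorem comp_der {R : Type} [CommRing R] {X g : Type} [LieRing g] [LieAlgebra R g]
    (T : FreeLieAlgebra R X →ₗ⁅R⁆ g)
    (D : LieDerivation R (FreeLieAlgebra R X) (FreeLieAlgebra R X))
    (h : ∀ x, T (D (FreeLieAlgebra.of R x)) = 0) (φ : FreeLieAlgebra R X) : T (D φ) = 0 := by
  let S : LieSubalgebra R (FreeLieAlgebra R X) :=
    { carrier := {a | T (D a) = 0}
      add_mem' := by
        intro a b ha hb
        show T (D (a + b)) = 0
        rw [map_add, map_add, show T (D a) = 0 from ha, show T (D b) = 0 from hb, add_zero]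
      zero_mem' := by
        show T (D 0) = 0
        rw [map_zero, map_zero]
      smul_mem' := by
        intro c a ha
        show T (D (c • a)) = 0
        rw [map_smul, map_smul, show T (D a) = 0 from ha, smul_zero]
      lie_mem' := by
        intro a b ha hb
        show T (D ⁅a, b⁆) = 0
        rw [LieDerivation.apply_lie_eq_sub, map_sub, LieHom.map_lie, LieHom.map_lie,
          show T (D a) = 0 from ha, show T (D b) = 0 from hb, lie_zero, lie_zero, sub_zero] }
  exact ind S h φ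

theorem Y4_pk {Y : Fin 5 → Module.End K2 KK} (hY : IsRep2 Y) (k : ℕ) : Y 4 (pk k) = 0 := by
  unfold pk
  rw [Rep2.kill_adIter (Rep2.der hY 4) hY.w4, hY.x4, Rep2.adIter_self]

theorem Y4_lift {Y : Fin 5 → Module.End K2 KK} (hY : IsRep2 Y) (α : FreeLieAlgebra K2 ℕ) :
    Y 4 (FreeLieAlgebra.lift K2 pk α) = 0 := by
  let S : LieSubalgebra K2 (FreeLieAlgebra K2 ℕ) :=
    { carrier := {a | Y 4 (FreeLieAlgebra.lift K2 pk a) = 0}
      add_mem' := by
        intro a b ha hb
        show Y 4 (FreeLieAlgebra.lift K2 pk (a + b)) = 0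
        rw [map_add, map_add, show Y 4 (FreeLieAlgebra.lift K2 pk a) = 0 from ha,
          show Y 4 (FreeLieAlgebra.lift K2 pk b) = 0 from hb, add_zero]
      zero_mem' := by
        show Y 4 (FreeLieAlgebra.lift K2 pk 0) = 0
        rw [map_zero, map_zero]
      smul_mem' := by
        intro c a ha
        show Y 4 (FreeLieAlgebra.lift K2 pk (c • a)) = 0
        rw [map_smul, map_smul, show Y 4 (FreeLieAlgebra.lift K2 pk a) = 0 from ha, smul_zero]
      lie_mem' := by
        intro a b ha hb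
        show Y 4 (FreeLieAlgebra.lift K2 pk ⁅a, b⁆) = 0
        rw [LieHom.map_lie, (Rep2.der hY 4).lie,
          show Y 4 (FreeLieAlgebra.lift K2 pk a) = 0 from ha,
          show Y 4 (FreeLieAlgebra.lift K2 pk b) = 0 from hb, lie_zero, zero_lie, add_zero] }
  refine ind S (fun k => ?_) α
  show Y 4 (FreeLieAlgebra.lift K2 pk (FreeLieAlgebra.of K2 k)) = 0
  rw [FreeLieAlgebra.lift_of_apply, Y4_pk hY]

theorem aug_lift (α : FreeLieAlgebra K2 ℕ) :
    FreeAlgebra.algebraMapInv (FreeLieAlgebra.lift K2 pk α) = 0 := by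
  have hb : ∀ a b : KK, FreeAlgebra.algebraMapInv ⁅a, b⁆ = 0 := by
    intro a b
    rw [Ring.lie_def, map_sub, map_mul, map_mul, mul_comm, sub_self]
  let S : LieSubalgebra K2 (FreeLieAlgebra K2 ℕ) :=
    { carrier := {a | FreeAlgebra.algebraMapInv (FreeLieAlgebra.lift K2 pk a) = 0}
      add_mem' := by
        intro a b ha hb
        show FreeAlgebra.algebraMapInv (FreeLieAlgebra.lift K2 pk (a + b)) = 0
        rw [map_add, map_add,
          show FreeAlgebra.algebraMapInv (FreeLieAlgebra.lift K2 pk a) = 0 from ha,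
          show FreeAlgebra.algebraMapInv (FreeLieAlgebra.lift K2 pk b) = 0 from hb, add_zero]
      zero_mem' := by
        show FreeAlgebra.algebraMapInv (FreeLieAlgebra.lift K2 pk 0) = 0
        rw [map_zero, map_zero]
      smul_mem' := by
        intro c a ha
        show FreeAlgebra.algebraMapInv (FreeLieAlgebra.lift K2 pk (c • a)) = 0
        rw [map_smul, map_smul,
          show FreeAlgebra.algebraMapInv (FreeLieAlgebra.lift K2 pk a) = 0 from ha, smul_zero]
      lie_mem' := by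
        intro a b ha hb'
        show FreeAlgebra.algebraMapInv (FreeLieAlgebra.lift K2 pk ⁅a, b⁆) = 0
        rw [LieHom.map_lie, hb] }
  refine ind S (fun k => ?_) α
  show FreeAlgebra.algebraMapInv (FreeLieAlgebra.lift K2 pk (FreeLieAlgebra.of K2 k)) = 0
  rw [FreeLieAlgebra.lift_of_apply]
  exact hb _ _

theorem lift_pk (α : FreeLieAlgebra K2 ℕ) :
    FreeLieAlgebra.lift K2 pk α = FreeAlgebra.lift K2 pk (toFree K2 ℕ α) := by
  have e : (FreeLieAlgebra.lift K2 pk : FreeLieAlgebra K2 ℕ →ₗ⁅K2⁆ KK) =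
      ((FreeAlgebra.lift K2 pk).toLieHom).comp (toFree K2 ℕ) := by
    apply FreeLieAlgebra.hom_ext
    intro k
    simp [toFree]
  rw [e]
  rfl

end RelBr

/- N5a -/
theorem rel_bracket {Y : Fin 5 → Module.End K2 KK} (hY : IsRep2 Y)
    {ψ φ : FreeLieAlgebra K2 (Fin 2)} {α β : FreeLieAlgebra K2 ℕ} (h1 : Rel Y ψ α)
    (h2 : Rel Y φ β) {D E : LieDerivation K2 (FreeLieAlgebra K2 (Fin 2))
      (FreeLieAlgebra K2 (Fin 2))} (hD : IsIDer ψ D) (hE : IsIDer φ E) :
    Rel Y (D φ - E ψ + ⁅ψ, φ⁆) ⁅α, β⁆ := by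
  have key : ∀ {ψ : FreeLieAlgebra K2 (Fin 2)} {α : FreeLieAlgebra K2 ℕ}
      {D : LieDerivation K2 (FreeLieAlgebra K2 (Fin 2)) (FreeLieAlgebra K2 (Fin 2))},
      Rel Y ψ α → IsIDer ψ D → ∀ φ, FreeLieAlgebra.lift K2 ![Y 0, Y 4] (D φ) = 0 := by
    intro ψ α D h hD φ
    apply RelBr.comp_der
    intro x
    fin_cases x
    · show FreeLieAlgebra.lift K2 ![Y 0, Y 4] (D (FreeLieAlgebra.of K2 0)) = 0
      rw [hD.1, map_zero]
    · show FreeLieAlgebra.lift K2 ![Y 0, Y 4] (D (FreeLieAlgebra.of K2 1)) = 0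
      rw [hD.2, LieHom.map_lie, FreeLieAlgebra.lift_of_apply]
      have e : FreeLieAlgebra.lift K2 ![Y 0, Y 4] ψ =
          Rep2.adE (FreeLieAlgebra.lift K2 pk α) := by
        refine LinearMap.ext fun z => ?_
        rw [h z]
        rfl
      rw [e, Ring.lie_def]
      show Y 4 * _ - _ * Y 4 = 0
      rw [Rep2.comm_adE (Rep2.der hY 4), RelBr.Y4_lift hY]
      refine LinearMap.ext fun z => ?_
      rw [Rep2.adE_lie, zero_lie]
      rfl
  intro z
  rw [map_add, map_sub, key h1 hD, key h2 hE, sub_zero, zero_add, LieHom.map_lie,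
    LieHom.map_lie, Ring.lie_def, LinearMap.sub_apply, Module.End.mul_apply,
    Module.End.mul_apply, h1, h2, h1, h2, lie_lie]

/- N5b -/
theorem lam_inj {n : ℕ} {α : FreeLieAlgebra K2 ℕ} (hα : α ∈ wtPart K2 (fun k : ℕ => 2 * k + 3) n)
    (h : ∀ z : KK, ⁅FreeLieAlgebra.lift K2 pk α, z⁆ = 0) : α = 0 := by
  have h0 : FreeLieAlgebra.lift K2 pk α = 0 := center_KK _ (fun b => h b) (RelBr.aug_lift α)
  rw [RelBr.lift_pk] at h0
  have h1 : toFree K2 ℕ α = 0 := by
    have e : ∀ a : FreeAlgebra K2 ℕ, FreeAlgebra.lift K2 (Sum.elim pk (Sum.elim qk rk))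
        (FreeAlgebra.lift K2 (fun k : ℕ => FreeAlgebra.ι K2 (Sum.inl k)) a) =
          FreeAlgebra.lift K2 pk a := by
      intro a
      have e2 : (FreeAlgebra.lift K2 (Sum.elim pk (Sum.elim qk rk) : ℕ ⊕ (ℕ ⊕ ℕ) → KK)).comp
          (FreeAlgebra.lift K2 (fun k : ℕ => FreeAlgebra.ι K2 (Sum.inl k))) =
            FreeAlgebra.lift K2 pk := by
        apply FreeAlgebra.hom_ext
        funext k
        simp
      exact congrArg (fun f => f a) e2
    have e3 : FreeAlgebra.lift K2 (fun k : ℕ => (FreeAlgebra.ι K2 (Sum.inl k) :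
        FreeAlgebra K2 (ℕ ⊕ (ℕ ⊕ ℕ)))) (toFree K2 ℕ α) = 0 := by
      apply pqr_free
      rw [e, h0, map_zero]
    have e4 := congrArg (FreeAlgebra.lift K2 (Sum.elim (FreeAlgebra.ι K2) (fun _ => 0) :
      ℕ ⊕ (ℕ ⊕ ℕ) → FreeAlgebra K2 ℕ)) e3
    have e5 : (FreeAlgebra.lift K2 (Sum.elim (FreeAlgebra.ι K2) (fun _ => 0) :
      ℕ ⊕ (ℕ ⊕ ℕ) → FreeAlgebra K2 ℕ)).comp
        (FreeAlgebra.lift K2 (fun k : ℕ => (FreeAlgebra.ι K2 (Sum.inl k) :
        FreeAlgebra K2 (ℕ ⊕ (ℕ ⊕ ℕ))))) = AlgHom.id K2 _ := by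
      apply FreeAlgebra.hom_ext
      funext k
      simp
    have e6 := congrArg (fun f => f (toFree K2 ℕ α)) e5
    rw [map_zero] at e4
    exact e6.symm.trans e4
  refine toFree_injOn (fun k : ℕ => 2 * k + 3) (fun k => by omega) (fun m => ?_) hα h1
  refine Set.Finite.subset (Set.finite_Iic m) fun k (hk : 2 * k + 3 = m) => ?_
  show k ≤ m
  omega

end Vale.Agent.P029
end
end
end

section

section

/-! P029 lower half: the coefficient of `x^m y` (N1, N2). -/

noncomputable section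

attribute [local instance 100] LieRing.ofAssociativeRing

namespace Vale.Agent.P029.Low

open Vale.Agent.P029

namespace CoefXY

/-- `2 × 2` matrices over `ℚ[t]`. -/
abbrev MM : Type := Matrix (Fin 2) (Fin 2) (Polynomial ℚ)

/-- The image of `x`. -/
def mx : MM := !![Polynomial.X, 0; 0, 0]

/-- The image of `y`. -/
def my : MM := !![0, 1; 0, 0]

/-- The representation `x ↦ mx`, `y ↦ my`. -/
def RR : FreeAlgebra ℚ (Fin 2) →ₐ[ℚ] MM := FreeAlgebra.lift ℚ ![mx, my]

/-- The value of a word. -/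
def wd (l : List (Fin 2)) : MM := (l.map ![mx, my]).prod

lemma wd_nil : wd [] = 1 := rfl

lemma wd_zero (l : List (Fin 2)) : wd (0 :: l) = mx * wd l := by simp [wd]

lemma wd_one (l : List (Fin 2)) : wd (1 :: l) = my * wd l := by simp [wd]

lemma wd_cons_one_one (i : Fin 2) (l : List (Fin 2)) : wd (i :: l) 1 1 = 0 := by
  fin_cases i
  · change wd (0 :: l) 1 1 = 0
    rw [wd_zero, Matrix.mul_apply]; simp [mx]
  · change wd (1 :: l) 1 1 = 0
    rw [wd_one, Matrix.mul_apply]; simp [my]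

lemma wd_coeff (l : List (Fin 2)) : ∀ m : ℕ, (wd l 0 1).coeff m =
    if l = List.replicate m 0 ++ [1] then 1 else 0 := by
  induction l with
  | nil =>
    intro m
    rw [wd_nil, if_neg]
    · simp
    · simp
  | cons i l ih =>
    intro m
    fin_cases i
    · change (wd (0 :: l) 0 1).coeff m = if 0 :: l = List.replicate m 0 ++ [1] then 1 else 0
      rw [wd_zero, Matrix.mul_apply]
      simp only [mx, Matrix.of_apply, Matrix.cons_val', Matrix.cons_val_zero,
        Matrix.cons_val_fin_one, Fin.sum_univ_two, Matrix.cons_val_one, zero_mul, add_zero]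
      cases m with
      | zero => simp
      | succ m =>
        rw [Polynomial.coeff_X_mul, ih m]
        simp [List.replicate_succ]
    · change (wd (1 :: l) 0 1).coeff m = if 1 :: l = List.replicate m 0 ++ [1] then 1 else 0
      rw [wd_one, Matrix.mul_apply]
      simp only [my, Matrix.of_apply, Matrix.cons_val', Matrix.cons_val_zero,
        Matrix.cons_val_fin_one, Fin.sum_univ_two, Matrix.cons_val_one, zero_mul, zero_add,
        one_mul]
      cases l with
      | nil =>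
        rw [wd_nil]
        cases m with
        | zero => simp
        | succ m => simp [List.replicate_succ, Polynomial.coeff_one]
      | cons j l =>
        rw [wd_cons_one_one]
        cases m with
        | zero => simp
        | succ m => simp [List.replicate_succ]

/-- The corresponding map on the monoid algebra. -/
def RM : MonoidAlgebra ℚ (FreeMonoid (Fin 2)) →ₐ[ℚ] MM :=
  MonoidAlgebra.lift ℚ MM (FreeMonoid (Fin 2)) (FreeMonoid.lift ![mx, my])

lemma RM_equiv (a : FreeAlgebra ℚ (Fin 2)) :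
    RM (FreeAlgebra.equivMonoidAlgebraFreeMonoid a) = RR a := by
  have : (RM.comp (FreeAlgebra.equivMonoidAlgebraFreeMonoid (R := ℚ) (X := Fin 2)).toAlgHom)
      = RR := by
    apply FreeAlgebra.hom_ext
    ext i : 1
    simp [RM, RR, FreeAlgebra.equivMonoidAlgebraFreeMonoid, MonoidAlgebra.lift_single]
  exact congrArg (fun F : FreeAlgebra ℚ (Fin 2) →ₐ[ℚ] MM => F a) this

lemma RM_coeff (m : ℕ) (f : MonoidAlgebra ℚ (FreeMonoid (Fin 2))) :
    (RM f 0 1).coeff m = f.coeff (FreeMonoid.ofList (List.replicate m 0 ++ [1])) := by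
  induction f using MonoidAlgebra.induction_linear with
  | zero => simp
  | add a b ha hb => simp [ha, hb]
  | single w c =>
    classical
    have h := wd_coeff w.toList m
    rw [RM, MonoidAlgebra.lift_single, FreeMonoid.lift_apply]
    change ((c • wd w.toList) 0 1).coeff m = _
    rw [Matrix.smul_apply, Polynomial.coeff_smul, h, MonoidAlgebra.coeff_single,
      Finsupp.single_apply]
    by_cases hw : w = FreeMonoid.ofList (List.replicate m 0 ++ [1])
    · rw [if_pos hw, if_pos]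
      · simp
      · rw [hw]; rfl
    · rw [if_neg hw, if_neg]
      · simp
      · intro h2
        exact hw (by rw [← h2]; rfl)

/-- The Lie homomorphism `L → MM`. -/
def RL : L →ₗ⁅ℚ⁆ MM := sb mx my

lemma toFree_RL (ψ : L) :
    RR (FreeLieAlgebra.lift ℚ (FreeAlgebra.ι ℚ : Fin 2 → FreeAlgebra ℚ (Fin 2)) ψ) = RL ψ := by
  have : (RR.toLieHom.comp
      (FreeLieAlgebra.lift ℚ (FreeAlgebra.ι ℚ : Fin 2 → FreeAlgebra ℚ (Fin 2)))) = RL := by
    apply FreeLieAlgebra.hom_ext
    intro i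
    rw [LieHom.comp_apply, FreeLieAlgebra.lift_of_apply]
    change RR (FreeAlgebra.ι ℚ i) = FreeLieAlgebra.lift ℚ ![mx, my] (FreeLieAlgebra.of ℚ i)
    rw [FreeLieAlgebra.lift_of_apply, RR, FreeAlgebra.lift_ι_apply]
  exact congrArg (fun F : L →ₗ⁅ℚ⁆ MM => F ψ) this

lemma coefXY_eq (m : ℕ) (ψ : L) : coefXY m ψ = (RL ψ 0 1).coeff m := by
  rw [← toFree_RL, ← RM_equiv, RM_coeff]
  rfl

/-- In weight `≥ 2`, the image is a multiple of `my`. -/
lemma RL_wt {n : ℕ} (hn : 2 ≤ n) {ψ : L} (hψ : ψ ∈ wt2 ℚ n) :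
    ∃ p : Polynomial ℚ, RL ψ = !![0, p; 0, 0] := by
  have hlie : ∀ q p q' p' : Polynomial ℚ, ⁅(!![q, p; 0, 0] : MM), (!![q', p'; 0, 0] : MM)⁆ =
      !![0, q * p' - q' * p; 0, 0] := by
    intro q p q' p'
    rw [LieRing.of_associative_ring_bracket]
    ext i j : 2
    fin_cases i <;> fin_cases j <;> simp [mul_comm]
  have key : ∀ t : Tr (Fin 2), ∃ q p : Polynomial ℚ, t.eval ![mx, my] = !![q, p; 0, 0] := by
    intro t
    induction t with
    | leaf i =>
      fin_cases i
      · exact ⟨Polynomial.X, 0, rfl⟩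
      · exact ⟨0, 1, rfl⟩
    | node a b ha hb =>
      obtain ⟨q, p, ha⟩ := ha
      obtain ⟨q', p', hb⟩ := hb
      exact ⟨0, q * p' - q' * p, by rw [Tr.eval, ha, hb, hlie]⟩
  refine wt_induction (P := fun ψ => ∃ p : Polynomial ℚ, RL ψ = !![0, p; 0, 0])
    ?_ ⟨0, ?_⟩ ?_ ?_ hψ
  · intro t ht
    rw [RL, sb_eval]
    cases t with
    | leaf i => simp [Tr.wt] at ht; omega
    | node a b =>
      obtain ⟨q, p, ha⟩ := key a
      obtain ⟨q', p', hb⟩ := key b
      exact ⟨q * p' - q' * p, by rw [Tr.eval, ha, hb, hlie]⟩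
  · rw [map_zero]
    ext i j : 2
    fin_cases i <;> fin_cases j <;> simp
  · rintro a b ⟨p, ha⟩ ⟨q, hb⟩
    refine ⟨p + q, ?_⟩
    rw [map_add, ha, hb]
    ext i j : 2
    fin_cases i <;> fin_cases j <;> simp
  · rintro c a ⟨p, ha⟩
    refine ⟨c • p, ?_⟩
    rw [map_smul, ha]
    ext i j : 2
    fin_cases i <;> fin_cases j <;> simp

end CoefXY

open CoefXY

/- N1 -/
theorem coefXY_linear (m : ℕ) : ∃ c : L →ₗ[ℚ] ℚ, ∀ ψ, c ψ = coefXY m ψ := by
  refine ⟨(Polynomial.lcoeff ℚ m).comp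
    ((Matrix.entryLinearMap ℚ (Polynomial ℚ) 0 1).comp (RL : L →ₗ[ℚ] MM)), fun ψ => ?_⟩
  rw [coefXY_eq]
  rfl

/- N2 -/
theorem coefXY_ihara {a b m : ℕ} (ha : 2 ≤ a) (hb : 2 ≤ b) {ψ φ : L} (hψ : ψ ∈ wt2 ℚ a)
    (hφ : φ ∈ wt2 ℚ b) : coefXY m (ihara ψ φ) = 0 := by
  have key : ∀ {ψ : L} {p : Polynomial ℚ}, RL ψ = !![0, p; 0, 0] → ∀ φ : L, RL (Dp ψ φ) = 0 := by
    intro ψ p hp φ
    refine der_ext (K := ℚ) (g := MM) RL (d := (RL : L →ₗ[ℚ] MM).comp (Dp ψ)) (d' := 0)
      (fun a b => ?_) (fun a b => ?_) ?_ ?_ φ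
    · change RL (Dp ψ ⁅a, b⁆) = ⁅RL a, RL (Dp ψ b)⁆ + ⁅RL (Dp ψ a), RL b⁆
      rw [Dp_lie, map_add, LieHom.map_lie, LieHom.map_lie]
    · simp
    · change RL (Dp ψ (kx ℚ)) = 0
      rw [Dp_x, map_zero]
    · change RL (Dp ψ (ky ℚ)) = 0
      rw [Dp_y, LieHom.map_lie, hp]
      have : RL (ky ℚ) = my := by rw [RL, sb_y]
      rw [this, LieRing.of_associative_ring_bracket, my]
      ext i j : 2
      fin_cases i <;> fin_cases j <;> simp
  obtain ⟨p, hp⟩ := RL_wt ha hψ
  obtain ⟨q, hq⟩ := RL_wt hb hφ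
  rw [coefXY_eq, ihara, map_add, map_sub, key hp, key hq, LieHom.map_lie, hp, hq,
    LieRing.of_associative_ring_bracket]
  simp

end Vale.Agent.P029.Low
end
end
end

section

section

/-! P029 lower half: definitions for the exponential action on associators. -/

noncomputable section

attribute [local instance 100] LieRing.ofAssociativeRing

namespace Vale.Agent.P029.Low

open Vale.Agent.P029 TrivSqZeroExt

/-- The free associative algebra on `x, y`. -/
abbrev FA (K : Type) [CommRing K] : Type := FreeAlgebra K (Fin 2)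

/-- `ev a b P = P(a, b)`. -/
def ev {K B : Type} [CommRing K] [Ring B] [Algebra K B] (a b : B) : FA K →ₐ[K] B :=
  FreeAlgebra.lift K ![a, b]

/-- `P(x, y) ↦ P(x t, y t)`. -/
def hg (K : Type) [CommRing K] : FA K →ₐ[K] Polynomial (FA K) :=
  FreeAlgebra.lift K fun i => Polynomial.C (FreeAlgebra.ι K i) * Polynomial.X

/-- The homogeneous part of degree `k`. -/
def hp {K : Type} [CommRing K] (k : ℕ) (P : FA K) : FA K := (hg K P).coeff k

/-- The coefficient of `x^m y`. -/
def cXY {K : Type} [CommRing K] (m : ℕ) (P : FA K) : K :=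
  (FreeAlgebra.equivMonoidAlgebraFreeMonoid P).coeff
    (FreeMonoid.ofList (List.replicate m (0 : Fin 2) ++ [1]))

/-- `P ↦ P + ε D_ψ(P)`. -/
def dF {K : Type} [CommRing K] (ψ : LK K) : FA K →ₐ[K] DualNumber (FA K) :=
  FreeAlgebra.lift K ![inl (FreeAlgebra.ι K (0 : Fin 2)),
    inl (FreeAlgebra.ι K (1 : Fin 2)) + inr ⁅(FreeAlgebra.ι K (1 : Fin 2) : FA K),
      toFree K (Fin 2) ψ⁆]

/-- The derivation `D_ψ` of the free associative algebra. -/
def DF {K : Type} [CommRing K] (ψ : LK K) : FA K →ₗ[K] FA K where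
  toFun P := (dF ψ P).snd
  map_add' P Q := by simp
  map_smul' c P := by simp

/-- `T_ψ(P) = ψ P + D_ψ(P)`. -/
def TF {K : Type} [CommRing K] (ψ : LK K) : FA K →ₗ[K] FA K :=
  LinearMap.mulLeft K (toFree K (Fin 2) ψ) + DF ψ

/-- `exp(T_ψ)(P)` up to order `N`. -/
def eTF (N : ℕ) (ψ : LK ℂ) (P : FA ℂ) : FA ℂ :=
  ∑ k ∈ Finset.range (N + 1), ((k.factorial : ℂ)⁻¹) • ((TF ψ) ^ k) P

/-- Truncated associators. -/
structure Assoc (N : ℕ) (P : FA ℂ) : Prop where
  one : hp 0 P = 1
  lin : hp 1 P = 0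
  gl : ∀ (B : Type) [Ring B] [Algebra ℂ B] (a b a' b' : B), KZ.NilS {a, b, a', b'} N →
    a * a' = a' * a → a * b' = b' * a → b * a' = a' * b → b * b' = b' * b →
    ev (a + a') (b + b') P = ev a b P * ev a' b' P
  inv : ∀ (B : Type) [Ring B] [Algebra ℂ B] (a b : B), KZ.NilS {a, b} N →
    ev b a P * ev a b P = 1
  hex : ∀ (B : Type) [Ring B] [Algebra ℂ B] (a b c : B), KZ.NilS {a, b} N → a + b + c = 0 →
    ∀ s : ℂ, s = 1 ∨ s = -1 →
    KZ.expT N (s * Complex.I * Real.pi) a * ev c a P * KZ.expT N (s * Complex.I * Real.pi) c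
      * ev b c P * KZ.expT N (s * Complex.I * Real.pi) b * ev a b P = 1
  pent : ∀ (B : Type) [Ring B] [Algebra ℂ B] (X : Fin 5 → Fin 5 → B), PS X →
    KZ.NilS {z | ∃ i j, z = X i j} N →
    ev (X 2 3) (X 3 4) P * ev (X 4 0) (X 0 1) P * ev (X 1 2) (X 2 3) P * ev (X 3 4) (X 4 0) P
      * ev (X 0 1) (X 1 2) P = 1

/-- The linearised equations. -/
structure Lin (χ : FA ℂ) : Prop where
  add : ∀ (B : Type) [Ring B] [Algebra ℂ B] (a b a' b' : B),
    a * a' = a' * a → a * b' = b' * a → b * a' = a' * b → b * b' = b' * b →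
    ev (a + a') (b + b') χ = ev a b χ + ev a' b' χ
  anti : ∀ (B : Type) [Ring B] [Algebra ℂ B] (a b : B), ev a b χ + ev b a χ = 0
  hexa : ∀ (B : Type) [Ring B] [Algebra ℂ B] (a b c : B), a + b + c = 0 →
    ev a b χ + ev b c χ + ev c a χ = 0
  penta : ∀ (B : Type) [Ring B] [Algebra ℂ B] (X : Fin 5 → Fin 5 → B), PS X →
    ev (X 0 1) (X 1 2) χ + ev (X 1 2) (X 2 3) χ + ev (X 2 3) (X 3 4) χ + ev (X 3 4) (X 4 0) χ
      + ev (X 4 0) (X 0 1) χ = 0

/-! ### Filtered algebras with a derivation -/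

/-- A finite filtration of an algebra with a derivation raising it. -/
structure FilAlg {V : Type} [Ring V] [Algebra ℂ V] (N : ℕ) (δ : V →ₗ[ℂ] V)
    (Fil : ℕ → Submodule ℂ V) : Prop where
  leib : ∀ a b, δ (a * b) = δ a * b + a * δ b
  zero : Fil 0 = ⊤
  top : Fil (N + 1) = ⊥
  anti : ∀ i, Fil (i + 1) ≤ Fil i
  mul : ∀ i j a b, a ∈ Fil i → b ∈ Fil j → a * b ∈ Fil (i + j)
  der : ∀ i a, a ∈ Fil i → δ a ∈ Fil (i + 1)

/-- `δ - u · + · v`. -/
def dd {V : Type} [Ring V] [Algebra ℂ V] (δ : V →ₗ[ℂ] V) (u v : V) : V →ₗ[ℂ] V :=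
  δ - LinearMap.mulLeft ℂ u + LinearMap.mulRight ℂ v

/-- `exp(δ - u · + · v)`. -/
def EX {V : Type} [Ring V] [Algebra ℂ V] (N : ℕ) (δ : V →ₗ[ℂ] V) (u v : V) (f : V) : V :=
  ∑ k ∈ Finset.range (N + 1), ((k.factorial : ℂ)⁻¹) • ((dd δ u v) ^ k) f

end Vale.Agent.P029.Low
end
end
end

section

section

/-! P029 lower half, ED: linearisation of the associator equations (the matrix trick). -/

noncomputable section

attribute [local instance 100] LieRing.ofAssociativeRing

namespace Vale.Agent.P029.Low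

open Vale.Agent.P029 TrivSqZeroExt

namespace Linz

variable {B : Type} [Ring B] [Algebra ℂ B]

/-- Upper triangular Toeplitz matrices. -/
def tp (B : Type) [Ring B] [Algebra ℂ B] (N : ℕ) :
    Polynomial B →ₐ[ℂ] Matrix (Fin (N + 1)) (Fin (N + 1)) B where
  toFun p := Matrix.of fun i j => if i ≤ j then p.coeff (j - i : ℕ) else 0
  map_one' := by
    ext i j
    simp only [Matrix.of_apply, Matrix.one_apply, Polynomial.coeff_one]
    by_cases h : i = j
    · subst h; simp
    · have h' : (i : ℕ) ≠ j := fun e => h (Fin.ext e)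
      simp only [h, if_false, Fin.le_def]
      split_ifs <;> first | rfl | omega
  map_zero' := by ext i j; simp
  map_add' p q := by
    ext i j
    simp only [Matrix.of_apply, Matrix.add_apply, Polynomial.coeff_add]
    split_ifs <;> simp
  map_mul' p q := by
    ext i j
    simp only [Matrix.of_apply, Matrix.mul_apply, Polynomial.coeff_mul]
    by_cases h : i ≤ j
    · rw [if_pos h]
      have h' : (i : ℕ) ≤ j := h
      symm
      rw [← Finset.sum_filter_of_ne (p := fun l : Fin (N + 1) => i ≤ l ∧ l ≤ j)]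
      · refine Finset.sum_bij (fun l _ => ((l : ℕ) - i, (j : ℕ) - l)) ?_ ?_ ?_ ?_
        · intro l hl
          simp only [Finset.mem_filter, Finset.mem_univ, true_and, Fin.le_def] at hl
          simp only [Finset.HasAntidiagonal.mem_antidiagonal]
          omega
        · intro l hl l' hl' e
          simp only [Finset.mem_filter, Finset.mem_univ, true_and, Fin.le_def] at hl hl'
          simp only [Prod.mk.injEq] at e
          exact Fin.ext (by omega)
        · rintro ⟨u, v⟩ huv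
          simp only [Finset.HasAntidiagonal.mem_antidiagonal] at huv
          refine ⟨⟨i + u, by omega⟩, ?_, ?_⟩
          · simp only [Finset.mem_filter, Finset.mem_univ, true_and, Fin.le_def]
            omega
          · simp only [Prod.mk.injEq]
            omega
        · intro l hl
          simp only [Finset.mem_filter, Finset.mem_univ, true_and] at hl
          rw [if_pos hl.1, if_pos hl.2]
      · intro l _ hl
        by_contra hc
        apply hl
        rw [not_and_or] at hc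
        rcases hc with hc | hc
        · rw [if_neg hc, zero_mul]
        · rw [if_neg hc, mul_zero]
    · rw [if_neg h]
      symm
      apply Finset.sum_eq_zero
      intro l _
      by_cases h1 : i ≤ l
      · rw [if_neg (fun h2 => h (h1.trans h2)), mul_zero]
      · rw [if_neg h1, zero_mul]
  commutes' r := by
    ext i j
    simp only [Matrix.of_apply, Matrix.algebraMap_matrix_apply, Polynomial.algebraMap_apply,
      Polynomial.coeff_C]
    by_cases h : i = j
    · subst h; simp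
    · have h' : (i : ℕ) ≠ j := fun e => h (Fin.ext e)
      simp only [h, if_false, Fin.le_def]
      split_ifs <;> first | rfl | omega

theorem tp_apply (N : ℕ) (p : Polynomial B) :
    tp B N p 0 (Fin.last N) = p.coeff N := by
  change (if (0 : Fin (N + 1)) ≤ Fin.last N then p.coeff _ else 0) = _
  rw [if_pos (Fin.zero_le _)]
  simp

/-- `b t`. -/
def mt (N : ℕ) (b : B) : Matrix (Fin (N + 1)) (Fin (N + 1)) B :=
  tp B N (Polynomial.C b * Polynomial.X)

theorem mt_add (N : ℕ) (a b : B) : mt N (a + b) = mt N a + mt N b := by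
  simp only [mt, map_add, add_mul]

theorem mt_zero (N : ℕ) : mt N (0 : B) = 0 := by
  simp [mt]

theorem mt_mul (N : ℕ) (a b : B) :
    mt N a * mt N b = tp B N (Polynomial.C (a * b) * Polynomial.X ^ 2) := by
  rw [mt, mt, ← map_mul]
  congr 1
  rw [Polynomial.C_mul, pow_two, mul_assoc, mul_assoc, ← mul_assoc Polynomial.X,
    Polynomial.X_mul_C]
  simp only [mul_assoc]

theorem mt_comm (N : ℕ) {a b : B} (h : a * b = b * a) : mt N a * mt N b = mt N b * mt N a := by
  rw [mt_mul, mt_mul, h]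

theorem prod_mt (N : ℕ) (l : List (Matrix (Fin (N + 1)) (Fin (N + 1)) B))
    (h : ∀ x ∈ l, ∃ b, x = mt N b) :
    ∃ c : B, l.prod = tp B N (Polynomial.C c * Polynomial.X ^ l.length) := by
  induction l with
  | nil => exact ⟨1, by simp⟩
  | cons x l ih =>
    obtain ⟨b, hb⟩ := h x (by simp)
    obtain ⟨c, hc⟩ := ih fun y hy => h y (by simp [hy])
    refine ⟨b * c, ?_⟩
    rw [List.prod_cons, hc, hb, mt, ← map_mul, List.length_cons]
    congr 1
    rw [Polynomial.C_mul, pow_succ', mul_assoc, mul_assoc, ← mul_assoc Polynomial.X,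
      Polynomial.X_mul_C]
    simp only [mul_assoc]

theorem nil_mt (N : ℕ) {S : Set (Matrix (Fin (N + 1)) (Fin (N + 1)) B)}
    (h : ∀ x ∈ S, ∃ b, x = mt N b) : KZ.NilS S N := by
  intro l hl hS
  obtain ⟨c, hc⟩ := prod_mt N l fun x hx => h x (hS x hx)
  rw [hc, hl]
  ext i j
  change (if i ≤ j then (Polynomial.C c * Polynomial.X ^ (N + 1)).coeff (j - i : ℕ) else 0) = 0
  have hj := j.2
  rw [Polynomial.coeff_C_mul, Polynomial.coeff_X_pow,
    if_neg (show ¬ ((j : ℕ) - i = N + 1) by omega), mul_zero, ite_self]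

/-- The polynomial `P(a t, b t)`. -/
def pl (a b : B) (P : FA ℂ) : Polynomial B := Polynomial.mapAlgHom (ev a b) (hg ℂ P)

theorem pl_coeff (a b : B) (P : FA ℂ) (k : ℕ) : (pl a b P).coeff k = ev a b (hp k P) := by
  rw [pl, hp, Polynomial.coeff_mapAlgHom_apply]

theorem ev_mt (N : ℕ) (a b : B) (P : FA ℂ) :
    ev (mt N a) (mt N b) P = tp B N (pl a b P) := by
  have : ev (mt N a) (mt N b)
      = ((tp B N).comp (Polynomial.mapAlgHom (ev a b))).comp (hg ℂ) := by
    apply FreeAlgebra.hom_ext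
    funext i
    simp only [Function.comp_apply, AlgHom.comp_apply, hg, ev, FreeAlgebra.lift_ι_apply,
      Polynomial.coe_mapAlgHom, Polynomial.map_mul, Polynomial.map_C, Polynomial.map_X]
    fin_cases i <;> simp [mt]
  rw [this]
  rfl

/-- `p` and `p'` agree below degree `N` and differ by `d` in degree `N`. -/
structure Rl (N : ℕ) (p p' : Polynomial B) (d : B) : Prop where
  one : p.coeff 0 = 1
  one' : p'.coeff 0 = 1
  low : ∀ k < N, p.coeff k = p'.coeff k
  top : p.coeff N = p'.coeff N + d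

theorem Rl.mul {N : ℕ} (hN : 1 ≤ N) {p p' q q' : Polynomial B} {d e : B} (h : Rl N p p' d)
    (h' : Rl N q q' e) : Rl N (p * q) (p' * q') (d + e) where
  one := by rw [Polynomial.mul_coeff_zero, h.one, h'.one, one_mul]
  one' := by rw [Polynomial.mul_coeff_zero, h.one', h'.one', one_mul]
  low k hk := by
    rw [Polynomial.coeff_mul, Polynomial.coeff_mul]
    refine Finset.sum_congr rfl fun x hx => ?_
    rw [Finset.HasAntidiagonal.mem_antidiagonal] at hx
    rw [h.low _ (by omega), h'.low _ (by omega)]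
  top := by
    rw [Polynomial.coeff_mul, Polynomial.coeff_mul]
    have e1 : ∀ x ∈ Finset.HasAntidiagonal.antidiagonal N, p.coeff x.1 * q.coeff x.2
        = p'.coeff x.1 * q'.coeff x.2 + ((if x = (0, N) then e else 0)
          + (if x = (N, 0) then d else 0)) := by
      rintro ⟨u, v⟩ hx
      rw [Finset.HasAntidiagonal.mem_antidiagonal] at hx
      simp only at hx
      simp only [Prod.mk.injEq]
      by_cases hu : u = 0
      · have hv : v = N := by omega
        subst hu
        subst hv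
        rw [if_pos ⟨rfl, rfl⟩, if_neg (by omega), h'.top, h.one, h.one']
        simp
      · by_cases hv : v = 0
        · have hu' : u = N := by omega
          subst hv
          subst hu'
          rw [if_neg (by omega), if_pos ⟨rfl, rfl⟩, h.top, h'.one, h'.one']
          simp
        · rw [if_neg (by omega), if_neg (by omega), h.low u (by omega), h'.low v (by omega)]
          simp
    rw [Finset.sum_congr rfl e1, Finset.sum_add_distrib, Finset.sum_add_distrib,
      Finset.sum_ite_eq' , Finset.sum_ite_eq', if_pos (by simp), if_pos (by simp), add_comm e d]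

theorem Rl.refl {N : ℕ} {p : Polynomial B} (h : p.coeff 0 = 1) : Rl N p p 0 :=
  ⟨h, h, fun _ _ => rfl, by simp⟩

theorem Rl.eq {N : ℕ} {p p' q q' : Polynomial B} {d e : B} (h : Rl N p p' d) (h' : Rl N q q' e)
    (h1 : p.coeff N = q.coeff N) (h2 : p'.coeff N = q'.coeff N) : d = e := by
  have := h.top
  rw [h1, h2, h'.top] at this
  exact (add_left_cancel this).symm

/-- The polynomial of `exp(c a t)`. -/
def ex (N : ℕ) (c : ℂ) (a : B) : Polynomial B :=
  KZ.expT N c (Polynomial.C a * Polynomial.X)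

theorem ex_zero (N : ℕ) (c : ℂ) (a : B) : (ex N c a).coeff 0 = 1 := by
  rw [ex, KZ.expT, Polynomial.finsetSum_coeff, Finset.sum_eq_single 0]
  · simp
  · intro k _ hk
    rw [Polynomial.coeff_smul, ← Polynomial.constantCoeff_apply, map_pow, map_mul]
    simp [hk]
  · intro h
    exact absurd (Finset.mem_range.2 (Nat.succ_pos N)) h

theorem map_expT {C : Type} [Ring C] [Algebra ℂ C] (F : B →ₐ[ℂ] C) (N : ℕ) (c : ℂ) (a : B) :
    F (KZ.expT N c a) = KZ.expT N c (F a) := by
  simp only [KZ.expT, map_sum, map_smul, map_pow]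

theorem exp_mt (N : ℕ) (c : ℂ) (a : B) : KZ.expT N c (mt N a) = tp B N (ex N c a) := by
  rw [ex, map_expT]
  rfl

end Linz

open Linz

section
variable {N : ℕ} {P P' : FA ℂ}

theorem Linz.rl_of_assoc (h : Assoc N P) (h' : Assoc N P')
    (hlow : ∀ k < N, hp k P = hp k P') {B : Type} [Ring B] [Algebra ℂ B] (a b : B) :
    Rl N (pl a b P) (pl a b P') (ev a b (hp N P - hp N P')) where
  one := by rw [pl_coeff, h.one, map_one]
  one' := by rw [pl_coeff, h'.one, map_one]
  low k hk := by rw [pl_coeff, pl_coeff, hlow k hk]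
  top := by rw [pl_coeff, pl_coeff, map_sub, add_sub_cancel]

/- ED -/
theorem lin_of_assoc {N : ℕ} (hN : 2 ≤ N) {P P' : FA ℂ} (h : Assoc N P) (h' : Assoc N P')
    (hlow : ∀ k < N, hp k P = hp k P') : Lin (hp N P - hp N P') := by
  have hN1 : 1 ≤ N := by omega
  have hc1 : ∀ {B : Type} [Ring B] [Algebra ℂ B], (1 : Polynomial B).coeff N = 0 := by
    intro B _ _
    rw [Polynomial.coeff_one, if_neg (by omega)]
  have key : ∀ {B : Type} [Ring B] [Algebra ℂ B] {p q : Polynomial B},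
      tp B N p = tp B N q → p.coeff N = q.coeff N := by
    intro B _ _ p q hpq
    rw [← tp_apply N p, hpq, tp_apply N q]
  constructor
  · intro B _ _ a b a' b' h1 h2 h3 h4
    have hn : KZ.NilS {mt N a, mt N b, mt N a', mt N b'} N := by
      apply nil_mt
      intro x hx
      simp only [Set.mem_insert_iff, Set.mem_singleton_iff] at hx
      rcases hx with rfl | rfl | rfl | rfl
      exacts [⟨_, rfl⟩, ⟨_, rfl⟩, ⟨_, rfl⟩, ⟨_, rfl⟩]
    have e1 := h.gl _ (mt N a) (mt N b) (mt N a') (mt N b') hn (mt_comm N h1) (mt_comm N h2)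
      (mt_comm N h3) (mt_comm N h4)
    have e2 := h'.gl _ (mt N a) (mt N b) (mt N a') (mt N b') hn (mt_comm N h1) (mt_comm N h2)
      (mt_comm N h3) (mt_comm N h4)
    rw [← mt_add, ← mt_add, ev_mt, ev_mt, ev_mt, ← map_mul] at e1 e2
    exact (rl_of_assoc h h' hlow (a + a') (b + b')).eq
      ((rl_of_assoc h h' hlow a b).mul hN1 (rl_of_assoc h h' hlow a' b')) (key e1) (key e2)
  · intro B _ _ a b
    have hn : KZ.NilS {mt N a, mt N b} N := by
      apply nil_mt
      intro x hx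
      simp only [Set.mem_insert_iff, Set.mem_singleton_iff] at hx
      rcases hx with rfl | rfl
      exacts [⟨_, rfl⟩, ⟨_, rfl⟩]
    have e1 := h.inv _ (mt N a) (mt N b) hn
    have e2 := h'.inv _ (mt N a) (mt N b) hn
    rw [ev_mt, ev_mt, ← map_mul, ← map_one (tp B N)] at e1 e2
    have := ((rl_of_assoc h h' hlow b a).mul hN1 (rl_of_assoc h h' hlow a b)).eq
      (Rl.refl (p := (1 : Polynomial B)) (by simp)) (key e1) (key e2)
    rw [add_comm]
    exact this
  · intro B _ _ a b c h0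
    have hn : KZ.NilS {mt N a, mt N b} N := by
      apply nil_mt
      intro x hx
      simp only [Set.mem_insert_iff, Set.mem_singleton_iff] at hx
      rcases hx with rfl | rfl
      exacts [⟨_, rfl⟩, ⟨_, rfl⟩]
    have h0' : mt N a + mt N b + mt N c = 0 := by
      rw [← mt_add, ← mt_add, h0, mt_zero]
    have e1 := h.hex _ (mt N a) (mt N b) (mt N c) hn h0' 1 (Or.inl rfl)
    have e2 := h'.hex _ (mt N a) (mt N b) (mt N c) hn h0' 1 (Or.inl rfl)
    rw [ev_mt, ev_mt, ev_mt, exp_mt, exp_mt, exp_mt, ← map_mul, ← map_mul, ← map_mul, ← map_mul,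
      ← map_mul, ← map_one (tp B N)] at e1 e2
    have r := fun u v : B => rl_of_assoc h h' hlow u v
    have s := fun u : B => Rl.refl (N := N) (ex_zero N (1 * Complex.I * Real.pi) u)
    have := ((((((s a).mul hN1 (r c a)).mul hN1 (s c)).mul hN1 (r b c)).mul hN1 (s b)).mul hN1
      (r a b)).eq (Rl.refl (p := (1 : Polynomial B)) (by simp)) (key e1) (key e2)
    rw [← this]
    abel
  · intro B _ _ X hX
    have hn : KZ.NilS {z | ∃ i j, z = (fun i j => mt N (X i j)) i j} N := by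
      apply nil_mt
      rintro x ⟨i, j, rfl⟩
      exact ⟨_, rfl⟩
    have hX' : PS (fun i j => mt N (X i j)) := by
      constructor
      · intro i; simp only [hX.diag, mt_zero]
      · intro i j; exact congrArg (mt N) (hX.symm i j)
      · intro i
        have := hX.sum i
        have e : ∑ j, mt N (X i j) = mt N (∑ j, X i j) :=
          (map_sum (AddMonoidHom.mk' (mt N) (mt_add (B := B) N)) _ _).symm
        rw [e, this, mt_zero]
      · intro i j k l h1 h2 h3 h4 h5 h6
        have := hX.comm i j k l h1 h2 h3 h4 h5 h6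
        rw [LieRing.of_associative_ring_bracket, sub_eq_zero] at this ⊢
        exact mt_comm N this
    have e1 := h.pent _ _ hX' hn
    have e2 := h'.pent _ _ hX' hn
    rw [ev_mt, ev_mt, ev_mt, ev_mt, ev_mt, ← map_mul, ← map_mul, ← map_mul, ← map_mul,
      ← map_one (tp B N)] at e1 e2
    have r := fun u v : B => rl_of_assoc h h' hlow u v
    have := (((((r (X 2 3) (X 3 4)).mul hN1 (r (X 4 0) (X 0 1))).mul hN1
      (r (X 1 2) (X 2 3))).mul hN1 (r (X 3 4) (X 4 0))).mul hN1 (r (X 0 1) (X 1 2))).eq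
        (Rl.refl (p := (1 : Polynomial B)) (by simp)) (key e1) (key e2)
    rw [← this]
    abel

end

end Vale.Agent.P029.Low
end
end
end

section

section

/-! P029 lower half, part E: degrees and the coefficients of `x^i y` (EG1-EG5). -/

noncomputable section

attribute [local instance 100] LieRing.ofAssociativeRing

namespace Vale.Agent.P029.Low

open Vale.Agent.P029 TrivSqZeroExt

namespace DegE

section
variable {K : Type} [CommRing K]

/-- The word with letters `l`. -/
def wF (K : Type) [CommRing K] (l : List (Fin 2)) : FA K := (l.map (FreeAlgebra.ι K)).prod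

lemma wF_nil : wF K [] = 1 := rfl

lemma wF_cons (i : Fin 2) (l : List (Fin 2)) : wF K (i :: l) = FreeAlgebra.ι K i * wF K l := by
  simp [wF]

lemma equiv_wF (l : List (Fin 2)) : FreeAlgebra.equivMonoidAlgebraFreeMonoid (wF K l)
    = MonoidAlgebra.single (FreeMonoid.ofList l) 1 := by
  induction l with
  | nil => rw [wF_nil, map_one]; rfl
  | cons i l ih =>
    rw [wF_cons, map_mul, ih]
    have : FreeAlgebra.equivMonoidAlgebraFreeMonoid (FreeAlgebra.ι K i)
        = MonoidAlgebra.single (FreeMonoid.of i) (1 : K) := by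
      simp [FreeAlgebra.equivMonoidAlgebraFreeMonoid]
    rw [this, MonoidAlgebra.single_mul_single, one_mul]
    rfl

/-- Induction on words. -/
theorem word_induction {p : FA K → Prop} (hw : ∀ l, p (wF K l)) (h0 : p 0)
    (hadd : ∀ P Q, p P → p Q → p (P + Q)) (hsmul : ∀ (c : K) P, p P → p (c • P)) (P : FA K) :
    p P := by
  have key : ∀ f : MonoidAlgebra K (FreeMonoid (Fin 2)),
      p (FreeAlgebra.equivMonoidAlgebraFreeMonoid.symm f) := by
    intro f
    induction f using MonoidAlgebra.induction_linear with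
    | zero => rw [map_zero]; exact h0
    | add a b ha hb => rw [map_add]; exact hadd _ _ ha hb
    | single w c =>
      have : FreeAlgebra.equivMonoidAlgebraFreeMonoid.symm (MonoidAlgebra.single w c)
          = c • wF K w.toList := by
        rw [AlgEquiv.symm_apply_eq, map_smul, equiv_wF, MonoidAlgebra.smul_single,
          smul_eq_mul, mul_one]
        rfl
      rw [this]
      exact hsmul _ _ (hw _)
  have h := key (FreeAlgebra.equivMonoidAlgebraFreeMonoid P)
  rwa [AlgEquiv.symm_apply_apply] at h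

lemma CX_mul (a b : FA K) (i j : ℕ) :
    (Polynomial.C a * Polynomial.X ^ i) * (Polynomial.C b * Polynomial.X ^ j)
      = Polynomial.C (a * b) * Polynomial.X ^ (i + j) := by
  rw [Polynomial.C_mul, mul_assoc, ← mul_assoc (Polynomial.X ^ _) (Polynomial.C _),
    Polynomial.X_pow_mul, mul_assoc, mul_assoc, ← pow_add]

lemma hg_ι (i : Fin 2) : hg K (FreeAlgebra.ι K i)
    = Polynomial.C (FreeAlgebra.ι K i) * Polynomial.X ^ 1 := by
  rw [hg, FreeAlgebra.lift_ι_apply, pow_one]

lemma hg_wF (l : List (Fin 2)) :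
    hg K (wF K l) = Polynomial.C (wF K l) * Polynomial.X ^ l.length := by
  induction l with
  | nil => rw [wF_nil, map_one]; simp
  | cons i l ih =>
    rw [wF_cons, map_mul, ih, hg_ι, CX_mul, List.length_cons, add_comm]

lemma hp_add (k : ℕ) (P Q : FA K) : hp k (P + Q) = hp k P + hp k Q := by
  simp [hp]

lemma hp_zero (k : ℕ) : hp k (0 : FA K) = 0 := by
  simp [hp]

lemma hp_smul (k : ℕ) (c : K) (P : FA K) : hp k (c • P) = c • hp k P := by
  simp [hp]

lemma hp_sum (k : ℕ) {ι : Type} (s : Finset ι) (f : ι → FA K) :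
    hp k (∑ i ∈ s, f i) = ∑ i ∈ s, hp k (f i) := by
  simp [hp]

lemma hp_wF (k : ℕ) (l : List (Fin 2)) : hp k (wF K l) = if l.length = k then wF K l else 0 := by
  rw [hp, hg_wF, Polynomial.coeff_C_mul, Polynomial.coeff_X_pow]
  by_cases h : l.length = k
  · simp [h]
  · rw [if_neg h, if_neg (fun h' => h h'.symm), mul_zero]

lemma cXY_add (m : ℕ) (P Q : FA K) : cXY m (P + Q) = cXY m P + cXY m Q := by
  simp [cXY]

lemma cXY_zero (m : ℕ) : cXY m (0 : FA K) = 0 := by
  simp [cXY]

lemma cXY_smul (m : ℕ) (c : K) (P : FA K) : cXY m (c • P) = c * cXY m P := by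
  simp [cXY]

lemma cXY_sum (m : ℕ) {ι : Type} (s : Finset ι) (f : ι → FA K) :
    cXY m (∑ i ∈ s, f i) = ∑ i ∈ s, cXY m (f i) := by
  simp [cXY]

lemma cXY_wF (m : ℕ) (l : List (Fin 2)) :
    cXY m (wF K l) = if l = List.replicate m 0 ++ [1] then 1 else 0 := by
  classical
  rw [cXY, equiv_wF, MonoidAlgebra.coeff_single, Finsupp.single_apply]
  by_cases h : l = List.replicate m 0 ++ [1]
  · rw [if_pos h, if_pos (by rw [h])]
  · rw [if_neg h, if_neg (fun h' => h (FreeMonoid.ofList.injective h'))]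

/-! ### The derivation -/

lemma dF_fst (ψ : LK K) (P : FA K) : (dF ψ P).fst = P := by
  have : (TrivSqZeroExt.fstHom K (FA K) (FA K)).comp (dF ψ) = AlgHom.id K (FA K) := by
    apply FreeAlgebra.hom_ext
    funext i
    fin_cases i <;> simp [dF]
  exact congrArg (fun F : FA K →ₐ[K] FA K => F P) this

lemma DF_mul (ψ : LK K) (P Q : FA K) : DF ψ (P * Q) = P * DF ψ Q + DF ψ P * Q := by
  change (dF ψ (P * Q)).snd = _
  rw [map_mul, TrivSqZeroExt.snd_mul, dF_fst, dF_fst]
  rfl

lemma DF_one (ψ : LK K) : DF ψ 1 = 0 := by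
  change (dF ψ 1).snd = _
  rw [map_one]; rfl

lemma DF_x (ψ : LK K) : DF ψ (FreeAlgebra.ι K (0 : Fin 2)) = 0 := by
  change (dF ψ _).snd = _
  rw [dF, FreeAlgebra.lift_ι_apply]
  simp

lemma DF_y (ψ : LK K) : DF ψ (FreeAlgebra.ι K (1 : Fin 2))
    = ⁅(FreeAlgebra.ι K (1 : Fin 2) : FA K), toFree K (Fin 2) ψ⁆ := by
  change (dF ψ _).snd = _
  rw [dF, FreeAlgebra.lift_ι_apply]
  simp

lemma TF_apply (ψ : LK K) (P : FA K) : TF ψ P = toFree K (Fin 2) ψ * P + DF ψ P := rfl

/-! ### Degrees -/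

lemma hg_toFree {m : ℕ} {ψ : LK K} (hψ : ψ ∈ wt2 K m) :
    hg K (toFree K (Fin 2) ψ) = Polynomial.C (toFree K (Fin 2) ψ) * Polynomial.X ^ m := by
  refine wt_induction (P := fun ψ => hg K (toFree K (Fin 2) ψ)
    = Polynomial.C (toFree K (Fin 2) ψ) * Polynomial.X ^ m) ?_ (by simp) ?_ ?_ hψ
  · intro t ht
    have key : ∀ t : Tr (Fin 2), hg K (toFree K (Fin 2) (t.eval (FreeLieAlgebra.of K)))
        = Polynomial.C (toFree K (Fin 2) (t.eval (FreeLieAlgebra.of K)))
          * Polynomial.X ^ (t.wt fun _ => 1) := by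
      intro t
      induction t with
      | leaf i =>
        change hg K (toFree K (Fin 2) (FreeLieAlgebra.of K i)) = _
        have : toFree K (Fin 2) (FreeLieAlgebra.of K i) = FreeAlgebra.ι K i := by
          rw [toFree, FreeLieAlgebra.lift_of_apply]
        rw [Tr.eval, this, hg, FreeAlgebra.lift_ι_apply, Tr.wt, pow_one]
      | node a b ha hb =>
        rw [Tr.eval, LieHom.map_lie, LieRing.of_associative_ring_bracket, map_sub, map_mul,
          map_mul, ha, hb, Tr.wt, CX_mul, CX_mul, Polynomial.C_sub, sub_mul,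
          add_comm (Tr.wt _ b)]
    have := key t
    rwa [ht] at this
  · intro a b ha hb
    rw [map_add, map_add, ha, hb, Polynomial.C_add, add_mul]
  · intro c a ha
    rw [map_smul, map_smul, ha, ← smul_mul_assoc, Polynomial.smul_C]

lemma hg_DF_ι {m : ℕ} {ψ : LK K} (hψ : ψ ∈ wt2 K m) (i : Fin 2) :
    hg K (DF ψ (FreeAlgebra.ι K i))
      = Polynomial.C (DF ψ (FreeAlgebra.ι K i)) * Polynomial.X ^ (m + 1) := by
  fin_cases i
  · change hg K (DF ψ (FreeAlgebra.ι K 0)) = Polynomial.C (DF ψ (FreeAlgebra.ι K 0)) * _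
    rw [DF_x, map_zero, map_zero, zero_mul]
  · change hg K (DF ψ (FreeAlgebra.ι K 1)) = Polynomial.C (DF ψ (FreeAlgebra.ι K 1)) * _
    rw [DF_y, LieRing.of_associative_ring_bracket, map_sub, map_mul, map_mul, hg_ι,
      hg_toFree hψ, CX_mul, CX_mul, Polynomial.C_sub, sub_mul, add_comm 1 m]

/-- `hg (DF ψ w)` for a word `w`. -/
lemma hg_DF_wF {m : ℕ} {ψ : LK K} (hψ : ψ ∈ wt2 K m) (l : List (Fin 2)) :
    hg K (DF ψ (wF K l)) = Polynomial.C (DF ψ (wF K l)) * Polynomial.X ^ (l.length + m) := by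
  induction l with
  | nil => rw [wF_nil, DF_one, map_zero, map_zero, zero_mul]
  | cons i l ih =>
    rw [wF_cons, DF_mul, map_add, map_mul, map_mul, ih, hg_ι, hg_DF_ι hψ, hg_wF, CX_mul, CX_mul,
      Polynomial.C_add, add_mul, List.length_cons, show 1 + (l.length + m) = l.length + 1 + m by ring,
      show m + 1 + l.length = l.length + 1 + m by ring]

/-- `hp` of `TF ψ w` for a word `w`. -/
lemma hp_TF_wF {m : ℕ} {ψ : LK K} (hψ : ψ ∈ wt2 K m) (k : ℕ) (l : List (Fin 2)) :
    hp k (TF ψ (wF K l)) = if l.length + m = k then TF ψ (wF K l) else 0 := by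
  have h : hg K (TF ψ (wF K l))
      = Polynomial.C (TF ψ (wF K l)) * Polynomial.X ^ (l.length + m) := by
    rw [TF_apply, map_add, map_mul, hg_toFree hψ, hg_wF, hg_DF_wF hψ, CX_mul, Polynomial.C_add,
      add_mul, add_comm m]
  rw [hp, h, Polynomial.coeff_C_mul, Polynomial.coeff_X_pow]
  by_cases h : l.length + m = k
  · simp [h]
  · rw [if_neg h, if_neg (fun h' => h h'.symm), mul_zero]

theorem hp_TF_low {m k : ℕ} (hk : k < m) {ψ : LK K} (hψ : ψ ∈ wt2 K m) (P : FA K) :
    hp k (TF ψ P) = 0 := by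
  induction P using word_induction with
  | hw l => rw [hp_TF_wF hψ, if_neg (by omega)]
  | h0 => rw [map_zero, hp_zero]
  | hadd P Q hP hQ => rw [map_add, hp_add, hP, hQ, add_zero]
  | hsmul c P hP => rw [map_smul, hp_smul, hP, smul_zero]

theorem hp_TF_add {m : ℕ} (k : ℕ) {ψ : LK K} (hψ : ψ ∈ wt2 K m) (P : FA K) :
    hp (k + m) (TF ψ P) = TF ψ (hp k P) := by
  induction P using word_induction with
  | hw l =>
    rw [hp_TF_wF hψ, hp_wF]
    by_cases h : l.length = k
    · rw [if_pos (by omega), if_pos h]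
    · rw [if_neg (by omega), if_neg h, map_zero]
  | h0 => rw [map_zero, hp_zero, hp_zero, map_zero]
  | hadd P Q hP hQ => rw [map_add, hp_add, hP, hQ, hp_add, map_add]
  | hsmul c P hP => rw [map_smul, hp_smul, hP, hp_smul, map_smul]

end

/-! ### The representation on `2 × 2` matrices over `ℂ[t]` -/

/-- `2 × 2` matrices over `ℂ[t]`. -/
abbrev MM : Type := Matrix (Fin 2) (Fin 2) (Polynomial ℂ)

/-- The image of `x`. -/
def mx : MM := !![Polynomial.X, 0; 0, 0]

/-- The image of `y`. -/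
def my : MM := !![0, 1; 0, 0]

/-- The representation `x ↦ mx`, `y ↦ my`. -/
def RR : FA ℂ →ₐ[ℂ] MM := FreeAlgebra.lift ℂ ![mx, my]

lemma RR_x : RR (FreeAlgebra.ι ℂ 0) = mx := by simp [RR]

lemma RR_y : RR (FreeAlgebra.ι ℂ 1) = my := by simp [RR]

lemma RR_cons_zero (l : List (Fin 2)) : RR (wF ℂ (0 :: l)) = mx * RR (wF ℂ l) := by
  rw [wF_cons, map_mul, RR_x]

lemma RR_cons_one (l : List (Fin 2)) : RR (wF ℂ (1 :: l)) = my * RR (wF ℂ l) := by
  rw [wF_cons, map_mul, RR_y]

lemma RR_cons_one_one (i : Fin 2) (l : List (Fin 2)) : RR (wF ℂ (i :: l)) 1 1 = 0 := by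
  fin_cases i
  · change RR (wF ℂ (0 :: l)) 1 1 = 0
    rw [RR_cons_zero, Matrix.mul_apply]; simp [mx]
  · change RR (wF ℂ (1 :: l)) 1 1 = 0
    rw [RR_cons_one, Matrix.mul_apply]; simp [my]

lemma RR_coeff_wF (l : List (Fin 2)) : ∀ m : ℕ, (RR (wF ℂ l) 0 1).coeff m =
    if l = List.replicate m 0 ++ [1] then 1 else 0 := by
  induction l with
  | nil =>
    intro m
    rw [wF_nil, map_one, if_neg]
    · simp
    · simp
  | cons i l ih =>
    intro m
    fin_cases i
    · change (RR (wF ℂ (0 :: l)) 0 1).coeff m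
        = if 0 :: l = List.replicate m 0 ++ [1] then 1 else 0
      rw [RR_cons_zero, Matrix.mul_apply]
      simp only [mx, Matrix.of_apply, Matrix.cons_val', Matrix.cons_val_zero,
        Matrix.cons_val_fin_one, Fin.sum_univ_two, Matrix.cons_val_one, zero_mul, add_zero]
      cases m with
      | zero => simp
      | succ m =>
        rw [Polynomial.coeff_X_mul, ih m]
        simp [List.replicate_succ]
    · change (RR (wF ℂ (1 :: l)) 0 1).coeff m
        = if 1 :: l = List.replicate m 0 ++ [1] then 1 else 0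
      rw [RR_cons_one, Matrix.mul_apply]
      simp only [my, Matrix.of_apply, Matrix.cons_val', Matrix.cons_val_zero,
        Matrix.cons_val_fin_one, Fin.sum_univ_two, Matrix.cons_val_one, zero_mul, zero_add,
        one_mul]
      cases l with
      | nil =>
        rw [wF_nil, map_one]
        cases m with
        | zero => simp
        | succ m => simp [List.replicate_succ, Polynomial.coeff_one]
      | cons j l =>
        rw [RR_cons_one_one]
        cases m with
        | zero => simp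
        | succ m => simp [List.replicate_succ]

lemma RR_coeff (m : ℕ) (P : FA ℂ) : (RR P 0 1).coeff m = cXY m P := by
  induction P using word_induction with
  | hw l => rw [RR_coeff_wF, cXY_wF]
  | h0 => simp [cXY_zero]
  | hadd P Q hP hQ => rw [map_add, cXY_add, Matrix.add_apply, Polynomial.coeff_add, hP, hQ]
  | hsmul c P hP =>
    rw [map_smul, cXY_smul, Matrix.smul_apply, Polynomial.coeff_smul, hP, smul_eq_mul]

/-- The `(1,1)`-entry is constant. -/
lemma RR_one_one (P : FA ℂ) : ∃ q : ℂ, RR P 1 1 = Polynomial.C q := by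
  induction P using word_induction with
  | hw l =>
    cases l with
    | nil => exact ⟨1, by rw [wF_nil, map_one]; simp⟩
    | cons i l => exact ⟨0, by rw [RR_cons_one_one]; simp⟩
  | h0 => exact ⟨0, by simp⟩
  | hadd P Q hP hQ =>
    obtain ⟨p, hp⟩ := hP
    obtain ⟨q, hq⟩ := hQ
    exact ⟨p + q, by rw [map_add, Matrix.add_apply, hp, hq, Polynomial.C_add]⟩
  | hsmul c P hP =>
    obtain ⟨p, hp⟩ := hP
    exact ⟨c • p, by rw [map_smul, Matrix.smul_apply, hp, Polynomial.smul_C]⟩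

/-- In weight `≥ 2`, the image is a multiple of `my`. -/
lemma RR_toFree {n : ℕ} (hn : 2 ≤ n) {ψ : LK ℂ} (hψ : ψ ∈ wt2 ℂ n) :
    ∃ p : Polynomial ℂ, RR (toFree ℂ (Fin 2) ψ) = !![0, p; 0, 0] := by
  have hlie : ∀ q p q' p' : Polynomial ℂ, ⁅(!![q, p; 0, 0] : MM), (!![q', p'; 0, 0] : MM)⁆ =
      !![0, q * p' - q' * p; 0, 0] := by
    intro q p q' p'
    rw [LieRing.of_associative_ring_bracket]
    ext i j : 2
    fin_cases i <;> fin_cases j <;> simp [mul_comm]
  have hmap : ∀ a b : FA ℂ, RR ⁅a, b⁆ = ⁅RR a, RR b⁆ := by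
    intro a b
    rw [LieRing.of_associative_ring_bracket, LieRing.of_associative_ring_bracket, map_sub,
      map_mul, map_mul]
  have key : ∀ t : Tr (Fin 2), ∃ q p : Polynomial ℂ,
      RR (toFree ℂ (Fin 2) (t.eval (FreeLieAlgebra.of ℂ))) = !![q, p; 0, 0] := by
    intro t
    induction t with
    | leaf i =>
      fin_cases i
      · refine ⟨Polynomial.X, 0, ?_⟩
        change RR (toFree ℂ (Fin 2) (FreeLieAlgebra.of ℂ 0)) = _
        rw [toFree, FreeLieAlgebra.lift_of_apply, RR_x]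
        rfl
      · refine ⟨0, 1, ?_⟩
        change RR (toFree ℂ (Fin 2) (FreeLieAlgebra.of ℂ 1)) = _
        rw [toFree, FreeLieAlgebra.lift_of_apply, RR_y]
        rfl
    | node a b ha hb =>
      obtain ⟨q, p, ha⟩ := ha
      obtain ⟨q', p', hb⟩ := hb
      exact ⟨0, q * p' - q' * p, by rw [Tr.eval, LieHom.map_lie, hmap, ha, hb, hlie]⟩
  refine wt_induction (P := fun ψ => ∃ p : Polynomial ℂ,
    RR (toFree ℂ (Fin 2) ψ) = !![0, p; 0, 0]) ?_ ⟨0, ?_⟩ ?_ ?_ hψ
  · intro t ht
    cases t with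
    | leaf i => simp [Tr.wt] at ht; omega
    | node a b =>
      obtain ⟨q, p, ha⟩ := key a
      obtain ⟨q', p', hb⟩ := key b
      exact ⟨q * p' - q' * p, by rw [Tr.eval, LieHom.map_lie, hmap, ha, hb, hlie]⟩
  · rw [map_zero, map_zero]
    ext i j : 2
    fin_cases i <;> fin_cases j <;> simp
  · rintro a b ⟨p, ha⟩ ⟨q, hb⟩
    refine ⟨p + q, ?_⟩
    rw [map_add, map_add, ha, hb]
    ext i j : 2
    fin_cases i <;> fin_cases j <;> simp
  · rintro c a ⟨p, ha⟩
    refine ⟨c • p, ?_⟩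
    rw [map_smul, map_smul, ha]
    ext i j : 2
    fin_cases i <;> fin_cases j <;> simp

lemma RR_DF {n : ℕ} (hn : 2 ≤ n) {ψ : LK ℂ} (hψ : ψ ∈ wt2 ℂ n) (P : FA ℂ) :
    RR (DF ψ P) = 0 := by
  obtain ⟨p, hp⟩ := RR_toFree hn hψ
  have hι : ∀ i : Fin 2, RR (DF ψ (FreeAlgebra.ι ℂ i)) = 0 := by
    intro i
    fin_cases i
    · change RR (DF ψ (FreeAlgebra.ι ℂ 0)) = 0
      rw [DF_x, map_zero]
    · change RR (DF ψ (FreeAlgebra.ι ℂ 1)) = 0
      rw [DF_y, LieRing.of_associative_ring_bracket, map_sub, map_mul, map_mul, hp, RR_y, my]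
      ext i j : 2
      fin_cases i <;> fin_cases j <;> simp
  have key : ∀ l, RR (DF ψ (wF ℂ l)) = 0 := by
    intro l
    induction l with
    | nil => rw [wF_nil, DF_one, map_zero]
    | cons i l ih => rw [wF_cons, DF_mul, map_add, map_mul, map_mul, ih, hι, mul_zero, zero_mul,
        add_zero]
  induction P using word_induction with
  | hw l => exact key l
  | h0 => simp
  | hadd P Q hP hQ => rw [map_add, map_add, hP, hQ, add_zero]
  | hsmul c P hP => rw [map_smul, map_smul, hP, smul_zero]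

end DegE

open DegE

/- EG4 -/
theorem cXY_hp (m : ℕ) (P : FA ℂ) : cXY m (hp (m + 1) P) = cXY m P := by
  induction P using word_induction with
  | hw l =>
    rw [hp_wF]
    by_cases h : l.length = m + 1
    · rw [if_pos h]
    · rw [if_neg h, cXY_zero, cXY_wF, if_neg]
      intro h2
      apply h
      rw [h2]; simp
  | h0 => rw [hp_zero]
  | hadd P Q hP hQ => rw [hp_add, cXY_add, hP, hQ, cXY_add]
  | hsmul c P hP => rw [hp_smul, cXY_smul, hP, cXY_smul]

/- EG5 -/
theorem hp_hp (m : ℕ) (P : FA ℂ) : hp m (hp m P) = hp m P := by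
  induction P using word_induction with
  | hw l =>
    rw [hp_wF]
    by_cases h : l.length = m
    · rw [if_pos h, hp_wF, if_pos h]
    · rw [if_neg h, hp_zero]
  | h0 => rw [hp_zero, hp_zero]
  | hadd P Q hP hQ => rw [hp_add, hp_add, hP, hQ]
  | hsmul c P hP => rw [hp_smul, hp_smul, hP]

namespace DegE

lemma cXY_toFree {m i : ℕ} (hi : i + 1 ≠ m) {ψ : LK ℂ} (hψ : ψ ∈ wt2 ℂ m) :
    cXY i (toFree ℂ (Fin 2) ψ) = 0 := by
  rw [← cXY_hp]
  have : hp (i + 1) (toFree ℂ (Fin 2) ψ) = 0 := by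
    rw [hp, hg_toFree hψ, Polynomial.coeff_C_mul, Polynomial.coeff_X_pow, if_neg hi, mul_zero]
  rw [this, cXY_zero]

theorem cXY_TF {m i : ℕ} (hm : 2 ≤ m) (hi : i + 1 ≠ m) {ψ : LK ℂ} (hψ : ψ ∈ wt2 ℂ m)
    (Q : FA ℂ) : cXY i (TF ψ Q) = 0 := by
  obtain ⟨p, hp⟩ := RR_toFree hm hψ
  obtain ⟨q, hq⟩ := RR_one_one Q
  have h0 : p.coeff i = 0 := by
    have := RR_coeff i (toFree ℂ (Fin 2) ψ)
    rw [hp, cXY_toFree hi hψ] at this
    simpa using this
  rw [← RR_coeff, TF_apply, map_add, RR_DF hm hψ, add_zero, map_mul, hp, Matrix.mul_apply]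
  simp only [Matrix.of_apply, Matrix.cons_val', Matrix.cons_val_zero,
    Matrix.cons_val_fin_one, Fin.sum_univ_two, Matrix.cons_val_one, zero_mul, zero_add]
  rw [hq, Polynomial.coeff_mul_C, h0, zero_mul]

end DegE

/- EG1 -/
theorem hp_eTF_low {N m k : ℕ} (hm : 2 ≤ m) {ψ : LK ℂ} (hψ : ψ ∈ wt2 ℂ m) {P : FA ℂ}
    (hk : k < m) : hp k (eTF N ψ P) = hp k P := by
  rw [eTF, hp_sum, Finset.sum_range_succ']
  have : ∀ j ∈ Finset.range N, hp k ((((j + 1).factorial : ℂ)⁻¹) • ((TF ψ) ^ (j + 1)) P) = 0 := by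
    intro j _
    rw [hp_smul, pow_succ', Module.End.mul_apply, hp_TF_low hk hψ, smul_zero]
  rw [Finset.sum_eq_zero this]
  simp

/- EG2 -/
theorem hp_eTF_eq {N m : ℕ} (hm : 2 ≤ m) (hmN : m ≤ N) {ψ : LK ℂ} (hψ : ψ ∈ wt2 ℂ m)
    {P : FA ℂ} (h0 : hp 0 P = 1) (h1 : hp 1 P = 0) :
    hp m (eTF N ψ P) = hp m P + toFree ℂ (Fin 2) ψ := by
  obtain ⟨M, rfl⟩ : ∃ M, N = M + 1 := ⟨N - 1, by omega⟩
  rw [eTF, hp_sum, Finset.sum_range_succ', Finset.sum_range_succ']
  have : ∀ j ∈ Finset.range M,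
      hp m ((((j + 1 + 1).factorial : ℂ)⁻¹) • ((TF ψ) ^ (j + 1 + 1)) P) = 0 := by
    intro j _
    rw [hp_smul, pow_succ', Module.End.mul_apply]
    have h2 := hp_TF_add 0 hψ (((TF ψ) ^ (j + 1)) P)
    rw [zero_add] at h2
    rw [h2, pow_succ', Module.End.mul_apply, hp_TF_low (by omega) hψ, map_zero, smul_zero]
  rw [Finset.sum_eq_zero this]
  have h3 := hp_TF_add 0 hψ P
  rw [zero_add, h0] at h3
  have h4 : TF ψ 1 = toFree ℂ (Fin 2) ψ := by
    rw [TF_apply, DF_one, mul_one, add_zero]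
  simp [h3, h4, add_comm]

/- EG3 -/
theorem cXY_eTF {N m i : ℕ} (hm : 2 ≤ m) (hi : i + 1 ≠ m) {ψ : LK ℂ} (hψ : ψ ∈ wt2 ℂ m)
    {P : FA ℂ} : cXY i (eTF N ψ P) = cXY i P := by
  rw [eTF, cXY_sum, Finset.sum_range_succ']
  have : ∀ j ∈ Finset.range N,
      cXY i ((((j + 1).factorial : ℂ)⁻¹) • ((TF ψ) ^ (j + 1)) P) = 0 := by
    intro j _
    rw [cXY_smul, pow_succ', Module.End.mul_apply, cXY_TF hm hi hψ, mul_zero]
  rw [Finset.sum_eq_zero this]
  simp

end Vale.Agent.P029.Low
end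
end
end

section

section

/-! P029 lower half, part EF: calculus with the exponentials `EX N δ u v` and `eTF N ψ`. -/

noncomputable section

attribute [local instance 100] LieRing.ofAssociativeRing

namespace Vale.Agent.P029.Low

open Vale.Agent.P029 TrivSqZeroExt Finset

section
variable {V : Type} [Ring V] [Algebra ℂ V] {N : ℕ} {δ : V →ₗ[ℂ] V} {Fil : ℕ → Submodule ℂ V}

namespace EF

theorem dd_apply (δ : V →ₗ[ℂ] V) (u v f : V) : dd δ u v f = δ f - u * f + f * v := by
  simp [dd]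

/-- The Leibniz rule for `dd`. -/
theorem dd_mul (hF : FilAlg N δ Fil) (u v w f g : V) :
    dd δ u w (f * g) = dd δ u v f * g + f * dd δ v w g := by
  rw [dd_apply, dd_apply, dd_apply, hF.leib]
  noncomm_ring

/-- The divided powers `(k!)⁻¹ • d^k f`. -/
def dvp (d : V →ₗ[ℂ] V) (f : V) (k : ℕ) : V := ((k.factorial : ℂ)⁻¹) • (d ^ k) f

theorem dvp_zero (d : V →ₗ[ℂ] V) (f : V) : dvp d f 0 = f := by
  simp [dvp]

theorem dvp_succ (d : V →ₗ[ℂ] V) (f : V) (k : ℕ) :
    d (dvp d f k) = ((k + 1 : ℕ) : ℂ) • dvp d f (k + 1) := by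
  unfold dvp
  rw [map_smul, pow_succ', Module.End.mul_apply, smul_smul, Nat.factorial_succ, Nat.cast_mul,
    mul_inv, ← mul_assoc, mul_inv_cancel₀ (Nat.cast_ne_zero.2 (Nat.succ_ne_zero k)), one_mul]

theorem EX_eq_sum (u v f : V) : EX N δ u v f = ∑ k ∈ range (N + 1), dvp (dd δ u v) f k := rfl

/-- Leibniz formula. -/
theorem dvp_mul {d1 d2 d3 : V →ₗ[ℂ] V} (h : ∀ f g, d3 (f * g) = d1 f * g + f * d2 g)
    (f g : V) (k : ℕ) :
    dvp d3 (f * g) k = ∑ p ∈ antidiagonal k, dvp d1 f p.1 * dvp d2 g p.2 := by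
  induction k with
  | zero => simp [dvp_zero]
  | succ k ih =>
    have hk : ((k + 1 : ℕ) : ℂ) ≠ 0 := Nat.cast_ne_zero.2 (Nat.succ_ne_zero k)
    have key : ((k + 1 : ℕ) : ℂ) • dvp d3 (f * g) (k + 1)
        = ((k + 1 : ℕ) : ℂ) • ∑ p ∈ antidiagonal (k + 1), dvp d1 f p.1 * dvp d2 g p.2 := by
      rw [← dvp_succ, ih, map_sum]
      simp only [h, dvp_succ, smul_mul_assoc, mul_smul_comm]
      rw [Finset.sum_add_distrib, Finset.smul_sum]
      have e1 : ∀ p ∈ antidiagonal (k + 1), ((k + 1 : ℕ) : ℂ) • (dvp d1 f p.1 * dvp d2 g p.2)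
          = ((p.1 : ℕ) : ℂ) • (dvp d1 f p.1 * dvp d2 g p.2)
            + ((p.2 : ℕ) : ℂ) • (dvp d1 f p.1 * dvp d2 g p.2) := by
        intro p hp
        rw [← add_smul, ← Nat.cast_add, mem_antidiagonal.1 hp]
      rw [Finset.sum_congr rfl e1, Finset.sum_add_distrib]
      congr 1
      · rw [Finset.Nat.antidiagonal_succ, Finset.sum_cons, Finset.sum_map]
        simp
      · rw [Finset.Nat.antidiagonal_succ', Finset.sum_cons, Finset.sum_map]
        simp
    have := congrArg (fun z => (((k + 1 : ℕ) : ℂ)⁻¹) • z) key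
    simpa only [smul_smul, inv_mul_cancel₀ hk, one_smul] using this

theorem Fil_anti (hF : FilAlg N δ Fil) {i j : ℕ} (h : i ≤ j) : Fil j ≤ Fil i := by
  induction h with
  | refl => exact le_rfl
  | step _ ih => exact (hF.anti _).trans ih

theorem dd_mem (hF : FilAlg N δ Fil) {u v : V} (hu : u ∈ Fil 1) (hv : v ∈ Fil 1) {i : ℕ} {f : V}
    (hf : f ∈ Fil i) : dd δ u v f ∈ Fil (i + 1) := by
  rw [dd_apply]
  refine add_mem (sub_mem (hF.der i f hf) ?_) (hF.mul i 1 f v hf hv)
  have := hF.mul 1 i u f hu hf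
  rwa [add_comm] at this

theorem dd_pow_mem (hF : FilAlg N δ Fil) {u v : V} (hu : u ∈ Fil 1) (hv : v ∈ Fil 1) (f : V)
    (i : ℕ) : ((dd δ u v) ^ i) f ∈ Fil i := by
  induction i with
  | zero => rw [hF.zero]; trivial
  | succ i ih =>
    rw [pow_succ', Module.End.mul_apply]
    exact dd_mem hF hu hv ih

theorem dvp_mem (hF : FilAlg N δ Fil) {u v : V} (hu : u ∈ Fil 1) (hv : v ∈ Fil 1) (f : V)
    (i : ℕ) : dvp (dd δ u v) f i ∈ Fil i :=
  Submodule.smul_mem _ _ (dd_pow_mem hF hu hv f i)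

theorem Fil_zero (hF : FilAlg N δ Fil) {i : ℕ} (hi : N < i) {f : V} (hf : f ∈ Fil i) : f = 0 := by
  have := Fil_anti hF (show N + 1 ≤ i from hi) hf
  rwa [hF.top, Submodule.mem_bot] at this

end EF

open EF

/- EF1 -/
theorem EX_mul (hF : FilAlg N δ Fil) {u v w : V} (hu : u ∈ Fil 1) (hv : v ∈ Fil 1)
    (hw : w ∈ Fil 1) (f g : V) : EX N δ u v f * EX N δ v w g = EX N δ u w (f * g) := by
  rw [EX_eq_sum, EX_eq_sum, EX_eq_sum, Finset.sum_mul_sum, ← Finset.sum_product']
  rw [Finset.sum_congr rfl fun k _ => dvp_mul (dd_mul hF u v w) f g k]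
  have hz : ∀ p ∈ range (N + 1) ×ˢ range (N + 1),
      dvp (dd δ u v) f p.1 * dvp (dd δ v w) g p.2 ≠ 0 → p.1 + p.2 < N + 1 := by
    intro p _ hp
    by_contra hlt
    apply hp
    exact Fil_zero hF (by omega : N < p.1 + p.2)
      (hF.mul _ _ _ _ (dvp_mem hF hu hv f p.1) (dvp_mem hF hv hw g p.2))
  rw [← Finset.sum_filter_of_ne hz]
  have hmaps : ∀ p ∈ (range (N + 1) ×ˢ range (N + 1)).filter (fun p : ℕ × ℕ => p.1 + p.2 < N + 1),
      p.1 + p.2 ∈ range (N + 1) := by
    intro p hp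
    exact mem_range.2 (mem_filter.1 hp).2
  rw [← Finset.sum_fiberwise_of_maps_to hmaps]
  refine Finset.sum_congr rfl fun k hk => ?_
  refine Finset.sum_congr ?_ fun _ _ => rfl
  ext p
  simp only [mem_filter, mem_product, mem_range, HasAntidiagonal.mem_antidiagonal]
  have := mem_range.1 hk
  constructor
  · rintro ⟨_, h⟩
    exact h
  · intro h
    refine ⟨⟨⟨?_, ?_⟩, ?_⟩, h⟩ <;> omega

/- EF2 -/
theorem EX_conj {u k : V} (h : δ k = u * k - k * u) : EX N δ u u k = k := by
  have h0 : dd δ u u k = 0 := by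
    rw [dd_apply, h]
    noncomm_ring
  rw [EX_eq_sum, Finset.sum_range_succ']
  rw [dvp_zero]
  have : ∑ i ∈ range N, dvp (dd δ u u) k (i + 1) = 0 := by
    refine Finset.sum_eq_zero fun i _ => ?_
    rw [dvp, pow_succ, Module.End.mul_apply, h0, map_zero, smul_zero]
  rw [this, zero_add]

namespace EF

theorem der_one (hF : FilAlg N δ Fil) : δ 1 = 0 := by
  have h := hF.leib 1 1
  rw [mul_one, mul_one, one_mul] at h
  exact left_eq_add.1 h

end EF

/- EF3 -/
theorem EX_one (hF : FilAlg N δ Fil) : EX N δ 0 0 1 = 1 := by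
  apply EX_conj
  rw [der_one hF]
  simp

namespace EF

theorem ev_x {K B : Type} [CommRing K] [Ring B] [Algebra K B] (a b : B) :
    ev a b (FreeAlgebra.ι K (0 : Fin 2)) = a := by
  simp [ev]

theorem ev_y {K B : Type} [CommRing K] [Ring B] [Algebra K B] (a b : B) :
    ev a b (FreeAlgebra.ι K (1 : Fin 2)) = b := by
  simp [ev]

theorem dF_fst {K : Type} [CommRing K] (ψ : LK K) (P : FA K) : (dF ψ P).fst = P := by
  have h : (TrivSqZeroExt.fstHom K (FA K) (FA K)).comp (dF ψ) = AlgHom.id K (FA K) := by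
    apply FreeAlgebra.hom_ext
    funext i
    fin_cases i
    · simp [dF]
    · simp [dF]
  exact congrArg (fun F : FA K →ₐ[K] FA K => F P) h

theorem DF_apply {K : Type} [CommRing K] (ψ : LK K) (P : FA K) : DF ψ P = (dF ψ P).snd := rfl

theorem DF_mul {K : Type} [CommRing K] (ψ : LK K) (P Q : FA K) :
    DF ψ (P * Q) = P * DF ψ Q + DF ψ P * Q := by
  rw [DF_apply, map_mul, TrivSqZeroExt.snd_mul, dF_fst, dF_fst]
  rfl

theorem DF_x {K : Type} [CommRing K] (ψ : LK K) : DF ψ (FreeAlgebra.ι K (0 : Fin 2)) = 0 := by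
  simp [DF_apply, dF]

theorem DF_y {K : Type} [CommRing K] (ψ : LK K) : DF ψ (FreeAlgebra.ι K (1 : Fin 2)) =
    FreeAlgebra.ι K (1 : Fin 2) * toFree K (Fin 2) ψ
      - toFree K (Fin 2) ψ * FreeAlgebra.ι K (1 : Fin 2) := by
  simp [DF_apply, dF, LieRing.of_associative_ring_bracket]

theorem DF_one {K : Type} [CommRing K] (ψ : LK K) : DF ψ (1 : FA K) = 0 := by
  rw [DF_apply, map_one, TrivSqZeroExt.snd_one]

theorem TF_apply {K : Type} [CommRing K] (ψ : LK K) (P : FA K) :
    TF ψ P = toFree K (Fin 2) ψ * P + DF ψ P := by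
  simp [TF]

/-- The derivation `δ` along `ev a b`. -/
theorem der_ev (hF : FilAlg N δ Fil) {ψ : LK ℂ} {a b u : V} (ha : δ a = u * a - a * u)
    (hb : δ b = (b * ev a b (toFree ℂ (Fin 2) ψ) - ev a b (toFree ℂ (Fin 2) ψ) * b)
      + (u * b - b * u)) (Q : FA ℂ) :
    δ (ev a b Q) = ev a b (DF ψ Q) + (u * ev a b Q - ev a b Q * u) := by
  induction Q using FreeAlgebra.induction with
  | grade0 c =>
    rw [Algebra.algebraMap_eq_smul_one, map_smul, map_smul, map_smul, map_smul, map_one, der_one hF,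
      DF_one, map_zero]
    simp
  | grade1 i =>
    fin_cases i
    · change δ (ev a b (FreeAlgebra.ι ℂ (0 : Fin 2))) = ev a b (DF ψ (FreeAlgebra.ι ℂ (0 : Fin 2)))
        + (u * ev a b (FreeAlgebra.ι ℂ (0 : Fin 2)) - ev a b (FreeAlgebra.ι ℂ (0 : Fin 2)) * u)
      rw [DF_x, ev_x, ha, map_zero, zero_add]
    · change δ (ev a b (FreeAlgebra.ι ℂ (1 : Fin 2))) = ev a b (DF ψ (FreeAlgebra.ι ℂ (1 : Fin 2)))
        + (u * ev a b (FreeAlgebra.ι ℂ (1 : Fin 2)) - ev a b (FreeAlgebra.ι ℂ (1 : Fin 2)) * u)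
      rw [DF_y, map_sub, map_mul, map_mul, ev_y, hb]
  | mul P Q hP hQ =>
    rw [map_mul, hF.leib, hP, hQ, DF_mul, map_add, map_mul, map_mul]
    noncomm_ring
  | add P Q hP hQ =>
    rw [map_add, map_add, hP, hQ, map_add, map_add]
    noncomm_ring

theorem ev_TF (hF : FilAlg N δ Fil) {ψ : LK ℂ} {a b u : V} (ha : δ a = u * a - a * u)
    (hb : δ b = (b * ev a b (toFree ℂ (Fin 2) ψ) - ev a b (toFree ℂ (Fin 2) ψ) * b)
      + (u * b - b * u)) (Q : FA ℂ) :
    ev a b (TF ψ Q) = dd δ (u - ev a b (toFree ℂ (Fin 2) ψ)) u (ev a b Q) := by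
  rw [TF_apply, map_add, map_mul, dd_apply, der_ev hF ha hb]
  noncomm_ring

theorem ev_TF_pow (hF : FilAlg N δ Fil) {ψ : LK ℂ} {a b u : V} (ha : δ a = u * a - a * u)
    (hb : δ b = (b * ev a b (toFree ℂ (Fin 2) ψ) - ev a b (toFree ℂ (Fin 2) ψ) * b)
      + (u * b - b * u)) (P : FA ℂ) (k : ℕ) :
    ev a b (((TF ψ) ^ k) P)
      = ((dd δ (u - ev a b (toFree ℂ (Fin 2) ψ)) u) ^ k) (ev a b P) := by
  induction k with
  | zero => simp
  | succ k ih =>
    rw [pow_succ', Module.End.mul_apply, ev_TF hF ha hb, ih, pow_succ', Module.End.mul_apply]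

end EF

/- EF4 -/
theorem ev_eTF (hF : FilAlg N δ Fil) {ψ : LK ℂ} {a b u : V} (ha : δ a = u * a - a * u)
    (hb : δ b = (b * ev a b (toFree ℂ (Fin 2) ψ) - ev a b (toFree ℂ (Fin 2) ψ) * b)
      + (u * b - b * u)) (P : FA ℂ) :
    ev a b (eTF N ψ P) = EX N δ (u - ev a b (toFree ℂ (Fin 2) ψ)) u (ev a b P) := by
  unfold eTF EX
  rw [map_sum]
  refine Finset.sum_congr rfl fun k _ => ?_
  rw [map_smul, ev_TF_pow hF ha hb]

end

end Vale.Agent.P029.Low
end
end
end

section

section

/-! P029 lower half, part E: universal filtered algebras with a derivation. -/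

noncomputable section

attribute [local instance 100] LieRing.ofAssociativeRing

namespace Vale.Agent.P029.Low

open Vale.Agent.P029 TrivSqZeroExt

namespace Univ

/-- The relations: elements of `R` and words of length `N + 1` vanish. -/
def rel {I : Type} (R : Set (FreeAlgebra ℂ I)) (N : ℕ) (f g : FreeAlgebra ℂ I) : Prop :=
  g = 0 ∧ (f ∈ R ∨ ∃ l : List I, l.length = N + 1 ∧ f = (l.map (FreeAlgebra.ι ℂ)).prod)

/-- Span of the words of length at least `k`. -/
def fil {I B : Type} [Ring B] [Algebra ℂ B] (X : I → B) (k : ℕ) : Submodule ℂ B :=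
  Submodule.span ℂ {v | ∃ l : List I, k ≤ l.length ∧ v = (l.map X).prod}

section
variable {I B : Type} [Ring B] [Algebra ℂ B] (X : I → B)

theorem word_mem (l : List I) {k : ℕ} (h : k ≤ l.length) : (l.map X).prod ∈ fil X k :=
  Submodule.subset_span ⟨l, h, rfl⟩

theorem fil_anti {i j : ℕ} (h : i ≤ j) : fil X j ≤ fil X i :=
  Submodule.span_mono fun _ ⟨l, hl, e⟩ => ⟨l, h.trans hl, e⟩

theorem fil_mul (i j : ℕ) (a b : B) (ha : a ∈ fil X i) (hb : b ∈ fil X j) :
    a * b ∈ fil X (i + j) := by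
  unfold fil at ha hb
  induction ha using Submodule.span_induction with
  | mem a ha =>
    obtain ⟨l, hl, rfl⟩ := ha
    induction hb using Submodule.span_induction with
    | mem b hb =>
      obtain ⟨m, hm, rfl⟩ := hb
      rw [← List.prod_append, ← List.map_append]
      exact word_mem X _ (by rw [List.length_append]; omega)
    | zero => rw [mul_zero]; exact Submodule.zero_mem _
    | add b c _ _ hb hc => rw [mul_add]; exact Submodule.add_mem _ hb hc
    | smul c b _ hb => rw [mul_smul_comm]; exact Submodule.smul_mem _ _ hb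
  | zero => rw [zero_mul]; exact Submodule.zero_mem _
  | add b c _ _ hb hc => rw [add_mul]; exact Submodule.add_mem _ hb hc
  | smul c b _ hb => rw [smul_mul_assoc]; exact Submodule.smul_mem _ _ hb

theorem lift_mem_zero (f : FreeAlgebra ℂ I) : FreeAlgebra.lift ℂ X f ∈ fil X 0 := by
  induction f using FreeAlgebra.induction with
  | grade0 r =>
    rw [AlgHom.commutes, Algebra.algebraMap_eq_smul_one]
    exact Submodule.smul_mem _ _ (by simpa using word_mem X [] (k := 0) le_rfl)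
  | grade1 x => simpa using word_mem X [x] (k := 0) (Nat.zero_le _)
  | mul a b ha hb => rw [map_mul]; exact fil_mul X 0 0 _ _ ha hb
  | add a b ha hb => rw [map_add]; exact Submodule.add_mem _ ha hb

theorem lift_mem {k : ℕ} {f : FreeAlgebra ℂ I}
    (hf : f ∈ Submodule.span ℂ {f | ∃ l : List I, k ≤ l.length ∧
      f = (l.map (FreeAlgebra.ι ℂ)).prod}) : FreeAlgebra.lift ℂ X f ∈ fil X k := by
  induction hf using Submodule.span_induction with
  | mem a ha =>
    obtain ⟨l, hl, rfl⟩ := ha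
    have e : FreeAlgebra.lift ℂ X ((l.map (FreeAlgebra.ι ℂ)).prod) = (l.map X).prod := by
      rw [map_list_prod, List.map_map]
      congr 1
      apply List.map_congr_left
      intro i _
      simp
    rw [e]
    exact word_mem X l hl
  | zero => rw [map_zero]; exact Submodule.zero_mem _
  | add b c _ _ hb hc => rw [map_add]; exact Submodule.add_mem _ hb hc
  | smul c b _ hb => rw [map_smul]; exact Submodule.smul_mem _ _ hb

theorem lift_word (l : List I) :
    FreeAlgebra.lift ℂ X ((l.map (FreeAlgebra.ι ℂ)).prod) = (l.map X).prod := by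
  rw [map_list_prod, List.map_map]
  congr 1
  apply List.map_congr_left
  intro i _
  simp

/-- products of the deformed letters -/
theorem dual_word {Z : I → B} (hZ : ∀ i, Z i ∈ fil X 2) (l : List I) :
    ((l.map fun i => (inl (X i) + inr (Z i) : DualNumber B)).prod).fst = (l.map X).prod ∧
    ((l.map fun i => (inl (X i) + inr (Z i) : DualNumber B)).prod).snd
      ∈ fil X (l.length + 1) := by
  induction l with
  | nil =>
    refine ⟨by simp, ?_⟩
    have : (([] : List I).map fun i => (inl (X i) + inr (Z i) : DualNumber B)).prod.snd = 0 := by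
      simp
    rw [this]
    exact Submodule.zero_mem _
  | cons i t ih =>
    obtain ⟨h1, h2⟩ := ih
    rw [List.map_cons, List.prod_cons]
    refine ⟨?_, ?_⟩
    · rw [fst_mul, h1, List.map_cons, List.prod_cons]
      simp
    · rw [snd_mul, h1]
      refine Submodule.add_mem _ ?_ ?_
      · have e : (inl (X i) + inr (Z i) : DualNumber B).fst = X i := by simp
        rw [e, smul_eq_mul, List.length_cons, add_comm (t.length + 1) 1]
        exact fil_mul X 1 _ _ _ (by simpa using word_mem X [i] (k := 1) le_rfl) h2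
      · have e : (inl (X i) + inr (Z i) : DualNumber B).snd = Z i := by simp
        rw [e, op_smul_eq_mul, List.length_cons,
          show t.length + 1 + 1 = 2 + t.length by ring]
        exact fil_mul X 2 _ _ _ (hZ i) (word_mem X t le_rfl)

end

section
variable {I : Type} (R : Set (FreeAlgebra ℂ I)) (N : ℕ)

/-- The universal algebra. -/
abbrev V : Type := RingQuot (rel R N)

/-- The generators. -/
def gen (i : I) : V R N := RingQuot.mkAlgHom ℂ (rel R N) (FreeAlgebra.ι ℂ i)

theorem mk_eq : RingQuot.mkAlgHom ℂ (rel R N) = FreeAlgebra.lift ℂ (gen R N) := by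
  apply FreeAlgebra.hom_ext
  funext i
  simp [gen]

theorem rel_R {f : FreeAlgebra ℂ I} (hf : f ∈ R) : FreeAlgebra.lift ℂ (gen R N) f = 0 := by
  rw [← mk_eq, RingQuot.mkAlgHom_rel ℂ (show rel R N f 0 from ⟨rfl, Or.inl hf⟩), map_zero]

theorem word_eq {l : List I} (hl : l.length = N + 1) : (l.map (gen R N)).prod = 0 := by
  rw [← lift_word, ← mk_eq, RingQuot.mkAlgHom_rel ℂ
    (show rel R N ((l.map (FreeAlgebra.ι ℂ)).prod) 0 from ⟨rfl, Or.inr ⟨l, hl, rfl⟩⟩), map_zero]

theorem word_zero {l : List I} (hl : N + 1 ≤ l.length) : (l.map (gen R N)).prod = 0 := by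
  rw [← List.take_append_drop (N + 1) l, List.map_append, List.prod_append,
    word_eq R N (by rw [List.length_take]; omega), zero_mul]

theorem fil_top : fil (gen R N) (N + 1) = ⊥ := by
  rw [eq_bot_iff, fil, Submodule.span_le]
  rintro v ⟨l, hl, rfl⟩
  rw [word_zero R N hl]
  exact Submodule.zero_mem _

theorem fil_zero : fil (gen R N) 0 = ⊤ := by
  rw [eq_top_iff]
  intro v _
  obtain ⟨f, rfl⟩ := RingQuot.mkAlgHom_surjective ℂ (rel R N) v
  rw [mk_eq]
  exact lift_mem_zero _ f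

end

end Univ

open Univ in
/- EF5: universal filtered algebras -/
theorem exists_univ {I : Type} (R : Set (FreeAlgebra ℂ I)) (N : ℕ) (z : I → FreeAlgebra ℂ I)
    (hz : ∀ i, z i ∈ Submodule.span ℂ {f | ∃ l : List I, 2 ≤ l.length ∧
      f = (l.map (FreeAlgebra.ι ℂ)).prod})
    (hR : ∀ (B : Type) [Ring B] [Algebra ℂ B] (X : I → B),
      (∀ f ∈ R, FreeAlgebra.lift ℂ X f = 0) → ∀ f ∈ R, FreeAlgebra.lift ℂ
        (fun i => (inl (X i) + inr (FreeAlgebra.lift ℂ X (z i)) : DualNumber B)) f = 0) :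
    ∃ (V : Type) (_ : Ring V) (_ : Algebra ℂ V) (X : I → V) (δ : V →ₗ[ℂ] V)
      (Fil : ℕ → Submodule ℂ V), (∀ f ∈ R, FreeAlgebra.lift ℂ X f = 0) ∧ FilAlg N δ Fil ∧
      (∀ i, X i ∈ Fil 1) ∧ (∀ i, δ (X i) = FreeAlgebra.lift ℂ X (z i)) ∧
      ∀ (B : Type) [Ring B] [Algebra ℂ B] (X' : I → B), (∀ f ∈ R, FreeAlgebra.lift ℂ X' f = 0) →
        KZ.NilS (Set.range X') N → ∃ F : V →ₐ[ℂ] B, ∀ i, F (X i) = X' i := by
  have hZ : ∀ i, FreeAlgebra.lift ℂ (gen R N) (z i) ∈ fil (gen R N) 2 :=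
    fun i => lift_mem _ (hz i)
  set Y : I → DualNumber (V R N) := fun i =>
    (inl (gen R N i) + inr (FreeAlgebra.lift ℂ (gen R N) (z i))) with hY
  have hD : ∀ ⦃f g : FreeAlgebra ℂ I⦄, rel R N f g →
      FreeAlgebra.lift ℂ Y f = FreeAlgebra.lift ℂ Y g := by
    rintro f g ⟨rfl, h | ⟨l, hl, rfl⟩⟩
    · rw [map_zero]
      exact hR (V R N) (gen R N) (fun f hf => rel_R R N hf) f h
    · rw [map_zero, lift_word]
      obtain ⟨h1, h2⟩ := dual_word (gen R N) hZ l
      apply TrivSqZeroExt.ext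
      · rw [fst_zero]
        exact h1.trans (word_eq R N hl)
      · rw [snd_zero]
        have h3 := fil_anti (gen R N) (show N + 1 ≤ l.length + 1 by omega) h2
        rw [fil_top] at h3
        exact (Submodule.mem_bot ℂ).1 h3
  set D : V R N →ₐ[ℂ] DualNumber (V R N) :=
    RingQuot.liftAlgHom ℂ ⟨FreeAlgebra.lift ℂ Y, hD⟩ with hDdef
  have hDq : ∀ f, D (FreeAlgebra.lift ℂ (gen R N) f) = FreeAlgebra.lift ℂ Y f := by
    intro f
    rw [← mk_eq, hDdef, RingQuot.liftAlgHom_mkAlgHom_apply]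
  have hDg : ∀ i, D (gen R N i) = Y i := by
    intro i
    have := hDq (FreeAlgebra.ι ℂ i)
    rwa [FreeAlgebra.lift_ι_apply, FreeAlgebra.lift_ι_apply] at this
  have hDw : ∀ l : List I, D ((l.map (gen R N)).prod) = (l.map Y).prod := by
    intro l
    rw [← lift_word, hDq, lift_word]
  have hfst : ∀ v, (D v).fst = v := by
    intro v
    obtain ⟨f, rfl⟩ := RingQuot.mkAlgHom_surjective ℂ (rel R N) v
    rw [mk_eq]
    induction f using FreeAlgebra.induction with
    | grade0 r =>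
      rw [AlgHom.commutes, AlgHom.commutes]
      rfl
    | grade1 x =>
      rw [FreeAlgebra.lift_ι_apply, hDg]
      simp [hY]
    | mul a b ha hb => rw [map_mul, map_mul, fst_mul, ha, hb]
    | add a b ha hb => rw [map_add, map_add, fst_add, ha, hb]
  let δ : V R N →ₗ[ℂ] V R N :=
    { toFun := fun v => (D v).snd
      map_add' := fun a b => by rw [map_add, snd_add]
      map_smul' := fun c a => by rw [map_smul, snd_smul, RingHom.id_apply] }
  have hδ : ∀ v, δ v = (D v).snd := fun v => rfl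
  refine ⟨V R N, inferInstance, inferInstance, gen R N, δ, fil (gen R N),
    fun f hf => rel_R R N hf, ?_, ?_, ?_, ?_⟩
  · refine ⟨?_, fil_zero R N, fil_top R N, fun i => fil_anti _ (Nat.le_succ i),
      fil_mul _, ?_⟩
    · intro a b
      rw [hδ, hδ, hδ, map_mul, snd_mul, hfst, hfst, smul_eq_mul, op_smul_eq_mul, add_comm]
    · intro i a ha
      unfold fil at ha
      induction ha using Submodule.span_induction with
      | mem a ha =>
        obtain ⟨l, hl, rfl⟩ := ha
        rw [hδ, hDw]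
        exact fil_anti _ (by omega) (dual_word (gen R N) hZ l).2
      | zero => rw [map_zero]; exact Submodule.zero_mem _
      | add b c _ _ hb hc => rw [map_add]; exact Submodule.add_mem _ hb hc
      | smul c b _ hb => rw [map_smul]; exact Submodule.smul_mem _ _ hb
  · intro i
    simpa using word_mem (gen R N) [i] (k := 1) le_rfl
  · intro i
    rw [hδ, hDg]
    simp [hY]
  · intro B _ _ X' hX' hN
    have hF : ∀ ⦃f g : FreeAlgebra ℂ I⦄, rel R N f g →
        FreeAlgebra.lift ℂ X' f = FreeAlgebra.lift ℂ X' g := by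
      rintro f g ⟨rfl, h | ⟨l, hl, rfl⟩⟩
      · rw [map_zero, hX' f h]
      · rw [map_zero, lift_word]
        apply hN
        · rw [List.length_map, hl]
        · intro x hx
          obtain ⟨i, _, rfl⟩ := List.mem_map.1 hx
          exact ⟨i, rfl⟩
    refine ⟨RingQuot.liftAlgHom ℂ ⟨FreeAlgebra.lift ℂ X', hF⟩, fun i => ?_⟩
    rw [gen, RingQuot.liftAlgHom_mkAlgHom_apply, FreeAlgebra.lift_ι_apply]

end Vale.Agent.P029.Low
end
end
end

section

section

/-! P029 lower half: group-likeness and inversion for the exponential action. -/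

noncomputable section

attribute [local instance 100] LieRing.ofAssociativeRing

namespace Vale.Agent.P029.Low

open Vale.Agent.P029 TrivSqZeroExt

section basic

variable {K B : Type} [CommRing K] [Ring B] [Algebra K B]

lemma ExpGl_toFree_x : toFree K (Fin 2) (kx K) = FreeAlgebra.ι K (0 : Fin 2) := by
  unfold toFree kx
  exact FreeLieAlgebra.lift_of_apply _ _

lemma ExpGl_toFree_y : toFree K (Fin 2) (ky K) = FreeAlgebra.ι K (1 : Fin 2) := by
  unfold toFree ky
  exact FreeLieAlgebra.lift_of_apply _ _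

/-- Evaluation of a Lie polynomial in an associative algebra. -/
lemma ExpGl_ev_toFree (a b : B) (ψ : LK K) : ev a b (toFree K (Fin 2) ψ) = sb a b ψ := by
  induction ψ using lk_induction with
  | hx => rw [ExpGl_toFree_x, sb_x]; simp [ev]
  | hy => rw [ExpGl_toFree_y, sb_y]; simp [ev]
  | h0 => simp
  | hadd u v hu hv => rw [map_add, map_add, map_add, hu, hv]
  | hsmul c u hu => rw [map_smul, map_smul, map_smul, hu]
  | hlie u v hu hv =>
    rw [LieHom.map_lie, LieHom.map_lie, Ring.lie_def, Ring.lie_def, map_sub, map_mul, map_mul,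
      hu, hv]

lemma ExpGl_comm_ev {a b z : B} (h1 : Commute z a) (h2 : Commute z b) (ψ : LK K) :
    Commute z (ev a b (toFree K (Fin 2) ψ)) := by
  rw [ExpGl_ev_toFree]
  have h : (⁅z, sb a b ψ⁆ : B) = 0 := by
    refine lie_sb_zero ?_ ?_ ψ
    · rw [Ring.lie_def, h1.eq, sub_self]
    · rw [Ring.lie_def, h2.eq, sub_self]
  rw [Ring.lie_def, sub_eq_zero] at h
  exact h

/-- Lie polynomials are additive on commuting pairs. -/
lemma ExpGl_add {a b a' b' : B} (h1 : Commute a a') (h2 : Commute a b') (h3 : Commute b a')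
    (h4 : Commute b b') (ψ : LK K) :
    ev (a + a') (b + b') (toFree K (Fin 2) ψ) =
      ev a b (toFree K (Fin 2) ψ) + ev a' b' (toFree K (Fin 2) ψ) := by
  rw [ExpGl_ev_toFree, ExpGl_ev_toFree, ExpGl_ev_toFree]
  induction ψ using lk_induction with
  | hx => simp
  | hy => simp
  | h0 => simp
  | hadd u v hu hv => rw [map_add, map_add, map_add, hu, hv]; abel
  | hsmul c u hu => rw [map_smul, map_smul, map_smul, hu, smul_add]
  | hlie u v hu hv =>
    rw [LieHom.map_lie, LieHom.map_lie, LieHom.map_lie, hu, hv]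
    have key : ∀ u v : LK K, (⁅sb a b u, sb a' b' v⁆ : B) = 0 := by
      intro u v
      refine lie_sb_zero ?_ ?_ v
      · have := ExpGl_comm_ev (K := K) h1.symm h3.symm u
        rw [ExpGl_ev_toFree] at this
        rw [Ring.lie_def, this.eq, sub_self]
      · have := ExpGl_comm_ev (K := K) h2.symm h4.symm u
        rw [ExpGl_ev_toFree] at this
        rw [Ring.lie_def, this.eq, sub_self]
    have key' : ∀ u v : LK K, (⁅sb a' b' u, sb a b v⁆ : B) = 0 := by
      intro u v
      rw [← lie_skew, key, neg_zero]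
    rw [lie_add, add_lie, add_lie, key, key', add_zero, zero_add]

/-- Naturality. -/
lemma ExpGl_map {C : Type} [Ring C] [Algebra K C] (F : B →ₐ[K] C) (a b : B) (P : FA K) :
    F (ev a b P) = ev (F a) (F b) P := by
  have h : (F.comp (ev a b : FA K →ₐ[K] B)) = ev (F a) (F b) := by
    apply FreeAlgebra.hom_ext
    funext i
    fin_cases i <;> simp [ev]
  rw [← h]
  rfl

end basic

section words

variable {K I : Type} [CommRing K]

/-- Span of the words of length at least `n`. -/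
def ExpGl_S (K I : Type) [CommRing K] (n : ℕ) : Submodule K (FreeAlgebra K I) :=
  Submodule.span K {f | ∃ l : List I, n ≤ l.length ∧ f = (l.map (FreeAlgebra.ι K)).prod}

lemma ExpGl_S_anti {m n : ℕ} (h : m ≤ n) : ExpGl_S K I n ≤ ExpGl_S K I m := by
  refine Submodule.span_mono ?_
  rintro f ⟨l, hl, rfl⟩
  exact ⟨l, h.trans hl, rfl⟩

lemma ExpGl_S_mul {m n : ℕ} {f g : FreeAlgebra K I} (hf : f ∈ ExpGl_S K I m)
    (hg : g ∈ ExpGl_S K I n) : f * g ∈ ExpGl_S K I (m + n) := by
  have h := Submodule.mul_mem_mul hf hg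
  unfold ExpGl_S at h ⊢
  rw [Submodule.span_mul_span] at h
  refine Submodule.span_mono ?_ h
  rintro _ ⟨u, ⟨l, hl, rfl⟩, v, ⟨l', hl', rfl⟩, rfl⟩
  exact ⟨l ++ l', by rw [List.length_append]; omega, by simp⟩

lemma ExpGl_S_letter (i : I) : FreeAlgebra.ι K i ∈ ExpGl_S K I 1 :=
  Submodule.subset_span ⟨[i], by simp, by simp⟩

lemma ExpGl_S_sb (i j : I) {m : ℕ} {ψ : LK K} (hψ : ψ ∈ wt2 K m) :
    ev (FreeAlgebra.ι K i) (FreeAlgebra.ι K j) (toFree K (Fin 2) ψ) ∈ ExpGl_S K I m := by
  rw [ExpGl_ev_toFree]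
  refine wt_induction (P := fun ψ => sb (FreeAlgebra.ι K i) (FreeAlgebra.ι K j) ψ ∈ ExpGl_S K I m)
    ?_ (by simp) (fun a b ha hb => by rw [map_add]; exact add_mem ha hb)
    (fun c a ha => by rw [map_smul]; exact Submodule.smul_mem _ _ ha) hψ
  intro t ht
  rw [sb_eval, ← ht]
  clear ht
  induction t with
  | leaf k =>
    fin_cases k
    · exact ExpGl_S_letter i
    · exact ExpGl_S_letter j
  | node u v hu hv =>
    change (⁅_, _⁆ : FreeAlgebra K I) ∈ _
    rw [Ring.lie_def]
    refine sub_mem (ExpGl_S_mul hu hv) ?_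
    have := ExpGl_S_mul hv hu
    rwa [add_comm] at this

lemma ExpGl_S_br (i j k : I) {m : ℕ} (hm : 2 ≤ m) {ψ : LK K} (hψ : ψ ∈ wt2 K m) :
    FreeAlgebra.ι K k * ev (FreeAlgebra.ι K i) (FreeAlgebra.ι K j) (toFree K (Fin 2) ψ) -
      ev (FreeAlgebra.ι K i) (FreeAlgebra.ι K j) (toFree K (Fin 2) ψ) * FreeAlgebra.ι K k
      ∈ ExpGl_S K I 2 := by
  have h := ExpGl_S_sb (I := I) i j hψ
  have h1 := ExpGl_S_mul (ExpGl_S_letter (K := K) k) h
  have h2 := ExpGl_S_mul h (ExpGl_S_letter (K := K) k)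
  exact sub_mem (ExpGl_S_anti (by omega) h1) (ExpGl_S_anti (by omega) h2)

end words

section fil

variable {V : Type} [Ring V] [Algebra ℂ V] {N : ℕ} {δ : V →ₗ[ℂ] V} {Fil : ℕ → Submodule ℂ V}

lemma ExpGl_Fil_anti (hF : FilAlg N δ Fil) {m n : ℕ} (h : m ≤ n) : Fil n ≤ Fil m := by
  induction n, h using Nat.le_induction with
  | base => exact le_rfl
  | succ n _ ih => exact (hF.anti n).trans ih

lemma ExpGl_Fil_sb (hF : FilAlg N δ Fil) {a b : V} (ha : a ∈ Fil 1) (hb : b ∈ Fil 1) {m : ℕ}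
    (hm : 1 ≤ m) {ψ : LK ℂ} (hψ : ψ ∈ wt2 ℂ m) : ev a b (toFree ℂ (Fin 2) ψ) ∈ Fil 1 := by
  rw [ExpGl_ev_toFree]
  refine ExpGl_Fil_anti hF hm ?_
  refine wt_induction (P := fun ψ => sb a b ψ ∈ Fil m)
    ?_ (by simp) (fun a b ha hb => by rw [map_add]; exact add_mem ha hb)
    (fun c a ha => by rw [map_smul]; exact Submodule.smul_mem _ _ ha) hψ
  intro t ht
  rw [sb_eval, ← ht]
  clear ht
  induction t with
  | leaf k =>
    fin_cases k
    · exact ha
    · exact hb
  | node u v hu hv =>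
    change (⁅_, _⁆ : V) ∈ _
    rw [Ring.lie_def]
    refine sub_mem (hF.mul _ _ _ _ hu hv) ?_
    have := hF.mul _ _ _ _ hv hu
    rwa [add_comm] at this

lemma ExpGl_Fil_nil (hF : FilAlg N δ Fil) {S : Set V} (hS : ∀ x ∈ S, x ∈ Fil 1) :
    KZ.NilS S N := by
  have key : ∀ l : List V, (∀ x ∈ l, x ∈ S) → l.prod ∈ Fil l.length := by
    intro l
    induction l with
    | nil => intro _; rw [List.length_nil, hF.zero]; trivial
    | cons x l ih =>
      intro h
      rw [List.prod_cons, List.length_cons, add_comm]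
      exact hF.mul _ _ _ _ (hS x (h x (by simp))) (ih fun y hy => h y (by simp [hy]))
  intro l hl h
  have := key l h
  rw [hl, hF.top] at this
  exact (Submodule.mem_bot ℂ).1 this

end fil

/-- Group-likeness in a filtered algebra. -/
lemma ExpGl_gl {V : Type} [Ring V] [Algebra ℂ V] {N m : ℕ} {δ : V →ₗ[ℂ] V}
    {Fil : ℕ → Submodule ℂ V} (hF : FilAlg N δ Fil) (hm : 2 ≤ m) {ψ : LK ℂ}
    (hψ : ψ ∈ wt2 ℂ m) {P : FA ℂ} (hP : Assoc N P) {a b a' b' : V} (ha : a ∈ Fil 1)
    (hb : b ∈ Fil 1) (ha' : a' ∈ Fil 1) (hb' : b' ∈ Fil 1) (h1 : Commute a a')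
    (h2 : Commute a b') (h3 : Commute b a') (h4 : Commute b b') (da : δ a = 0)
    (db : δ b = b * ev a b (toFree ℂ (Fin 2) ψ) - ev a b (toFree ℂ (Fin 2) ψ) * b)
    (da' : δ a' = 0)
    (db' : δ b' = b' * ev a' b' (toFree ℂ (Fin 2) ψ) - ev a' b' (toFree ℂ (Fin 2) ψ) * b') :
    ev (a + a') (b + b') (eTF N ψ P) = ev a b (eTF N ψ P) * ev a' b' (eTF N ψ P) := by
  set p := ev a b (toFree ℂ (Fin 2) ψ) with hp
  set p' := ev a' b' (toFree ℂ (Fin 2) ψ) with hp'
  have cap : Commute a p' := ExpGl_comm_ev h1 h2 ψ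
  have cbp : Commute b p' := ExpGl_comm_ev h3 h4 ψ
  have cap' : Commute a' p := ExpGl_comm_ev h1.symm h3.symm ψ
  have cbp' : Commute b' p := ExpGl_comm_ev h2.symm h4.symm ψ
  have fp : p ∈ Fil 1 := ExpGl_Fil_sb hF ha hb (by omega) hψ
  have fp' : p' ∈ Fil 1 := ExpGl_Fil_sb hF ha' hb' (by omega) hψ
  have hadd := ExpGl_add (K := ℂ) h1 h2 h3 h4 ψ
  rw [← hp, ← hp'] at hadd
  -- the three evaluations
  have e1 : ev a' b' (eTF N ψ P) = EX N δ (0 - p') 0 (ev a' b' P) :=
    ev_eTF hF (by rw [da']; simp) (by rw [db', ← hp']; simp) P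
  have e2 : ev a b (eTF N ψ P) = EX N δ (-p' - p) (-p') (ev a b P) := by
    refine ev_eTF hF ?_ ?_ P
    · rw [da, neg_mul, mul_neg, cap.eq]; simp
    · rw [db, ← hp, neg_mul, mul_neg, cbp.eq]; simp
  have e3 : ev (a + a') (b + b') (eTF N ψ P) =
      EX N δ (0 - (p + p')) 0 (ev (a + a') (b + b') P) := by
    rw [← hadd]
    refine ev_eTF hF ?_ ?_ P
    · rw [map_add, da, da']; simp
    · rw [map_add, db, db', hadd, add_mul, mul_add, mul_add, add_mul, mul_add, mul_add,
        cbp.eq, cbp'.eq, zero_mul, mul_zero]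
      abel
  rw [e1, e2, e3]
  have e4 : (0 : V) - p' = -p' := by abel
  have e5 : (0 : V) - (p + p') = -p' - p := by abel
  rw [e4, e5, EX_mul hF (sub_mem (neg_mem fp') fp) (neg_mem fp') (zero_mem _),
    hP.gl V a b a' b' ?_ h1.eq h2.eq h3.eq h4.eq]
  refine ExpGl_Fil_nil hF ?_
  rintro x (rfl | rfl | rfl | rfl) <;> assumption

/-- Inversion in a filtered algebra. -/
lemma ExpGl_inv {V : Type} [Ring V] [Algebra ℂ V] {N m : ℕ} {δ : V →ₗ[ℂ] V}
    {Fil : ℕ → Submodule ℂ V} (hF : FilAlg N δ Fil) (hm : 2 ≤ m) {ψ : LK ℂ}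
    (h : Sol ℂ m ψ) {P : FA ℂ} (hP : Assoc N P) {a b : V} (ha : a ∈ Fil 1)
    (hb : b ∈ Fil 1) (da : δ a = 0)
    (db : δ b = b * ev a b (toFree ℂ (Fin 2) ψ) - ev a b (toFree ℂ (Fin 2) ψ) * b) :
    ev b a (eTF N ψ P) * ev a b (eTF N ψ P) = 1 := by
  have hanti : ev b a (toFree ℂ (Fin 2) ψ) = - ev a b (toFree ℂ (Fin 2) ψ) := by
    rw [ExpGl_ev_toFree, ExpGl_ev_toFree]
    have h1 := congrArg (sb a b) h.anti
    rw [map_add, sb_sb, sb_x, sb_y, map_zero] at h1
    rw [eq_neg_iff_add_eq_zero, add_comm]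
    exact h1
  set p := ev a b (toFree ℂ (Fin 2) ψ) with hp
  have fp : p ∈ Fil 1 := ExpGl_Fil_sb hF ha hb (by omega) h.wt
  have e1 : ev a b (eTF N ψ P) = EX N δ (0 - p) 0 (ev a b P) :=
    ev_eTF hF (by rw [da]; simp) (by rw [db, ← hp]; simp) P
  have e2 : ev b a (eTF N ψ P) = EX N δ (-p - -p) (-p) (ev b a P) := by
    rw [← hanti]
    refine ev_eTF hF ?_ ?_ P
    · rw [db, hanti]; simp only [neg_mul, mul_neg]; abel
    · rw [da, hanti]; simp only [neg_mul, mul_neg]; abel
  have e3 : (0 : V) - p = -p := by abel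
  have e4 : -p - -p = 0 := by abel
  rw [e1, e2, e3, e4, EX_mul hF (zero_mem _) (neg_mem fp) (zero_mem _), hP.inv V a b ?_,
    EX_one hF]
  refine ExpGl_Fil_nil hF ?_
  rintro x (rfl | rfl) <;> assumption

/-- EF7. -/
theorem inv_exp {N m : ℕ} (hm : 2 ≤ m) {ψ : LK ℂ} (h : Sol ℂ m ψ) {P : FA ℂ} (hP : Assoc N P)
    (B : Type) [Ring B] [Algebra ℂ B] (a b : B) (hN : KZ.NilS {a, b} N) :
    ev b a (eTF N ψ P) * ev a b (eTF N ψ P) = 1 := by
  set x : Fin 2 → FreeAlgebra ℂ (Fin 2) := FreeAlgebra.ι ℂ with hx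
  set q := ev (x 0) (x 1) (toFree ℂ (Fin 2) ψ) with hq
  obtain ⟨V, _, _, X, δ, Fil, -, hF, hX1, hδ, huniv⟩ := exists_univ (I := Fin 2) ∅ N
    ![0, x 1 * q - q * x 1] (by
      intro i
      fin_cases i
      · exact zero_mem _
      · exact ExpGl_S_br (K := ℂ) (I := Fin 2) 0 1 1 hm h.wt)
    (by intro B _ _ X _ f hf; exact absurd hf (by simp))
  have hlift : ∀ P : FA ℂ, FreeAlgebra.lift ℂ X (ev (x 0) (x 1) P) = ev (X 0) (X 1) P := by
    intro P
    rw [ExpGl_map]
    simp [hx]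
  have d0 : δ (X 0) = 0 := by
    rw [hδ 0]
    simp
  have d1 : δ (X 1) = X 1 * ev (X 0) (X 1) (toFree ℂ (Fin 2) ψ) -
      ev (X 0) (X 1) (toFree ℂ (Fin 2) ψ) * X 1 := by
    rw [hδ 1]
    change FreeAlgebra.lift ℂ X (x 1 * q - q * x 1) = _
    rw [map_sub, map_mul, map_mul, hq, hlift]
    simp [hx]
  have hV := ExpGl_inv hF hm h hP (hX1 0) (hX1 1) d0 d1
  obtain ⟨F, hFX⟩ := huniv B ![a, b] (by simp) (by
    intro l hl hlS
    refine hN l hl fun y hy => ?_
    obtain ⟨i, hi⟩ := hlS y hy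
    fin_cases i
    · simp at hi; simp [← hi]
    · simp at hi; simp [← hi])
  have h2 := congrArg F hV
  rw [map_mul, map_one, ExpGl_map, ExpGl_map, hFX 0, hFX 1] at h2
  exact h2

/-- EF6. -/
theorem gl_exp {N m : ℕ} (hm : 2 ≤ m) {ψ : LK ℂ} (h : Sol ℂ m ψ) {P : FA ℂ} (hP : Assoc N P)
    (B : Type) [Ring B] [Algebra ℂ B] (a b a' b' : B) (hN : KZ.NilS {a, b, a', b'} N)
    (h1 : a * a' = a' * a) (h2 : a * b' = b' * a) (h3 : b * a' = a' * b) (h4 : b * b' = b' * b) :
    ev (a + a') (b + b') (eTF N ψ P) = ev a b (eTF N ψ P) * ev a' b' (eTF N ψ P) := by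
  set x : Fin 4 → FreeAlgebra ℂ (Fin 4) := FreeAlgebra.ι ℂ with hx
  set q := ev (x 0) (x 1) (toFree ℂ (Fin 2) ψ) with hq
  set q' := ev (x 2) (x 3) (toFree ℂ (Fin 2) ψ) with hq'
  set R : Set (FreeAlgebra ℂ (Fin 4)) := {x 0 * x 2 - x 2 * x 0, x 0 * x 3 - x 3 * x 0,
    x 1 * x 2 - x 2 * x 1, x 1 * x 3 - x 3 * x 1} with hR
  set z : Fin 4 → FreeAlgebra ℂ (Fin 4) := ![0, x 1 * q - q * x 1, 0, x 3 * q' - q' * x 3] with hz
  have hlift : ∀ {C : Type} [Ring C] [Algebra ℂ C] (X : Fin 4 → C) (i j : Fin 4) (P : FA ℂ),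
      FreeAlgebra.lift ℂ X (ev (x i) (x j) P) = ev (X i) (X j) P := by
    intro C _ _ X i j P
    rw [ExpGl_map]
    simp [hx]
  have hcomm : ∀ {C : Type} [Ring C] [Algebra ℂ C] (X : Fin 4 → C),
      (∀ f ∈ R, FreeAlgebra.lift ℂ X f = 0) ↔ (Commute (X 0) (X 2) ∧ Commute (X 0) (X 3) ∧
        Commute (X 1) (X 2) ∧ Commute (X 1) (X 3)) := by
    intro C _ _ X
    simp only [hR, Set.mem_insert_iff, Set.mem_singleton_iff, forall_eq_or_imp, forall_eq,
      map_sub, map_mul, hx, FreeAlgebra.lift_ι_apply, sub_eq_zero]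
    rfl
  have hz1 : ∀ {C : Type} [Ring C] [Algebra ℂ C] (X : Fin 4 → C),
      FreeAlgebra.lift ℂ X (z 0) = 0 ∧ FreeAlgebra.lift ℂ X (z 2) = 0 ∧
      FreeAlgebra.lift ℂ X (z 1) = X 1 * ev (X 0) (X 1) (toFree ℂ (Fin 2) ψ) -
        ev (X 0) (X 1) (toFree ℂ (Fin 2) ψ) * X 1 ∧
      FreeAlgebra.lift ℂ X (z 3) = X 3 * ev (X 2) (X 3) (toFree ℂ (Fin 2) ψ) -
        ev (X 2) (X 3) (toFree ℂ (Fin 2) ψ) * X 3 := by
    intro C _ _ X
    refine ⟨map_zero _, map_zero _, ?_, ?_⟩
    · change FreeAlgebra.lift ℂ X (x 1 * q - q * x 1) = _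
      rw [map_sub, map_mul, map_mul, hq, hlift]
      simp [hx]
    · change FreeAlgebra.lift ℂ X (x 3 * q' - q' * x 3) = _
      rw [map_sub, map_mul, map_mul, hq', hlift]
      simp [hx]
  obtain ⟨V, _, _, X, δ, Fil, hXR, hF, hX1, hδ, huniv⟩ := exists_univ (I := Fin 4) R N z (by
      intro i
      fin_cases i
      · exact zero_mem _
      · exact ExpGl_S_br (K := ℂ) (I := Fin 4) 0 1 1 hm h.wt
      · exact zero_mem _
      · exact ExpGl_S_br (K := ℂ) (I := Fin 4) 2 3 3 hm h.wt)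
    (by
      intro C _ _ X hX
      obtain ⟨c02, c03, c12, c13⟩ := (hcomm X).1 hX
      obtain ⟨z0, z2, z1, z3⟩ := hz1 X
      rw [hcomm]
      have k1 : Commute (X 2) (ev (X 0) (X 1) (toFree ℂ (Fin 2) ψ)) :=
        ExpGl_comm_ev c02.symm c12.symm ψ
      have k2 : Commute (X 3) (ev (X 0) (X 1) (toFree ℂ (Fin 2) ψ)) :=
        ExpGl_comm_ev c03.symm c13.symm ψ
      have k3 : Commute (X 0) (ev (X 2) (X 3) (toFree ℂ (Fin 2) ψ)) :=
        ExpGl_comm_ev c02 c03 ψ
      have k4 : Commute (X 1) (ev (X 2) (X 3) (toFree ℂ (Fin 2) ψ)) :=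
        ExpGl_comm_ev c12 c13 ψ
      have m1 : Commute (X 2) (FreeAlgebra.lift ℂ X (z 1)) := by
        rw [z1]; exact (c12.symm.mul_right k1).sub_right (k1.mul_right c12.symm)
      have m2 : Commute (X 3) (FreeAlgebra.lift ℂ X (z 1)) := by
        rw [z1]; exact (c13.symm.mul_right k2).sub_right (k2.mul_right c13.symm)
      have m3 : Commute (X 0) (FreeAlgebra.lift ℂ X (z 3)) := by
        rw [z3]; exact (c03.mul_right k3).sub_right (k3.mul_right c03)
      have m4 : Commute (X 1) (FreeAlgebra.lift ℂ X (z 3)) := by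
        rw [z3]; exact (c13.mul_right k4).sub_right (k4.mul_right c13)
      have dn : ∀ i j : Fin 4, Commute (X i) (X j) → Commute (X i) (FreeAlgebra.lift ℂ X (z j)) →
          Commute (X j) (FreeAlgebra.lift ℂ X (z i)) →
          Commute (inl (X i) + inr (FreeAlgebra.lift ℂ X (z i)) : DualNumber C)
            (inl (X j) + inr (FreeAlgebra.lift ℂ X (z j))) := by
        intro i j c1 c2 c3
        apply TrivSqZeroExt.ext
        · simp [c1.eq]
        · simp only [snd_mul, fst_add, fst_inl, fst_inr, add_zero, snd_add, snd_inl, snd_inr,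
            zero_add, smul_eq_mul, MulOpposite.smul_eq_mul_unop, MulOpposite.unop_op]
          rw [c2.eq, ← c3.eq, add_comm]
      refine ⟨dn 0 2 c02 ?_ ?_, dn 0 3 c03 m3 ?_, dn 1 2 c12 ?_ m1, dn 1 3 c13 m4 m2⟩
      · rw [z2]; exact Commute.zero_right _
      · rw [z0]; exact Commute.zero_right _
      · rw [z0]; exact Commute.zero_right _
      · rw [z2]; exact Commute.zero_right _)
  obtain ⟨c02, c03, c12, c13⟩ := (hcomm X).1 hXR
  obtain ⟨z0, z2, z1, z3⟩ := hz1 X
  have hV := ExpGl_gl hF hm h.wt hP (hX1 0) (hX1 1) (hX1 2) (hX1 3) c02 c03 c12 c13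
    (by rw [hδ, z0]) (by rw [hδ, z1]) (by rw [hδ, z2]) (by rw [hδ, z3])
  obtain ⟨F, hFX⟩ := huniv B ![a, b, a', b'] ((hcomm _).2 ⟨h1, h2, h3, h4⟩) (by
    intro l hl hlS
    refine hN l hl fun y hy => ?_
    obtain ⟨i, hi⟩ := hlS y hy
    fin_cases i
    · simp at hi; simp [← hi]
    · simp at hi; simp [← hi]
    · simp at hi; simp [← hi]
    · simp at hi; simp [← hi])
  have h5 := congrArg F hV
  rw [map_mul, ExpGl_map, ExpGl_map, ExpGl_map, map_add, map_add, hFX 0, hFX 1, hFX 2, hFX 3] at h5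
  exact h5

end Vale.Agent.P029.Low
end
end
end

section

section

/-! P029 lower half: a `P5`-system in `𝔱₄`; `Sol ℚ n` is the same as `W n`. -/

noncomputable section

attribute [local instance 100] LieRing.ofAssociativeRing

namespace Vale.Agent.P029.Low

/-! ### The relations of `𝔱₄` -/

namespace T4S

lemma mk_rel {r : FT} (h : T4Rel r) : (LieSubmodule.Quotient.mk r : T4) = 0 :=
  (LieSubmodule.Quotient.mk_eq_zero' ).2 (LieSubmodule.subset_lieSpan h)

lemma t_symm (i j : Fin 4) : t4 i j = t4 j i := by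
  have h := mk_rel (T4Rel.symm i j)
  have e : (LieSubmodule.Quotient.mk (tt i j - tt j i) : T4) = t4 i j - t4 j i := rfl
  rw [e] at h
  exact sub_eq_zero.1 h

lemma t_comm (i j k l : Fin 4) (hij : i ≠ j) (hik : i ≠ k) (hil : i ≠ l) (hjk : j ≠ k)
    (hjl : j ≠ l) (hkl : k ≠ l) : ⁅t4 i j, t4 k l⁆ = 0 := by
  have h := mk_rel (T4Rel.comm i j k l hij hik hil hjk hjl hkl)
  rw [LieSubmodule.Quotient.mk_bracket] at h
  exact h

lemma t_tri (i j k : Fin 4) (hij : i ≠ j) (hik : i ≠ k) (hjk : j ≠ k) :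
    ⁅t4 i j, t4 i k + t4 j k⁆ = 0 := by
  have h := mk_rel (T4Rel.tri i j k hij hik hjk)
  rw [LieSubmodule.Quotient.mk_bracket] at h
  exact h

/-- The ten elements; `a, b, d, e, f, k` are `t01, t02, t03, t12, t13, t23`. -/
def M {g : Type} [LieRing g] (a b e f k : g) : Fin 5 → Fin 5 → g :=
  ![![0, a, b, -(a + b + e + f + k), e + f + k],
    ![a, 0, e, f, -(a + e + f)],
    ![b, e, 0, k, -(b + e + k)],
    ![-(a + b + e + f + k), f, k, 0, a + b + e],
    ![e + f + k, -(a + e + f), -(b + e + k), a + b + e, 0]]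

variable {g : Type} [LieRing g] {a b d e f k : g}

lemma skew0 {a b : g} (h : ⁅a, b⁆ = 0) : ⁅b, a⁆ = 0 := by rw [← lie_skew, h, neg_zero]

lemma M_PS (ak : ⁅a, k⁆ = 0) (bf : ⁅b, f⁆ = 0) (de : ⁅d, e⁆ = 0)
    (e_ab : ⁅e, a + b⁆ = 0) (a_be : ⁅a, b + e⁆ = 0) (b_ae : ⁅b, a + e⁆ = 0)
    (e_fk : ⁅e, f + k⁆ = 0) (f_ek : ⁅f, e + k⁆ = 0) (k_ef : ⁅k, e + f⁆ = 0)
    (a_df : ⁅a, d + f⁆ = 0) (f_ad : ⁅f, a + d⁆ = 0) (d_af : ⁅d, a + f⁆ = 0)
    (b_dk : ⁅b, d + k⁆ = 0) (k_bd : ⁅k, b + d⁆ = 0) (d_bk : ⁅d, b + k⁆ = 0) :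
    PS (M a b e f k) := by
  have ka := skew0 ak
  have fb := skew0 bf
  -- centrality
  have hc : ∀ z : g, ⁅z, a + b + d + e + f + k⁆ = 0 → ⁅z, a + b + e + f + k⁆ = -⁅z, d⁆ := by
    intro z hz
    rw [show a + b + e + f + k = (a + b + d + e + f + k) - d by abel, lie_sub, hz, zero_sub]
  have ca : ⁅a, a + b + d + e + f + k⁆ = 0 := by
    rw [show a + b + d + e + f + k = a + (b + e) + (d + f) + k by abel, lie_add, lie_add, lie_add,
      lie_self, a_be, a_df, ak]
    simp
  have ce : ⁅e, a + b + d + e + f + k⁆ = 0 := by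
    rw [show a + b + d + e + f + k = e + (a + b) + (f + k) + d by abel, lie_add, lie_add, lie_add,
      lie_self, e_ab, e_fk, skew0 de]
    simp
  have cf : ⁅f, a + b + d + e + f + k⁆ = 0 := by
    rw [show a + b + d + e + f + k = f + (a + d) + (e + k) + b by abel, lie_add, lie_add, lie_add,
      lie_self, f_ad, f_ek, fb]
    simp
  have cb : ⁅b, a + b + d + e + f + k⁆ = 0 := by
    rw [show a + b + d + e + f + k = b + (a + e) + (d + k) + f by abel, lie_add, lie_add, lie_add,
      lie_self, b_ae, b_dk, bf]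
    simp
  have ck : ⁅k, a + b + d + e + f + k⁆ = 0 := by
    rw [show a + b + d + e + f + k = k + (b + d) + (e + f) + a by abel, lie_add, lie_add, lie_add,
      lie_self, k_bd, k_ef, ka]
    simp
  -- the fifteen relations
  have h03_12 : ⁅-(a + b + e + f + k), e⁆ = 0 := by
    apply skew0
    rw [lie_neg, hc e ce, skew0 de]; simp
  have h01_24 : ⁅a, -(b + e + k)⁆ = 0 := by
    rw [lie_neg, lie_add, a_be, ak]; simp
  have h01_34 : ⁅a, a + b + e⁆ = 0 := by
    rw [show a + b + e = a + (b + e) by abel, lie_add, lie_self, a_be]; simp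
  have h02_14 : ⁅b, -(a + e + f)⁆ = 0 := by
    rw [lie_neg, lie_add, b_ae, bf]; simp
  have h02_34 : ⁅b, a + b + e⁆ = 0 := by
    rw [show a + b + e = b + (a + e) by abel, lie_add, lie_self, b_ae]; simp
  have h14_03 : ⁅-(a + e + f), -(a + b + e + f + k)⁆ = 0 := by
    rw [lie_neg, neg_lie, neg_neg, add_lie, add_lie, hc a ca, hc e ce, hc f cf]
    have : ⁅a, d⁆ + ⁅f, d⁆ = 0 := by rw [← add_lie]; exact skew0 d_af
    rw [skew0 de, neg_zero, add_zero, ← neg_add, this, neg_zero]
  have h24_03 : ⁅-(b + e + k), -(a + b + e + f + k)⁆ = 0 := by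
    rw [lie_neg, neg_lie, neg_neg, add_lie, add_lie, hc b cb, hc e ce, hc k ck]
    have : ⁅b, d⁆ + ⁅k, d⁆ = 0 := by rw [← add_lie]; exact skew0 d_bk
    rw [skew0 de, neg_zero, add_zero, ← neg_add, this, neg_zero]
  have h12_04 : ⁅e, e + f + k⁆ = 0 := by
    rw [show e + f + k = e + (f + k) by abel, lie_add, lie_self, e_fk]; simp
  have h13_04 : ⁅f, e + f + k⁆ = 0 := by
    rw [show e + f + k = f + (e + k) by abel, lie_add, lie_self, f_ek]; simp
  have h23_04 : ⁅k, e + f + k⁆ = 0 := by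
    rw [show e + f + k = k + (e + f) by abel, lie_add, lie_self, k_ef]; simp
  have h12_34 : ⁅e, a + b + e⁆ = 0 := by
    rw [show a + b + e = e + (a + b) by abel, lie_add, lie_self, e_ab]; simp
  have h13_24 : ⁅f, -(b + e + k)⁆ = 0 := by
    rw [show b + e + k = b + (e + k) by abel, lie_neg, lie_add, fb, f_ek]; simp
  have h23_14 : ⁅k, -(a + e + f)⁆ = 0 := by
    rw [show a + e + f = a + (e + f) by abel, lie_neg, lie_add, ka, k_ef]; simp
  have hsymm : ∀ i j, M a b e f k i j = M a b e f k j i := by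
    intro i j; fin_cases i <;> fin_cases j <;> rfl
  refine ⟨?_, hsymm, ?_, ?_⟩
  · intro i; fin_cases i <;> rfl
  · intro i
    rw [Fin.sum_univ_five]
    fin_cases i
    · change 0 + a + b + -(a + b + e + f + k) + (e + f + k) = 0; abel
    · change a + 0 + e + f + -(a + e + f) = 0; abel
    · change b + e + 0 + k + -(b + e + k) = 0; abel
    · change -(a + b + e + f + k) + f + k + 0 + (a + b + e) = 0; abel
    · change e + f + k + -(a + e + f) + -(b + e + k) + (a + b + e) + 0 = 0; abel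
  · have key : ∀ i j p l : Fin 5, i < j → p < l → i < p → j ≠ p → j ≠ l →
        ⁅M a b e f k i j, M a b e f k p l⁆ = 0 := by
      intro i j p l h1 h2 h3 h4 h5
      fin_cases i
      · fin_cases j
        · exact absurd h1 (by decide)
        · fin_cases p
          · exact absurd h3 (by decide)
          · exact absurd rfl h4
          · fin_cases l
            · exact absurd h2 (by decide)
            · exact absurd h2 (by decide)
            · exact absurd h2 (by decide)
            · exact ak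
            · exact h01_24
          · fin_cases l
            · exact absurd h2 (by decide)
            · exact absurd h2 (by decide)
            · exact absurd h2 (by decide)
            · exact absurd h2 (by decide)
            · exact h01_34
          · exact absurd h2 (by simp only [Fin.reduceFinMk, Fin.lt_def, Fin.isValue, Fin.coe_ofNat_eq_mod, Nat.mod_succ, not_lt]; omega)
        · fin_cases p
          · exact absurd h3 (by decide)
          · fin_cases l
            · exact absurd h2 (by decide)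
            · exact absurd h2 (by decide)
            · exact absurd rfl h5
            · exact bf
            · exact h02_14
          · exact absurd rfl h4
          · fin_cases l
            · exact absurd h2 (by decide)
            · exact absurd h2 (by decide)
            · exact absurd h2 (by decide)
            · exact absurd h2 (by decide)
            · exact h02_34
          · exact absurd h2 (by simp [Fin.lt_def]; omega)
        · fin_cases p
          · exact absurd h3 (by decide)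
          · fin_cases l
            · exact absurd h2 (by decide)
            · exact absurd h2 (by decide)
            · exact h03_12
            · exact absurd rfl h5
            · exact skew0 h14_03
          · fin_cases l
            · exact absurd h2 (by decide)
            · exact absurd h2 (by decide)
            · exact absurd h2 (by decide)
            · exact absurd rfl h5
            · exact skew0 h24_03
          · exact absurd rfl h4
          · exact absurd h2 (by simp [Fin.lt_def]; omega)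
        · fin_cases p
          · exact absurd h3 (by decide)
          · fin_cases l
            · exact absurd h2 (by decide)
            · exact absurd h2 (by decide)
            · exact skew0 h12_04
            · exact skew0 h13_04
            · exact absurd rfl h5
          · fin_cases l
            · exact absurd h2 (by decide)
            · exact absurd h2 (by decide)
            · exact absurd h2 (by decide)
            · exact skew0 h23_04
            · exact absurd rfl h5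
          · fin_cases l
            · exact absurd h2 (by decide)
            · exact absurd h2 (by decide)
            · exact absurd h2 (by decide)
            · exact absurd h2 (by decide)
            · exact absurd rfl h5
          · exact absurd h2 (by simp [Fin.lt_def]; omega)
      · fin_cases j
        · exact absurd h1 (by decide)
        · exact absurd h1 (by decide)
        · fin_cases p
          · exact absurd h3 (by decide)
          · exact absurd h3 (by decide)
          · exact absurd rfl h4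
          · fin_cases l
            · exact absurd h2 (by decide)
            · exact absurd h2 (by decide)
            · exact absurd h2 (by decide)
            · exact absurd h2 (by decide)
            · exact h12_34
          · exact absurd h2 (by simp [Fin.lt_def]; omega)
        · fin_cases p
          · exact absurd h3 (by decide)
          · exact absurd h3 (by decide)
          · fin_cases l
            · exact absurd h2 (by decide)
            · exact absurd h2 (by decide)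
            · exact absurd h2 (by decide)
            · exact absurd rfl h5
            · exact h13_24
          · exact absurd rfl h4
          · exact absurd h2 (by simp [Fin.lt_def]; omega)
        · fin_cases p
          · exact absurd h3 (by decide)
          · exact absurd h3 (by decide)
          · fin_cases l
            · exact absurd h2 (by decide)
            · exact absurd h2 (by decide)
            · exact absurd h2 (by decide)
            · exact skew0 h23_14
            · exact absurd rfl h5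
          · fin_cases l
            · exact absurd h2 (by decide)
            · exact absurd h2 (by decide)
            · exact absurd h2 (by decide)
            · exact absurd h2 (by decide)
            · exact absurd rfl h5
          · exact absurd h2 (by simp [Fin.lt_def]; omega)
      · have h1' : 2 < (j : ℕ) := h1
        have h3' : 2 < (p : ℕ) := h3
        (clear * - h2 h4 h5 h1' h3'; omega)
      · have h1' : 3 < (j : ℕ) := h1
        have h3' : 3 < (p : ℕ) := h3
        omega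
      · have h1' : 4 < (j : ℕ) := h1
        have h3' : 4 < (p : ℕ) := h3
        omega
    have key2 : ∀ i j p l : Fin 5, i < j → p < l → i ≠ p → i ≠ l → j ≠ p → j ≠ l →
        ⁅M a b e f k i j, M a b e f k p l⁆ = 0 := by
      intro i j p l h1 h2 h3 h4 h5 h6
      rcases lt_or_gt_of_ne h3 with h | h
      · exact key i j p l h1 h2 h h5 h6
      · exact skew0 (key p l i j h2 h1 h h4.symm h6.symm)
    intro i j p l hij hik hil hjk hjl hkl
    rcases lt_or_gt_of_ne hij with h | h <;> rcases lt_or_gt_of_ne hkl with h' | h'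
    · exact key2 i j p l h h' hik hil hjk hjl
    · rw [hsymm p l]; exact key2 i j l p h h' hil hik hjl hjk
    · rw [hsymm i j]; exact key2 j i p l h h' hjk hjl hik hil
    · rw [hsymm i j, hsymm p l]; exact key2 j i l p h h' hjl hjk hil hik

end T4S

open T4S in
/- PS9: a `P5`-system in `𝔱₄` itself (shift `t 0 3` by the central element). -/
theorem PS_T4 : ∃ X : Fin 5 → Fin 5 → T4, PS X ∧ X 0 1 = t4 0 1 ∧ X 1 2 = t4 1 2 ∧
    X 2 3 = t4 2 3 ∧ X 3 4 = t4 0 1 + t4 0 2 + t4 1 2 ∧ X 4 0 = t4 1 2 + t4 1 3 + t4 2 3 := by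
  refine ⟨M (t4 0 1) (t4 0 2) (t4 1 2) (t4 1 3) (t4 2 3), ?_, rfl, rfl, rfl, rfl, rfl⟩
  have s10 := t_symm 1 0
  have s20 := t_symm 2 0
  have s30 := t_symm 3 0
  have s21 := t_symm 2 1
  have s31 := t_symm 3 1
  have s32 := t_symm 3 2
  refine M_PS (d := t4 0 3) (t_comm 0 1 2 3 ?_ ?_ ?_ ?_ ?_ ?_) (t_comm 0 2 1 3 ?_ ?_ ?_ ?_ ?_ ?_)
    (t_comm 0 3 1 2 ?_ ?_ ?_ ?_ ?_ ?_) ?_ ?_ ?_ ?_ ?_ ?_ ?_ ?_ ?_ ?_ ?_ ?_
  all_goals first | decide | skip
  · have h := t_tri 1 2 0 (by decide) (by decide) (by decide); rwa [s10, s20] at h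
  · have h := t_tri 0 1 2 (by decide) (by decide) (by decide); exact h
  · have h := t_tri 0 2 1 (by decide) (by decide) (by decide); rwa [s21] at h
  · have h := t_tri 1 2 3 (by decide) (by decide) (by decide); exact h
  · have h := t_tri 1 3 2 (by decide) (by decide) (by decide); rwa [s32] at h
  · have h := t_tri 2 3 1 (by decide) (by decide) (by decide); rwa [s21, s31] at h
  · have h := t_tri 0 1 3 (by decide) (by decide) (by decide); exact h
  · have h := t_tri 1 3 0 (by decide) (by decide) (by decide); rwa [s10, s30] at h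
  · have h := t_tri 0 3 1 (by decide) (by decide) (by decide); rwa [s31] at h
  · have h := t_tri 0 2 3 (by decide) (by decide) (by decide); exact h
  · have h := t_tri 2 3 0 (by decide) (by decide) (by decide); rwa [s20, s30] at h
  · have h := t_tri 0 3 2 (by decide) (by decide) (by decide); rwa [s32] at h

/-- A `P5`-system satisfies the five-term presentation. -/
theorem T4S.P5_ofPS {g : Type} [LieRing g] {X : Fin 5 → Fin 5 → g} (hX : PS X) :
    P5 ![X 0 1, X 1 2, X 2 3, X 3 4, X 4 0] := by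
  have c := hX.comm
  have s := hX.symm
  refine ⟨?_, ?_⟩
  · intro i
    fin_cases i
    · exact c 0 1 2 3 (by decide) (by decide) (by decide) (by decide) (by decide) (by decide)
    · exact c 1 2 3 4 (by decide) (by decide) (by decide) (by decide) (by decide) (by decide)
    · exact c 2 3 4 0 (by decide) (by decide) (by decide) (by decide) (by decide) (by decide)
    · exact c 3 4 0 1 (by decide) (by decide) (by decide) (by decide) (by decide) (by decide)
    · exact c 4 0 1 2 (by decide) (by decide) (by decide) (by decide) (by decide) (by decide)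
  · rw [Fin.sum_univ_five]
    change ⁅X 0 1, X 1 2⁆ + ⁅X 1 2, X 2 3⁆ + ⁅X 2 3, X 3 4⁆ + ⁅X 3 4, X 4 0⁆ + ⁅X 4 0, X 0 1⁆ = 0
    -- `[X_ij, X_ik + X_jk] = 0`
    have tri : ∀ i j k l m : Fin 5, i ≠ j → i ≠ k → j ≠ k → i ≠ l → i ≠ m → j ≠ l → j ≠ m →
        k ≠ l → k ≠ m → l ≠ m → (∑ p, X k p = X k i + X k j + X k l + X k m + X k k) →
        ⁅X i j, X k i⁆ = -⁅X i j, X k j⁆ := by
      intro i j k l m hij hik hjk hil him hjl hjm hkl hkm hlm hs
      have h1 := hX.sum k
      rw [hs, hX.diag, add_zero] at h1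
      have h2 : ⁅X i j, X k i + X k j + X k l + X k m⁆ = 0 := by rw [h1, lie_zero]
      rw [lie_add, lie_add, lie_add, c i j k l hij hik hil hjk hjl hkl,
        c i j k m hij hik him hjk hjm hkm, add_zero, add_zero] at h2
      exact eq_neg_of_add_eq_zero_left h2
    have r1 : X 1 0 + X 1 1 + X 1 2 + X 1 3 + X 1 4 = 0 := by
      have := hX.sum 1; rwa [Fin.sum_univ_five] at this
    have r4 : X 4 0 + X 4 1 + X 4 2 + X 4 3 + X 4 4 = 0 := by
      have := hX.sum 4; rwa [Fin.sum_univ_five] at this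
    -- rewrite everything through the point 4 and the point 1
    have e1 : ⁅X 1 2, X 2 3⁆ = ⁅X 1 3, X 1 2⁆ := by
      have h := tri 1 2 3 0 4 (by decide) (by decide) (by decide) (by decide) (by decide)
        (by decide) (by decide) (by decide) (by decide) (by decide)
        (by rw [Fin.sum_univ_five]; abel)
      rw [s 2 3, ← lie_skew (X 1 3), s 1 3, h, neg_neg]
    have e2 : ⁅X 2 3, X 3 4⁆ = ⁅X 3 4, X 2 4⁆ := by
      have h := tri 3 4 2 0 1 (by decide) (by decide) (by decide) (by decide) (by decide)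
        (by decide) (by decide) (by decide) (by decide) (by decide)
        (by rw [Fin.sum_univ_five]; abel)
      rw [← lie_skew, h, neg_neg]
    have e3 : ⁅X 4 0, X 0 1⁆ = ⁅X 0 1, X 4 1⁆ := by
      have h := tri 0 1 4 2 3 (by decide) (by decide) (by decide) (by decide) (by decide)
        (by decide) (by decide) (by decide) (by decide) (by decide)
        (by rw [Fin.sum_univ_five])
      rw [← lie_skew, h, neg_neg]
    have e4 : ⁅X 3 4, X 1 3⁆ = -⁅X 3 4, X 1 4⁆ :=
      tri 3 4 1 0 2 (by decide) (by decide) (by decide) (by decide) (by decide)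
        (by decide) (by decide) (by decide) (by decide) (by decide)
        (by rw [Fin.sum_univ_five]; abel)
    have e5 : ⁅X 1 4, X 3 1⁆ = -⁅X 1 4, X 3 4⁆ :=
      tri 1 4 3 0 2 (by decide) (by decide) (by decide) (by decide) (by decide)
        (by decide) (by decide) (by decide) (by decide) (by decide)
        (by rw [Fin.sum_univ_five]; abel)
    rw [e1, e2, e3]
    have f1 : ⁅X 0 1, X 1 2⁆ + ⁅X 1 3, X 1 2⁆ = ⁅X 1 2, X 1 4⁆ := by
      have : X 0 1 + X 1 3 = -(X 1 2 + X 1 4) := by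
        rw [hX.diag 1, add_zero, s 1 0] at r1
        rw [eq_neg_iff_add_eq_zero, ← r1]; abel
      rw [← add_lie, this, neg_lie, add_lie, lie_self, zero_add, lie_skew]
    have f2 : ⁅X 3 4, X 2 4⁆ + ⁅X 3 4, X 4 0⁆ = ⁅X 1 4, X 3 4⁆ := by
      have : X 2 4 + X 4 0 = -(X 1 4 + X 3 4) := by
        rw [hX.diag 4, add_zero, s 4 2, s 4 1, s 4 3] at r4
        rw [eq_neg_iff_add_eq_zero, ← r4]; abel
      rw [← lie_add, this, lie_neg, lie_add, lie_self, add_zero, lie_skew]
    rw [add_assoc (⁅X 0 1, X 1 2⁆ + ⁅X 1 3, X 1 2⁆), f1, f2, ← neg_neg ⁅X 1 4, X 3 4⁆, ← e5,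
      ← lie_skew (X 1 2) (X 1 4), ← lie_skew (X 0 1) (X 4 1), s 4 1, s 3 1]
    have : X 1 2 + X 1 3 + X 0 1 = - X 1 4 := by
      rw [hX.diag 1, add_zero, s 1 0] at r1
      rw [eq_neg_iff_add_eq_zero, ← r1]; abel
    have h : ⁅X 1 4, X 1 2 + X 1 3 + X 0 1⁆ = 0 := by rw [this, lie_neg, lie_self, neg_zero]
    rw [lie_add, lie_add] at h
    rw [← neg_add, ← neg_add, h, neg_zero]

/-- The quotient map as a Lie homomorphism. -/
def T4S.q : FT →ₗ⁅ℚ⁆ T4 where
  toFun := LieSubmodule.Quotient.mk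
  map_add' _ _ := rfl
  map_smul' _ _ := rfl
  map_lie' {a b} := LieSubmodule.Quotient.mk_bracket T4Ideal a b

/-- The five term relation for the elements of `W n`, `n ≥ 2`. -/
theorem T4S.five_of_W {g : Type} [LieRing g] [LieAlgebra ℚ g] (x : Fin 5 → g) (hx : P5 x) {n : ℕ}
    (hn : 2 ≤ n) {ψ : L} (hψ : ψ ∈ W n) :
    sb (x 0) (x 1) ψ + sb (x 1) (x 2) ψ + sb (x 2) (x 3) ψ + sb (x 3) (x 4) ψ
      + sb (x 4) (x 0) ψ = 0 := by
  obtain ⟨h0, h1, h2, h3⟩ := (show ψ ∈ wtPart ℚ (fun _ : Fin 2 => 1) n ∧ IsSol ψ from hψ)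
  have e : subst lx ly ψ = ψ := sb_id ψ
  rw [e] at h1
  have anti : ∀ a b : g, sb a b ψ = - sb b a ψ := by
    intro a b
    have h := congrArg (sb a b) h1
    rw [map_add, map_zero] at h
    have h' : sb a b (subst ly lx ψ) = sb (sb a b ly) (sb a b lx) ψ := sb_sb a b ly lx ψ
    have hx' : sb a b lx = a := sb_x a b
    have hy' : sb a b ly = b := sb_y a b
    rw [h', hx', hy'] at h
    exact eq_neg_of_add_eq_zero_left h
  obtain ⟨f, hf, f01, f12, f23, f02, f13, -⟩ := ft_hom x hx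
  -- pull the pentagon back to the free Lie algebra
  have key : ∀ a b : FT, subst (LieSubmodule.Quotient.mk a : T4) (LieSubmodule.Quotient.mk b) ψ
      = LieSubmodule.Quotient.mk (sb a b ψ) := by
    intro a b
    have := map_sb T4S.q a b ψ
    exact this.symm
  have hr : (LieSubmodule.Quotient.mk (sb (tt 0 1) (tt 1 2 + tt 1 3) ψ
      + sb (tt 0 2 + tt 1 2) (tt 2 3) ψ - (sb (tt 1 2) (tt 2 3) ψ
      + sb (tt 0 1 + tt 0 2) (tt 1 3 + tt 2 3) ψ + sb (tt 0 1) (tt 1 2) ψ)) : T4) = 0 := by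
    have k1 := key (tt 0 1) (tt 1 2 + tt 1 3)
    have k2 := key (tt 0 2 + tt 1 2) (tt 2 3)
    have k3 := key (tt 1 2) (tt 2 3)
    have k4 := key (tt 0 1 + tt 0 2) (tt 1 3 + tt 2 3)
    have k5 := key (tt 0 1) (tt 1 2)
    have k := sub_eq_zero.2 h3
    change subst (LieSubmodule.Quotient.mk (tt 0 1) : T4)
        (LieSubmodule.Quotient.mk (tt 1 2 + tt 1 3)) ψ
      + subst (LieSubmodule.Quotient.mk (tt 0 2 + tt 1 2) : T4)
        (LieSubmodule.Quotient.mk (tt 2 3)) ψ
      - (subst (LieSubmodule.Quotient.mk (tt 1 2) : T4) (LieSubmodule.Quotient.mk (tt 2 3)) ψ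
      + subst (LieSubmodule.Quotient.mk (tt 0 1 + tt 0 2) : T4)
        (LieSubmodule.Quotient.mk (tt 1 3 + tt 2 3)) ψ
      + subst (LieSubmodule.Quotient.mk (tt 0 1) : T4) (LieSubmodule.Quotient.mk (tt 1 2)) ψ)
      = 0 at k
    rw [k1, k2, k3, k4, k5] at k
    exact k
  have hm := hf _ (LieSubmodule.Quotient.mk_eq_zero'.1 hr)
  rw [map_sub, map_add, map_add, map_add, map_sb, map_sb, map_sb, map_sb, map_sb, map_add, map_add,
    map_add, map_add, f01, f12, f23, f02, f13] at hm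
  have c02 : ⁅x 0, x 2⁆ = 0 := hx.comm 0
  have c13 : ⁅x 1, x 3⁆ = 0 := hx.comm 1
  have c24 : ⁅x 2, x 4⁆ = 0 := hx.comm 2
  have c30 : ⁅x 3, x 0⁆ = 0 := hx.comm 3
  have c41 : ⁅x 4, x 1⁆ = 0 := hx.comm 4
  have b1 : sb (x 0) (x 1 + (x 4 - x 1 - x 2)) ψ = - sb (x 4) (x 0) ψ := by
    rw [← anti]
    have := sb_shift hn h0 (a := x 0) (b := x 4) (z := 0) (z' := - x 2) (zero_lie _) (zero_lie _)
      (by rw [neg_lie, T4S.skew0 c02, neg_zero]) (by rw [neg_lie, c24, neg_zero]) (zero_lie _)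
    rw [add_zero] at this
    rw [← this]; congr 2; abel
  have b2 : sb (x 3 - x 0 - x 1 + x 1) (x 2) ψ = - sb (x 2) (x 3) ψ := by
    rw [← anti]
    have := sb_shift hn h0 (a := x 3) (b := x 2) (z := - x 0) (z' := 0)
      (by rw [neg_lie, T4S.skew0 c30, neg_zero]) (by rw [neg_lie, c02, neg_zero]) (zero_lie _)
      (zero_lie _) (lie_zero _)
    rw [add_zero] at this
    rw [← this]; congr 2; abel
  have b3 : sb (x 0 + (x 3 - x 0 - x 1)) (x 4 - x 1 - x 2 + x 2) ψ = sb (x 3) (x 4) ψ := by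
    have := sb_shift hn h0 (a := x 3) (b := x 4) (z := - x 1) (z' := - x 1)
      (by rw [neg_lie, c13, neg_zero]) (by rw [neg_lie, T4S.skew0 c41, neg_zero])
      (by rw [neg_lie, c13, neg_zero]) (by rw [neg_lie, T4S.skew0 c41, neg_zero]) (lie_self _)
    rw [← this]; congr 2 <;> abel
  rw [b1, b2, b3] at hm
  rw [← neg_eq_zero, ← hm]
  abel

/- PS10 -/
theorem sol_of_W {n : ℕ} (hn : 2 ≤ n) {ψ : L} (h : ψ ∈ W n) : Sol ℚ n ψ := by
  obtain ⟨h0, h1, h2, -⟩ := (show ψ ∈ wtPart ℚ (fun _ : Fin 2 => 1) n ∧ IsSol ψ from h)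
  have e : subst lx ly ψ = ψ := sb_id ψ
  rw [e] at h1 h2
  refine ⟨h0, h1, h2, ?_⟩
  intro g _ _ X hX
  exact T4S.five_of_W _ (T4S.P5_ofPS hX) hn h

open T4S in
/- PS11 -/
theorem W_of_sol {n : ℕ} (hn : 2 ≤ n) {ψ : L} (h : Sol ℚ n ψ) : ψ ∈ W n := by
  have e : subst lx ly ψ = ψ := sb_id ψ
  refine (show ψ ∈ wtPart ℚ (fun _ : Fin 2 => 1) n ∧ IsSol ψ from ⟨h.wt, ?_, ?_, ?_⟩)
  · rw [e]; exact h.anti
  · rw [e]; exact h.hexa
  obtain ⟨X, hX, x01, x12, x23, x34, x40⟩ := PS_T4
  have hp := h.penta T4 X hX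
  unfold pent at hp
  rw [x01, x12, x23, x34, x40] at hp
  have anti : ∀ a b : T4, sb a b ψ = - sb b a ψ := by
    intro a b
    have h1 := congrArg (sb a b) h.anti
    rw [map_add, map_zero, sb_sb, sb_x, sb_y] at h1
    exact eq_neg_of_add_eq_zero_left h1
  have s10 := t_symm 1 0
  have s20 := t_symm 2 0
  have s21 := t_symm 2 1
  have s31 := t_symm 3 1
  have a1 : ⁅t4 0 1, t4 0 2 + t4 1 2⁆ = 0 := t_tri 0 1 2 (by decide) (by decide) (by decide)
  have a2 : ⁅t4 0 1, t4 2 3⁆ = 0 :=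
    t_comm 0 1 2 3 (by decide) (by decide) (by decide) (by decide) (by decide) (by decide)
  have a3 : ⁅t4 2 3, t4 1 2 + t4 1 3⁆ = 0 := by
    have h := t_tri 2 3 1 (by decide) (by decide) (by decide); rwa [s21, s31] at h
  have a4 : ⁅t4 1 2, t4 0 1 + t4 0 2⁆ = 0 := by
    have h := t_tri 1 2 0 (by decide) (by decide) (by decide); rwa [s10, s20] at h
  have a5 : ⁅t4 1 2, t4 1 3 + t4 2 3⁆ = 0 := t_tri 1 2 3 (by decide) (by decide) (by decide)
  have b1 : sb (t4 2 3) (t4 0 1 + t4 0 2 + t4 1 2) ψ = - sb (t4 0 2 + t4 1 2) (t4 2 3) ψ := by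
    rw [anti]
    have := sb_shift hn h.wt (a := t4 0 2 + t4 1 2) (b := t4 2 3) (z := t4 0 1) (z' := 0) a1 a2
      (zero_lie _) (zero_lie _) (lie_zero _)
    rw [add_zero, show t4 0 2 + t4 1 2 + t4 0 1 = t4 0 1 + t4 0 2 + t4 1 2 by abel] at this
    rw [this]
  have b2 : sb (t4 1 2 + t4 1 3 + t4 2 3) (t4 0 1) ψ = - sb (t4 0 1) (t4 1 2 + t4 1 3) ψ := by
    rw [anti]
    have := sb_shift hn h.wt (a := t4 0 1) (b := t4 1 2 + t4 1 3) (z := 0) (z' := t4 2 3)
      (zero_lie _) (zero_lie _) (T4S.skew0 a2) a3 (zero_lie _)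
    rw [add_zero] at this
    rw [this]
  have b3 : sb (t4 0 1 + t4 0 2 + t4 1 2) (t4 1 2 + t4 1 3 + t4 2 3) ψ
      = sb (t4 0 1 + t4 0 2) (t4 1 3 + t4 2 3) ψ := by
    have := sb_shift hn h.wt (a := t4 0 1 + t4 0 2) (b := t4 1 3 + t4 2 3) (z := t4 1 2)
      (z' := t4 1 2) a4 a5 a4 a5 (lie_self _)
    rw [show t4 1 3 + t4 2 3 + t4 1 2 = t4 1 2 + t4 1 3 + t4 2 3 by abel] at this
    exact this
  rw [b1, b2, b3] at hp
  change sb (t4 0 1) (t4 1 2 + t4 1 3) ψ + sb (t4 0 2 + t4 1 2) (t4 2 3) ψ =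
    sb (t4 1 2) (t4 2 3) ψ + sb (t4 0 1 + t4 0 2) (t4 1 3 + t4 2 3) ψ + sb (t4 0 1) (t4 1 2) ψ
  rw [← sub_eq_zero, ← neg_eq_zero, ← hp]
  abel

end Vale.Agent.P029.Low
end
end
end

section

section

/-! P029 lower half: the Lie algebra `LI K` (the free Lie algebra with the Ihara bracket), base
change from `ℤ`. -/

noncomputable section

attribute [local instance 100] LieRing.ofAssociativeRing

namespace Vale.Agent.P029.Low

open Dbl

/-! ### The Lie algebra `LI K` -/

/-- The free Lie algebra with the Ihara bracket. -/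
def LI (K : Type) [CommRing K] : Type := LK K

namespace LI

variable {K : Type} [CommRing K]

/-- The identity `LK K → LI K`. -/
def mk (a : LK K) : LI K := a

/-- The identity `LI K → LK K`. -/
def un (a : LI K) : LK K := a

@[simp] lemma un_mk (a : LK K) : (mk a).un = a := rfl
@[simp] lemma mk_un (a : LI K) : mk a.un = a := rfl

@[ext] lemma ext {a b : LI K} (h : a.un = b.un) : a = b := h

instance : AddCommGroup (LI K) := inferInstanceAs (AddCommGroup (LK K))
instance : Module K (LI K) := inferInstanceAs (Module K (LK K))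

@[simp] lemma un_add (a b : LI K) : (a + b).un = a.un + b.un := rfl
@[simp] lemma un_zero : (0 : LI K).un = 0 := rfl
@[simp] lemma un_neg (a : LI K) : (-a).un = -a.un := rfl
@[simp] lemma un_sub (a b : LI K) : (a - b).un = a.un - b.un := rfl
@[simp] lemma un_smul (c : K) (a : LI K) : (c • a).un = c • a.un := rfl

instance : Bracket (LI K) (LI K) := ⟨fun a b => mk (ihara a.un b.un)⟩

@[simp] lemma un_lie (a b : LI K) : (⁅a, b⁆ : LI K).un = ihara a.un b.un := rfl

instance : LieRing (LI K) where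
  add_lie a b c := ext (by simp [ihara_add_left])
  lie_add a b c := ext (by simp [ihara_add_right])
  lie_self a := ext (by simp [ihara_self])
  leibniz_lie a b c := ext (by simpa using ihara_jacobi a.un b.un c.un)

instance : LieAlgebra K (LI K) where
  lie_smul c a b := ext (by simp [ihara_smul_right])

/-- The identity as a linear map. -/
def unL (K : Type) [CommRing K] : LI K →ₗ[K] LK K where
  toFun := un
  map_add' _ _ := rfl
  map_smul' _ _ := rfl

@[simp] lemma unL_apply (a : LI K) : unL K a = a.un := rfl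

end LI

/-- The Lie homomorphism `e k ↦ σ k` from the free Lie algebra to `L` with the Ihara bracket. -/
def th {K : Type} [CommRing K] (σ : ℕ → LK K) : FreeLieAlgebra K ℕ →ₗ⁅K⁆ LI K :=
  FreeLieAlgebra.lift K fun k => LI.mk (σ k)

/-- `th σ` as a linear map to `L`. -/
def thL {K : Type} [CommRing K] (σ : ℕ → LK K) : FreeLieAlgebra K ℕ →ₗ[K] LK K :=
  (LI.unL K).comp (th σ : FreeLieAlgebra K ℕ →ₗ[K] LI K)

lemma thL_apply {K : Type} [CommRing K] (σ : ℕ → LK K) (a : FreeLieAlgebra K ℕ) :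
    thL σ a = (th σ a).un := rfl

@[simp] lemma thL_of {K : Type} [CommRing K] (σ : ℕ → LK K) (k : ℕ) :
    thL σ (FreeLieAlgebra.of K k) = σ k := by
  rw [thL_apply, th, FreeLieAlgebra.lift_of_apply]; rfl

lemma thL_lie {K : Type} [CommRing K] (σ : ℕ → LK K) (a b : FreeLieAlgebra K ℕ) :
    thL σ ⁅a, b⁆ = ihara (thL σ a) (thL σ b) := by
  rw [thL_apply, LieHom.map_lie]; rfl

/-! ### The definition of the Ihara bracket in `Goal.lean` -/

/-- `D ψ` as a Lie derivation. -/
def DpDer (ψ : L) : LieDerivation ℚ L L where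
  toLinearMap := Dp ψ
  leibniz' a b := by
    rw [Dp_lie, ← lie_skew b (Dp ψ a), sub_neg_eq_add]

lemma DpDer_apply (ψ a : L) : DpDer ψ a = Dp ψ a := rfl

theorem isIharaDer (ψ : L) : IsIharaDer ψ (DpDer ψ) := by
  constructor
  · exact Dp_x ψ
  · exact Dp_y ψ

theorem isIharaBracket_ihara (ψ φ : L) : IsIharaBracket ψ φ (ihara ψ φ) :=
  ⟨DpDer ψ, DpDer φ, isIharaDer ψ, isIharaDer φ, rfl⟩

/-! ### Base change -/

/-- Base change `LK ℤ → LK K`. -/
def bc (K : Type) [CommRing K] : LK ℤ →+ LK K where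
  toFun a := FreeLieAlgebra.lift ℤ ![kx K, ky K] a
  map_zero' := by simp
  map_add' a b := by simp

lemma bc_lie {K : Type} [CommRing K] (a b : LK ℤ) : bc K ⁅a, b⁆ = ⁅bc K a, bc K b⁆ := by
  change FreeLieAlgebra.lift ℤ ![kx K, ky K] ⁅a, b⁆ = _
  rw [LieHom.map_lie]; rfl

@[simp] lemma bc_x {K : Type} [CommRing K] : bc K (kx ℤ) = kx K := by
  change FreeLieAlgebra.lift ℤ ![kx K, ky K] (FreeLieAlgebra.of ℤ 0) = _
  rw [FreeLieAlgebra.lift_of_apply]; rfl

@[simp] lemma bc_y {K : Type} [CommRing K] : bc K (ky ℤ) = ky K := by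
  change FreeLieAlgebra.lift ℤ ![kx K, ky K] (FreeLieAlgebra.of ℤ 1) = _
  rw [FreeLieAlgebra.lift_of_apply]; rfl

lemma bc_smul {K : Type} [CommRing K] (n : ℤ) (a : LK ℤ) : bc K (n • a) = (n : K) • bc K a := by
  rw [map_zsmul, Int.cast_smul_eq_zsmul]

/-- Base change commutes with `D ψ`. -/
theorem bc_Dp {K : Type} [CommRing K] (ψ a : LK ℤ) : bc K (Dp ψ a) = Dp (bc K ψ) (bc K a) := by
  induction a using lk_induction with
  | hx => simp only [Dp_x, map_zero, bc_x]
  | hy => simp only [Dp_y, bc_lie, bc_y]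
  | h0 => simp only [map_zero]
  | hadd a b ha hb => rw [map_add, map_add, ha, hb, map_add, map_add]
  | hsmul c a ha =>
    have e : c • a = (c : ℤ) • a := rfl
    rw [map_smul, ← Int.cast_smul_eq_zsmul ℤ c (Dp ψ a), Int.cast_id]
    have h1 : bc K (c • Dp ψ a) = (c : K) • bc K (Dp ψ a) := by
      change FreeLieAlgebra.lift ℤ ![kx K, ky K] (c • Dp ψ a) = _
      rw [map_smul, Int.cast_smul_eq_zsmul]
      rfl
    have h2 : bc K (c • a) = (c : K) • bc K a := by
      change FreeLieAlgebra.lift ℤ ![kx K, ky K] (c • a) = _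
      rw [map_smul, Int.cast_smul_eq_zsmul]
      rfl
    exact h1.trans ((congrArg _ ha).trans ((map_smul _ _ _).symm.trans (congrArg _ h2.symm)))
  | hlie a b ha hb => rw [Dp_lie, map_add, bc_lie, bc_lie, bc_lie, Dp_lie, ha, hb]

theorem bc_ihara {K : Type} [CommRing K] (ψ φ : LK ℤ) :
    bc K (ihara ψ φ) = ihara (bc K ψ) (bc K φ) := by
  simp only [ihara, map_add, map_sub, bc_Dp, bc_lie]

/-- Base change of a Lie monomial. -/
theorem bc_eval {K : Type} [CommRing K] (t : Tr (Fin 2)) :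
    bc K (t.eval (FreeLieAlgebra.of ℤ)) = t.eval (FreeLieAlgebra.of K) := by
  induction t with
  | leaf i =>
    fin_cases i
    · exact bc_x
    · exact bc_y
  | node a b ha hb => simp only [Tr.eval, bc_lie, ha, hb]

/-- Base change of an Ihara monomial. -/
theorem bc_evalI {K : Type} [CommRing K] (u : ℕ → LK ℤ) (t : Tr ℕ) :
    bc K (t.eval (fun k => LI.mk (u k))).un = (t.eval (fun k => LI.mk (bc K (u k)))).un := by
  induction t with
  | leaf i => rfl
  | node a b ha hb => simp only [Tr.eval, LI.un_lie, bc_ihara, ha, hb]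

end Vale.Agent.P029.Low
end
end
end

section

section

set_option linter.all false

/-!
# P029: dimension of the reduction modulo two
-/

noncomputable section

attribute [local instance 100] LieRing.ofAssociativeRing

namespace Vale.Agent.P029

namespace BarFin

/-- The inclusion of integral vectors. -/
def inc (k : ℕ) : (Fin k → ℤ) →ₗ[ℤ] (Fin k → ℚ) where
  toFun := fun c i => (c i : ℚ)
  map_add' := fun a b => by
    funext i
    simp
  map_smul' := fun m a => by
    funext i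
    simp

theorem inc_inj (k : ℕ) : Function.Injective (inc k) := by
  intro a b h
  funext i
  have := congrFun h i
  exact Int.cast_injective (α := ℚ) this

theorem finrank_coord {k : ℕ} (V : Submodule ℚ (Fin k → ℚ)) (V' : Submodule K2 (Fin k → K2))
    (h : ∀ v, v ∈ V' ↔ ∃ c : Fin k → ℤ, (fun i => (c i : ℚ)) ∈ V ∧ (fun i => (c i : K2)) = v) :
    Module.finrank K2 V' = Module.finrank ℚ V := by
  let Λ : Submodule ℤ (Fin k → ℤ) := (V.restrictScalars ℤ).comap (inc k)
  have hΛ : ∀ c, c ∈ Λ ↔ inc k c ∈ V := fun c => Iff.rfl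
  obtain ⟨r, ⟨b⟩⟩ := Submodule.nonempty_basis_of_pid (Pi.basisFun ℤ (Fin k)) Λ
  -- rational side
  have li0 : LinearIndependent ℤ (fun j => inc k (b j : Fin k → ℤ)) := by
    have h1 : LinearIndependent ℤ (fun j => (b j : Fin k → ℤ)) :=
      b.linearIndependent.map' Λ.subtype (LinearMap.ker_eq_bot.2 Subtype.val_injective)
    exact h1.map' (inc k) (LinearMap.ker_eq_bot.2 (inc_inj k))
  have li1 : LinearIndependent ℚ (fun j => inc k (b j : Fin k → ℤ)) :=
    (LinearIndependent.iff_fractionRing ℤ ℚ).1 li0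
  have sp1 : Submodule.span ℚ (Set.range fun j => inc k (b j : Fin k → ℤ)) = V := by
    apply le_antisymm
    · rw [Submodule.span_le]
      rintro _ ⟨j, rfl⟩
      exact (hΛ _).1 (b j).2
    · intro v hv
      obtain ⟨m, hm⟩ := IsLocalization.exist_integer_multiples_of_finite (nonZeroDivisors ℤ) v
      choose c hc using hm
      have hm0 : (m : ℤ) ≠ 0 := nonZeroDivisors.coe_ne_zero m
      have hmq : ((m : ℤ) : ℚ) ≠ 0 := Int.cast_ne_zero.2 hm0
      have h1 : inc k c = ((m : ℤ) : ℚ) • v := by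
        funext i
        have h2 := hc i
        simp only [inc, LinearMap.coe_mk, AddHom.coe_mk, Pi.smul_apply]
        rw [eq_intCast] at h2
        rw [h2, zsmul_eq_mul, smul_eq_mul]
      have h3 : c ∈ Λ := by
        rw [hΛ, h1]
        exact V.smul_mem _ hv
      have h4 : inc k c ∈ Submodule.span ℚ (Set.range fun j => inc k (b j : Fin k → ℤ)) := by
        have h5 := b.sum_repr ⟨c, h3⟩
        have h6 : c = ∑ j, b.repr ⟨c, h3⟩ j • (b j : Fin k → ℤ) := by
          calc c = ((⟨c, h3⟩ : Λ) : Fin k → ℤ) := rfl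
            _ = ((∑ j, b.repr ⟨c, h3⟩ j • b j : Λ) : Fin k → ℤ) := by rw [h5]
            _ = _ := by
              rw [Submodule.coe_sum]
              rfl
        rw [h6, map_sum]
        apply Submodule.sum_mem
        intro j _
        rw [map_smul]
        have h8 : inc k (b j : Fin k → ℤ) ∈
          Submodule.span ℚ (Set.range fun j => inc k (b j : Fin k → ℤ)) :=
          Submodule.subset_span ⟨j, rfl⟩
        exact zsmul_mem h8 _
      have h7 : v = ((m : ℤ) : ℚ)⁻¹ • inc k c := by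
        rw [h1, smul_smul, inv_mul_cancel₀ hmq, one_smul]
      rw [h7]
      exact Submodule.smul_mem _ _ h4
  have fr1 : Module.finrank ℚ V = r := by
    rw [← sp1, finrank_span_eq_card li1, Fintype.card_fin]
  -- reduction
  set bb : Fin r → Fin k → K2 := fun j i => (((b j : Fin k → ℤ) i : ℤ) : K2) with hbb
  have li2 : LinearIndependent K2 bb := by
    rw [Fintype.linearIndependent_iff]
    intro g hg
    set a : Fin r → ℤ := fun j => ((g j).val : ℤ) with ha
    have hag : ∀ j, ((a j : ℤ) : K2) = g j := by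
      intro j
      simp [ha]
    set c : Fin k → ℤ := ∑ j, a j • (b j : Fin k → ℤ) with hc
    have hc2 : ∀ i, (2 : ℤ) ∣ c i := by
      intro i
      have h1 : ((c i : ℤ) : K2) = 0 := by
        have h2 := congrFun hg i
        simp only [hbb, Finset.sum_apply, Pi.smul_apply, smul_eq_mul, Pi.zero_apply] at h2
        rw [← h2, hc]
        simp only [Finset.sum_apply, Pi.smul_apply, smul_eq_mul, Int.cast_sum, Int.cast_mul, hag]
      exact (ZMod.intCast_zmod_eq_zero_iff_dvd (c i) 2).1 h1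
    choose c' hc' using hc2
    have h3 : c = (2 : ℤ) • c' := by
      funext i
      rw [hc' i]
      rfl
    have h4 : c ∈ Λ := by
      rw [hc]
      exact Submodule.sum_mem _ fun j _ => Submodule.smul_mem _ _ (b j).2
    have h5 : c' ∈ Λ := by
      rw [hΛ]
      have h6 : inc k c' = (2 : ℚ)⁻¹ • inc k c := by
        rw [h3]
        funext i
        simp [inc]
      rw [h6]
      exact V.smul_mem _ ((hΛ c).1 h4)
    have h7 : (∑ j, a j • b j) = (2 : ℤ) • (⟨c', h5⟩ : Λ) := by
      apply Subtype.ext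
      have : ((∑ j, a j • b j : Λ) : Fin k → ℤ) = c := by
        rw [hc]
        simp only [AddSubmonoidClass.coe_finsetSum, SetLike.val_smul, zsmul_eq_mul]
      rw [this, h3]
      rfl
    intro j
    have h8 := congrArg (fun x => b.repr x j) h7
    simp only [map_sum, map_smul, Module.Basis.repr_self] at h8
    rw [← hag j]
    have h9 : a j = 2 * b.repr ⟨c', h5⟩ j := by
      rw [← smul_eq_mul]
      simpa only [Int.zsmul_eq_mul, Finsupp.smul_single, mul_one, Finsupp.coe_finsetSum, Finset.sum_apply,     Finsupp.single_apply, Finset.sum_ite_eq', Finset.mem_univ, ↓reduceIte, Finsupp.coe_smul, Pi.smul_apply] using h8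
    rw [h9]
    push_cast
    have : (2 : K2) = 0 := rfl
    rw [this, zero_mul]
  have sp2 : Submodule.span K2 (Set.range bb) = V' := by
    apply le_antisymm
    · rw [Submodule.span_le]
      rintro _ ⟨j, rfl⟩
      exact (h _).2 ⟨(b j : Fin k → ℤ), (hΛ _).1 (b j).2, rfl⟩
    · intro v hv
      obtain ⟨c, hcV, rfl⟩ := (h v).1 hv
      have h3 : c ∈ Λ := hcV
      have h5 := b.sum_repr ⟨c, h3⟩
      have h6 : c = ∑ j, b.repr ⟨c, h3⟩ j • (b j : Fin k → ℤ) := by
        calc c = ((⟨c, h3⟩ : Λ) : Fin k → ℤ) := rfl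
          _ = ((∑ j, b.repr ⟨c, h3⟩ j • b j : Λ) : Fin k → ℤ) := by rw [h5]
          _ = _ := by
            rw [Submodule.coe_sum]
            rfl
      have h7 : (fun i => ((c i : ℤ) : K2)) = ∑ j, ((b.repr ⟨c, h3⟩ j : ℤ) : K2) • bb j := by
        funext i
        have h8 := congrFun h6 i
        simp only [Finset.sum_apply, Pi.smul_apply, smul_eq_mul] at h8 ⊢
        rw [h8, Int.cast_sum]
        exact Finset.sum_congr rfl fun j _ => by simp only [Int.cast_mul, hbb]
      rw [h7]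
      exact Submodule.sum_mem _ fun j _ => Submodule.smul_mem _ _ (Submodule.subset_span ⟨j, rfl⟩)
  rw [fr1, ← sp2, finrank_span_eq_card li2, Fintype.card_fin]

/-- Coordinates. -/
def crd (R : Type) [CommRing R] {X : Type} {k : ℕ} (t : Fin k → Tr X) :
    (Fin k → R) →ₗ[R] FreeLieAlgebra R X :=
  Fintype.linearCombination R (fun i => (t i).eval (FreeLieAlgebra.of R))

theorem crd_apply (R : Type) [CommRing R] {X : Type} {k : ℕ} (t : Fin k → Tr X) (c : Fin k → R) :
    crd R t c = ∑ i, c i • (t i).eval (FreeLieAlgebra.of R) := rfl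

theorem base_eval (R : Type) [CommRing R] {X : Type} (u : Tr X) :
    base R X (u.eval (FreeLieAlgebra.of ℤ)) = u.eval (FreeLieAlgebra.of R) := by
  rw [LieBasis.eval_lieHom]
  congr 1
  funext x
  exact FreeLieAlgebra.lift_of_apply (R := ℤ) (FreeLieAlgebra.of R) x

theorem base_crd (R : Type) [CommRing R] {X : Type} {k : ℕ} (t : Fin k → Tr X)
    (c : Fin k → ℤ) : base R X (crd ℤ t c) = crd R t (fun i => (c i : R)) := by
  rw [crd_apply, crd_apply, map_sum]
  refine Finset.sum_congr rfl fun i _ => ?_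
  rw [map_smul, base_eval, Int.cast_smul_eq_zsmul]

theorem finrank_comap {K M N : Type} [Field K] [AddCommGroup M] [Module K M] [AddCommGroup N]
    [Module K N] (f : M →ₗ[K] N) (hf : Function.Injective f) (V : Submodule K N)
    (hV : V ≤ LinearMap.range f) : Module.finrank K (V.comap f) = Module.finrank K V := by
  have h1 : (V.comap f).map f = V := Submodule.map_comap_eq_of_le hV
  have h2 := (Submodule.equivMapOfInjective f hf (V.comap f)).finrank_eq
  rw [h2, h1]

theorem finite_of_le {K M N : Type} [Field K] [AddCommGroup M] [Module K M] [AddCommGroup N]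
    [Module K N] [FiniteDimensional K M] (f : M →ₗ[K] N) (V : Submodule K N)
    (hV : V ≤ LinearMap.range f) : FiniteDimensional K V := by
  have h1 : (V.comap f).map f = V := Submodule.map_comap_eq_of_le hV
  rw [← h1]
  infer_instance

end BarFin

open BarFin

theorem finrank_bar {n : ℕ} {V : Submodule ℚ L} (hV : V ≤ wtPart ℚ (fun _ : Fin 2 => 1) n) :
    FiniteDimensional ℚ V ∧ FiniteDimensional K2 (bar n V) ∧
      Module.finrank K2 (bar n V) = Module.finrank ℚ V := by
  obtain ⟨k, t, ht, H⟩ := lie_basis (fun _ : Fin 2 => 1) (fun _ => one_pos)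
    (fun m => Set.toFinite _) n
  have hr : ∀ (R : Type) [CommRing R], LinearMap.range (crd R t) =
      wtPart R (fun _ : Fin 2 => 1) n := by
    intro R _
    rw [← lie_basis_span ht (H R).1]
    exact Fintype.range_linearCombination R (fun i => (t i).eval (FreeLieAlgebra.of R))
  have hinj : ∀ (R : Type) [CommRing R], Function.Injective (crd R t) := by
    intro R _
    exact linearIndependent_iff_injective_fintypeLinearCombination.1 (lie_basis_indep (H R).2)
  have hVr : V ≤ LinearMap.range (crd ℚ t) := by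
    rw [hr]
    exact hV
  have hBr : bar n V ≤ LinearMap.range (crd K2 t) := by
    rintro a ⟨z, hz, hzV, rfl⟩
    rw [← hr ℤ] at hz
    obtain ⟨c, rfl⟩ := hz
    exact ⟨_, (base_crd K2 t c).symm⟩
  refine ⟨finite_of_le _ V hVr, finite_of_le _ (bar n V) hBr, ?_⟩
  rw [← finrank_comap (crd ℚ t) (hinj ℚ) V hVr, ← finrank_comap (crd K2 t) (hinj K2) (bar n V) hBr]
  apply finrank_coord
  intro v
  constructor
  · rintro ⟨z, hz, hzV, hzv⟩
    rw [← hr ℤ] at hz
    obtain ⟨c, rfl⟩ := hz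
    refine ⟨c, ?_, ?_⟩
    · show crd ℚ t (fun i => (c i : ℚ)) ∈ V
      rw [← base_crd]
      exact hzV
    · apply hinj K2
      rw [← base_crd]
      exact hzv
  · rintro ⟨c, hcV, rfl⟩
    refine ⟨crd ℤ t c, ?_, ?_, ?_⟩
    · rw [← hr ℤ]
      exact ⟨c, rfl⟩
    · rw [base_crd]
      exact hcV
    · rw [base_crd]

theorem finrank_F (n : ℕ) : FiniteDimensional ℚ (Fpart n) ∧
    FiniteDimensional K2 (wtPart K2 (fun k : ℕ => 2 * k + 3) n) ∧
    Module.finrank K2 (wtPart K2 (fun k : ℕ => 2 * k + 3) n) = Module.finrank ℚ (Fpart n) := by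
  have hpos : ∀ x : ℕ, 0 < 2 * x + 3 := fun x => by omega
  have hfin : ∀ m : ℕ, {x : ℕ | 2 * x + 3 = m}.Finite := fun m =>
    (Set.finite_Iic m).subset fun x hx => by
      simp only [Set.mem_setOf_eq] at hx
      simp only [Set.mem_Iic]
      (clear * - hx; omega)
  refine ⟨wtPart_finite _ hpos hfin n, wtPart_finite _ hpos hfin n, ?_⟩
  obtain ⟨k, t, ht, H⟩ := lie_basis (fun x : ℕ => 2 * x + 3) hpos hfin n
  rw [wtPart_finrank ht (H K2).1 (H K2).2]
  exact (wtPart_finrank ht (H ℚ).1 (H ℚ).2).symm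

end Vale.Agent.P029
end
end
end
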