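import Vale.Agent.P029.MathlibUsed
import Vale.Agent.P029.Bdl.B1
import Vale.Agent.P029.Stmt

set_option linter.all false

section

section

/-!
# P029: coefficient functionals of the quotient algebras `QA S`
-/

noncomputable section

attribute [local instance 100] LieRing.ofAssociativeRing

namespace Vale.Agent.P029

namespace QACoef

theorem nrm_tail {S : Fin 3 → Bool} (i : Fin 3) (l : List (Fin 3)) (h : nrm S (i :: l) = true) :
    nrm S l = true := by
  cases l with
  | nil => rfl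
  | cons b l => rw [nrm, Bool.and_eq_true] at h; exact h.2

theorem nrm_right {S : Fin 3 → Bool} (u v : List (Fin 3)) (h : nrm S (u ++ v) = true) :
    nrm S v = true := by
  induction u with
  | nil => exact h
  | cons i u ih => exact ih (nrm_tail i _ h)

theorem nrm_left {S : Fin 3 → Bool} (u v : List (Fin 3)) (h : nrm S (u ++ v) = true) :
    nrm S u = true := by
  induction u with
  | nil => rfl
  | cons i u ih =>
    have h1 := ih (nrm_tail i _ h)
    cases u with
    | nil => rfl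
    | cons b u =>
      have h' : nrm S (i :: b :: (u ++ v)) = true := h
      rw [nrm, Bool.and_eq_true] at h'
      rw [nrm, Bool.and_eq_true]
      exact ⟨h'.1, h1⟩

theorem nrm_sq {S : Fin 3 → Bool} (i : Fin 3) (hi : S i = true) (l : List (Fin 3)) :
    nrm S (i :: i :: l) = false := by
  simp [nrm, hi]

/-- the word `w` in `QA S` -/
def wd (S : Fin 3 → Bool) (w : List (Fin 3)) : QA S := (w.map (QA.lt S)).prod

theorem wd_cons {S : Fin 3 → Bool} (i : Fin 3) (w : List (Fin 3)) :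
    wd S (i :: w) = QA.lt S i * wd S w := by simp [wd]

theorem wd_append {S : Fin 3 → Bool} (u v : List (Fin 3)) :
    wd S (u ++ v) = wd S u * wd S v := by simp [wd]

theorem wd_zero {S : Fin 3 → Bool} (u : List (Fin 3)) (h : nrm S u = false) : wd S u = 0 := by
  induction u with
  | nil => simp [nrm] at h
  | cons a l ih =>
    cases l with
    | nil => simp [nrm] at h
    | cons b l =>
      rw [nrm, Bool.and_eq_false_iff] at h
      rcases h with h | h
      · have h2 : a = b ∧ S a = true := by simpa using h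
        obtain ⟨h2, h3⟩ := h2
        subst h2
        rw [wd_cons, wd_cons, ← mul_assoc, QA_sq a h3, zero_mul]
      · rw [wd_cons, ih h, mul_zero]

/-- left multiplication by the letter `i` on normal words -/
def rho (S : Fin 3 → Bool) (i : Fin 3) : Module.End K2 (List (Fin 3) →₀ K2) :=
  Finsupp.lsum K2 fun w =>
    if nrm S (i :: w) = true then Finsupp.lsingle (i :: w) else 0

theorem rho_single (S : Fin 3 → Bool) (i : Fin 3) (w : List (Fin 3)) (r : K2) :
    rho S i (Finsupp.single w r) = if nrm S (i :: w) = true then Finsupp.single (i :: w) r else 0 := by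
  rw [rho, Finsupp.lsum_single]
  split_ifs <;> simp

theorem rho_sq (S : Fin 3 → Bool) (i : Fin 3) (hi : S i = true) : rho S i * rho S i = 0 := by
  refine Finsupp.lhom_ext fun w r => ?_
  rw [Module.End.mul_apply, rho_single, LinearMap.zero_apply]
  split_ifs with h
  · rw [rho_single, nrm_sq i hi w]; simp
  · simp

theorem exists_phi (S : Fin 3 → Bool) :
    ∃ φ : QA S →ₐ[K2] Module.End K2 (List (Fin 3) →₀ K2), ∀ i, φ (QA.lt S i) = rho S i :=
  QA_lift (rho S) (rho_sq S)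

/-- the representation -/
def phi0 (S : Fin 3 → Bool) : QA S →ₐ[K2] Module.End K2 (List (Fin 3) →₀ K2) :=
  (exists_phi S).choose

theorem phi0_lt (S : Fin 3 → Bool) (i : Fin 3) : phi0 S (QA.lt S i) = rho S i :=
  (exists_phi S).choose_spec i

theorem phi0_wd (S : Fin 3 → Bool) (u : List (Fin 3)) :
    phi0 S (wd S u) (Finsupp.single [] 1) = if nrm S u = true then Finsupp.single u 1 else 0 := by
  induction u with
  | nil => simp [wd, nrm]
  | cons i u ih =>
    rw [wd_cons, map_mul, Module.End.mul_apply, ih, phi0_lt]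
    by_cases h : nrm S (i :: u) = true
    · rw [if_pos (nrm_tail i u h), rho_single]
    · rw [if_neg h]
      by_cases h2 : nrm S u = true
      · rw [if_pos h2, rho_single, if_neg h]
      · rw [if_neg h2, map_zero]

/-- the coefficient functional -/
def cc (S : Fin 3 → Bool) (w : List (Fin 3)) : QA S →ₗ[K2] K2 :=
  (Finsupp.lapply w).comp ((LinearMap.applyₗ (Finsupp.single [] (1 : K2))).comp (phi0 S).toLinearMap)

theorem cc_apply (S : Fin 3 → Bool) (w : List (Fin 3)) (a : QA S) :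
    cc S w a = (phi0 S a (Finsupp.single [] 1)) w := rfl

theorem cc_wd (S : Fin 3 → Bool) (w u : List (Fin 3)) :
    cc S w (wd S u) = if nrm S u = true ∧ u = w then 1 else 0 := by
  rw [cc_apply, phi0_wd]
  by_cases h : nrm S u = true
  · simp [h, Finsupp.single_apply]
  · simp [h]

theorem ext_wd {S : Fin 3 → Bool} {M : Type} [AddCommGroup M] [Module K2 M] {f g : QA S →ₗ[K2] M}
    (h : ∀ u, f (wd S u) = g (wd S u)) : f = g := by
  refine LinearMap.ext fun a => ?_
  refine Submodule.span_induction (p := fun a _ => f a = g a) ?_ ?_ ?_ ?_ (QA_span a)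
  · rintro _ ⟨w, rfl⟩; exact h w
  · simp
  · intro x y _ _ hx hy; rw [map_add, map_add, hx, hy]
  · intro r x _ hx; rw [map_smul, map_smul, hx]

theorem recon (S : Fin 3 → Bool) (a : QA S) :
    Finsupp.linearCombination K2 (wd S) (phi0 S a (Finsupp.single [] 1)) = a := by
  have : (Finsupp.linearCombination K2 (wd S)).comp
      ((LinearMap.applyₗ (Finsupp.single [] (1 : K2))).comp (phi0 S).toLinearMap) =
      LinearMap.id := by
    refine ext_wd fun u => ?_
    change Finsupp.linearCombination K2 (wd S) (phi0 S (wd S u) (Finsupp.single [] 1)) = wd S u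
    rw [phi0_wd]
    by_cases h : nrm S u = true
    · rw [if_pos h, Finsupp.linearCombination_single, one_smul]
    · rw [if_neg h, map_zero, wd_zero u (by simpa using h)]
  exact LinearMap.congr_fun this a

theorem mul_wd (S : Fin 3 → Bool) (w : List (Fin 3)) (hw : nrm S w = true)
    (u v : List (Fin 3)) : cc S w (wd S u * wd S v) =
    ∑ i ∈ Finset.range (w.length + 1), cc S (w.take i) (wd S u) * cc S (w.drop i) (wd S v) := by
  rw [← wd_append, cc_wd]
  by_cases h : u ++ v = w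
  · subst h
    rw [if_pos ⟨hw, rfl⟩, Finset.sum_eq_single u.length]
    · rw [cc_wd, cc_wd, if_pos, if_pos]
      · simp
      · exact ⟨nrm_right u v hw, by simp⟩
      · exact ⟨nrm_left u v hw, by simp⟩
    · intro i hi hne
      rw [cc_wd, if_neg, zero_mul]
      rintro ⟨-, h2⟩
      apply hne
      have h3 := congrArg List.length h2
      rw [List.length_take, List.length_append] at h3
      rw [Finset.mem_range, List.length_append] at hi
      omega
    · intro hn
      exfalso; apply hn; rw [Finset.mem_range, List.length_append]; omega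
  · rw [if_neg (fun h2 => h h2.2)]
    symm
    refine Finset.sum_eq_zero fun i _ => ?_
    rw [cc_wd, cc_wd]
    by_cases h1 : u = w.take i
    · have h3 : ¬ (nrm S v = true ∧ v = w.drop i) := by
        rintro ⟨-, h2⟩
        exact h (by rw [h1, h2, List.take_append_drop])
      rw [if_neg h3, mul_zero]
    · rw [if_neg (fun h2 => h1 h2.2), zero_mul]

end QACoef

open QACoef

/- C5 -/
theorem exists_coef (S : Fin 3 → Bool) : ∃ c, IsCoef S c := by
  refine ⟨cc S, ?_, ?_, ?_, ?_, ?_⟩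
  · intro w hw
    refine ext_wd fun u => ?_
    rw [cc_wd, LinearMap.zero_apply, if_neg]
    rintro ⟨h1, rfl⟩
    rw [hw] at h1; exact absurd h1 (by simp)
  · intro w
    have := cc_wd S w []
    rw [show wd S [] = 1 from rfl] at this
    rw [this]
    by_cases h : w = []
    · subst h; simp [nrm]
    · rw [if_neg h, if_neg]; rintro ⟨-, h2⟩; exact h h2.symm
  · intro i w
    have := cc_wd S w [i]
    rw [show wd S [i] = QA.lt S i by simp [wd]] at this
    rw [this]
    by_cases h : w = [i]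
    · subst h; simp [nrm]
    · rw [if_neg h, if_neg]; rintro ⟨-, h2⟩; exact h h2.symm
  · intro w hw a b
    refine Submodule.span_induction (p := fun a _ => cc S w (a * b) = ∑ i ∈
      Finset.range (w.length + 1), cc S (w.take i) a * cc S (w.drop i) b) ?_ ?_ ?_ ?_ (QA_span a)
    · rintro _ ⟨u, rfl⟩
      refine Submodule.span_induction (p := fun b _ => cc S w (wd S u * b) = ∑ i ∈
        Finset.range (w.length + 1), cc S (w.take i) (wd S u) * cc S (w.drop i) b)
        ?_ ?_ ?_ ?_ (QA_span b)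
      · rintro _ ⟨v, rfl⟩
        exact mul_wd S w hw u v
      · simp
      · intro x y _ _ hx hy
        rw [mul_add, map_add, hx, hy, ← Finset.sum_add_distrib]
        exact Finset.sum_congr rfl fun i _ => by rw [map_add, mul_add]
      · intro r x _ hx
        rw [mul_smul_comm, map_smul, hx, Finset.smul_sum]
        exact Finset.sum_congr rfl fun i _ => by
          rw [map_smul, smul_eq_mul, smul_eq_mul]; ring
    · simp
    · intro x y _ _ hx hy
      rw [add_mul, map_add, hx, hy, ← Finset.sum_add_distrib]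
      exact Finset.sum_congr rfl fun i _ => by rw [map_add, add_mul]
    · intro r x _ hx
      rw [smul_mul_assoc, map_smul, hx, Finset.smul_sum]
      exact Finset.sum_congr rfl fun i _ => by
        rw [map_smul, smul_eq_mul, smul_eq_mul]; ring
  · intro a ha
    rw [← recon S a]
    have : phi0 S a (Finsupp.single [] 1) = 0 := Finsupp.ext fun w => ha w
    rw [this, map_zero]

end Vale.Agent.P029
end
end
end

section

section

/-!
# P029, lower half: injectivity of `toFree`, symmetry of `G`, the value of `GX` through `GG`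
-/

noncomputable section

attribute [local instance 100] LieRing.ofAssociativeRing

namespace Vale.Agent.P029.Low

open Dbl

/-- `toFree` is injective on the weight parts. -/
theorem toFree_inj {K : Type} [CommRing K] {X : Type} (w : X → ℕ) (hpos : ∀ x, 0 < w x)
    (hfin : ∀ n, {x | w x = n}.Finite) (n : ℕ) {a : FreeLieAlgebra K X}
    (ha : a ∈ wtPart K w n) (h0 : toFree K X a = 0) : a = 0 :=
  toFree_injOn w hpos hfin ha h0

section
variable {K : Type} [CommRing K]

/-- Substitution of elements of weight one preserves weights. -/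
theorem sb_wt {X : Type} {w : X → ℕ} {n : ℕ} {a b : FreeLieAlgebra K X} (ha : a ∈ wtPart K w 1)
    (hb : b ∈ wtPart K w 1) {ψ : LK K} (hψ : ψ ∈ wt2 K n) : sb a b ψ ∈ wtPart K w n := by
  refine wt_induction (P := fun ψ => sb a b ψ ∈ wtPart K w n) ?_ (by simp)
    (fun u v hu hv => by rw [map_add]; exact add_mem hu hv)
    (fun c u hu => by rw [map_smul]; exact Submodule.smul_mem _ c hu) hψ
  intro t ht
  rw [sb_eval]
  have key : ∀ t : Tr (Fin 2), t.eval ![a, b] ∈ wtPart K w (t.wt (fun _ => 1)) := by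
    intro t
    induction t with
    | leaf i =>
      fin_cases i
      · exact ha
      · exact hb
    | node u v hu hv => exact wt_lie hu hv
  have := key t
  rwa [ht] at this

theorem kz_wt : -kx K - ky K ∈ wt2 K 1 := sub_mem (neg_mem kx_wt) ky_wt

/-- Antisymmetry for all arguments. -/
theorem sb_anti {ψ : LK K} (h : ψ + sb (ky K) (kx K) ψ = 0) {g : Type} [LieRing g]
    [LieAlgebra K g] (a b : g) : sb b a ψ = - sb a b ψ := by
  have h1 := congrArg (sb a b) h
  rw [map_add, sb_sb, sb_x, sb_y, map_zero] at h1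
  exact eq_neg_of_add_eq_zero_right h1

theorem GG_wt {n : ℕ} {ψ : LK K} (hψ : ψ ∈ wt2 K n) : GG ψ ∈ wt2 K (n + 1) := by
  rw [GG, add_comm n 1]
  exact add_mem (wt_lie ky_wt hψ) (wt_lie kz_wt (sb_wt kx_wt kz_wt hψ))

/- G1 -/
theorem GG_symm {n : ℕ} {ψ : LK K} (h : Sol K n ψ) :
    sb (ky K) (kx K) (GG ψ) = GG ψ ∧
      sb (kx K) (-kx K - ky K) (GG ψ) = GG ψ := by
  constructor
  · have h1 : sb (ky K) (kx K) (GG ψ) = ⁅kx K, sb (ky K) (kx K) ψ⁆ +
        ⁅-ky K - kx K, sb (ky K) (-ky K - kx K) ψ⁆ := by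
      rw [GG, map_add, LieHom.map_lie, LieHom.map_lie, sb_sb]
      simp only [map_sub, map_neg, sb_x, sb_y]
    have h2 := h.hexa
    have e1 : -ky K - kx K = -kx K - ky K := by abel
    rw [h1, GG, e1, sb_anti h.anti (kx K) (ky K), sb_id]
    have h3 := sb_anti h.anti (-kx K - ky K) (kx K)
    rw [h3]
    have h4 : sb (ky K) (-kx K - ky K) ψ = -ψ - sb (-kx K - ky K) (kx K) ψ := by
      rw [← sub_eq_zero, ← h2]; abel
    rw [h4]
    simp only [lie_neg, lie_sub, sub_lie, neg_lie]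
    abel
  · rw [GG, map_add, LieHom.map_lie, LieHom.map_lie, sb_sb]
    simp only [map_sub, map_neg, sb_x, sb_y]
    have e1 : -kx K - (-kx K - ky K) = ky K := by abel
    rw [e1, sb_id]
    abel

/-- The element `X_ab + X_bc + X_ac` commutes with `X_ab`. -/
theorem PS_central {g : Type} [LieRing g] {X : Fin 5 → Fin 5 → g} (hX : PS X) {a b c : Fin 5}
    (hab : a ≠ b) (hac : a ≠ c) (hbc : b ≠ c) : ⁅X a c + X b c, X a b⁆ = 0 := by
  obtain ⟨d, hda, hdb, hdc, e, hea, heb, hec, hed⟩ : ∃ d, d ≠ a ∧ d ≠ b ∧ d ≠ c ∧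
      ∃ e, e ≠ a ∧ e ≠ b ∧ e ≠ c ∧ e ≠ d := by
    revert a b c; decide
  have hu : (Finset.univ : Finset (Fin 5)) = {a, b, c, d, e} := by
    have hcard : ({a, b, c, d, e} : Finset (Fin 5)).card = 5 := by
      rw [Finset.card_insert_of_notMem, Finset.card_insert_of_notMem,
        Finset.card_insert_of_notMem, Finset.card_insert_of_notMem, Finset.card_singleton]
      · simpa using hed.symm
      · simp only [Finset.mem_insert, Finset.mem_singleton, not_or]
        exact ⟨hdc.symm, hec.symm⟩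
      · simp only [Finset.mem_insert, Finset.mem_singleton, not_or]
        exact ⟨hbc, hdb.symm, heb.symm⟩
      · simp only [Finset.mem_insert, Finset.mem_singleton, not_or]
        exact ⟨hab, hac, hda.symm, hea.symm⟩
    exact (Finset.eq_univ_of_card _ (by rw [hcard]; rfl)).symm
  have hs := hX.sum c
  rw [hu, Finset.sum_insert, Finset.sum_insert, Finset.sum_insert, Finset.sum_insert,
    Finset.sum_singleton, hX.diag c, zero_add] at hs
  · have h1 : X a c + X b c = -(X c d + X c e) := by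
      rw [hX.symm a c, hX.symm b c, ← sub_eq_zero, ← hs]
      abel
    rw [h1, neg_lie, add_lie, ← lie_skew (X c d) (X a b), ← lie_skew (X c e) (X a b),
      hX.comm a b c d hab hac hda.symm hbc hdb.symm hdc.symm,
      hX.comm a b c e hab hac hea.symm hbc heb.symm hec.symm]
    simp
  · simpa using hed.symm
  · simp only [Finset.mem_insert, Finset.mem_singleton, not_or]
    exact ⟨hdc.symm, hec.symm⟩
  · simp only [Finset.mem_insert, Finset.mem_singleton, not_or]
    exact ⟨hbc, hdb.symm, heb.symm⟩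
  · simp only [Finset.mem_insert, Finset.mem_singleton, not_or]
    exact ⟨hab, hac, hda.symm, hea.symm⟩

/- G3: the value of `GX` through `GG` -/
theorem GX_eq {n : ℕ} (hn : 2 ≤ n) {ψ : LK K} (h : Sol K n ψ) {g : Type} [LieRing g]
    [LieAlgebra K g] {X : Fin 5 → Fin 5 → g} (hX : PS X) {a b c : Fin 5} (hab : a ≠ b)
    (hac : a ≠ c) (hbc : b ≠ c) :
    GX K X ψ a b c = sb (X a c) (X b c) (GG ψ) := by
  obtain ⟨T, hT⟩ : ∃ T, T = X a b + X b c + X a c := ⟨_, rfl⟩
  have hTab : ⁅T, X a b⁆ = 0 := by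
    rw [hT, add_assoc, add_lie, lie_self, zero_add, add_comm (X b c)]
    exact PS_central hX hab hac hbc
  have hTbc : ⁅T, X b c⁆ = 0 := by
    have := PS_central hX hbc hab.symm hac.symm
    rw [hX.symm b a, hX.symm c a] at this
    rw [hT, show X a b + X b c + X a c = X b c + (X a b + X a c) by abel, add_lie, lie_self,
      zero_add]
    exact this
  have hTz : ⁅T, -X a b - X b c⁆ = 0 := by
    rw [lie_sub, lie_neg, hTab, hTbc, neg_zero, sub_zero]
  have hXac : X a c = (-X a b - X b c) + T := by rw [hT]; abel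
  have e1 : GX K X ψ a b c = sb (X a b) (X b c) (GG ψ) := by
    rw [GX, cc, cc, GG, map_add, LieHom.map_lie, LieHom.map_lie, sb_sb]
    simp only [map_sub, map_neg, sb_x, sb_y]
    have e2 : sb (X b a) (X a c) ψ = sb (X a b) (-X a b - X b c) ψ := by
      rw [hX.symm b a, hXac]
      have := sb_shift (K := K) hn h.wt (a := X a b) (b := -X a b - X b c) (z := 0) (z' := T)
        (zero_lie _) (zero_lie _) hTab hTz (zero_lie _)
      rwa [add_zero] at this
    rw [e2]
    congr 1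
    rw [hXac, add_lie, lie_sb_zero hTab hTz, add_zero]
  have s1 : ∀ u v : g, sb v u (GG ψ) = sb u v (GG ψ) := by
    intro u v
    have := congrArg (sb u v) (GG_symm h).1
    rwa [sb_sb, sb_x, sb_y] at this
  have s2 : ∀ u v : g, sb u (-u - v) (GG ψ) = sb u v (GG ψ) := by
    intro u v
    have := congrArg (sb u v) (GG_symm h).2
    rw [sb_sb] at this
    simpa only [map_sub, map_neg, sb_x, sb_y] using this
  rw [e1, ← s1, ← s2, ← s1, show -X b c - X a b = -X a b - X b c by abel]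
  have := sb_shift (K := K) (n := n + 1) (by omega) (GG_wt h.wt) (a := -X a b - X b c)
    (b := X b c) (z := T) (z' := 0) hTz hTbc (zero_lie _) (zero_lie _) (lie_zero _)
  rw [add_zero, ← hXac] at this
  exact this.symm

end

end Vale.Agent.P029.Low
end
end
end

section

section

/-! P029 lower half: `G = 0`. -/

set_option linter.all false

noncomputable section

attribute [local instance 100] LieRing.ofAssociativeRing

namespace Vale.Agent.P029.Low

/-- Substitution of elements of weight one preserves the weight. -/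
theorem gz_sb_wt {K : Type} [CommRing K] {X : Type} {w : X → ℕ} {a b : FreeLieAlgebra K X}
    (ha : a ∈ wtPart K w 1) (hb : b ∈ wtPart K w 1) {n : ℕ} {ψ : LK K} (hψ : ψ ∈ wt2 K n) :
    sb a b ψ ∈ wtPart K w n := by
  refine wt_induction (P := fun ψ => sb a b ψ ∈ wtPart K w n) ?_ (by simp)
    (fun a b ha hb => by simpa using add_mem ha hb)
    (fun c a ha => by simpa using Submodule.smul_mem _ c ha) hψ
  intro t ht
  rw [sb_eval]
  have key : ∀ t : Tr (Fin 2), t.eval ![a, b] ∈ wtPart K w (t.wt (fun _ => 1)) := by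
    intro t
    induction t with
    | leaf i =>
      fin_cases i
      · exact ha
      · exact hb
    | node u v hu hv => exact wt_lie hu hv
  have := key t
  rwa [ht] at this

theorem gz_GG_wt {K : Type} [CommRing K] {n : ℕ} {ψ : LK K} (h : Sol K n ψ) :
    GG ψ ∈ wt2 K (n + 1) := by
  have hz : -kx K - ky K ∈ wt2 K 1 := sub_mem (neg_mem kx_wt) ky_wt
  rw [add_comm]
  exact add_mem (wt_lie ky_wt h.wt) (wt_lie hz (gz_sb_wt kx_wt hz h.wt))

section
variable {K : Type} [CommRing K] {n : ℕ} {ψ : LK K} {g : Type} [LieRing g] [LieAlgebra K g]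

theorem gz_symm (h : Sol K n ψ) (a b : g) : sb b a (GG ψ) = sb a b (GG ψ) := by
  conv_rhs => rw [← (GG_symm h).1]
  rw [sb_sb, sb_x, sb_y]

theorem gz_neg (h : Sol K n ψ) (a b : g) : sb a (-a - b) (GG ψ) = sb a b (GG ψ) := by
  conv_rhs => rw [← (GG_symm h).2]
  rw [sb_sb, sb_x, map_sub, map_neg, sb_x, sb_y]

end

/-- The identity in the free associative algebra. -/
theorem gz_assoc {K : Type} [CommRing K] {n : ℕ} (hn : 2 ≤ n) {ψ : LK K} (h : Sol K n ψ) :
    sb (FreeAlgebra.ι K (2 : Fin 3)) (FreeAlgebra.ι K 1 - FreeAlgebra.ι K 2) (GG ψ) +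
      sb (FreeAlgebra.ι K (0 : Fin 3)) (FreeAlgebra.ι K 1) (GG ψ) =
    sb (FreeAlgebra.ι K (0 : Fin 3)) (FreeAlgebra.ι K 2) (GG ψ) +
      sb (FreeAlgebra.ι K (0 : Fin 3) + FreeAlgebra.ι K 2)
        (FreeAlgebra.ι K 1 - FreeAlgebra.ι K 2) (GG ψ) := by
  obtain ⟨D1, D2, hD⟩ := exists_isDer K
  obtain ⟨p, hp⟩ : ∃ p, p = FreeAlgebra.ι K (0 : Fin 3) := ⟨_, rfl⟩
  obtain ⟨q, hq⟩ : ∃ q, q = FreeAlgebra.ι K (1 : Fin 3) := ⟨_, rfl⟩
  obtain ⟨s, hs⟩ : ∃ s, s = FreeAlgebra.ι K (2 : Fin 3) := ⟨_, rfl⟩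
  rw [← hp, ← hq, ← hs] at hD ⊢
  have hX := PS_ofP5 (op5_P5 hD)
  obtain ⟨L, hL⟩ : ∃ L : FreeAlgebra K (Fin 3) →ₗ⁅K⁆ Module.End K (FreeAlgebra K (Fin 3)),
      ∀ a, L a = LinearMap.mulLeft K a :=
    ⟨(Algebra.lmul K (FreeAlgebra K (Fin 3))).toLieHom, fun a => rfl⟩
  have hinj : ∀ a b, L a = L b → a = b := by
    intro a b hab
    have := congrArg (fun F => F 1) hab
    simpa [hL] using this
  have e04 : ofP5 (op5 D1 D2 p q s) 0 4 = L p := (hL p).symm
  have e34 : ofP5 (op5 D1 D2 p q s) 3 4 = L s := (hL s).symm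
  have e24 : ofP5 (op5 D1 D2 p q s) 2 4 = L (q - s) := by
    rw [map_sub, hL, hL]
    show D1 - (D1 - LinearMap.mulLeft K q) - LinearMap.mulLeft K s = _
    abel
  have e14 : ofP5 (op5 D1 D2 p q s) 1 4 = L (-p - q) := by
    rw [map_sub, map_neg, hL, hL]
    show (D1 - LinearMap.mulLeft K q) - LinearMap.mulLeft K p - D1 = _
    abel
  have h4 := G_four hn h hX
  rw [GX_eq hn h hX (by decide) (by decide) (by decide),
    GX_eq hn h hX (by decide) (by decide) (by decide),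
    GX_eq hn h hX (by decide) (by decide) (by decide),
    GX_eq hn h hX (by decide) (by decide) (by decide), e04, e34, e24, e14,
    ← map_sb, ← map_sb, ← map_sb, ← map_sb, ← map_sub, ← map_add, ← map_sub] at h4
  have h5 := hinj _ _ (h4.trans (map_zero L).symm)
  have e6 : sb (-p - q) (q - s) (GG ψ) = sb (p + s) (q - s) (GG ψ) := by
    calc sb (-p - q) (q - s) (GG ψ) = sb (q - s) (-p - q) (GG ψ) := gz_symm h _ _
      _ = sb (q - s) (-(q - s) - (p + s)) (GG ψ) := by
          rw [show -p - q = -(q - s) - (p + s) by abel]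
      _ = sb (q - s) (p + s) (GG ψ) := gz_neg h _ _
      _ = sb (p + s) (q - s) (GG ψ) := gz_symm h _ _
  rw [e6, gz_neg h, gz_symm h s (q - s)] at h5
  have e7 : ∀ u v w x : FreeAlgebra K (Fin 3), u - v + w - x = 0 → u + w = v + x := by
    intro u v w x h
    have : u + w - (v + x) = 0 := by rw [← h]; abel
    exact sub_eq_zero.1 this
  exact e7 _ _ _ _ h5

/-- The identity in the free Lie algebra on three letters. -/
theorem gz_free {K : Type} [CommRing K] {n : ℕ} (hn : 2 ≤ n) {ψ : LK K} (h : Sol K n ψ) :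
    sb (FreeLieAlgebra.of K (2 : Fin 3)) (FreeLieAlgebra.of K 1 - FreeLieAlgebra.of K 2) (GG ψ) +
      sb (FreeLieAlgebra.of K (0 : Fin 3)) (FreeLieAlgebra.of K 1) (GG ψ) =
    sb (FreeLieAlgebra.of K (0 : Fin 3)) (FreeLieAlgebra.of K 2) (GG ψ) +
      sb (FreeLieAlgebra.of K (0 : Fin 3) + FreeLieAlgebra.of K 2)
        (FreeLieAlgebra.of K 1 - FreeLieAlgebra.of K 2) (GG ψ) := by
  have hw : ∀ i : Fin 3, FreeLieAlgebra.of K i ∈ wtPart K (fun _ : Fin 3 => 1) 1 := fun i =>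
    Submodule.subset_span ⟨Tr.leaf i, rfl, rfl⟩
  have hf := gz_GG_wt h
  have hd := sub_mem (hw 1) (hw 2)
  have ha := add_mem (hw 0) (hw 2)
  have hm := sub_mem (add_mem (gz_sb_wt (hw 2) hd hf) (gz_sb_wt (hw 0) (hw 1) hf))
    (add_mem (gz_sb_wt (hw 0) (hw 2) hf) (gz_sb_wt ha hd hf))
  refine sub_eq_zero.1 (toFree_inj (fun _ : Fin 3 => 1) (fun _ => one_pos)
    (fun _ => Set.toFinite _) (n + 1) hm ?_)
  have hι : ∀ i, toFree K (Fin 3) (FreeLieAlgebra.of K i) = FreeAlgebra.ι K i := fun i => by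
    simp [toFree, FreeLieAlgebra.lift_of_apply]
  rw [map_sub, map_add, map_add, map_sb, map_sb, map_sb, map_sb, map_sub, map_add, hι, hι, hι,
    sub_eq_zero]
  exact gz_assoc hn h

/- G5 -/
theorem GG_zero {K : Type} [Field K] [CharZero K] {n : ℕ} (hn : 2 ≤ n) {ψ : LK K}
    (h : Sol K n ψ) : GG ψ = 0 := by
  refine cocycle_zero (n := n + 1) (by omega) (gz_GG_wt h) ?_ ?_
  · intro g _ _ a b
    exact gz_symm h a b
  · intro g _ _ x y z
    obtain ⟨F, hF⟩ : ∃ F : FreeLieAlgebra K (Fin 3) →ₗ⁅K⁆ g,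
        F = FreeLieAlgebra.lift K ![x, y + z, y] := ⟨_, rfl⟩
    have h0 : F (FreeLieAlgebra.of K 0) = x := by
      rw [hF, FreeLieAlgebra.lift_of_apply]; rfl
    have h1 : F (FreeLieAlgebra.of K 1) = y + z := by
      rw [hF, FreeLieAlgebra.lift_of_apply]; rfl
    have h2 : F (FreeLieAlgebra.of K 2) = y := by
      rw [hF, FreeLieAlgebra.lift_of_apply]; rfl
    have h3 := congrArg F (gz_free hn h)
    rw [map_add, map_add, map_sb, map_sb, map_sb, map_sb, map_sub, map_add, h0, h1, h2,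
      add_sub_cancel_left] at h3
    exact h3

end Vale.Agent.P029.Low
end
end
end

section

section

/-!
# P029, E7: Step 1, the pure `x`-part determines `ψ`
-/

noncomputable section

attribute [local instance 100] LieRing.ofAssociativeRing

namespace Vale.Agent.P029

namespace Step1

theorem em_map {A B : Type} [Ring A] [Algebra K2 A] [Ring B] [Algebra K2 B] (φ : A →ₐ[K2] B)
    (a b : A) (m : ℕ) : φ (Em a b m) = Em (φ a) (φ b) m := by
  induction m with
  | zero => simp [Em]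
  | succ m ih =>
    by_cases h : Even m
    · simp only [Em, if_pos h, LieRing.of_associative_ring_bracket, map_sub, map_mul, ih]
    · simp only [Em, if_neg h, LieRing.of_associative_ring_bracket, map_sub, map_mul, ih]

theorem evE_map {A B : Type} [Ring A] [Algebra K2 A] [Ring B] [Algebra K2 B] (φ : A →ₐ[K2] B)
    (a b : A) (P : FreeLieAlgebra K2 (ℕ ⊕ ℕ)) : φ (evE a b P) = evE (φ a) (φ b) P := by
  have h : (φ.toLieHom).comp (evE a b) = evE (φ a) (φ b) := by
    apply FreeLieAlgebra.hom_ext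
    intro x
    cases x with
    | inl m => simp [evE, em_map]
    | inr m => simp [evE, em_map]
  exact LieHom.congr_fun h P

theorem em_zero {A : Type} [Ring A] [Algebra K2 A] {a : A} (b : A) (ha : a * a = 0) (m : ℕ) :
    Em a b m = 0 := by
  induction m with
  | zero => simpa [Em] using ha
  | succ m ih =>
    by_cases h : Even m
    · simp only [Em, if_pos h, ih, lie_zero]
    · simp only [Em, if_neg h, ih, lie_zero]

theorem evE_of_sq {A : Type} [Ring A] [Algebra K2 A] (a : A) {b : A} (hb : b * b = 0)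
    (P : FreeLieAlgebra K2 (ℕ ⊕ ℕ)) :
    evE a b P = FreeLieAlgebra.lift K2 (Em a b) (projA P) := by
  have h : evE a b = (FreeLieAlgebra.lift K2 (Em a b)).comp projA := by
    apply FreeLieAlgebra.hom_ext
    intro x
    cases x with
    | inl m => simp [evE, projA]
    | inr m => simp [evE, projA, em_zero a hb]
  rw [h]
  rfl

theorem lift_toFree {X A : Type} [Ring A] [Algebra K2 A] (f : X → A) (Q : FreeLieAlgebra K2 X) :
    FreeAlgebra.lift K2 f (toFree K2 X Q) = FreeLieAlgebra.lift K2 f Q := by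
  have h : ((FreeAlgebra.lift K2 f).toLieHom).comp (toFree K2 X) = FreeLieAlgebra.lift K2 f := by
    apply FreeLieAlgebra.hom_ext
    intro x
    simp [toFree]
  exact LieHom.congr_fun h Q

theorem lift_commute {X A : Type} [Ring A] [Algebra K2 A] (f : X → A) (c : A)
    (h : ∀ x, Commute c (f x)) (z : FreeAlgebra K2 X) : Commute c (FreeAlgebra.lift K2 f z) := by
  induction z using FreeAlgebra.induction with
  | grade0 r =>
    rw [AlgHom.commutes]
    exact (Algebra.commutes r c).symm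
  | grade1 x => simpa using h x
  | mul a b ha hb =>
    rw [map_mul]
    exact ha.mul_right hb
  | add a b ha hb =>
    rw [map_add]
    exact ha.add_right hb

theorem evE_eq_lift {A : Type} [Ring A] [Algebra K2 A] (a b : A)
    (P : FreeLieAlgebra K2 (ℕ ⊕ ℕ)) :
    evE a b P = FreeAlgebra.lift K2 ![a, b]
      (evE (FreeAlgebra.ι K2 (0 : Fin 2)) (FreeAlgebra.ι K2 1) P) := by
  rw [evE_map]
  simp

theorem evE_eq_lift' {A : Type} [Ring A] [Algebra K2 A] (a b : A)
    (P : FreeLieAlgebra K2 (ℕ ⊕ ℕ)) :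
    evE b a P = FreeAlgebra.lift K2 ![a, b]
      (evE (FreeAlgebra.ι K2 (1 : Fin 2)) (FreeAlgebra.ι K2 0) P) := by
  rw [evE_map]
  simp

theorem evE_commute {A : Type} [Ring A] [Algebra K2 A] (a b c : A) (ha : Commute c a)
    (hb : Commute c b) (P : FreeLieAlgebra K2 (ℕ ⊕ ℕ)) : Commute c (evE a b P) := by
  rw [evE_eq_lift]
  apply lift_commute
  intro i
  fin_cases i
  · simpa using ha
  · simpa using hb

/-- antisymmetry for arbitrary arguments -/
theorem anti_apply {P : FreeLieAlgebra K2 (ℕ ⊕ ℕ)}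
    (hanti : evE (FreeAlgebra.ι K2 (0 : Fin 2)) (FreeAlgebra.ι K2 1) P +
      evE (FreeAlgebra.ι K2 (1 : Fin 2)) (FreeAlgebra.ι K2 0) P = 0)
    {A : Type} [Ring A] [Algebra K2 A] (a b : A) : evE a b P + evE b a P = 0 := by
  rw [evE_eq_lift a b, evE_eq_lift' a b, ← map_add, hanti, map_zero]

theorem commute_mulLeft {A : Type} [Ring A] [Algebra K2 A] {D : A →ₗ[K2] A} {a : A}
    (h : ∀ b, D (a * b) = a * D b) :
    Commute (LinearMap.mulLeft K2 a : Module.End K2 A) (D : Module.End K2 A) := by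
  apply LinearMap.ext
  intro b
  simp [h]

end Step1

open Step1

theorem step1 {n : ℕ} (hn : 3 ≤ n) {P : FreeLieAlgebra K2 (ℕ ⊕ ℕ)} (hP : P ∈ wtPart K2 wE n)
    (hA : projA P = 0) {D1 D2 : QA S1 →ₗ[K2] QA S1} (hD : IsDer D1 D2 p1 g1 s1)
    (hanti : evE (FreeAlgebra.ι K2 (0 : Fin 2)) (FreeAlgebra.ι K2 1) P +
      evE (FreeAlgebra.ι K2 (1 : Fin 2)) (FreeAlgebra.ι K2 0) P = 0)
    (h5 : ∑ i, evE (op5 D1 D2 p1 g1 s1 i) (op5 D1 D2 p1 g1 s1 (i + 1)) P = 0) :
    evE (FreeAlgebra.ι K2 (0 : Fin 2)) (FreeAlgebra.ι K2 1) P = 0 := by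
  -- the five operators
  set X0 : Module.End K2 (QA S1) := D1 with hX0
  set X1 : Module.End K2 (QA S1) := D2 with hX1
  set X2 : Module.End K2 (QA S1) := D1 - LinearMap.mulLeft K2 g1 with hX2
  set X3 : Module.End K2 (QA S1) := LinearMap.mulLeft K2 s1 with hX3
  set X4 : Module.End K2 (QA S1) := LinearMap.mulLeft K2 p1 with hX4
  have h3 : X3 * X3 = 0 := by
    apply LinearMap.ext
    intro a
    simp only [hX3, Module.End.mul_apply, LinearMap.mulLeft_apply, LinearMap.zero_apply]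
    rw [← mul_assoc, s1, QA_sq 2 rfl, zero_mul]
  have h4 : X4 * X4 = 0 := by
    apply LinearMap.ext
    intro a
    simp only [hX4, Module.End.mul_apply, LinearMap.mulLeft_apply, LinearMap.zero_apply]
    rw [← mul_assoc, p1, QA_sq 0 rfl, zero_mul]
  have h5' : evE X0 X1 P + evE X1 X2 P = 0 := by
    have e : ∑ i, evE (op5 D1 D2 p1 g1 s1 i) (op5 D1 D2 p1 g1 s1 (i + 1)) P =
        evE X0 X1 P + evE X1 X2 P + evE X2 X3 P + evE X3 X4 P + evE X4 X0 P := by
      rw [Fin.sum_univ_five]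
      rfl
    rw [e] at h5
    have t2 : evE X2 X3 P = 0 := by rw [evE_of_sq X2 h3, hA, map_zero]
    have t3 : evE X3 X4 P = 0 := by rw [evE_of_sq X3 h4, hA, map_zero]
    have t4 : evE X4 X0 P = 0 := by
      have := anti_apply hanti X0 X4
      rw [evE_of_sq X0 h4, hA, map_zero, zero_add] at this
      exact this
    rwa [t2, t3, t4, add_zero, add_zero, add_zero] at h5
  have c1 : Commute X4 (evE X1 X2 P) := by
    apply evE_commute
    · apply commute_mulLeft
      intro b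
      rw [hD.leib2, hD.p2, zero_mul, zero_add]
    · apply commute_mulLeft (D := D1 - LinearMap.mulLeft K2 g1)
      intro b
      rw [LinearMap.sub_apply, LinearMap.sub_apply, LinearMap.mulLeft_apply,
        LinearMap.mulLeft_apply, hD.leib1, hD.p1, LieRing.of_associative_ring_bracket]
      noncomm_ring
  have c2 : Commute X3 (evE X0 X1 P) := by
    apply evE_commute
    · apply commute_mulLeft
      intro b
      rw [hD.leib1, hD.s1, zero_mul, zero_add]
    · apply commute_mulLeft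
      intro b
      rw [hD.leib2, hD.s2, zero_mul, zero_add]
  have c3 : Commute X4 (evE X0 X1 P) := by
    rw [eq_neg_of_add_eq_zero_left h5']
    exact c1.neg_right
  obtain ⟨Q, hQ, hQP⟩ := step1_gen hP hA
  set f : QA S1 := FreeLieAlgebra.lift K2 (phi D1 D2) Q with hf
  have hin : ∀ a, evE X0 X1 P a = f * a - a * f := by
    intro a
    rw [hQP X0 X1]
    exact step1_inner hD Q a
  have hone : evE X0 X1 P 1 = 0 := by rw [hin]; simp
  have hcom : ∀ z : QA S1, Commute (LinearMap.mulLeft K2 z : Module.End K2 (QA S1))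
      (evE X0 X1 P) → f * z = z * f := by
    intro z hz
    have h1 := LinearMap.congr_fun hz.eq 1
    simp only [Module.End.mul_apply, LinearMap.mulLeft_apply, hone, mul_zero, mul_one] at h1
    rw [hin] at h1
    exact sub_eq_zero.1 h1.symm
  have hp : f * p1 = p1 * f := hcom p1 c3
  have hs : f * s1 = s1 * f := hcom s1 c2
  obtain ⟨c, hc⟩ := exists_coef S1
  have hQ0 : toFree K2 (List Bool) Q = 0 := by
    by_contra hne
    obtain ⟨b1, b2, b3, b4⟩ := blk_facts
    obtain ⟨l, hl1, hl2⟩ := triangular hc (phi D1 D2) blk b2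
      (fun u => (phi_coef hc hD u).1) (fun u w hw => (phi_coef hc hD u).2 w hw)
      b3 b1 _ hne
    rw [lift_toFree] at hl2
    have h1 := centralizer hc f hp hs _ hl2
    have h2 := b4 l h1
    rw [h2] at hl1
    exact hl1 (cf_nil hn hQ l.length)
  rw [hQP, ← lift_toFree, hQ0, map_zero]

end Vale.Agent.P029
end
end
end

section

section

/-!
# P029: the bound in characteristic two (assembly)
-/

noncomputable section

attribute [local instance 100] LieRing.ofAssociativeRing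

namespace Vale.Agent.P029


namespace Char2

/-- Lie homomorphisms commute with the evaluation of Lie monomials. -/
lemma map_eval {R X g g' : Type} [CommRing R] [LieRing g] [LieAlgebra R g] [LieRing g']
    [LieAlgebra R g'] (φ : g →ₗ⁅R⁆ g') (f : X → g) (t : Tr X) :
    φ (t.eval f) = t.eval (fun x => φ (f x)) := by
  induction t with
  | leaf x => rfl
  | node a b iha ihb => simp only [Tr.eval, LieHom.map_lie, iha, ihb]

/-- `toFree` is injective on the homogeneous parts. -/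
lemma toFree_eq_zero {X : Type} (w : X → ℕ) (hpos : ∀ x, 0 < w x)
    (hfin : ∀ n, {x | w x = n}.Finite) (n : ℕ) {a : FreeLieAlgebra K2 X}
    (ha : a ∈ wtPart K2 w n) (h0 : toFree K2 X a = 0) : a = 0 := by
  obtain ⟨k, t, ht, hR⟩ := lie_basis w hpos hfin n
  obtain ⟨hs, hl⟩ := hR K2
  have hle : wtPart K2 w n ≤
      Submodule.span K2 (Set.range fun i => (t i).eval (FreeLieAlgebra.of K2)) := by
    refine Submodule.span_le.2 ?_
    rintro _ ⟨u, hu, rfl⟩
    exact hs u hu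
  have ha' := hle ha
  rw [Submodule.mem_span_range_iff_exists_fun] at ha'
  obtain ⟨c, rfl⟩ := ha'
  have h1 : ∑ i, c i • (t i).eval (FreeAlgebra.ι K2) = (0 : FreeAlgebra K2 X) := by
    rw [← h0, map_sum]
    refine Finset.sum_congr rfl fun i _ => ?_
    rw [map_smul, map_eval]
    congr 1
    congr 1
    funext x
    simp [toFree]
  have hc := Fintype.linearIndependent_iff.1 hl c h1
  simp [hc]

/-- Algebra homomorphisms and `FreeLieAlgebra.lift`. -/
lemma alg_lift {X A B : Type} [Ring A] [Algebra K2 A] [Ring B] [Algebra K2 B] (φ : A →ₐ[K2] B)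
    (f : X → A) (ψ : FreeLieAlgebra K2 X) :
    φ (FreeLieAlgebra.lift K2 f ψ) = FreeLieAlgebra.lift K2 (fun x => φ (f x)) ψ := by
  have : (φ.toLieHom).comp (FreeLieAlgebra.lift K2 f) =
      FreeLieAlgebra.lift K2 (fun x => φ (f x)) := by
    apply FreeLieAlgebra.hom_ext
    intro x
    simp
  exact congrArg (fun F : FreeLieAlgebra K2 X →ₗ⁅K2⁆ B => F ψ) this

lemma map_Em {A B : Type} [Ring A] [Algebra K2 A] [Ring B] [Algebra K2 B] (φ : A →ₐ[K2] B)
    (a b : A) (m : ℕ) : φ (Em a b m) = Em (φ a) (φ b) m := by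
  induction m with
  | zero => simp [Em]
  | succ m ih =>
    simp only [Em]
    split_ifs <;> simp only [Ring.lie_def, map_sub, map_mul, ih]

lemma alg_evE {A B : Type} [Ring A] [Algebra K2 A] [Ring B] [Algebra K2 B] (φ : A →ₐ[K2] B)
    (a b : A) (P : FreeLieAlgebra K2 (ℕ ⊕ ℕ)) : φ (evE a b P) = evE (φ a) (φ b) P := by
  unfold evE
  rw [alg_lift]
  congr 2
  funext x
  rcases x with m | m <;> simp [map_Em]

/-- `projA` preserves the weight. -/
lemma projA_wt {n : ℕ} {P : FreeLieAlgebra K2 (ℕ ⊕ ℕ)} (hP : P ∈ wtPart K2 wE n) :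
    projA P ∈ wtPart K2 (fun m : ℕ => m + 2) n := by
  have key : ∀ t : Tr (ℕ ⊕ ℕ), projA (t.eval (FreeLieAlgebra.of K2)) = 0 ∨
      ∃ t' : Tr ℕ, t'.wt (fun m : ℕ => m + 2) = t.wt wE ∧
        projA (t.eval (FreeLieAlgebra.of K2)) = t'.eval (FreeLieAlgebra.of K2) := by
    intro t
    induction t with
    | leaf x =>
      rcases x with m | m
      · right
        exact ⟨Tr.leaf m, rfl, by simp [Tr.eval, projA]⟩
      · left
        simp [Tr.eval, projA]
    | node a b iha ihb =>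
      simp only [Tr.eval, LieHom.map_lie]
      rcases iha with ha | ⟨ta, ha1, ha2⟩
      · left; rw [ha, zero_lie]
      rcases ihb with hb | ⟨tb, hb1, hb2⟩
      · left; rw [hb, lie_zero]
      right
      exact ⟨Tr.node ta tb, by simp [Tr.wt, ha1, hb1], by simp [Tr.eval, ha2, hb2]⟩
  unfold wtPart at hP
  induction hP using Submodule.span_induction with
  | mem x hx =>
    obtain ⟨t, ht, rfl⟩ := hx
    rcases key t with h | ⟨t', h1, h2⟩
    · rw [h]; exact zero_mem _
    · rw [h2]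
      exact Submodule.subset_span ⟨t', by rw [h1, ht], rfl⟩
  | zero => rw [map_zero]; exact zero_mem _
  | add x y _ _ hx hy => rw [map_add]; exact add_mem hx hy
  | smul c x _ hx => rw [map_smul]; exact Submodule.smul_mem _ _ hx

end Char2

open Char2

theorem char2_bound' {n : ℕ} (hn : 3 ≤ n) (V : Submodule K2 (FreeLieAlgebra K2 (Fin 2)))
    (hV : ∀ ψ ∈ V, ψ ∈ wtPart K2 (fun _ : Fin 2 => 1) n ∧ Anti ψ ∧ FiveAll ψ) :
    Module.finrank K2 V ≤ Module.finrank ℚ (Fpart n) := by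
  classical
  obtain ⟨D1, D2, hD⟩ := exists_der1
  set ι0 : FreeAlgebra K2 (Fin 2) := FreeAlgebra.ι K2 (0 : Fin 2) with hι0
  set ι1 : FreeAlgebra K2 (Fin 2) := FreeAlgebra.ι K2 (1 : Fin 2) with hι1
  have hιι : (![ι0, ι1] : Fin 2 → FreeAlgebra K2 (Fin 2)) = FreeAlgebra.ι K2 := by
    funext i
    fin_cases i <;> rfl
  -- the linear map Λ
  let Lam : wtPart K2 wE n →ₗ[K2] FreeAlgebra K2 (Fin 2) :=
    (evE ι0 ι1 : FreeLieAlgebra K2 (ℕ ⊕ ℕ) →ₗ[K2] FreeAlgebra K2 (Fin 2)).comp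
      (wtPart K2 wE n).subtype
  have hLam : ∀ P : wtPart K2 wE n, Lam P = evE ι0 ι1 (P : FreeLieAlgebra K2 (ℕ ⊕ ℕ)) :=
    fun P => rfl
  let T : V →ₗ[K2] FreeAlgebra K2 (Fin 2) :=
    (toFree K2 (Fin 2) : FreeLieAlgebra K2 (Fin 2) →ₗ[K2] FreeAlgebra K2 (Fin 2)).comp V.subtype
  have hT : ∀ ψ : V, T ψ = toFree K2 (Fin 2) (ψ : FreeLieAlgebra K2 (Fin 2)) := fun ψ => rfl
  have hTr : ∀ ψ : V, T ψ ∈ LinearMap.range Lam := by
    intro ψ
    obtain ⟨P, hP, hE⟩ := egen hn (hV ψ ψ.2).1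
    refine ⟨⟨P, hP⟩, ?_⟩
    rw [hLam, hT]
    have := hE ι0 ι1
    rw [← this, hιι]
    rfl
  obtain ⟨s0, hs0⟩ := LinearMap.exists_rightInverse_of_surjective Lam.rangeRestrict
    (LinearMap.range_rangeRestrict Lam)
  let σ : V →ₗ[K2] wtPart K2 wE n := s0.comp (T.codRestrict (LinearMap.range Lam) hTr)
  have hσ0 : ∀ ψ : V, Lam (σ ψ) = T ψ := by
    intro ψ
    have := congrArg (fun F => ((F (T.codRestrict (LinearMap.range Lam) hTr ψ) :
      LinearMap.range Lam) : FreeAlgebra K2 (Fin 2))) hs0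
    simpa [σ] using this
  -- the general identity
  have hσ : ∀ (ψ : V) {A : Type} [Ring A] [Algebra K2 A] (a b : A),
      FreeLieAlgebra.lift K2 ![a, b] (ψ : FreeLieAlgebra K2 (Fin 2)) =
        evE a b (σ ψ : FreeLieAlgebra K2 (ℕ ⊕ ℕ)) := by
    intro ψ A _ _ a b
    have h1 := congrArg (FreeAlgebra.lift K2 ![a, b]) (hσ0 ψ)
    rw [hLam, hT, alg_evE, toFree, alg_lift] at h1
    have e0 : FreeAlgebra.lift K2 ![a, b] ι0 = a := by simp [hι0]
    have e1 : FreeAlgebra.lift K2 ![a, b] ι1 = b := by simp [hι1]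
    rw [e0, e1] at h1
    rw [h1]
    congr 2
    funext i
    simp
  obtain ⟨G, hGf, hGle, hGodd⟩ := odd_part' (n := n)
  have := hGf
  let Am : V →ₗ[K2] FreeAlgebra K2 ℕ :=
    (toFree K2 ℕ : FreeLieAlgebra K2 ℕ →ₗ[K2] FreeAlgebra K2 ℕ).comp
      ((projA : FreeLieAlgebra K2 (ℕ ⊕ ℕ) →ₗ[K2] FreeLieAlgebra K2 ℕ).comp
        ((wtPart K2 wE n).subtype.comp σ))
  have hAm : ∀ ψ : V, Am ψ = toFree K2 ℕ (projA (σ ψ : FreeLieAlgebra K2 (ℕ ⊕ ℕ))) :=
    fun ψ => rfl
  have hAG : ∀ ψ : V, Am ψ ∈ G := by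
    intro ψ
    obtain ⟨hw, hanti, h5⟩ := hV ψ ψ.2
    have h3 := hGodd _ (projA_wt (σ ψ).2)
    rw [step2x hn hw hanti h5 (σ ψ).2 (hσ ψ)] at h3
    exact h3
  refine le_trans (LinearMap.finrank_le_finrank_of_injective (f := Am.codRestrict G hAG) ?_) hGle
  rw [← LinearMap.ker_eq_bot, LinearMap.ker_codRestrict, LinearMap.ker_eq_bot']
  intro ψ hψ
  obtain ⟨hw, hanti, h5⟩ := hV ψ ψ.2
  -- translate the equations
  have hanti' : evE (FreeAlgebra.ι K2 (0 : Fin 2)) (FreeAlgebra.ι K2 1)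
        (σ ψ : FreeLieAlgebra K2 (ℕ ⊕ ℕ)) +
      evE (FreeAlgebra.ι K2 (1 : Fin 2)) (FreeAlgebra.ι K2 0)
        (σ ψ : FreeLieAlgebra K2 (ℕ ⊕ ℕ)) = 0 := by
    rw [← hσ ψ, ← hσ ψ]
    exact hanti
  have h5' : ∑ i, evE (op5 D1 D2 p1 g1 s1 i) (op5 D1 D2 p1 g1 s1 (i + 1))
      (σ ψ : FreeLieAlgebra K2 (ℕ ⊕ ℕ)) = 0 := by
    rw [← h5 _ _ (op5_P5 hD)]
    exact Finset.sum_congr rfl fun i _ => (hσ ψ _ _).symm
  have hpA : projA (σ ψ : FreeLieAlgebra K2 (ℕ ⊕ ℕ)) = 0 := by
    refine toFree_eq_zero (fun m : ℕ => m + 2) (fun _ => by omega) (fun k => ?_) n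
      (projA_wt (σ ψ).2) hψ
    refine Set.Finite.subset (Set.finite_Iic k) ?_
    intro x hx
    have hx' : x + 2 = k := hx
    simp only [Set.mem_Iic]
    omega
  have hT0 : T ψ = 0 := by
    rw [← hσ0, hLam]
    exact step1 hn (σ ψ).2 hpA hD hanti' h5'
  have := toFree_eq_zero (fun _ : Fin 2 => 1) (fun _ => Nat.one_pos)
    (fun _ => Set.toFinite _) n hw hT0
  exact Subtype.ext this

end Vale.Agent.P029
end
end
end

section

section

/-!
# P029: N4, solutions of the five term relation give elements of the free Lie algebra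
-/

noncomputable section

attribute [local instance 100] LieRing.ofAssociativeRing

namespace Vale.Agent.P029


namespace RelEx

/-- `E_m ↦ 0` (`m` even), `E_(2k+1) ↦ e_k`. -/
def odd : FreeLieAlgebra K2 ℕ →ₗ⁅K2⁆ FreeLieAlgebra K2 ℕ :=
  FreeLieAlgebra.lift K2 (fun m => if Even m then 0 else FreeLieAlgebra.of K2 (m / 2))

lemma odd_mem {n : ℕ} {Q : FreeLieAlgebra K2 ℕ} (hQ : Q ∈ wtPart K2 (fun m : ℕ => m + 2) n) :
    odd Q ∈ wtPart K2 (fun k : ℕ => 2 * k + 3) n := by
  have key : ∀ t : Tr ℕ, odd (t.eval (FreeLieAlgebra.of K2)) = 0 ∨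
      ∃ t' : Tr ℕ, t'.wt (fun k : ℕ => 2 * k + 3) = t.wt (fun m : ℕ => m + 2) ∧
        odd (t.eval (FreeLieAlgebra.of K2)) = t'.eval (FreeLieAlgebra.of K2) := by
    intro t
    induction t with
    | leaf m =>
      by_cases h : Even m
      · exact Or.inl (by simp [Tr.eval, odd, h])
      · refine Or.inr ⟨Tr.leaf (m / 2), ?_, by simp [Tr.eval, odd, h]⟩
        have hm : 2 * (m / 2) + 1 = m :=
          Nat.two_mul_div_two_add_one_of_odd (Nat.not_even_iff_odd.mp h)
        show 2 * (m / 2) + 3 = m + 2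
        omega
    | node a b iha ihb =>
      rcases iha with ha | ⟨a', ha', ha⟩
      · left; simp only [Tr.eval, LieHom.map_lie, ha, zero_lie]
      rcases ihb with hb | ⟨b', hb', hb⟩
      · left; simp only [Tr.eval, LieHom.map_lie, hb, lie_zero]
      · right
        exact ⟨Tr.node a' b', by simp only [Tr.wt, ha', hb'],
          by simp only [Tr.eval, LieHom.map_lie, ha, hb]⟩
  unfold wtPart at hQ
  induction hQ using Submodule.span_induction with
  | mem a ha =>
    obtain ⟨t, ht, rfl⟩ := ha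
    rcases key t with h | ⟨t', h1, h2⟩
    · rw [h]; exact zero_mem _
    · rw [h2]; exact Submodule.subset_span ⟨t', by rw [h1, ht], rfl⟩
  | zero => rw [map_zero]; exact zero_mem _
  | add a b _ _ ha hb => rw [map_add]; exact add_mem ha hb
  | smul c a _ ha => rw [map_smul]; exact Submodule.smul_mem _ _ ha

lemma lift_odd {A : Type} [Ring A] [Algebra K2 A] (f : ℕ → A) (Q : FreeLieAlgebra K2 ℕ) :
    FreeLieAlgebra.lift K2 f (odd Q) =
      FreeLieAlgebra.lift K2 (fun m => if Even m then 0 else f (m / 2)) Q := by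
  have e : (FreeLieAlgebra.lift K2 f).comp odd =
      FreeLieAlgebra.lift K2 (fun m => if Even m then 0 else f (m / 2)) := by
    apply FreeLieAlgebra.hom_ext
    intro m
    by_cases h : Even m <;> simp [odd, h]
  rw [← e]
  rfl

lemma fin_wt (k : ℕ) : {m : ℕ | m + 2 = k}.Finite := by
  refine Set.Finite.subset (Set.finite_Iic k) ?_
  intro x hx
  have hx' : x + 2 = k := hx
  simp only [Set.mem_Iic]
  omega

end RelEx

open RelEx Step2x

theorem rel_exists {Y : Fin 5 → Module.End K2 KK} (hY : IsRep2 Y) {n : ℕ} (hn : 3 ≤ n)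
    {ψ : FreeLieAlgebra K2 (Fin 2)} (hψ : ψ ∈ wtPart K2 (fun _ : Fin 2 => 1) n) (hanti : Anti ψ)
    (h5 : FiveAll ψ) : ∃ α ∈ wtPart K2 (fun k : ℕ => 2 * k + 3) n, Rel Y ψ α ∧
      (α = 0 → ψ = 0) := by
  obtain ⟨P, hP, hψP⟩ := egen hn hψ
  have hkill := step2x hn hψ hanti h5 hP hψP
  have hlift : ∀ {A : Type} [Ring A] [Algebra K2 A] (f : ℕ → A),
      FreeLieAlgebra.lift K2 f (projA P) =
        FreeLieAlgebra.lift K2 (fun m => if Even m then 0 else f m) (projA P) := by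
    intro A _ _ f
    rw [lift_toFree, lift_toFree (fun m => if Even m then 0 else f m), ← hkill, killEven,
      lift_comp_lift, lift_comp_lift]
    congr 2
    funext m
    by_cases h : Even m <;> simp [h]
  refine ⟨odd (projA P), odd_mem (projA_mem hP), ?_, ?_⟩
  · intro z
    rw [hψP, evE_of_sq _ _ (rep2_sq hY).2.2,
      lift_inner (Em (Y 0) (Y 4)) eA (fun m a => (rep2_E hY m a).1) (projA P) z]
    have h1 : FreeLieAlgebra.lift K2 eA (projA P) = FreeLieAlgebra.lift K2 pk (odd (projA P)) := by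
      rw [lift_odd, hlift]
      congr 2
      funext m
      by_cases h : Even m <;> simp [h, eA]
    rw [h1, Ring.lie_def]
  · intro hα
    have hpA : projA P = 0 := by
      refine toFree_injOn (fun m : ℕ => m + 2) (fun _ => by omega) fin_wt (projA_mem hP) ?_
      rw [toFree, hlift]
      have h2 := lift_odd (fun k => FreeAlgebra.ι K2 (2 * k + 1)) (projA P)
      rw [hα, map_zero] at h2
      refine Eq.trans ?_ h2.symm
      congr 2
      funext m
      by_cases h : Even m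
      · simp [h]
      · have hm : 2 * (m / 2) + 1 = m :=
          Nat.two_mul_div_two_add_one_of_odd (Nat.not_even_iff_odd.mp h)
        simp [h, hm]
    obtain ⟨D1, D2, hD⟩ := exists_der1
    have hanti' : evE (FreeAlgebra.ι K2 (0 : Fin 2)) (FreeAlgebra.ι K2 1) P +
        evE (FreeAlgebra.ι K2 (1 : Fin 2)) (FreeAlgebra.ι K2 0) P = 0 := by
      rw [← hψP, ← hψP]
      exact hanti
    have h5' : ∑ i, evE (op5 D1 D2 p1 g1 s1 i) (op5 D1 D2 p1 g1 s1 (i + 1)) P = 0 := by
      rw [← h5 _ _ (op5_P5 hD)]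
      exact Finset.sum_congr rfl fun i _ => (hψP _ _).symm
    have h0 := step1 hn hP hpA hD hanti' h5'
    rw [← hψP] at h0
    refine toFree_injOn (fun _ : Fin 2 => 1) (fun _ => Nat.one_pos)
      (fun _ => Set.toFinite _) hψ ?_
    rw [toFree, ← h0]
    congr 2
    funext i
    fin_cases i <;> rfl

end Vale.Agent.P029
end
end
end

section

section

/-! P029 lower half: additive elements of the free associative algebra are Lie elements. -/

noncomputable section

attribute [local instance 100] LieRing.ofAssociativeRing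

namespace Vale.Agent.P029.Low

open Vale.Agent.P029 TrivSqZeroExt

namespace Friedrichs

variable {K : Type} [Field K]

/-- The word with letters `l`. -/
def wd (K : Type) [CommRing K] (l : List (Fin 2)) : FA K := (l.map (FreeAlgebra.ι K)).prod

/-- The span of the words of length `n`. -/
def Wd (K : Type) [CommRing K] (n : ℕ) : Submodule K (FA K) :=
  Submodule.span K {P | ∃ l : List (Fin 2), l.length = n ∧ P = wd K l}

lemma wd_cons (i : Fin 2) (l : List (Fin 2)) : wd K (i :: l) = FreeAlgebra.ι K i * wd K l := by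
  simp [wd]

lemma one_mem_Wd : (1 : FA K) ∈ Wd K 0 := Submodule.subset_span ⟨[], rfl, by simp [wd]⟩

lemma mul_mem_Wd {i j : ℕ} {P Q : FA K} (hP : P ∈ Wd K i) (hQ : Q ∈ Wd K j) :
    P * Q ∈ Wd K (i + j) := by
  have h := Submodule.mul_mem_mul hP hQ
  rw [Wd, Wd, Submodule.span_mul_span] at h
  refine Submodule.span_mono ?_ h
  rintro _ ⟨_, ⟨l, hl, rfl⟩, _, ⟨m, hm, rfl⟩, rfl⟩
  exact ⟨l ++ m, by simp [hl, hm], by simp [wd]⟩

lemma hp_mem (P : FA K) : ∀ k, hp k P ∈ Wd K k := by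
  induction P using FreeAlgebra.induction with
  | grade0 c =>
    intro k
    rw [hp, AlgHom.commutes, Polynomial.algebraMap_apply, Polynomial.coeff_C]
    split_ifs with h
    · rw [h, Algebra.algebraMap_eq_smul_one]
      exact Submodule.smul_mem _ _ one_mem_Wd
    · exact zero_mem _
  | grade1 i =>
    intro k
    rw [hp, hg, FreeAlgebra.lift_ι_apply, Polynomial.coeff_C_mul, Polynomial.coeff_X]
    split_ifs with h
    · rw [mul_one, ← h]
      exact Submodule.subset_span ⟨[i], rfl, by simp [wd]⟩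
    · rw [mul_zero]; exact zero_mem _
  | mul a b ha hb =>
    intro k
    rw [hp, map_mul, Polynomial.coeff_mul]
    refine Submodule.sum_mem _ fun ij hij => ?_
    rw [← Finset.HasAntidiagonal.mem_antidiagonal.1 hij]
    exact mul_mem_Wd (ha _) (hb _)
  | add a b ha hb =>
    intro k
    rw [hp, map_add, Polynomial.coeff_add]
    exact add_mem (ha k) (hb k)

/-- `P ↦ P + ε Eu(P)`. -/
def EuH (K : Type) [CommRing K] : FA K →ₐ[K] DualNumber (FA K) :=
  FreeAlgebra.lift K fun i => inl (FreeAlgebra.ι K i) + inr (FreeAlgebra.ι K i)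

lemma fst_EuH (P : FA K) : (EuH K P).fst = P := by
  have h : (TrivSqZeroExt.fstHom K (FA K) (FA K)).comp (EuH K) = AlgHom.id K (FA K) := by
    apply FreeAlgebra.hom_ext
    funext i
    simp [EuH]
  exact congrArg (fun f : FA K →ₐ[K] FA K => f P) h

/-- The Euler operator. -/
def Eu (K : Type) [CommRing K] : Module.End K (FA K) where
  toFun P := (EuH K P).snd
  map_add' P Q := by simp
  map_smul' c P := by simp

lemma Eu_one : Eu K 1 = 0 := by
  change (EuH K 1).snd = 0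
  rw [map_one, snd_one]

lemma Eu_mul (i : Fin 2) (P : FA K) :
    Eu K (FreeAlgebra.ι K i * P) = FreeAlgebra.ι K i * Eu K P + FreeAlgebra.ι K i * P := by
  change (EuH K (FreeAlgebra.ι K i * P)).snd = _ * (EuH K P).snd + _
  rw [map_mul, snd_mul, fst_EuH, fst_EuH]
  congr 1
  simp [EuH]

lemma Eu_wd (l : List (Fin 2)) : Eu K (wd K l) = (l.length : K) • wd K l := by
  induction l with
  | nil => simp [wd, Eu_one]
  | cons i l ih =>
    rw [wd_cons, Eu_mul, ih, List.length_cons, Nat.cast_add, Nat.cast_one, add_smul, one_smul,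
      mul_smul_comm]

lemma Eu_Wd {n : ℕ} {P : FA K} (hP : P ∈ Wd K n) : Eu K P = (n : K) • P := by
  induction hP using Submodule.span_induction with
  | mem x h =>
    obtain ⟨l, rfl, rfl⟩ := h
    exact Eu_wd l
  | zero => simp
  | add x y _ _ hx hy => rw [map_add, hx, hy, smul_add]
  | smul c x _ hx => rw [map_smul, hx, smul_comm]

/-- Left multiplication. -/
abbrev lam (K : Type) [CommRing K] : FA K →ₐ[K] Module.End K (FA K) := Algebra.lmul K (FA K)

/-- Left multiplication by a letter, on operators. -/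
abbrev la (K : Type) [CommRing K] (i : Fin 2) : Module.End K (Module.End K (FA K)) :=
  LinearMap.mulLeft K (lam K (FreeAlgebra.ι K i))

/-- Minus the right multiplication by a letter, on operators. -/
abbrev ra (K : Type) [CommRing K] (i : Fin 2) : Module.End K (Module.End K (FA K)) :=
  -LinearMap.mulRight K (lam K (FreeAlgebra.ι K i))

lemma ev_la (P : FA K) : ev (la K 0) (la K 1) P = LinearMap.mulLeft K (lam K P) := by
  have h : ev (la K 0) (la K 1) = (Algebra.lmul K (Module.End K (FA K))).comp (lam K) := by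
    apply FreeAlgebra.hom_ext
    funext i
    fin_cases i
    · simp only [Function.comp_apply, ev, FreeAlgebra.lift_ι_apply]; rfl
    · simp only [Function.comp_apply, ev, FreeAlgebra.lift_ι_apply]; rfl
  rw [h]; rfl

lemma ev_ra (P : FA K) : ∃ S, ev (ra K 0) (ra K 1) P = LinearMap.mulRight K S := by
  induction P using FreeAlgebra.induction with
  | grade0 c =>
    refine ⟨algebraMap K _ c, ?_⟩
    rw [AlgHom.commutes]
    ext Z : 1
    rw [LinearMap.mulRight_apply, Module.algebraMap_end_apply, ← Algebra.commutes,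
      Algebra.smul_def]
  | grade1 i =>
    refine ⟨-lam K (FreeAlgebra.ι K i), ?_⟩
    have : ev (ra K 0) (ra K 1) (FreeAlgebra.ι K i) = ra K i := by
      fin_cases i
      · simp only [ev, FreeAlgebra.lift_ι_apply]; rfl
      · simp only [ev, FreeAlgebra.lift_ι_apply]; rfl
    rw [this]
    ext Z : 1
    rw [LinearMap.mulRight_apply, LinearMap.neg_apply, LinearMap.mulRight_apply, mul_neg]
  | mul a b ha hb =>
    obtain ⟨S, hS⟩ := ha
    obtain ⟨T, hT⟩ := hb
    refine ⟨T * S, ?_⟩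
    rw [map_mul, hS, hT]
    ext Z : 1
    rw [Module.End.mul_apply, LinearMap.mulRight_apply, LinearMap.mulRight_apply,
      LinearMap.mulRight_apply, mul_assoc]
  | add a b ha hb =>
    obtain ⟨S, hS⟩ := ha
    obtain ⟨T, hT⟩ := hb
    refine ⟨S + T, ?_⟩
    rw [map_add, hS, hT]
    ext Z : 1
    rw [LinearMap.add_apply, LinearMap.mulRight_apply, LinearMap.mulRight_apply,
      LinearMap.mulRight_apply, mul_add]

/-- `Φ(P) = P(ad L_x, ad L_y)`. -/
abbrev Ph (K : Type) [CommRing K] : FA K →ₐ[K] Module.End K (Module.End K (FA K)) :=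
  ev (la K 0 + ra K 0) (la K 1 + ra K 1)

lemma Ph_letter (i : Fin 2) (P : FA K) (Z : Module.End K (FA K)) :
    Ph K (FreeAlgebra.ι K i * P) Z =
      lam K (FreeAlgebra.ι K i) * Ph K P Z - Ph K P Z * lam K (FreeAlgebra.ι K i) := by
  have : Ph K (FreeAlgebra.ι K i) = la K i + ra K i := by
    fin_cases i
    · simp only [ev, FreeAlgebra.lift_ι_apply]; rfl
    · simp only [ev, FreeAlgebra.lift_ι_apply]; rfl
  rw [map_mul, this, Module.End.mul_apply, LinearMap.add_apply, LinearMap.mulLeft_apply,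
    LinearMap.neg_apply, LinearMap.mulRight_apply, sub_eq_add_neg]

lemma Ph_one (l : List (Fin 2)) : Ph K (wd K l) 1 = if l = [] then 1 else 0 := by
  induction l with
  | nil => simp [wd]
  | cons i l ih =>
    rw [wd_cons, Ph_letter, ih]
    split_ifs <;> simp_all

lemma Ph_one' {n : ℕ} (hn : 1 ≤ n) {P : FA K} (hP : P ∈ Wd K n) : Ph K P 1 = 0 := by
  induction hP using Submodule.span_induction with
  | mem x h =>
    obtain ⟨l, rfl, rfl⟩ := h
    rw [Ph_one, if_neg]
    rintro rfl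
    simp at hn
  | zero => simp
  | add x y _ _ hx hy => rw [map_add, LinearMap.add_apply, hx, hy, add_zero]
  | smul c x _ hx => rw [map_smul, LinearMap.smul_apply, hx, smul_zero]

lemma lam_mul (P Q : FA K) : lam K P Q = P * Q := rfl

lemma toFree_of' (i : Fin 2) :
    toFree K (Fin 2) (FreeLieAlgebra.of K i) = FreeAlgebra.ι K i := by
  rw [toFree, FreeLieAlgebra.lift_of_apply]

lemma lie_mem {n : ℕ} (i : Fin 2) {ψ : LK K} (hψ : ψ ∈ wt2 K n) :
    ⁅FreeLieAlgebra.of K i, ψ⁆ ∈ wt2 K (n + 1) := by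
  induction hψ using Submodule.span_induction with
  | mem x h =>
    obtain ⟨t, ht, rfl⟩ := h
    refine Submodule.subset_span ⟨Tr.node (Tr.leaf i) t, ?_, rfl⟩
    rw [Tr.wt, Tr.wt, ht, add_comm]
  | zero => rw [lie_zero]; exact zero_mem _
  | add x y _ _ hx hy => rw [lie_add]; exact add_mem hx hy
  | smul c x _ hx => rw [lie_smul]; exact Submodule.smul_mem _ _ hx

lemma Ph_Eu (i : Fin 2) (l : List (Fin 2)) : ∃ ψ ∈ wt2 K (l.length + 1),
    Ph K (wd K (i :: l)) (Eu K) = -lam K (toFree K (Fin 2) ψ) := by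
  induction l generalizing i with
  | nil =>
    refine ⟨FreeLieAlgebra.of K i, Submodule.subset_span ⟨Tr.leaf i, rfl, rfl⟩, ?_⟩
    rw [wd_cons, Ph_letter, toFree_of']
    have h1 : wd K [] = 1 := by simp [wd]
    rw [h1, map_one, Module.End.one_apply]
    refine LinearMap.ext fun P => ?_
    rw [LinearMap.sub_apply, Module.End.mul_apply, Module.End.mul_apply, LinearMap.neg_apply,
      lam_mul, lam_mul, Eu_mul]
    abel
  | cons j l ih =>
    obtain ⟨ψ, hψ, h⟩ := ih j
    refine ⟨⁅FreeLieAlgebra.of K i, ψ⁆, lie_mem i hψ, ?_⟩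
    rw [wd_cons, Ph_letter, h, LieHom.map_lie, LieRing.of_associative_ring_bracket, toFree_of',
      map_sub, map_mul, map_mul]
    rw [mul_neg, neg_mul]
    abel

lemma Ph_Eu' {n : ℕ} (hn : 1 ≤ n) {P : FA K} (hP : P ∈ Wd K n) :
    ∃ ψ ∈ wt2 K n, Ph K P (Eu K) = -lam K (toFree K (Fin 2) ψ) := by
  induction hP using Submodule.span_induction with
  | mem x h =>
    obtain ⟨l, rfl, rfl⟩ := h
    cases l with
    | nil => simp at hn
    | cons i l => exact Ph_Eu i l
  | zero => exact ⟨0, zero_mem _, by simp⟩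
  | add x y _ _ hx hy =>
    obtain ⟨ψ, hψ, h⟩ := hx
    obtain ⟨φ, hφ, h'⟩ := hy
    refine ⟨ψ + φ, add_mem hψ hφ, ?_⟩
    rw [map_add, LinearMap.add_apply, h, h', map_add, map_add, neg_add]
  | smul c x _ hx =>
    obtain ⟨ψ, hψ, h⟩ := hx
    refine ⟨c • ψ, Submodule.smul_mem _ _ hψ, ?_⟩
    rw [map_smul, LinearMap.smul_apply, h, map_smul, map_smul, smul_neg]

end Friedrichs

open Friedrichs in
/-- Homogeneous additive elements of the free associative algebra are Lie elements. -/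
theorem lie_of_add {K : Type} [Field K] [CharZero K] {n : ℕ} (hn : 1 ≤ n) {χ : FA K}
    (hhom : hp n χ = χ)
    (hadd : ∀ (B : Type) [Ring B] [Algebra K B] (a b a' b' : B),
      a * a' = a' * a → a * b' = b' * a → b * a' = a' * b → b * b' = b' * b →
      ev (a + a') (b + b') χ = ev a b χ + ev a' b' χ) :
    ∃ ψ ∈ wt2 K n, toFree K (Fin 2) ψ = χ := by
  have hχ : χ ∈ Wd K n := by rw [← hhom]; exact hp_mem χ n
  have hc : ∀ i j : Fin 2, la K i * ra K j = ra K j * la K i := by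
    intro i j
    refine LinearMap.ext fun Z => ?_
    rw [Module.End.mul_apply, Module.End.mul_apply, LinearMap.neg_apply, LinearMap.neg_apply,
      LinearMap.mulLeft_apply, LinearMap.mulLeft_apply, LinearMap.mulRight_apply,
      LinearMap.mulRight_apply, mul_neg, mul_assoc]
  have h := hadd (Module.End K (Module.End K (FA K))) (la K 0) (la K 1) (ra K 0) (ra K 1)
    (hc 0 0) (hc 0 1) (hc 1 0) (hc 1 1)
  obtain ⟨S, hS⟩ := ev_ra χ
  rw [ev_la, hS] at h
  have hZ : ∀ Z, Ph K χ Z = lam K χ * Z + Z * S := fun Z => by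
    change ev (la K 0 + ra K 0) (la K 1 + ra K 1) χ Z = _
    rw [h, LinearMap.add_apply, LinearMap.mulLeft_apply, LinearMap.mulRight_apply]
  have hS' : S = -lam K χ := by
    have h1 := hZ 1
    rw [Ph_one' hn hχ, mul_one, one_mul] at h1
    exact eq_neg_of_add_eq_zero_right h1.symm
  obtain ⟨ψ, hψ, h2⟩ := Ph_Eu' hn hχ
  rw [hZ, hS'] at h2
  have h3 := congrArg (fun f : Module.End K (FA K) => f 1) h2
  have h4 : χ * Eu K 1 - Eu K (χ * 1) = -(toFree K (Fin 2) ψ * 1) := by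
    rw [sub_eq_add_neg]
    have : (lam K χ * Eu K + Eu K * -lam K χ) 1 = χ * Eu K 1 + -Eu K (χ * 1) := by
      rw [LinearMap.add_apply, Module.End.mul_apply, Module.End.mul_apply, LinearMap.neg_apply,
        map_neg, lam_mul, lam_mul]
    rw [← this]
    exact h3
  rw [Eu_one, mul_zero, mul_one, mul_one, zero_sub, neg_inj, Eu_Wd hχ] at h4
  have hn0 : (n : K) ≠ 0 := Nat.cast_ne_zero.2 (by omega)
  refine ⟨(n : K)⁻¹ • ψ, Submodule.smul_mem _ _ hψ, ?_⟩
  rw [map_smul, ← h4, smul_smul, inv_mul_cancel₀ hn0, one_smul]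

end Vale.Agent.P029.Low
end
end
end

section

section

/-! P029 lower half, EE: solutions of the linearised equations come from `Sol`. -/

noncomputable section

attribute [local instance 100] LieRing.ofAssociativeRing

namespace Vale.Agent.P029.Low

open Vale.Agent.P029

namespace SolLin

/-- `ev` on Lie elements is the substitution. -/
theorem ev_toFree {K B : Type} [CommRing K] [Ring B] [Algebra K B] (a b : B) (ψ : LK K) :
    ev a b (toFree K (Fin 2) ψ) = sb a b ψ := by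
  have h : ((ev a b : FA K →ₐ[K] B).toLieHom).comp (toFree K (Fin 2)) = sb a b := by
    apply FreeLieAlgebra.hom_ext
    intro i
    fin_cases i <;> simp [toFree, sb, ev, FreeLieAlgebra.lift_of_apply]
  exact congrArg (fun F : LK K →ₗ⁅K⁆ B => F ψ) h

end SolLin

open SolLin

/- EE -/
theorem sol_of_lin {n : ℕ} (hn : 2 ≤ n) {χ : FA ℂ} (hhom : hp n χ = χ) (h : Lin χ) :
    ∃ ψ, Sol ℂ n ψ ∧ toFree ℂ (Fin 2) ψ = χ := by
  obtain ⟨ψ, hψ, rfl⟩ := lie_of_add (by omega) hhom h.add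
  have hx : toFree ℂ (Fin 2) (kx ℂ) = FreeAlgebra.ι ℂ (0 : Fin 2) := by
    simp [toFree, kx, FreeLieAlgebra.lift_of_apply]
  have hy : toFree ℂ (Fin 2) (ky ℂ) = FreeAlgebra.ι ℂ (1 : Fin 2) := by
    simp [toFree, ky, FreeLieAlgebra.lift_of_apply]
  have hkz : -kx ℂ - ky ℂ ∈ wt2 ℂ 1 := sub_mem (neg_mem kx_wt) ky_wt
  have hinj : ∀ a ∈ wt2 ℂ n, toFree ℂ (Fin 2) a = 0 → a = 0 := fun a ha h0 =>
    toFree_inj (fun _ : Fin 2 => 1) (fun _ => Nat.one_pos) (fun _ => Set.toFinite _) n ha h0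
  have hself : toFree ℂ (Fin 2) ψ = sb (toFree ℂ (Fin 2) (kx ℂ)) (toFree ℂ (Fin 2) (ky ℂ)) ψ := by
    rw [← map_sb, sb_id]
  have hanti : ψ + sb (ky ℂ) (kx ℂ) ψ = 0 := by
    apply hinj
    · exact add_mem hψ (sb_wt ky_wt kx_wt hψ)
    · rw [map_add, map_sb, hself, ← ev_toFree, ← ev_toFree]
      exact h.anti (FA ℂ) _ _
  refine ⟨ψ, ⟨hψ, hanti, ?_, ?_⟩, rfl⟩
  · apply hinj
    · exact add_mem (add_mem hψ (sb_wt ky_wt hkz hψ)) (sb_wt hkz kx_wt hψ)
    · rw [map_add, map_add, map_sb, map_sb, hself, ← ev_toFree, ← ev_toFree, ← ev_toFree]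
      exact h.hexa (FA ℂ) _ _ _ (by rw [map_sub, map_neg]; abel)
  · refine penta_of_assoc hn hψ hanti ?_
    intro B _ _ X hX
    have := h.penta B X hX
    simpa only [pent, ← ev_toFree] using this

end Vale.Agent.P029.Low
end
end
end

section

section

/-! P029 lower half, EC3, EC4, ED2: the sign change `P(x, y) ↦ P(-x, -y)` and truncation. -/

noncomputable section

attribute [local instance 100] LieRing.ofAssociativeRing

namespace Vale.Agent.P029.Low

open Vale.Agent.P029 TrivSqZeroExt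

namespace AssocNeg

lemma ev_ext {K B : Type} [CommRing K] [Ring B] [Algebra K B] {f g : FA K →ₐ[K] B}
    (h0 : f (FreeAlgebra.ι K 0) = g (FreeAlgebra.ι K 0))
    (h1 : f (FreeAlgebra.ι K 1) = g (FreeAlgebra.ι K 1)) : f = g := by
  apply FreeAlgebra.hom_ext
  funext i
  fin_cases i
  · exact h0
  · exact h1

lemma ev_0 {K B : Type} [CommRing K] [Ring B] [Algebra K B] (a b : B) :
    ev a b (FreeAlgebra.ι K 0) = a := by simp [ev]

lemma ev_1 {K B : Type} [CommRing K] [Ring B] [Algebra K B] (a b : B) :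
    ev a b (FreeAlgebra.ι K 1) = b := by simp [ev]

lemma ev_neg {K B : Type} [CommRing K] [Ring B] [Algebra K B] (a b : B) (P : FA K) :
    ev a b (ev (-FreeAlgebra.ι K (0 : Fin 2)) (-FreeAlgebra.ι K (1 : Fin 2)) P) =
      ev (-a) (-b) P := by
  have h : (ev a b).comp (ev (-FreeAlgebra.ι K (0 : Fin 2)) (-FreeAlgebra.ι K (1 : Fin 2))) =
      (ev (-a) (-b) : FA K →ₐ[K] B) := by
    apply ev_ext <;> simp [ev_0, ev_1]
  rw [← h]
  rfl

lemma nil_neg {B : Type} [Ring B] {S T : Set B} {N : ℕ} (h : KZ.NilS S N) (hT : ∀ x ∈ T, -x ∈ S) :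
    KZ.NilS T N := by
  have key : ∀ l : List B, (∀ x ∈ l, x ∈ T) → ∃ l' : List B, l'.length = l.length ∧
      (∀ x ∈ l', x ∈ S) ∧ (l.prod = l'.prod ∨ l.prod = -l'.prod) := by
    intro l
    induction l with
    | nil => intro _; exact ⟨[], rfl, by simp, Or.inl rfl⟩
    | cons a l ih =>
      intro hl
      obtain ⟨l', h1, h2, h3⟩ := ih fun x hx => hl x (List.mem_cons_of_mem _ hx)
      refine ⟨-a :: l', by simp [h1], ?_, ?_⟩
      · intro x hx
        rcases List.mem_cons.mp hx with rfl | hx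
        · exact hT a (hl a List.mem_cons_self)
        · exact h2 x hx
      · rcases h3 with h3 | h3
        · right; simp [h3]
        · left; simp [h3]
  intro l hlen hl
  obtain ⟨l', h1, h2, h3⟩ := key l hl
  have h4 := h l' (h1.trans hlen) h2
  rcases h3 with h3 | h3
  · rw [h3, h4]
  · rw [h3, h4, neg_zero]

lemma expT_neg {B : Type} [Ring B] [Algebra ℂ B] (N : ℕ) (c : ℂ) (a : B) :
    KZ.expT N (-c) (-a) = KZ.expT N c a := by
  unfold KZ.expT
  refine Finset.sum_congr rfl fun k _ => ?_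
  rcases Nat.even_or_odd k with hk | hk
  · rw [hk.neg_pow, hk.neg_pow]
  · rw [hk.neg_pow, hk.neg_pow, neg_div, neg_smul_neg]

lemma hg_neg (P : FA ℂ) (k : ℕ) :
    hp k (ev (-FreeAlgebra.ι ℂ (0 : Fin 2)) (-FreeAlgebra.ι ℂ (1 : Fin 2)) P) =
      (-1 : ℂ) ^ k • hp k P := by
  have hι : ∀ i : Fin 2, ev (-FreeAlgebra.ι ℂ (0 : Fin 2)) (-FreeAlgebra.ι ℂ (1 : Fin 2))
      (FreeAlgebra.ι ℂ i) = -FreeAlgebra.ι ℂ i := by
    intro i
    fin_cases i
    · exact ev_0 _ _
    · exact ev_1 _ _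
  induction P using FreeAlgebra.induction generalizing k with
  | grade0 r =>
    rw [AlgHom.commutes, hp, AlgHom.commutes, Polynomial.algebraMap_apply, Polynomial.coeff_C]
    by_cases hk : k = 0
    · subst hk; simp
    · simp [hk]
  | grade1 i =>
    rw [hι, hp, hp, map_neg, Polynomial.coeff_neg, hg, FreeAlgebra.lift_ι_apply]
    rw [Polynomial.coeff_C_mul, Polynomial.coeff_X]
    by_cases hk : 1 = k
    · subst hk; simp
    · simp [hk]
  | mul a b ha hb =>
    rw [map_mul, hp, hp, map_mul, map_mul, Polynomial.coeff_mul, Polynomial.coeff_mul,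
      Finset.smul_sum]
    refine Finset.sum_congr rfl fun p hp' => ?_
    have h1 := ha p.1
    have h2 := hb p.2
    rw [hp, hp] at h1 h2
    rw [h1, h2, smul_mul_smul_comm, ← pow_add, Finset.HasAntidiagonal.mem_antidiagonal.mp hp']
  | add a b ha hb =>
    have h1 := ha k
    have h2 := hb k
    rw [hp, hp] at h1 h2
    rw [map_add, hp, hp, map_add, map_add, Polynomial.coeff_add, Polynomial.coeff_add, h1, h2,
      smul_add]

end AssocNeg

open AssocNeg

theorem assoc_neg {N : ℕ} {P : FA ℂ} (h : Assoc N P) :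
    Assoc N (ev (-FreeAlgebra.ι ℂ (0 : Fin 2)) (-FreeAlgebra.ι ℂ (1 : Fin 2)) P) := by
  refine ⟨?_, ?_, ?_, ?_, ?_, ?_⟩
  · rw [hg_neg, h.one, pow_zero, one_smul]
  · rw [hg_neg, h.lin, smul_zero]
  · intro B _ _ a b a' b' hN h1 h2 h3 h4
    rw [ev_neg, ev_neg, ev_neg, neg_add, neg_add]
    refine h.gl B (-a) (-b) (-a') (-b') (nil_neg hN ?_) ?_ ?_ ?_ ?_
    · intro x hx
      simp only [Set.mem_insert_iff, Set.mem_singleton_iff] at hx ⊢
      rcases hx with rfl | rfl | rfl | rfl <;> simp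
    · rw [neg_mul_neg, neg_mul_neg, h1]
    · rw [neg_mul_neg, neg_mul_neg, h2]
    · rw [neg_mul_neg, neg_mul_neg, h3]
    · rw [neg_mul_neg, neg_mul_neg, h4]
  · intro B _ _ a b hN
    rw [ev_neg, ev_neg]
    refine h.inv B (-a) (-b) (nil_neg hN ?_)
    intro x hx
    simp only [Set.mem_insert_iff, Set.mem_singleton_iff] at hx ⊢
    rcases hx with rfl | rfl <;> simp
  · intro B _ _ a b c hN h0 s hs
    rw [ev_neg, ev_neg, ev_neg]
    have h1 := h.hex B (-a) (-b) (-c) (nil_neg hN ?_) ?_ (-s) ?_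
    · have e : -s * Complex.I * (Real.pi : ℂ) = -(s * Complex.I * (Real.pi : ℂ)) := by ring
      rw [e, expT_neg, expT_neg, expT_neg] at h1
      exact h1
    · intro x hx
      simp only [Set.mem_insert_iff, Set.mem_singleton_iff] at hx ⊢
      rcases hx with rfl | rfl <;> simp
    · rw [← neg_add, ← neg_add, h0, neg_zero]
    · rcases hs with rfl | rfl
      · right; rfl
      · left; simp
  · intro B _ _ X hX hN
    simp only [ev_neg]
    refine h.pent B (fun i j => -X i j) ⟨?_, ?_, ?_, ?_⟩ (nil_neg hN ?_)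
    · intro i; simp [hX.diag i]
    · intro i j; rw [hX.symm i j]
    · intro i
      rw [Finset.sum_neg_distrib, hX.sum i, neg_zero]
    · intro i j k l h1 h2 h3 h4 h5 h6
      simp only [neg_lie, lie_neg, neg_neg]
      exact hX.comm i j k l h1 h2 h3 h4 h5 h6
    · rintro x ⟨i, j, rfl⟩
      exact ⟨i, j, by simp⟩

/-- The sign change on the monoid algebra. -/
def AssocNeg.NM : MonoidAlgebra ℂ (FreeMonoid (Fin 2)) →ₐ[ℂ] MonoidAlgebra ℂ (FreeMonoid (Fin 2)) :=
  MonoidAlgebra.lift ℂ _ (FreeMonoid (Fin 2))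
    (FreeMonoid.lift fun i => -MonoidAlgebra.of ℂ (FreeMonoid (Fin 2)) (FreeMonoid.of i))

lemma AssocNeg.NM_equiv (P : FA ℂ) : FreeAlgebra.equivMonoidAlgebraFreeMonoid
    (ev (-FreeAlgebra.ι ℂ (0 : Fin 2)) (-FreeAlgebra.ι ℂ (1 : Fin 2)) P) =
      NM (FreeAlgebra.equivMonoidAlgebraFreeMonoid P) := by
  have : (FreeAlgebra.equivMonoidAlgebraFreeMonoid (R := ℂ) (X := Fin 2)).toAlgHom.comp
      (ev (-FreeAlgebra.ι ℂ (0 : Fin 2)) (-FreeAlgebra.ι ℂ (1 : Fin 2))) =
      NM.comp (FreeAlgebra.equivMonoidAlgebraFreeMonoid (R := ℂ) (X := Fin 2)).toAlgHom := by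
    apply ev_ext <;>
      simp [NM, ev, FreeAlgebra.equivMonoidAlgebraFreeMonoid, MonoidAlgebra.lift_single]
  exact congrArg (fun F : FA ℂ →ₐ[ℂ] _ => F P) this

lemma AssocNeg.prod_list (l : List (Fin 2)) :
    (l.map fun i => -MonoidAlgebra.of ℂ (FreeMonoid (Fin 2)) (FreeMonoid.of i)).prod =
      (-1 : ℂ) ^ l.length • MonoidAlgebra.of ℂ (FreeMonoid (Fin 2)) (FreeMonoid.ofList l) := by
  induction l with
  | nil => simp [MonoidAlgebra.one_def]
  | cons i l ih =>
    rw [List.map_cons, List.prod_cons, ih, FreeMonoid.ofList_cons, map_mul, List.length_cons,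
      pow_succ, mul_smul_comm, neg_mul, smul_neg, mul_neg_one, neg_smul]

lemma AssocNeg.NM_coeff (w : FreeMonoid (Fin 2)) (f : MonoidAlgebra ℂ (FreeMonoid (Fin 2))) :
    (NM f).coeff w = (-1) ^ w.toList.length * f.coeff w := by
  induction f using MonoidAlgebra.induction_linear with
  | zero => simp
  | add a b ha hb => simp [ha, hb, mul_add]
  | single v c =>
    classical
    rw [NM, MonoidAlgebra.lift_single, FreeMonoid.lift_apply, prod_list, FreeMonoid.ofList_toList]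
    rw [MonoidAlgebra.of_apply, MonoidAlgebra.coeff_smul, MonoidAlgebra.coeff_smul,
      MonoidAlgebra.coeff_single, MonoidAlgebra.coeff_single, Finsupp.smul_apply,
      Finsupp.smul_apply, Finsupp.single_apply, Finsupp.single_apply]
    by_cases hw : v = w
    · subst hw; simp [mul_comm]
    · simp [hw]

theorem cXY_neg (m : ℕ) (P : FA ℂ) :
    cXY m (ev (-FreeAlgebra.ι ℂ (0 : Fin 2)) (-FreeAlgebra.ι ℂ (1 : Fin 2)) P)
      = (-1) ^ (m + 1) * cXY m P := by
  unfold cXY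
  rw [NM_equiv, NM_coeff]
  simp

lemma AssocNeg.nil_mono {B : Type} [Ring B] {S : Set B} {N M : ℕ} (hM : M ≤ N)
    (h : KZ.NilS S M) : KZ.NilS S N := by
  intro l hl hS
  rw [← List.take_append_drop (M + 1) l, List.prod_append, h (l.take (M + 1)), zero_mul]
  · rw [List.length_take]; omega
  · intro x hx; exact hS x (List.mem_of_mem_take hx)

lemma AssocNeg.nil_span {B : Type} [Ring B] [Algebra ℂ B] {S : Set B} {M : ℕ}
    (h : KZ.NilS S M) (l' : List B) (h' : ∀ x ∈ l', x ∈ Submodule.span ℂ S) (l : List B)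
    (hl : ∀ x ∈ l, x ∈ S) (hlen : l.length + l'.length = M + 1) : l.prod * l'.prod = 0 := by
  induction l' generalizing l with
  | nil =>
    rw [List.prod_nil, mul_one]
    exact h l (by simpa using hlen) hl
  | cons t l' ih =>
    rw [List.prod_cons]
    have h1 := ih fun x hx => h' x (List.mem_cons_of_mem _ hx)
    have ht := h' t List.mem_cons_self
    have hlen2 : l.length + 1 + l'.length = M + 1 := by
      rw [List.length_cons] at hlen
      omega
    clear h' hlen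
    induction ht using Submodule.span_induction with
    | mem s hs =>
      have h2 := h1 (l ++ [s]) ?_ ?_
      · rw [List.prod_append, List.prod_singleton, mul_assoc] at h2
        exact h2
      · intro x hx
        rcases List.mem_append.mp hx with hx | hx
        · exact hl x hx
        · rw [List.mem_singleton.mp hx]; exact hs
      · rw [List.length_append, List.length_singleton]; exact hlen2
    | zero => simp
    | add x y _ _ hx hy => rw [add_mul, mul_add, hx, hy, add_zero]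
    | smul c x _ hx => rw [smul_mul_assoc, mul_smul_comm, hx, smul_zero]

lemma AssocNeg.expT_mono {B : Type} [Ring B] [Algebra ℂ B] {S : Set B} {N M : ℕ} (hM : M ≤ N)
    (h : KZ.NilS S M) {a : B} (ha : a ∈ Submodule.span ℂ S) (c : ℂ) :
    KZ.expT N c a = KZ.expT M c a := by
  have h0 : a ^ (M + 1) = 0 := by
    have h1 := nil_span h (List.replicate (M + 1) a)
      (fun x hx => by rw [List.eq_of_mem_replicate hx]; exact ha) [] (by simp) (by simp)
    simpa using h1
  unfold KZ.expT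
  symm
  refine Finset.sum_subset (fun k hk => ?_) (fun k _ hk => ?_)
  · rw [Finset.mem_range] at hk ⊢; omega
  · rw [Finset.mem_range, not_lt] at hk
    obtain ⟨j, rfl⟩ := Nat.exists_eq_add_of_le hk
    rw [pow_add a, h0, zero_mul, smul_zero]

theorem assoc_mono {N M : ℕ} (hM : M ≤ N) {P : FA ℂ} (h : Assoc N P) : Assoc M P := by
  refine ⟨h.one, h.lin, ?_, ?_, ?_, ?_⟩
  · intro B _ _ a b a' b' hN
    exact h.gl B a b a' b' (nil_mono hM hN)
  · intro B _ _ a b hN
    exact h.inv B a b (nil_mono hM hN)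
  · intro B _ _ a b c hN h0 s hs
    have ha : a ∈ Submodule.span ℂ ({a, b} : Set B) := Submodule.subset_span (by simp)
    have hb : b ∈ Submodule.span ℂ ({a, b} : Set B) := Submodule.subset_span (by simp)
    have hc : c ∈ Submodule.span ℂ ({a, b} : Set B) := by
      have e : c = -(a + b) := by rw [eq_neg_iff_add_eq_zero, add_comm]; exact h0
      rw [e]
      exact neg_mem (add_mem ha hb)
    rw [← expT_mono hM hN ha, ← expT_mono hM hN hb, ← expT_mono hM hN hc]
    exact h.hex B a b c (nil_mono hM hN) h0 s hs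
  · intro B _ _ X hX hN
    exact h.pent B X hX (nil_mono hM hN)

end Vale.Agent.P029.Low
end
end
end

section

section

/-! P029 lower half: the hexagon for the exponential action. -/

noncomputable section

attribute [local instance 100] LieRing.ofAssociativeRing

namespace Vale.Agent.P029.Low

open TrivSqZeroExt

/-- `P(a,b)` for Lie polynomials. -/
theorem hx_ev_toFree {K B : Type} [CommRing K] [Ring B] [Algebra K B] (a b : B) (ψ : LK K) :
    ev a b (toFree K (Fin 2) ψ) = sb a b ψ := by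
  induction ψ using lk_induction with
  | hx => simp [ev, toFree, kx, sb, FreeLieAlgebra.lift_of_apply]
  | hy => simp [ev, toFree, ky, sb, FreeLieAlgebra.lift_of_apply]
  | h0 => simp
  | hadd u v hu hv => simp [hu, hv]
  | hsmul c u hu => simp [hu]
  | hlie u v hu hv =>
    rw [LieHom.map_lie, LieHom.map_lie, LieRing.of_associative_ring_bracket,
      LieRing.of_associative_ring_bracket, map_sub, map_mul, map_mul, hu, hv]

/-- The span of the words of length at least `k`. -/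
def hxW (k : ℕ) : Submodule ℂ (FA ℂ) :=
  Submodule.span ℂ {f | ∃ l : List (Fin 2), k ≤ l.length ∧
      f = (l.map (FreeAlgebra.ι ℂ)).prod}

theorem hxW_mul {i j : ℕ} {f g : FA ℂ} (hf : f ∈ hxW i) (hg : g ∈ hxW j) :
    f * g ∈ hxW (i + j) := by
  unfold hxW at hf hg ⊢
  induction hf using Submodule.span_induction with
  | mem a ha =>
    obtain ⟨l, hl, rfl⟩ := ha
    induction hg using Submodule.span_induction with
    | mem b hb =>
      obtain ⟨s, hs, rfl⟩ := hb
      refine Submodule.subset_span ⟨l ++ s, ?_, by simp⟩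
      rw [List.length_append]; omega
    | zero => simp
    | add a b _ _ ha hb => rw [mul_add]; exact add_mem ha hb
    | smul c a _ ha => rw [mul_smul_comm]; exact Submodule.smul_mem _ _ ha
  | zero => simp
  | add a b _ _ ha hb => rw [add_mul]; exact add_mem ha hb
  | smul c a _ ha => rw [smul_mul_assoc]; exact Submodule.smul_mem _ _ ha

theorem hxW_bracket {i j : ℕ} {f g : FA ℂ} (hf : f ∈ hxW i) (hg : g ∈ hxW j) :
    ⁅f, g⁆ ∈ hxW (i + j) := by
  rw [LieRing.of_associative_ring_bracket]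
  refine sub_mem (hxW_mul hf hg) ?_
  rw [add_comm]
  exact hxW_mul hg hf

theorem hxW_letter (i : Fin 2) : FreeAlgebra.ι ℂ i ∈ hxW 1 :=
  Submodule.subset_span ⟨[i], by simp, by simp⟩

theorem hxW_toFree {m : ℕ} {ψ : LK ℂ} (hψ : ψ ∈ wt2 ℂ m) : toFree ℂ (Fin 2) ψ ∈ hxW m := by
  refine wt_induction (P := fun ψ => toFree ℂ (Fin 2) ψ ∈ hxW m) ?_ (by simp)
    (fun a b ha hb => by simpa using add_mem ha hb)
    (fun c a ha => by simpa using Submodule.smul_mem _ c ha) hψ
  intro t ht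
  rw [map_eval]
  subst ht
  clear hψ
  induction t with
  | leaf i =>
    have : toFree ℂ (Fin 2) (FreeLieAlgebra.of ℂ i) = FreeAlgebra.ι ℂ i := by
      simp [toFree, FreeLieAlgebra.lift_of_apply]
    simpa [Tr.eval, Tr.wt, this] using hxW_letter i
  | node a b ha hb => exact hxW_bracket ha hb

theorem hxW_anti {i j : ℕ} (h : i ≤ j) : hxW j ≤ hxW i := by
  refine Submodule.span_mono ?_
  rintro f ⟨l, hl, rfl⟩
  exact ⟨l, by omega, rfl⟩

section
variable {V : Type} [Ring V] [Algebra ℂ V] {N : ℕ} {δ : V →ₗ[ℂ] V} {Fil : ℕ → Submodule ℂ V}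

theorem hx_word (hF : FilAlg N δ Fil) {a b : V} (ha : a ∈ Fil 1) (hb : b ∈ Fil 1)
    (l : List (Fin 2)) : ev a b ((l.map (FreeAlgebra.ι ℂ)).prod) ∈ Fil l.length := by
  induction l with
  | nil => simp [hF.zero]
  | cons i l ih =>
    rw [List.map_cons, List.prod_cons, map_mul, List.length_cons, add_comm]
    refine hF.mul _ _ _ _ ?_ ih
    fin_cases i
    · simpa [ev] using ha
    · simpa [ev] using hb

theorem hx_anti (hF : FilAlg N δ Fil) {i j : ℕ} (h : i ≤ j) : Fil j ≤ Fil i := by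
  induction h with
  | refl => exact le_rfl
  | step _ ih => exact le_trans (hF.anti _) ih

theorem hx_ev_mem (hF : FilAlg N δ Fil) {a b : V} (ha : a ∈ Fil 1) (hb : b ∈ Fil 1)
    {k : ℕ} {P : FA ℂ} (hP : P ∈ hxW k) : ev a b P ∈ Fil k := by
  unfold hxW at hP
  induction hP using Submodule.span_induction with
  | mem f hf =>
    obtain ⟨l, hl, rfl⟩ := hf
    exact hx_anti hF hl (hx_word hF ha hb l)
  | zero => simp
  | add f g _ _ hf hg => rw [map_add]; exact add_mem hf hg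
  | smul c f _ hf => rw [map_smul]; exact Submodule.smul_mem _ _ hf

theorem hx_nil (hF : FilAlg N δ Fil) {S : Set V} (hS : ∀ x ∈ S, x ∈ Fil 1) : KZ.NilS S N := by
  intro l hl hmem
  have key : ∀ l : List V, (∀ x ∈ l, x ∈ S) → l.prod ∈ Fil l.length := by
    intro l
    induction l with
    | nil => intro _; simp [hF.zero]
    | cons x l ih =>
      intro h
      rw [List.prod_cons, List.length_cons, add_comm]
      exact hF.mul _ _ _ _ (hS x (h x (by simp))) (ih fun y hy => h y (by simp [hy]))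
  have h := key l hmem
  rw [hl, hF.top] at h
  simpa using h

/-- A derivation which is `[u, ·]` on `b` is `[u, ·]` on truncated exponentials. -/
theorem hx_expT (hF : FilAlg N δ Fil) {u b : V} (h : δ b = u * b - b * u) (s : ℂ) :
    δ (KZ.expT N s b) = u * KZ.expT N s b - KZ.expT N s b * u := by
  have h1 : δ 1 = 0 := by
    have := hF.leib 1 1
    simpa using this
  have hp : ∀ k : ℕ, δ (b ^ k) = u * b ^ k - b ^ k * u := by
    intro k
    induction k with
    | zero => simp [h1]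
    | succ k ih =>
      rw [pow_succ, hF.leib, ih, h]
      noncomm_ring
  unfold KZ.expT
  rw [map_sum, Finset.mul_sum, Finset.sum_mul, ← Finset.sum_sub_distrib]
  refine Finset.sum_congr rfl fun k _ => ?_
  rw [map_smul, hp, smul_sub, mul_smul_comm, smul_mul_assoc]

end

theorem hx_map_ev {V B : Type} [Ring V] [Algebra ℂ V] [Ring B] [Algebra ℂ B] (F : V →ₐ[ℂ] B)
    (a b : V) (P : FA ℂ) : F (ev a b P) = ev (F a) (F b) P := by
  have : F.comp (ev a b) = ev (F a) (F b) := by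
    apply FreeAlgebra.hom_ext
    funext i
    fin_cases i <;> simp [ev]
  rw [← this]
  rfl

theorem hx_map_expT {V B : Type} [Ring V] [Algebra ℂ V] [Ring B] [Algebra ℂ B] (F : V →ₐ[ℂ] B)
    (N : ℕ) (s : ℂ) (a : V) : F (KZ.expT N s a) = KZ.expT N s (F a) := by
  unfold KZ.expT
  rw [map_sum]
  refine Finset.sum_congr rfl fun k _ => ?_
  rw [map_smul, map_pow]

theorem hx_z {Q : FA ℂ} (hQ : Q ∈ hxW 2) (i : Fin 2) :
    (![0, Q] : Fin 2 → FA ℂ) i ∈ Submodule.span ℂ {f | ∃ l : List (Fin 2), 2 ≤ l.length ∧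
      f = (l.map (FreeAlgebra.ι ℂ)).prod} := by
  fin_cases i
  · exact Submodule.zero_mem _
  · exact hQ

section
variable {V : Type} [Ring V] [Algebra ℂ V]

/-- The three relations between the values of `ψ`. -/
theorem hx_rel {m : ℕ} (hm : 2 ≤ m) {ψ : LK ℂ} (h : Sol ℂ m ψ) (x y : V) :
    sb x y ψ + sb y (-x - y) ψ + sb (-x - y) x ψ = 0 ∧
    (y * sb x y ψ - sb x y ψ * y) +
      ((-x - y) * (-sb (-x - y) x ψ) - (-sb (-x - y) x ψ) * (-x - y)) = 0 := by
  have hanti : sb x (-x - y) ψ = -sb (-x - y) x ψ := by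
    have h1 := congrArg (sb x (-x - y)) h.anti
    rw [map_add, sb_sb, map_zero] at h1
    simp only [sb_x, sb_y] at h1
    exact eq_neg_of_add_eq_zero_left h1
  constructor
  · have h1 := congrArg (sb x y) h.hexa
    rw [map_add, map_add, sb_sb, sb_sb, map_zero] at h1
    simp only [sb_x, sb_y, map_sub, map_neg] at h1
    exact h1
  · have h1 := congrArg (sb x y) (GG_zero hm h)
    unfold GG at h1
    rw [map_add, LieHom.map_lie, LieHom.map_lie, sb_sb, map_zero] at h1
    simp only [sb_x, sb_y, map_sub, map_neg] at h1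
    rw [hanti, LieRing.of_associative_ring_bracket, LieRing.of_associative_ring_bracket] at h1
    exact h1

variable {N : ℕ} {δ : V →ₗ[ℂ] V} {Fil : ℕ → Submodule ℂ V}

theorem hx_prod (hF : FilAlg N δ Fil) {u v : V} (hu : u ∈ Fil 1) (hv : v ∈ Fil 1)
    (f1 f2 f3 f4 f5 f6 : V) (h : f6 * f5 * f4 * f3 * f2 * f1 = 1) :
    EX N δ 0 0 f6 * EX N δ 0 v f5 * EX N δ v v f4 * EX N δ v u f3 * EX N δ u u f2
      * EX N δ u 0 f1 = 1 := by
  have m0 : (0 : V) ∈ Fil 1 := zero_mem _
  rw [EX_mul hF m0 m0 hv, EX_mul hF m0 hv hv,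
      EX_mul hF m0 hv hu, EX_mul hF m0 hu hu, EX_mul hF m0 hu m0, h,
      EX_one hF]

theorem hx_core (hF : FilAlg N δ Fil) {m : ℕ} (hm : 2 ≤ m) {ψ : LK ℂ} (h : Sol ℂ m ψ) {P : FA ℂ}
    (e : ℂ) {x y z p1 p2 p3 : V} (hz : z = -x - y) (hxF : x ∈ Fil 1) (hyF : y ∈ Fil 1)
    (e1 : p1 = ev x y (toFree ℂ (Fin 2) ψ)) (e2 : p2 = ev y z (toFree ℂ (Fin 2) ψ))
    (e3 : p3 = ev z x (toFree ℂ (Fin 2) ψ))
    (hδx : δ x = 0) (hδy : δ y = y * p1 - p1 * y)
    (hhex : KZ.expT N e x * ev z x P * KZ.expT N e z * ev y z P * KZ.expT N e y * ev x y P = 1) :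
    KZ.expT N e x * ev z x (eTF N ψ P) * KZ.expT N e z * ev y z (eTF N ψ P)
      * KZ.expT N e y * ev x y (eTF N ψ P) = 1 := by
  have hψ1 : toFree ℂ (Fin 2) ψ ∈ hxW 1 := hxW_anti (by omega) (hxW_toFree h.wt)
  have hzF : z ∈ Fil 1 := by rw [hz]; exact sub_mem (neg_mem hxF) hyF
  have hp1F : p1 ∈ Fil 1 := by rw [e1]; exact hx_ev_mem hF hxF hyF hψ1
  have hp2F : p2 ∈ Fil 1 := by rw [e2]; exact hx_ev_mem hF hyF hzF hψ1
  obtain ⟨hsum, hG⟩ := hx_rel hm h x y
  rw [← hz, ← hx_ev_toFree, ← hx_ev_toFree, ← hx_ev_toFree, ← e1, ← e2, ← e3] at hsum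
  rw [← hz, ← hx_ev_toFree, ← hx_ev_toFree, ← e1, ← e3] at hG
  have hp3' : p3 = -p1 - p2 := by
    have : p3 = -(p1 + p2) := eq_neg_of_add_eq_zero_right hsum
    rw [this]; abel
  have hδz : δ z = (z * p2 - p2 * z) + ((-p1) * z - z * (-p1)) := by
    have h2 : y * p1 - p1 * y = -(z * (-p3) - (-p3) * z) := eq_neg_of_add_eq_zero_left hG
    have h3 : δ z = -(y * p1 - p1 * y) := by
      rw [hz, map_sub, map_neg, hδx, hδy]; abel
    rw [h3, h2, hp3']
    noncomm_ring
  have hδz' : δ z = (-p1 - p2) * z - z * (-p1 - p2) := by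
    rw [hδz]; noncomm_ring
  have f1 : ev x y (eTF N ψ P) = EX N δ (-p1) 0 (ev x y P) := by
    have := ev_eTF hF (ψ := ψ) (a := x) (b := y) (u := 0) (by rw [hδx]; simp)
      (by rw [hδy, ← e1]; simp) P
    rw [this, zero_sub, e1]
  have f2 : EX N δ (-p1) (-p1) (KZ.expT N e y) = KZ.expT N e y := by
    apply EX_conj
    apply hx_expT hF
    rw [hδy]; noncomm_ring
  have f3 : ev y z (eTF N ψ P) = EX N δ (-p1 - p2) (-p1) (ev y z P) := by
    have := ev_eTF hF (ψ := ψ) (a := y) (b := z) (u := -p1) (by rw [hδy]; noncomm_ring)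
      (by rw [← e2]; exact hδz) P
    rw [this, e2]
  have f4 : EX N δ (-p1 - p2) (-p1 - p2) (KZ.expT N e z) = KZ.expT N e z := by
    apply EX_conj
    exact hx_expT hF hδz' e
  have f5 : ev z x (eTF N ψ P) = EX N δ 0 (-p1 - p2) (ev z x P) := by
    have := ev_eTF hF (ψ := ψ) (a := z) (b := x) (u := -p1 - p2) hδz'
      (by rw [hδx, ← e3, hp3']; noncomm_ring) P
    rw [this, ← e3, hp3', sub_self]
  have f6 : EX N δ 0 0 (KZ.expT N e x) = KZ.expT N e x := by
    apply EX_conj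
    apply hx_expT hF
    rw [hδx]; simp
  have m1 : -p1 ∈ Fil 1 := neg_mem hp1F
  have m2 : -p1 - p2 ∈ Fil 1 := sub_mem m1 hp2F
  have key := hx_prod hF m1 m2 _ _ _ _ _ _ hhex
  rw [f6, ← f5, f4, ← f3, f2, ← f1] at key
  exact key

end

theorem hx_Q {ψ : LK ℂ} (h : toFree ℂ (Fin 2) ψ ∈ hxW 1) :
    ⁅(FreeAlgebra.ι ℂ (1 : Fin 2) : FA ℂ), toFree ℂ (Fin 2) ψ⁆ ∈ hxW 2 := by
  have := hxW_bracket (hxW_letter 1) h
  rwa [show (1 + 1 : ℕ) = 2 from rfl] at this

/- EF8 -/
theorem hex_exp {N m : ℕ} (hm : 2 ≤ m) {ψ : LK ℂ} (h : Sol ℂ m ψ) {P : FA ℂ} (hP : Assoc N P)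
    (B : Type) [Ring B] [Algebra ℂ B] (a b c : B) (hN : KZ.NilS {a, b} N) (h0 : a + b + c = 0)
    (s : ℂ) (hs : s = 1 ∨ s = -1) :
    KZ.expT N (s * Complex.I * Real.pi) a * ev c a (eTF N ψ P)
      * KZ.expT N (s * Complex.I * Real.pi) c * ev b c (eTF N ψ P)
      * KZ.expT N (s * Complex.I * Real.pi) b * ev a b (eTF N ψ P) = 1 := by
  have hψ1 : toFree ℂ (Fin 2) ψ ∈ hxW 1 := hxW_anti (by omega) (hxW_toFree h.wt)
  have hQ := hx_Q hψ1
  obtain ⟨V, _, _, X, δ, Fil, -, hF, hX, hδ, huniv⟩ := exists_univ (I := Fin 2) ∅ N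
    ![0, ⁅(FreeAlgebra.ι ℂ (1 : Fin 2) : FA ℂ), toFree ℂ (Fin 2) ψ⁆] (hx_z hQ)
    (fun B _ _ X _ f hf => absurd hf (Set.notMem_empty f))
  have hX' : X = ![X 0, X 1] := by
    funext i; fin_cases i <;> rfl
  have hδx : δ (X 0) = 0 := by
    have h1 := hδ 0
    rw [h1]
    exact map_zero _
  have hδy : δ (X 1) = X 1 * ev (X 0) (X 1) (toFree ℂ (Fin 2) ψ)
      - ev (X 0) (X 1) (toFree ℂ (Fin 2) ψ) * X 1 := by
    have h1 := hδ 1
    have h2 : FreeAlgebra.lift ℂ X = ev (X 0) (X 1) := congrArg (FreeAlgebra.lift ℂ) hX'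
    rw [h1, h2]
    change ev (X 0) (X 1) ⁅(FreeAlgebra.ι ℂ (1 : Fin 2) : FA ℂ), toFree ℂ (Fin 2) ψ⁆ = _
    rw [LieRing.of_associative_ring_bracket, map_sub, map_mul, map_mul]
    simp [ev]
  have hhex := hP.hex V (X 0) (X 1) (-X 0 - X 1) (hx_nil hF (by
    rintro w (rfl | rfl)
    · exact hX 0
    · exact hX 1)) (by abel) s hs
  have hV := hx_core hF hm h (s * Complex.I * Real.pi) rfl (hX 0) (hX 1) rfl rfl rfl hδx hδy hhex
  obtain ⟨F, hFX⟩ := huniv B ![a, b] (fun f hf => absurd hf (Set.notMem_empty f)) (by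
    intro l hl hmem
    refine hN l hl fun w hw => ?_
    obtain ⟨i, rfl⟩ := hmem w hw
    fin_cases i <;> simp)
  have hFx : F (X 0) = a := hFX 0
  have hFy : F (X 1) = b := hFX 1
  have hFz : F (-X 0 - X 1) = c := by
    rw [map_sub, map_neg, hFx, hFy]
    have : c = -(a + b) := eq_neg_of_add_eq_zero_right h0
    rw [this]; abel
  have := congrArg F hV
  simpa only [map_mul, map_one, hx_map_ev, hx_map_expT, hFx, hFy, hFz] using this

end Vale.Agent.P029.Low
end
end
end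

section

section

set_option linter.all false

/-! P029 lower half: descent of solutions from `ℂ` to `ℚ`. -/

noncomputable section

attribute [local instance 100] LieRing.ofAssociativeRing

namespace Vale.Agent.P029.Low

open Vale.Agent.P029 TensorProduct

namespace Descend

/-! ### Finite linear combinations of Lie monomials -/

theorem exists_rep {K : Type} [CommRing K] {n : ℕ} {ψ : LK K} (h : ψ ∈ wt2 K n) :
    ∃ (k : ℕ) (c : Fin k → K) (t : Fin k → Tr (Fin 2)), (∀ i, (t i).wt (fun _ => 1) = n) ∧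
      ψ = ∑ i, c i • (t i).eval (FreeLieAlgebra.of K) := by
  have h' : ψ ∈ Submodule.span K {a | ∃ t : Tr (Fin 2), t.wt (fun _ => 1) = n ∧
      a = t.eval (FreeLieAlgebra.of K)} := h
  rw [Submodule.mem_span_set'] at h'
  obtain ⟨k, c, g, hg⟩ := h'
  choose t ht ht' using fun i => (g i).2
  refine ⟨k, c, t, ht, ?_⟩
  rw [← hg]
  exact Finset.sum_congr rfl fun i _ => by rw [ht' i]

/-- The rational combination with the coefficients `l (c i)`. -/
def red {k : ℕ} (l : ℂ →ₗ[ℚ] ℚ) (c : Fin k → ℂ) (t : Fin k → Tr (Fin 2)) : L :=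
  ∑ i, l (c i) • (t i).eval (FreeLieAlgebra.of ℚ)

theorem red_wt {k n : ℕ} (l : ℂ →ₗ[ℚ] ℚ) (c : Fin k → ℂ) (t : Fin k → Tr (Fin 2))
    (ht : ∀ i, (t i).wt (fun _ => 1) = n) : red l c t ∈ wt2 ℚ n :=
  Submodule.sum_mem _ fun i _ => Submodule.smul_mem _ _ (Submodule.subset_span ⟨t i, ht i, rfl⟩)

/-! ### Extension of scalars -/

section
variable {g : Type} [LieRing g] [LieAlgebra ℚ g]

/-- The map `g → ℂ ⊗ g`. -/
def one (z : g) : ℂ ⊗[ℚ] g := (1 : ℂ) ⊗ₜ[ℚ] z

theorem one_add (a b : g) : one (a + b) = one a + one b := TensorProduct.tmul_add _ _ _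

theorem one_neg (a : g) : one (-a) = -one a := TensorProduct.tmul_neg _ _

theorem one_sub (a b : g) : one (a - b) = one a - one b := TensorProduct.tmul_sub _ _ _

theorem one_zero : one (0 : g) = 0 := TensorProduct.tmul_zero _ _

theorem one_lie (a b : g) : one ⁅a, b⁆ = ⁅one a, one b⁆ := by
  unfold one
  rw [LieAlgebra.ExtendScalars.bracket_tmul, mul_one]

theorem one_sum {ι : Type} (s : Finset ι) (f : ι → g) : one (∑ i ∈ s, f i) = ∑ i ∈ s, one (f i) :=
  TensorProduct.tmul_sum _ _ _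

/-- The map `c ⊗ z ↦ l(c) z`. -/
def lam (l : ℂ →ₗ[ℚ] ℚ) : ℂ ⊗[ℚ] g →ₗ[ℚ] g :=
  (TensorProduct.lid ℚ g).toLinearMap.comp (LinearMap.rTensor g l)

theorem lam_smul_one (l : ℂ →ₗ[ℚ] ℚ) (c : ℂ) (z : g) : lam l (c • one z) = l c • z := by
  unfold one lam
  rw [TensorProduct.smul_tmul', smul_eq_mul, mul_one]
  simp

theorem eval_one (a b : g) (t : Tr (Fin 2)) :
    t.eval ![one a, one b] = one (t.eval ![a, b]) := by
  induction t with
  | leaf i =>
    fin_cases i
    · rfl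
    · rfl
  | node u v hu hv => simp only [Tr.eval, hu, hv, one_lie]

theorem lam_sb {k : ℕ} (l : ℂ →ₗ[ℚ] ℚ) (c : Fin k → ℂ) (t : Fin k → Tr (Fin 2)) (a b : g) :
    lam l (sb (one a) (one b) (∑ i, c i • (t i).eval (FreeLieAlgebra.of ℂ))) =
      sb a b (red l c t) := by
  unfold red
  rw [map_sum, map_sum, map_sum]
  refine Finset.sum_congr rfl fun i _ => ?_
  have e1 : sb (one a) (one b) (c i • (t i).eval (FreeLieAlgebra.of ℂ)) =
      c i • sb (one a) (one b) ((t i).eval (FreeLieAlgebra.of ℂ)) := map_smul _ _ _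
  have e2 : sb a b (l (c i) • (t i).eval (FreeLieAlgebra.of ℚ)) =
      l (c i) • sb a b ((t i).eval (FreeLieAlgebra.of ℚ)) := map_smul _ _ _
  rw [e1, e2, sb_eval, sb_eval, eval_one, lam_smul_one]

end

/-! ### Coefficients of words -/

/-- Base change of the free associative algebra. -/
def bF : FA ℚ →ₐ[ℚ] FA ℂ := FreeAlgebra.lift ℚ (FreeAlgebra.ι ℂ)

theorem bF_ι (i : Fin 2) : bF (FreeAlgebra.ι ℚ i) = FreeAlgebra.ι ℂ i := by
  simp [bF]

theorem coeff_bF (P : FA ℚ) (w : FreeMonoid (Fin 2)) :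
    (FreeAlgebra.equivMonoidAlgebraFreeMonoid (bF P)).coeff w =
      (((FreeAlgebra.equivMonoidAlgebraFreeMonoid P).coeff w : ℚ) : ℂ) := by
  let F1 : FA ℚ →ₐ[ℚ] MonoidAlgebra ℂ (FreeMonoid (Fin 2)) :=
    ((FreeAlgebra.equivMonoidAlgebraFreeMonoid (R := ℂ) (X := Fin 2)).toAlgHom.restrictScalars
      ℚ).comp bF
  let F2 : FA ℚ →ₐ[ℚ] MonoidAlgebra ℂ (FreeMonoid (Fin 2)) :=
    (MonoidAlgebra.mapAlgHom (FreeMonoid (Fin 2)) (Algebra.ofId ℚ ℂ)).comp
      (FreeAlgebra.equivMonoidAlgebraFreeMonoid (R := ℚ) (X := Fin 2)).toAlgHom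
  have h : F1 = F2 := by
    apply FreeAlgebra.hom_ext
    funext i
    change FreeAlgebra.equivMonoidAlgebraFreeMonoid (bF (FreeAlgebra.ι ℚ i)) =
      MonoidAlgebra.mapAlgHom (FreeMonoid (Fin 2)) (Algebra.ofId ℚ ℂ)
        (FreeAlgebra.equivMonoidAlgebraFreeMonoid (FreeAlgebra.ι ℚ i))
    rw [bF_ι]
    simp [FreeAlgebra.equivMonoidAlgebraFreeMonoid]
  have h1 : (F1 P).coeff w = (F2 P).coeff w := by rw [h]
  refine h1.trans ?_
  change (MonoidAlgebra.mapAlgHom (FreeMonoid (Fin 2)) (Algebra.ofId ℚ ℂ)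
        (FreeAlgebra.equivMonoidAlgebraFreeMonoid P)).coeff w = _
  rw [MonoidAlgebra.coeff_mapAlgHom]
  rfl

theorem bF_eval (t : Tr (Fin 2)) :
    bF (t.eval (FreeAlgebra.ι ℚ)) = t.eval (FreeAlgebra.ι ℂ) := by
  induction t with
  | leaf i => exact bF_ι i
  | node a b ha hb =>
    simp only [Tr.eval, LieRing.of_associative_ring_bracket, map_sub, map_mul, ha, hb]

theorem toFree_eval' (K : Type) [CommRing K] (t : Tr (Fin 2)) :
    toFree K (Fin 2) (t.eval (FreeLieAlgebra.of K)) = t.eval (FreeAlgebra.ι K) := by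
  rw [map_eval]
  congr 1
  funext i
  simp [toFree, FreeLieAlgebra.lift_of_apply]

/-- The coefficient of `x^m y` is linear. -/
def cL (K : Type) [CommRing K] (m : ℕ) : FA K →ₗ[K] K where
  toFun P := cXY m P
  map_add' P Q := by
    unfold cXY
    rw [map_add]
    rfl
  map_smul' c P := by
    unfold cXY
    rw [map_smul]
    rfl

theorem cL_apply (K : Type) [CommRing K] (m : ℕ) (P : FA K) : cL K m P = cXY m P := rfl

theorem cXY_bF (m : ℕ) (P : FA ℚ) : cXY m (bF P) = ((cXY m P : ℚ) : ℂ) := coeff_bF P _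

theorem coefXY_eq (m : ℕ) (φ : L) : coefXY m φ = cXY m (toFree ℚ (Fin 2) φ) := rfl

theorem cXY_red {k : ℕ} (l : ℂ →ₗ[ℚ] ℚ) (c : Fin k → ℂ) (t : Fin k → Tr (Fin 2)) (m : ℕ) :
    coefXY m (red l c t) =
      l (cXY m (toFree ℂ (Fin 2) (∑ i, c i • (t i).eval (FreeLieAlgebra.of ℂ)))) := by
  rw [coefXY_eq, ← cL_apply, ← cL_apply]
  unfold red
  rw [map_sum, map_sum, map_sum, map_sum, map_sum]
  refine Finset.sum_congr rfl fun i _ => ?_
  rw [map_smul, map_smul, map_smul, map_smul, toFree_eval', toFree_eval', cL_apply, cL_apply,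
    ← bF_eval, cXY_bF]
  have e : c i • ((cXY m ((t i).eval (FreeAlgebra.ι ℚ)) : ℚ) : ℂ) =
      (cXY m ((t i).eval (FreeAlgebra.ι ℚ)) : ℚ) • c i := by
    rw [Rat.smul_def, smul_eq_mul, mul_comm]
  rw [e, map_smul, smul_eq_mul, smul_eq_mul, mul_comm]

end Descend

open Descend

/- EI1 -/
theorem sol_descend {n : ℕ} (hn : 2 ≤ n) {ψ : LK ℂ} (h : Sol ℂ n ψ) (m : ℕ)
    (hc : cXY m (toFree ℂ (Fin 2) ψ) ≠ 0) :
    ∃ φ : L, Sol ℚ n φ ∧ coefXY m φ ≠ 0 := by
  obtain ⟨k, c, t, ht, hψ⟩ := exists_rep h.wt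
  obtain ⟨l, hl⟩ : ∃ l : ℂ →ₗ[ℚ] ℚ, l (cXY m (toFree ℂ (Fin 2) ψ)) ≠ 0 := by
    by_contra hcon
    push Not at hcon
    exact hc ((Module.forall_dual_apply_eq_zero_iff ℚ _).1 hcon)
  have key : ∀ (g : Type) [LieRing g] [LieAlgebra ℚ g] (a b : g),
      lam l (sb (one a) (one b) ψ) = sb a b (red l c t) := by
    intro g _ _ a b
    rw [hψ]
    exact lam_sb l c t a b
  refine ⟨red l c t, ⟨red_wt l c t ht, ?_, ?_, ?_⟩, ?_⟩
  · have h1 := congrArg (fun z => lam l (sb (one (kx ℚ)) (one (ky ℚ)) z)) h.anti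
    simp only [map_add, map_zero, sb_sb, sb_x, sb_y] at h1
    rw [key, key, sb_id] at h1
    exact h1
  · have h1 := congrArg (fun z => lam l (sb (one (kx ℚ)) (one (ky ℚ)) z)) h.hexa
    simp only [map_add, map_sub, map_neg, map_zero, sb_sb, sb_x, sb_y] at h1
    rw [← one_neg, ← one_sub, key, key, key, sb_id] at h1
    exact h1
  · intro g _ _ X hX
    have hX' : PS (fun i j => one (X i j)) := by
      refine ⟨fun i => ?_, fun i j => ?_, fun i => ?_, fun i j p q h1 h2 h3 h4 h5 h6 => ?_⟩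
      · show one (X i i) = 0
        rw [hX.diag, one_zero]
      · show one (X i j) = one (X j i)
        rw [hX.symm]
      · show ∑ j, one (X i j) = 0
        rw [← one_sum, hX.sum, one_zero]
      · show ⁅one (X i j), one (X p q)⁆ = 0
        rw [← one_lie, hX.comm i j p q h1 h2 h3 h4 h5 h6, one_zero]
    have h1 := congrArg (lam l) (h.penta (ℂ ⊗[ℚ] g) (fun i j => one (X i j)) hX')
    unfold pent at h1 ⊢
    simp only [map_add, map_zero] at h1
    rw [key, key, key, key, key] at h1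
    exact h1
  · rw [cXY_red, ← hψ]
    exact hl

end Vale.Agent.P029.Low
end
end
end

section

section

/-! P029 lower half: the deformed `P5`-system over the dual numbers. -/

noncomputable section

attribute [local instance 100] LieRing.ofAssociativeRing

namespace Vale.Agent.P029.Low

open Dbl

theorem PS_comm_of {h : Type} [LieRing h] {Y : Fin 5 → Fin 5 → h}
    (symm : ∀ i j, Y i j = Y j i)
    (H : ∀ i j k l : Fin 5, i < j → k < l → i < k → j ≠ k → j ≠ l → ⁅Y i j, Y k l⁆ = 0) :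
    ∀ i j k l, i ≠ j → i ≠ k → i ≠ l → j ≠ k → j ≠ l → k ≠ l → ⁅Y i j, Y k l⁆ = 0 := by
  have H1 : ∀ i j k l : Fin 5, i < j → k < l → i ≠ k → i ≠ l → j ≠ k → j ≠ l →
      ⁅Y i j, Y k l⁆ = 0 := by
    intro i j k l hij hkl hik hil hjk hjl
    rcases lt_or_gt_of_ne hik with h | h
    · exact H i j k l hij hkl h hjk hjl
    · rw [← lie_skew, H k l i j hkl hij h hil.symm hjl.symm, neg_zero]
  have H2 : ∀ i j k l : Fin 5, i < j → k ≠ l → i ≠ k → i ≠ l → j ≠ k → j ≠ l →
      ⁅Y i j, Y k l⁆ = 0 := by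
    intro i j k l hij hkl hik hil hjk hjl
    rcases lt_or_gt_of_ne hkl with h | h
    · exact H1 i j k l hij h hik hil hjk hjl
    · rw [symm k l]; exact H1 i j l k hij h hil hik hjl hjk
  intro i j k l hij hik hil hjk hjl hkl
  rcases lt_or_gt_of_ne hij with h | h
  · exact H2 i j k l h hkl hik hil hjk hjl
  · rw [symm i j]; exact H2 j i k l h hkl hjk hjl hik hil

theorem five_list : ∀ i j k l : Fin 5, i < j → k < l → i < k → j ≠ k → j ≠ l →
    (i, j, k, l) ∈ ([(0,1,2,3), (0,1,2,4), (0,1,3,4), (0,2,1,3), (0,2,1,4), (0,2,3,4), (0,3,1,2),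
      (0,3,1,4), (0,3,2,4), (0,4,1,2), (0,4,1,3), (0,4,2,3), (1,2,3,4), (1,3,2,4), (1,4,2,3)] :
      List (Fin 5 × Fin 5 × Fin 5 × Fin 5)) := by
  decide

theorem PS_of_rel {h : Type} [LieRing h] {Y : Fin 5 → Fin 5 → h}
    (h2 : ∀ u : h, u + u = 0 → u = 0)
    (diag : ∀ i, Y i i = 0) (symm : ∀ i j, Y i j = Y j i) (sum : ∀ i, ∑ j, Y i j = 0)
    (c1 : ⁅Y 0 1, Y 2 3⁆ = 0) (c2 : ⁅Y 0 1, Y 2 4⁆ = 0) (c3 : ⁅Y 0 1, Y 3 4⁆ = 0)
    (c4 : ⁅Y 0 2, Y 1 3⁆ = 0) (c5 : ⁅Y 0 2, Y 1 4⁆ = 0) (c6 : ⁅Y 0 2, Y 3 4⁆ = 0)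
    (c7 : ⁅Y 0 3, Y 1 2⁆ = 0) (c8 : ⁅Y 0 3, Y 2 4⁆ = 0)
    (c9 : ⁅Y 0 4, Y 1 2⁆ = 0) (c10 : ⁅Y 0 4, Y 2 3⁆ = 0)
    (c11 : ⁅Y 1 2, Y 3 4⁆ = 0) (c12 : ⁅Y 1 3, Y 2 4⁆ = 0) (c13 : ⁅Y 1 4, Y 2 3⁆ = 0) :
    PS Y := by
  have s : ∀ i (z : h), ⁅Y i 0, z⁆ + ⁅Y i 1, z⁆ + ⁅Y i 2, z⁆ + ⁅Y i 3, z⁆ + ⁅Y i 4, z⁆ = 0 := by
    intro i z
    have := sum i
    rw [Fin.sum_univ_five] at this
    rw [← add_lie, ← add_lie, ← add_lie, ← add_lie, this, zero_lie]
  have e1 := s 3 (Y 1 4)
  have e2 := s 4 (Y 1 3)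
  have e3 := s 1 (Y 3 4)
  have e4 := s 0 (Y 1 3)
  have e5 := s 1 (Y 0 3)
  have e6 := s 3 (Y 0 1)
  have fl : ∀ x y : h, ⁅x, y⁆ = 0 → ⁅y, x⁆ = 0 := fun x y hxy => by
    rw [← lie_skew, hxy, neg_zero]
  rw [symm 3 0, symm 3 1, symm 3 2, diag, zero_lie, fl _ _ c13] at e1
  rw [symm 4 0, symm 4 1, symm 4 2, symm 4 3, diag, zero_lie, fl _ _ c12] at e2
  rw [symm 1 0, diag, zero_lie, c3, c11] at e3
  rw [diag, zero_lie, c4] at e4
  rw [symm 1 0, diag, zero_lie, fl _ _ c7] at e5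
  rw [symm 3 0, symm 3 1, symm 3 2, diag, zero_lie, fl _ _ c1, fl _ _ c3] at e6
  have ab : ⁅Y 0 3, Y 1 4⁆ + ⁅Y 0 4, Y 1 3⁆ = 0 := by
    rw [← lie_skew (Y 1 3) (Y 3 4), ← lie_skew (Y 1 4) (Y 3 4)] at e3
    rw [← lie_skew (Y 1 4) (Y 1 3)] at e2
    linear_combination (norm := abel) e1 + e2 + e3
  have ba : ⁅Y 0 3, Y 1 4⁆ = ⁅Y 0 4, Y 1 3⁆ := by
    rw [← lie_skew (Y 0 3) (Y 0 1), ← lie_skew (Y 1 3) (Y 0 1)] at e6
    rw [← lie_skew (Y 1 3) (Y 0 3), ← lie_skew (Y 1 4) (Y 0 3)] at e5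
    linear_combination (norm := abel) -e4 - e5 - e6
  have a0 : ⁅Y 0 3, Y 1 4⁆ = 0 := by
    apply h2
    nth_rewrite 2 [ba]
    exact ab
  have b0 : ⁅Y 0 4, Y 1 3⁆ = 0 := by rw [← ba, a0]
  refine ⟨diag, symm, sum, PS_comm_of symm fun i j k l h1 h2 h3 h4 h5 => ?_⟩
  have := five_list i j k l h1 h2 h3 h4 h5
  simp only [List.mem_cons, Prod.mk.injEq, List.not_mem_nil, or_false] at this
  rcases this with h | h | h | h | h | h | h | h | h | h | h | h | h | h | h <;>
    obtain ⟨rfl, rfl, rfl, rfl⟩ := h <;> assumption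

theorem PS_dbl_aux {g : Type} [LieRing g] {X : Fin 5 → Fin 5 → g} (hX : PS X)
    (h2 : ∀ u : g, u + u = 0 → u = 0) {z02 z12 z23 z24 z03 z04 z13 z14 : g}
    (r0 : z02 + z03 + z04 = 0) (r1 : z12 + z13 + z14 = 0) (r2 : z02 + z12 + z23 + z24 = 0)
    (r3 : z03 + z13 + z23 = 0) (r4 : z04 + z14 + z24 = 0)
    (c1 : ⁅X 0 1, z23⁆ = 0) (c2 : ⁅X 0 1, z24⁆ = 0)
    (c4 : ⁅X 0 2, z13⁆ + ⁅z02, X 1 3⁆ = 0) (c5 : ⁅X 0 2, z14⁆ + ⁅z02, X 1 4⁆ = 0)
    (c6 : ⁅z02, X 3 4⁆ = 0)
    (c7 : ⁅X 0 3, z12⁆ + ⁅z03, X 1 2⁆ = 0) (c8 : ⁅X 0 3, z24⁆ + ⁅z03, X 2 4⁆ = 0)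
    (c9 : ⁅X 0 4, z12⁆ + ⁅z04, X 1 2⁆ = 0) (c10 : ⁅X 0 4, z23⁆ + ⁅z04, X 2 3⁆ = 0)
    (c11 : ⁅z12, X 3 4⁆ = 0) (c12 : ⁅X 1 3, z24⁆ + ⁅z13, X 2 4⁆ = 0)
    (c13 : ⁅X 1 4, z23⁆ + ⁅z14, X 2 3⁆ = 0) :
    PS (fun i j => Dbl.mk (X i j)
      ((![![0, 0, z02, z03, z04],
        ![0, 0, z12, z13, z14],
        ![z02, z12, 0, z23, z24],
        ![z03, z13, z23, 0, 0],
        ![z04, z14, z24, 0, 0]] : Fin 5 → Fin 5 → g) i j)) := by
  have cm : ∀ i j k l : Fin 5, [i, j, k, l].Nodup → ⁅X i j, X k l⁆ = 0 := by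
    intro i j k l hn
    simp only [List.nodup_cons, List.mem_cons, List.not_mem_nil, or_false, not_or,
      List.nodup_nil, and_true, not_false_eq_true] at hn
    obtain ⟨⟨a, b, c⟩, ⟨d, e⟩, f⟩ := hn
    exact hX.comm i j k l a b c d e f
  apply PS_of_rel
  · intro u hu
    ext
    · exact h2 _ (congrArg Dbl.re hu)
    · exact h2 _ (congrArg Dbl.ep hu)
  · intro i
    ext
    · exact hX.diag i
    · fin_cases i <;> rfl
  · intro i j
    ext
    · exact hX.symm i j
    · fin_cases i <;> fin_cases j <;> rfl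
  · intro i
    ext
    · have h1 := hX.sum i
      rw [Fin.sum_univ_five] at h1 ⊢
      exact h1
    · rw [Fin.sum_univ_five]
      fin_cases i
      · change 0 + 0 + z02 + z03 + z04 = 0
        exact Eq.trans (by abel) r0
      · change 0 + 0 + z12 + z13 + z14 = 0
        exact Eq.trans (by abel) r1
      · change z02 + z12 + 0 + z23 + z24 = 0
        exact Eq.trans (by abel) r2
      · change z03 + z13 + z23 + 0 + 0 = 0
        exact Eq.trans (by abel) r3
      · change z04 + z14 + z24 + 0 + 0 = 0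
        exact Eq.trans (by abel) r4
  all_goals
    ext
    · exact cm _ _ _ _ (by decide)
    · first
        | assumption
        | (change _ + ⁅(0 : g), _⁆ = (0 : g); rw [zero_lie, add_zero]; assumption)
        | (change ⁅_, (0 : g)⁆ + _ = (0 : g); rw [lie_zero, zero_add]; assumption)
        | (change ⁅_, (0 : g)⁆ + ⁅(0 : g), _⁆ = (0 : g); rw [lie_zero, zero_lie, add_zero])

section
variable {K : Type} [Field K] [CharZero K]

/-- `[x, [y, c]] + [[x, c], y] = 0`, up to terms commuting with `x` resp. `y` -/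
theorem z_comm {g : Type} [LieRing g] {x y c d e : g} (hxy : ⁅x, y⁆ = 0) (hd : ⁅x, d⁆ = 0)
    (he : ⁅y, e⁆ = 0) :
    ⁅x, ⁅y, c + d⁆⁆ + ⁅⁅x, c + e⁆, y⁆ = 0 := by
  have hyx : ⁅y, x⁆ = 0 := by rw [← lie_skew, hxy, neg_zero]
  have h1 : ⁅x, ⁅y, c + d⁆⁆ = ⁅y, ⁅x, c⁆⁆ := by
    rw [leibniz_lie x y, hxy, zero_lie, zero_add, lie_add x, hd, add_zero]
  have h2 : ⁅⁅x, c + e⁆, y⁆ = - ⁅y, ⁅x, c⁆⁆ := by
    rw [← lie_skew, lie_add x, lie_add y, leibniz_lie y x e, hyx, he, zero_lie, lie_zero,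
      add_zero, add_zero]
  rw [h1, h2, add_neg_cancel]

theorem z_comm' {g : Type} [LieRing g] {x y c d e u v : g} (hxy : ⁅x, y⁆ = 0)
    (hu : ⁅y, u⁆ = ⁅y, c + d⁆) (hv : ⁅x, v⁆ = ⁅x, c + e⁆)
    (hd : ⁅x, d⁆ = 0) (he : ⁅y, e⁆ = 0) :
    ⁅x, ⁅y, u⁆⁆ + ⁅⁅x, v⁆, y⁆ = 0 := by
  rw [hu, hv]
  exact z_comm hxy hd he

theorem PS_dbl {n : ℕ} (hn : 2 ≤ n) {ψ : LK K} (h : Sol K n ψ) (hG : GG ψ = 0) {g : Type}
    [LieRing g] [LieAlgebra K g] {X : Fin 5 → Fin 5 → g} (hX : PS X) :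
    PS (fun i j => Dbl.mk (X i j) (Zep K X ψ i j)) := by
  have h2 : ∀ u : g, u + u = 0 → u = 0 := by
    intro u hu
    have h3 : (2 : K) • u = 0 := by rw [two_smul]; exact hu
    exact (smul_eq_zero.1 h3).resolve_left two_ne_zero
  have h2' : ∀ u v : g, u + u = v + v → u = v := by
    intro u v huv
    apply sub_eq_zero.1
    apply h2
    rw [sub_add_sub_comm, huv, sub_self]
  have cm : ∀ i j k l : Fin 5, [i, j, k, l].Nodup → ⁅X i j, X k l⁆ = 0 := by
    intro i j k l hn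
    simp only [List.nodup_cons, List.mem_cons, List.not_mem_nil, or_false, not_or,
      List.nodup_nil, and_true, not_false_eq_true] at hn
    obtain ⟨⟨a, b, c⟩, ⟨d, e⟩, f⟩ := hn
    exact hX.comm i j k l a b c d e f
  have hA : ∀ a b c, cc K X ψ c b a = - cc K X ψ a b c := fun a b c => cc_anti h hX a b c
  have hE : ∀ a b c : Fin 5, a ≠ b → a ≠ c → b ≠ c →
      ⁅X b c, cc K X ψ a b c⁆ + ⁅X a c, cc K X ψ b a c⁆ = 0 := by
    intro a b c hab hac hbc
    have := GX_eq hn h hX hab hac hbc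
    rw [hG, map_zero] at this
    exact this
  have hC : ∀ a b c d e : Fin 5, [a, b, c, d, e].Nodup → ⁅X d e, cc K X ψ a b c⁆ = 0 :=
    fun a b c d e hh => cc_comm hX hh
  have hT : ∀ a b c d e : Fin 5, [a, b, c, d, e].Nodup →
      ⁅X a b + X b c + X c a, cc K X ψ a b c⁆ = 0 := fun a b c d e hh => by
    rw [PS_tri hX hh h2']; exact hC a b c d e hh
  have hP1 := cc_penta h hX (Equiv.swap 3 4)
  have hP2 := cc_penta h hX (Equiv.swap 0 1 * Equiv.swap 3 4)
  have hP3 := cc_penta h hX 1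
  have hP4 := cc_penta h hX (Equiv.swap 0 1)
  have v1 : (Equiv.swap (3 : Fin 5) 4) 0 = 0 ∧ (Equiv.swap (3 : Fin 5) 4) 1 = 1 ∧
    (Equiv.swap (3 : Fin 5) 4) 2 = 2 ∧ (Equiv.swap (3 : Fin 5) 4) 3 = 4 ∧
    (Equiv.swap (3 : Fin 5) 4) 4 = 3 := by decide
  have v2 : (Equiv.swap 0 1 * Equiv.swap 3 4 : Equiv.Perm (Fin 5)) 0 = 1 ∧
    (Equiv.swap 0 1 * Equiv.swap 3 4 : Equiv.Perm (Fin 5)) 1 = 0 ∧
    (Equiv.swap 0 1 * Equiv.swap 3 4 : Equiv.Perm (Fin 5)) 2 = 2 ∧
    (Equiv.swap 0 1 * Equiv.swap 3 4 : Equiv.Perm (Fin 5)) 3 = 4 ∧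
    (Equiv.swap 0 1 * Equiv.swap 3 4 : Equiv.Perm (Fin 5)) 4 = 3 := by decide
  have v4 : (Equiv.swap (0 : Fin 5) 1) 0 = 1 ∧ (Equiv.swap (0 : Fin 5) 1) 1 = 0 ∧
    (Equiv.swap (0 : Fin 5) 1) 2 = 2 ∧ (Equiv.swap (0 : Fin 5) 1) 3 = 3 ∧
    (Equiv.swap (0 : Fin 5) 1) 4 = 4 := by decide
  rw [v1.1, v1.2.1, v1.2.2.1, v1.2.2.2.1, v1.2.2.2.2] at hP1
  rw [v2.1, v2.2.1, v2.2.2.1, v2.2.2.2.1, v2.2.2.2.2] at hP2
  rw [v4.1, v4.2.1, v4.2.2.1, v4.2.2.2.1, v4.2.2.2.2] at hP4
  simp only [Equiv.Perm.coe_one, id_eq] at hP3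
  -- pentagon forms
  have q03 : ⁅X 0 3, cc K X ψ 0 1 2 + cc K X ψ 4 3 0⁆ =
      ⁅X 0 3, -cc K X ψ 2 4 3 + -cc K X ψ 3 0 1⁆ := by
    rw [← sub_eq_zero, ← lie_sub]
    have e : cc K X ψ 0 1 2 + cc K X ψ 4 3 0 - (-cc K X ψ 2 4 3 + -cc K X ψ 3 0 1) =
        - cc K X ψ 1 2 4 := by
      linear_combination (norm := abel) hP1
    rw [e, lie_neg, hC 1 2 4 0 3 (by decide), neg_zero]
  have q13 : ⁅X 1 3, cc K X ψ 1 0 2 + cc K X ψ 4 3 1⁆ =
      ⁅X 1 3, -cc K X ψ 2 4 3 + -cc K X ψ 3 1 0⁆ := by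
    rw [← sub_eq_zero, ← lie_sub]
    have e : cc K X ψ 1 0 2 + cc K X ψ 4 3 1 - (-cc K X ψ 2 4 3 + -cc K X ψ 3 1 0) =
        - cc K X ψ 0 2 4 := by
      linear_combination (norm := abel) hP2
    rw [e, lie_neg, hC 0 2 4 1 3 (by decide), neg_zero]
  have q04 : ⁅X 0 4, cc K X ψ 0 1 2 + cc K X ψ 3 4 0⁆ =
      ⁅X 0 4, -cc K X ψ 2 3 4 + -cc K X ψ 4 0 1⁆ := by
    rw [← sub_eq_zero, ← lie_sub]
    have e : cc K X ψ 0 1 2 + cc K X ψ 3 4 0 - (-cc K X ψ 2 3 4 + -cc K X ψ 4 0 1) =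
        - cc K X ψ 1 2 3 := by
      linear_combination (norm := abel) hP3
    rw [e, lie_neg, hC 1 2 3 0 4 (by decide), neg_zero]
  have q14 : ⁅X 1 4, cc K X ψ 1 0 2 + cc K X ψ 3 4 1⁆ =
      ⁅X 1 4, -cc K X ψ 2 3 4 + -cc K X ψ 4 1 0⁆ := by
    rw [← sub_eq_zero, ← lie_sub]
    have e : cc K X ψ 1 0 2 + cc K X ψ 3 4 1 - (-cc K X ψ 2 3 4 + -cc K X ψ 4 1 0) =
        - cc K X ψ 0 2 3 := by
      linear_combination (norm := abel) hP4
    rw [e, lie_neg, hC 0 2 3 1 4 (by decide), neg_zero]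
  have s : ∀ i (z : g), ⁅X i 0, z⁆ + ⁅X i 1, z⁆ + ⁅X i 2, z⁆ + ⁅X i 3, z⁆ + ⁅X i 4, z⁆ = 0 := by
    intro i z
    have := hX.sum i
    rw [Fin.sum_univ_five] at this
    rw [← add_lie, ← add_lie, ← add_lie, ← add_lie, this, zero_lie]
  have hdz : ∀ i (z : g), ⁅X i i, z⁆ = 0 := fun i z => by rw [hX.diag, zero_lie]
  apply PS_dbl_aux hX h2
  · -- row 0
    have e1 := hE 0 1 2 (by decide) (by decide) (by decide)
    have e2 := hE 4 3 0 (by decide) (by decide) (by decide)
    have e3 := s 0 (cc K X ψ 0 1 2)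
    have e4 := hT 0 1 2 3 4 (by decide)
    rw [hdz] at e3
    rw [add_lie, add_lie, hX.symm 2 0] at e4
    rw [hX.symm 3 0, hX.symm 4 0] at e2
    rw [lie_add, lie_add]
    linear_combination (norm := abel) e1 + e2 + e3 - e4
  · -- row 1
    have e1 := hE 0 1 2 (by decide) (by decide) (by decide)
    have e2 := hE 4 3 1 (by decide) (by decide) (by decide)
    have e3 := s 1 (cc K X ψ 1 0 2)
    have e4 := hT 1 0 2 3 4 (by decide)
    rw [hdz] at e3
    rw [add_lie, add_lie, hX.symm 2 1] at e4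
    rw [hX.symm 3 1, hX.symm 4 1] at e2
    rw [lie_add, lie_add]
    linear_combination (norm := abel) e1 + e2 + e3 - e4
  · -- row 2
    have e1 := hE 0 1 2 (by decide) (by decide) (by decide)
    have e2 := hE 4 3 2 (by decide) (by decide) (by decide)
    rw [hX.symm 3 2, hX.symm 4 2] at e2
    linear_combination (norm := abel) e1 + e2
  · -- row 3
    rw [q03, q13]
    have e1 := hE 0 1 3 (by decide) (by decide) (by decide)
    have e2 := hE 4 3 2 (by decide) (by decide) (by decide)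
    have e3 := s 3 (cc K X ψ 2 4 3)
    have e4 := hT 2 4 3 0 1 (by decide)
    rw [hdz, hX.symm 3 0, hX.symm 3 1, hX.symm 3 2] at e3
    rw [add_lie, add_lie, hX.symm 3 2, hX.symm 4 3] at e4
    rw [hX.symm 3 2, hX.symm 4 2, hA 2 4 3, lie_neg] at e2
    rw [hA 3 1 0, hA 3 0 1, lie_neg, lie_neg] at e1
    rw [lie_add, lie_add, lie_neg, lie_neg, lie_neg, lie_neg]
    linear_combination (norm := abel) e1 + e2 - e3 + e4
  · -- row 4
    rw [q04, q14]
    have e1 := hE 0 1 4 (by decide) (by decide) (by decide)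
    have e2 := hE 4 3 2 (by decide) (by decide) (by decide)
    have e3 := s 4 (cc K X ψ 2 3 4)
    have e4 := hT 2 3 4 0 1 (by decide)
    rw [hdz, hX.symm 4 0, hX.symm 4 1, hX.symm 4 2, hX.symm 4 3] at e3
    rw [add_lie, add_lie, hX.symm 4 2] at e4
    rw [hX.symm 3 2, hX.symm 4 2, hA 2 3 4, lie_neg] at e2
    rw [hA 4 1 0, hA 4 0 1, lie_neg, lie_neg] at e1
    rw [lie_add, lie_add, lie_neg, lie_neg, lie_neg, lie_neg]
    linear_combination (norm := abel) e1 + e2 - e3 + e4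
  · rw [leibniz_lie, cm 0 1 2 3 (by decide), hC 4 3 2 0 1 (by decide), zero_lie, lie_zero,
      add_zero]
  · rw [leibniz_lie, cm 0 1 2 4 (by decide), hC 3 4 2 0 1 (by decide), zero_lie, lie_zero,
      add_zero]
  · exact z_comm' (c := cc K X ψ 1 0 2) (d := cc K X ψ 4 3 1) (e := 0) (cm _ _ _ _ (by decide))
      rfl (by rw [add_zero]) (hC _ _ _ _ _ (by decide)) (lie_zero _)
  · exact z_comm' (c := cc K X ψ 1 0 2) (d := cc K X ψ 3 4 1) (e := 0) (cm _ _ _ _ (by decide))
      rfl (by rw [add_zero]) (hC _ _ _ _ _ (by decide)) (lie_zero _)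
  · rw [← lie_skew, leibniz_lie, cm 3 4 0 2 (by decide), hC 1 0 2 3 4 (by decide), zero_lie,
      lie_zero, add_zero, neg_zero]
  · exact z_comm' (c := cc K X ψ 0 1 2) (d := 0) (e := cc K X ψ 4 3 0) (cm _ _ _ _ (by decide))
      (by rw [add_zero]) rfl (lie_zero _) (hC _ _ _ _ _ (by decide))
  · exact z_comm' (c := -cc K X ψ 2 4 3) (d := 0) (e := -cc K X ψ 3 0 1)
      (cm _ _ _ _ (by decide))
      (by rw [add_zero, ← hA 2 4 3]) q03 (lie_zero _)
      (by rw [lie_neg, hC _ _ _ _ _ (by decide), neg_zero])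
  · exact z_comm' (c := cc K X ψ 0 1 2) (d := 0) (e := cc K X ψ 3 4 0) (cm _ _ _ _ (by decide))
      (by rw [add_zero]) rfl (lie_zero _) (hC _ _ _ _ _ (by decide))
  · exact z_comm' (c := -cc K X ψ 2 3 4) (d := 0) (e := -cc K X ψ 4 0 1)
      (cm _ _ _ _ (by decide))
      (by rw [add_zero, ← hA 2 3 4]) q04 (lie_zero _)
      (by rw [lie_neg, hC _ _ _ _ _ (by decide), neg_zero])
  · rw [← lie_skew, leibniz_lie, cm 3 4 1 2 (by decide), hC 0 1 2 3 4 (by decide), zero_lie,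
      lie_zero, add_zero, neg_zero]
  · exact z_comm' (c := -cc K X ψ 2 4 3) (d := 0) (e := -cc K X ψ 3 1 0)
      (cm _ _ _ _ (by decide))
      (by rw [add_zero, ← hA 2 4 3]) q13 (lie_zero _)
      (by rw [lie_neg, hC _ _ _ _ _ (by decide), neg_zero])
  · exact z_comm' (c := -cc K X ψ 2 3 4) (d := 0) (e := -cc K X ψ 4 1 0)
      (cm _ _ _ _ (by decide))
      (by rw [add_zero, ← hA 2 3 4]) q14 (lie_zero _)
      (by rw [lie_neg, hC _ _ _ _ _ (by decide), neg_zero])

end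

end Vale.Agent.P029.Low
end
end
end

section

section

/-! P029 lower half: the pentagon equation for the Ihara bracket. -/

noncomputable section

attribute [local instance 100] LieRing.ofAssociativeRing

namespace Vale.Agent.P029.Low

open Dbl

section
variable {K : Type} [Field K] [CharZero K]

/-- substitution in a deformed pair -/
lemma penta_key {g : Type} [LieRing g] [LieAlgebra K g] (v a b za zb : g) (ψ φ : LK K)
    (h1 : za = ⁅a, v⁆) (h2 : zb = ⁅b, sb a b ψ + v⁆) :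
    sb (mk a za) (mk b zb) φ = mk (sb a b φ) (sb a b (Dp ψ φ) - ⁅v, sb a b φ⁆) := by
  have h := sb_dbl_ad (-v) a b ψ φ
  rw [neg_lie, neg_lie, neg_lie, lie_skew, lie_skew, ← lie_add, ← h1, ← h2, ← sub_eq_add_neg] at h
  exact h

lemma penta_sum {n : ℕ} {ψ : LK K} (h : Sol K n ψ) {g : Type} [LieRing g] [LieAlgebra K g]
    {X : Fin 5 → Fin 5 → g} (hX : PS X) :
    cc K X ψ 0 1 2 + cc K X ψ 1 2 3 + cc K X ψ 2 3 4 + cc K X ψ 3 4 0 + cc K X ψ 4 0 1 = 0 :=
  cc_penta h hX (Equiv.refl _)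

/- Z2: the five substitutions in the deformed system. -/
theorem pent_dbl {n : ℕ} (hn : 2 ≤ n) {ψ : LK K} (h : Sol K n ψ) (hG : GG ψ = 0) {g : Type}
    [LieRing g] [LieAlgebra K g] {X : Fin 5 → Fin 5 → g} (hX : PS X) (φ : LK K) :
    let Z : Fin 5 → Fin 5 → Dbl g := fun i j => Dbl.mk (X i j) (Zep K X ψ i j)
    let p := cc K X ψ 0 1 2
    let q := cc K X ψ 3 4 0
    let r := cc K X ψ 1 2 3
    let s := cc K X ψ 4 0 1
    sb (Z 0 1) (Z 1 2) φ = Dbl.mk (cc K X φ 0 1 2) (cc K X (Dp ψ φ) 0 1 2) ∧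
    sb (Z 3 4) (Z 4 0) φ = Dbl.mk (cc K X φ 3 4 0) (cc K X (Dp ψ φ) 3 4 0 - ⁅p, cc K X φ 3 4 0⁆) ∧
    sb (Z 1 2) (Z 2 3) φ = Dbl.mk (cc K X φ 1 2 3)
      (cc K X (Dp ψ φ) 1 2 3 - ⁅p + q, cc K X φ 1 2 3⁆) ∧
    sb (Z 4 0) (Z 0 1) φ = Dbl.mk (cc K X φ 4 0 1)
      (cc K X (Dp ψ φ) 4 0 1 - ⁅p + q + r, cc K X φ 4 0 1⁆) ∧
    sb (Z 2 3) (Z 3 4) φ = Dbl.mk (cc K X φ 2 3 4)
      (cc K X (Dp ψ φ) 2 3 4 - ⁅p + q + r + s, cc K X φ 2 3 4⁆) := by
  intro Z p q r s
  have hsum : p + r + cc K X ψ 2 3 4 + q + s = 0 := penta_sum h hX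
  set t := cc K X ψ 2 3 4 with ht
  have e01 : Zep K X ψ 0 1 = 0 := rfl
  have e12 : Zep K X ψ 1 2 = ⁅X 1 2, p⁆ := rfl
  have e34 : Zep K X ψ 3 4 = 0 := rfl
  have e40 : Zep K X ψ 4 0 = ⁅X 0 4, p + q⁆ := rfl
  have e23 : Zep K X ψ 2 3 = ⁅X 2 3, cc K X ψ 4 3 2⁆ := rfl
  have hanti : cc K X ψ 4 3 2 = -t := cc_anti h hX 2 3 4
  have c1 : ⁅X 3 4, p⁆ = 0 := cc_comm hX (by decide)
  have c2 : ⁅X 1 2, q⁆ = 0 := cc_comm hX (by decide)
  have c3 : ⁅X 2 3, s⁆ = 0 := cc_comm hX (by decide)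
  have c4 : ⁅X 4 0, r⁆ = 0 := cc_comm hX (by decide)
  have c5 : ⁅X 0 1, t⁆ = 0 := cc_comm hX (by decide)
  refine ⟨?_, ?_, ?_, ?_, ?_⟩
  · have k := penta_key (0 : g) (X 0 1) (X 1 2) (Zep K X ψ 0 1) (Zep K X ψ 1 2) ψ φ
      (by rw [e01, lie_zero]) (by rw [e12, add_zero]; rfl)
    rw [zero_lie, sub_zero] at k
    exact k
  · refine penta_key p (X 3 4) (X 4 0) (Zep K X ψ 3 4) (Zep K X ψ 4 0) ψ φ ?_ ?_
    · rw [e34, c1]
    · rw [e40, hX.symm 0 4, add_comm]
      rfl
  · refine penta_key (p + q) (X 1 2) (X 2 3) (Zep K X ψ 1 2) (Zep K X ψ 2 3) ψ φ ?_ ?_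
    · rw [e12, lie_add, c2, add_zero]
    · have e : sb (X 1 2) (X 2 3) ψ + (p + q) = -t - s := by
        change r + (p + q) = -t - s
        have : r + (p + q) = (p + r + t + q + s) - t - s := by abel
        rw [this, hsum, zero_sub]
      rw [e, e23, hanti, lie_sub, c3, sub_zero]
  · refine penta_key (p + q + r) (X 4 0) (X 0 1) (Zep K X ψ 4 0) (Zep K X ψ 0 1) ψ φ ?_ ?_
    · rw [e40, hX.symm 0 4, lie_add _ (p + q) r, c4, add_zero]
    · have e : sb (X 4 0) (X 0 1) ψ + (p + q + r) = -t := by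
        change s + (p + q + r) = -t
        have : s + (p + q + r) = (p + r + t + q + s) - t := by abel
        rw [this, hsum, zero_sub]
      rw [e, e01, lie_neg, c5, neg_zero]
  · refine penta_key (p + q + r + s) (X 2 3) (X 3 4) (Zep K X ψ 2 3) (Zep K X ψ 3 4) ψ φ ?_ ?_
    · have e : p + q + r + s = -t := by
        have : p + q + r + s = (p + r + t + q + s) - t := by abel
        rw [this, hsum, zero_sub]
      rw [e, e23, hanti]
    · have e : sb (X 2 3) (X 3 4) ψ + (p + q + r + s) = 0 := by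
        change t + (p + q + r + s) = 0
        rw [← hsum]
        abel
      rw [e, e34, lie_zero]

lemma penta_alg {g : Type} [LieRing g] {p q r s t P Q R S T d1 d2 d3 d4 d5 e1 e2 e3 e4 e5 : g}
    (h0 : p + r + t + q + s = 0)
    (h1 : d1 + (d2 - ⁅p + q, R⁆) + (d3 - ⁅p + q + r + s, T⁆) + (d4 - ⁅p, Q⁆)
      + (d5 - ⁅p + q + r, S⁆) = 0)
    (h2 : e1 + (e2 - ⁅P + Q, r⁆) + (e3 - ⁅P + Q + R + S, t⁆) + (e4 - ⁅P, q⁆)
      + (e5 - ⁅P + Q + R, s⁆) = 0) :
    (d1 - e1 + ⁅p, P⁆) + (d2 - e2 + ⁅r, R⁆) + (d3 - e3 + ⁅t, T⁆) + (d4 - e4 + ⁅q, Q⁆)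
      + (d5 - e5 + ⁅s, S⁆) = 0 := by
  have h3 : ⁅p + r + t + q + s, P + Q + R + S + T⁆ = 0 := by rw [h0, zero_lie]
  simp only [add_lie, lie_add] at h1 h2 h3
  rw [← lie_skew P r, ← lie_skew Q r, ← lie_skew P t, ← lie_skew Q t, ← lie_skew R t,
    ← lie_skew S t, ← lie_skew P q, ← lie_skew P s, ← lie_skew Q s, ← lie_skew R s] at h2
  have h4 := congrArg₂ (· + ·) (congrArg₂ (· - ·) h1 h2) h3
  simp only [sub_zero, add_zero] at h4
  rw [← h4]
  abel

/- Z3 -/
theorem penta_ihara {m n : ℕ} (hm : 2 ≤ m) (hn : 2 ≤ n) {ψ φ : LK K} (h : Sol K m ψ)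
    (h' : Sol K n φ) (hG : GG ψ = 0) (hG' : GG φ = 0) {g : Type} [LieRing g] [LieAlgebra K g]
    {X : Fin 5 → Fin 5 → g} (hX : PS X) : pent X (ihara ψ φ) = 0 := by
  have h1 := h'.penta (Dbl g) _ (PS_dbl hm h hG hX)
  have h2 := h.penta (Dbl g) _ (PS_dbl hn h' hG' hX)
  obtain ⟨a1, a2, a3, a4, a5⟩ := pent_dbl hm h hG hX φ
  obtain ⟨b1, b2, b3, b4, b5⟩ := pent_dbl hn h' hG' hX ψ
  unfold pent at h1 h2
  rw [a1, a2, a3, a4, a5] at h1
  rw [b1, b2, b3, b4, b5] at h2
  have k1 := congrArg Dbl.ep h1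
  have k2 := congrArg Dbl.ep h2
  simp only [ep_add, ep_mk, ep_zero] at k1 k2
  have k3 := penta_alg (penta_sum h hX) k1 k2
  unfold pent ihara
  simp only [map_add, map_sub, LieHom.map_lie]
  exact k3

end

end Vale.Agent.P029.Low
end
end
end

section

section

/-! P029 lower half: the solutions are closed under the Ihara bracket. -/

noncomputable section

attribute [local instance 100] LieRing.ofAssociativeRing

namespace Vale.Agent.P029.Low

open Dbl

section
variable {K : Type} [CommRing K]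

/-- The exchange of the letters and `D_ψ`. -/
theorem swap_Dp {ψ : LK K} (h : ψ + sb (ky K) (kx K) ψ = 0) (a : LK K) :
    sb (ky K) (kx K) (Dp ψ (sb (ky K) (kx K) a)) = Dp ψ a + ⁅ψ, a⁆ := by
  have h1 : sb (ky K) (kx K) ψ = -ψ := by
    rw [add_comm] at h
    exact eq_neg_of_add_eq_zero_left h
  have h2 : ∀ b : LK K, sb (ky K) (kx K) (sb (ky K) (kx K) b) = b := by
    intro b
    rw [sb_sb, sb_x, sb_y, sb_id]
  refine der_ext LieHom.id
    (d := ((sb (ky K) (kx K) : LK K →ₗ⁅K⁆ LK K) : LK K →ₗ[K] LK K).comp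
      ((Dp ψ).comp ((sb (ky K) (kx K) : LK K →ₗ⁅K⁆ LK K) : LK K →ₗ[K] LK K)))
    (d' := Dp ψ + (LieAlgebra.ad K (LK K) ψ : LK K →ₗ[K] LK K))
    (fun a b => ?_) (fun a b => ?_) ?_ ?_ a
  · change sb (ky K) (kx K) (Dp ψ (sb (ky K) (kx K) ⁅a, b⁆)) =
      ⁅a, sb (ky K) (kx K) (Dp ψ (sb (ky K) (kx K) b))⁆ +
        ⁅sb (ky K) (kx K) (Dp ψ (sb (ky K) (kx K) a)), b⁆
    rw [LieHom.map_lie, Dp_lie, map_add, LieHom.map_lie, LieHom.map_lie, h2, h2]
  · change Dp ψ ⁅a, b⁆ + ⁅ψ, ⁅a, b⁆⁆ = ⁅a, Dp ψ b + ⁅ψ, b⁆⁆ + ⁅Dp ψ a + ⁅ψ, a⁆, b⁆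
    rw [Dp_lie, leibniz_lie ψ a b, lie_add, add_lie]
    abel
  · change sb (ky K) (kx K) (Dp ψ (sb (ky K) (kx K) (kx K))) = Dp ψ (kx K) + ⁅ψ, kx K⁆
    rw [sb_x, Dp_y, LieHom.map_lie, sb_y, h1, Dp_x, zero_add, lie_neg, lie_skew]
  · change sb (ky K) (kx K) (Dp ψ (sb (ky K) (kx K) (ky K))) = Dp ψ (ky K) + ⁅ψ, ky K⁆
    rw [sb_y, Dp_x, map_zero, Dp_y, ← lie_skew ψ (ky K), add_neg_cancel]

theorem anti_ihara' {ψ φ : LK K} (h : ψ + sb (ky K) (kx K) ψ = 0)
    (h' : φ + sb (ky K) (kx K) φ = 0) :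
    ihara ψ φ + sb (ky K) (kx K) (ihara ψ φ) = 0 := by
  have h1 : sb (ky K) (kx K) ψ = -ψ := by
    rw [add_comm] at h
    exact eq_neg_of_add_eq_zero_left h
  have h2 : sb (ky K) (kx K) φ = -φ := by
    rw [add_comm] at h'
    exact eq_neg_of_add_eq_zero_left h'
  have e1 : sb (ky K) (kx K) (Dp ψ φ) = -Dp ψ φ - ⁅ψ, φ⁆ := by
    have := swap_Dp h φ
    rw [h2, map_neg, map_neg] at this
    rw [← neg_neg (sb (ky K) (kx K) (Dp ψ φ)), this]
    abel
  have e2 : sb (ky K) (kx K) (Dp φ ψ) = -Dp φ ψ - ⁅φ, ψ⁆ := by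
    have := swap_Dp h' ψ
    rw [h1, map_neg, map_neg] at this
    rw [← neg_neg (sb (ky K) (kx K) (Dp φ ψ)), this]
    abel
  unfold ihara
  rw [map_add, map_sub, LieHom.map_lie, e1, e2, h1, h2, neg_lie, lie_neg, neg_neg,
    ← lie_skew φ ψ]
  abel

/-- The rotation of the letters and `D_ψ`. -/
theorem rot_Dp {ψ : LK K} (h : ψ + sb (ky K) (kx K) ψ = 0) (hG : GG ψ = 0) (a : LK K) :
    sb (ky K) (-kx K - ky K) (Dp ψ a) =
      Dp ψ (sb (ky K) (-kx K - ky K) a) + ⁅ψ, sb (ky K) (-kx K - ky K) a⁆ := by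
  have h1 : sb (ky K) (kx K) ψ = -ψ := by
    rw [add_comm] at h
    exact eq_neg_of_add_eq_zero_left h
  have h2 : ⁅-kx K - ky K, sb (ky K) (-kx K - ky K) ψ⁆ = ⁅kx K, ψ⁆ := by
    have h3 := congrArg (sb (ky K) (kx K)) hG
    unfold GG at h3
    rw [map_add, LieHom.map_lie, LieHom.map_lie, sb_y, h1, sb_sb, sb_x, map_sub, map_neg, sb_x,
      sb_y, map_zero, lie_neg] at h3
    have e : -ky K - kx K = -kx K - ky K := by abel
    rw [e] at h3
    rw [neg_add_eq_zero] at h3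
    exact h3.symm
  refine der_ext (sb (ky K) (-kx K - ky K))
    (d := ((sb (ky K) (-kx K - ky K) : LK K →ₗ⁅K⁆ LK K) : LK K →ₗ[K] LK K).comp (Dp ψ))
    (d' := (Dp ψ + (LieAlgebra.ad K (LK K) ψ : LK K →ₗ[K] LK K)).comp
      ((sb (ky K) (-kx K - ky K) : LK K →ₗ⁅K⁆ LK K) : LK K →ₗ[K] LK K))
    (fun a b => ?_) (fun a b => ?_) ?_ ?_ a
  · change sb (ky K) (-kx K - ky K) (Dp ψ ⁅a, b⁆) =
      ⁅sb (ky K) (-kx K - ky K) a, sb (ky K) (-kx K - ky K) (Dp ψ b)⁆ +
        ⁅sb (ky K) (-kx K - ky K) (Dp ψ a), sb (ky K) (-kx K - ky K) b⁆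
    rw [Dp_lie, map_add, LieHom.map_lie, LieHom.map_lie]
  · change Dp ψ (sb (ky K) (-kx K - ky K) ⁅a, b⁆) +
        ⁅ψ, sb (ky K) (-kx K - ky K) ⁅a, b⁆⁆ =
      ⁅sb (ky K) (-kx K - ky K) a, Dp ψ (sb (ky K) (-kx K - ky K) b) +
          ⁅ψ, sb (ky K) (-kx K - ky K) b⁆⁆ +
        ⁅Dp ψ (sb (ky K) (-kx K - ky K) a) + ⁅ψ, sb (ky K) (-kx K - ky K) a⁆,
          sb (ky K) (-kx K - ky K) b⁆
    rw [LieHom.map_lie, Dp_lie, leibniz_lie ψ, lie_add, add_lie]
    abel
  · change sb (ky K) (-kx K - ky K) (Dp ψ (kx K)) =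
      Dp ψ (sb (ky K) (-kx K - ky K) (kx K)) + ⁅ψ, sb (ky K) (-kx K - ky K) (kx K)⁆
    rw [Dp_x, map_zero, sb_x, Dp_y, ← lie_skew ψ (ky K), add_neg_cancel]
  · change sb (ky K) (-kx K - ky K) (Dp ψ (ky K)) =
      Dp ψ (sb (ky K) (-kx K - ky K) (ky K)) + ⁅ψ, sb (ky K) (-kx K - ky K) (ky K)⁆
    rw [Dp_y, LieHom.map_lie, sb_y, h2, map_sub, map_neg, Dp_x, Dp_y, lie_sub, lie_neg,
      ← lie_skew ψ (ky K), ← lie_skew ψ (kx K)]
    abel

theorem rot_rot (a : LK K) : sb (ky K) (-kx K - ky K) (sb (ky K) (-kx K - ky K) a) =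
    sb (-kx K - ky K) (kx K) a := by
  rw [sb_sb, sb_y, map_sub, map_neg, sb_x, sb_y]
  congr 2
  abel

theorem hexa_ihara' {ψ φ : LK K} (h : ψ + sb (ky K) (kx K) ψ = 0)
    (h' : φ + sb (ky K) (kx K) φ = 0)
    (hh : ψ + sb (ky K) (-kx K - ky K) ψ + sb (-kx K - ky K) (kx K) ψ = 0)
    (hh' : φ + sb (ky K) (-kx K - ky K) φ + sb (-kx K - ky K) (kx K) φ = 0)
    (hG : GG ψ = 0) (hG' : GG φ = 0) :
    ihara ψ φ + sb (ky K) (-kx K - ky K) (ihara ψ φ)
      + sb (-kx K - ky K) (kx K) (ihara ψ φ) = 0 := by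
  rw [← rot_rot] at hh hh' ⊢
  have key : ∀ {ψ φ : LK K}, (ψ + sb (ky K) (kx K) ψ = 0) → GG ψ = 0 →
      (φ + sb (ky K) (-kx K - ky K) φ +
        sb (ky K) (-kx K - ky K) (sb (ky K) (-kx K - ky K) φ) = 0) →
      Dp ψ φ + sb (ky K) (-kx K - ky K) (Dp ψ φ) +
        sb (ky K) (-kx K - ky K) (sb (ky K) (-kx K - ky K) (Dp ψ φ)) =
      ⁅ψ, sb (ky K) (-kx K - ky K) φ⁆ +
        ⁅ψ + sb (ky K) (-kx K - ky K) ψ,
          sb (ky K) (-kx K - ky K) (sb (ky K) (-kx K - ky K) φ)⁆ := by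
    intro ψ φ h hG hφ
    rw [rot_Dp h hG, map_add, rot_Dp h hG, LieHom.map_lie]
    have e := congrArg (Dp ψ) hφ
    rw [map_add, map_add, map_zero] at e
    rw [add_lie]
    generalize sb (ky K) (-kx K - ky K) (sb (ky K) (-kx K - ky K) φ) = P2 at *
    generalize sb (ky K) (-kx K - ky K) φ = P1 at *
    generalize sb (ky K) (-kx K - ky K) ψ = p1 at *
    have e2 : Dp ψ φ + (Dp ψ P1 + ⁅ψ, P1⁆) + (Dp ψ P2 + ⁅ψ, P2⁆ + ⁅p1, P2⁆) =
        (Dp ψ φ + Dp ψ P1 + Dp ψ P2) + (⁅ψ, P1⁆ + (⁅ψ, P2⁆ + ⁅p1, P2⁆)) := by abel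
    rw [e2, e, zero_add]
  have k1 := key h hG hh'
  have k2 := key h' hG' hh
  unfold ihara
  simp only [map_add, map_sub, LieHom.map_lie]
  generalize sb (ky K) (-kx K - ky K) (sb (ky K) (-kx K - ky K) (Dp ψ φ)) = A2 at *
  generalize sb (ky K) (-kx K - ky K) (Dp ψ φ) = A1 at *
  generalize sb (ky K) (-kx K - ky K) (sb (ky K) (-kx K - ky K) (Dp φ ψ)) = B2 at *
  generalize sb (ky K) (-kx K - ky K) (Dp φ ψ) = B1 at *
  generalize sb (ky K) (-kx K - ky K) (sb (ky K) (-kx K - ky K) φ) = P2 at *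
  generalize sb (ky K) (-kx K - ky K) φ = P1 at *
  generalize sb (ky K) (-kx K - ky K) (sb (ky K) (-kx K - ky K) ψ) = p2 at *
  generalize sb (ky K) (-kx K - ky K) ψ = p1 at *
  have e3 : Dp ψ φ - Dp φ ψ + ⁅ψ, φ⁆ + (A1 - B1 + ⁅p1, P1⁆) + (A2 - B2 + ⁅p2, P2⁆) =
      (Dp ψ φ + A1 + A2) - (Dp φ ψ + B1 + B2) + (⁅ψ, φ⁆ + ⁅p1, P1⁆ + ⁅p2, P2⁆) := by abel
  rw [e3, k1, k2]
  have e4 : ⁅ψ + p1 + p2, φ + P1 + P2⁆ = 0 := by rw [hh, zero_lie]
  simp only [lie_add, add_lie] at e4 ⊢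
  rw [← lie_skew φ p1, ← lie_skew φ p2, ← lie_skew P1 p2]
  rw [← e4]
  abel

end

section
variable {K : Type} [Field K] [CharZero K]

/- Z4 -/
theorem anti_ihara {ψ φ : LK K} (h : ψ + sb (ky K) (kx K) ψ = 0)
    (h' : φ + sb (ky K) (kx K) φ = 0) :
    ihara ψ φ + sb (ky K) (kx K) (ihara ψ φ) = 0 := anti_ihara' h h'

/- Z5 -/
theorem hexa_ihara {m n : ℕ} {ψ φ : LK K} (h : Sol K m ψ) (h' : Sol K n φ)
    (hG : GG ψ = 0) (hG' : GG φ = 0) :
    ihara ψ φ + sb (ky K) (-kx K - ky K) (ihara ψ φ)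
      + sb (-kx K - ky K) (kx K) (ihara ψ φ) = 0 :=
  hexa_ihara' h.anti h'.anti h.hexa h'.hexa hG hG'

end

/- Z6 -/
theorem sol_ihara {K : Type} [Field K] [CharZero K] {m n : ℕ} (hm : 2 ≤ m) (hn : 2 ≤ n)
    {ψ φ : LK K} (h : Sol K m ψ) (h' : Sol K n φ) : Sol K (m + n) (ihara ψ φ) where
  wt := ihara_wt h.wt h'.wt
  anti := anti_ihara h.anti h'.anti
  hexa := hexa_ihara h h' (GG_zero hm h) (GG_zero hn h')
  penta := fun _ _ _ _ hX => penta_ihara hm hn h h' (GG_zero hm h)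
    (GG_zero hn h') hX

end Vale.Agent.P029.Low
end
end
end

section

section

/-!
# P029: `W` is closed under the Ihara bracket
-/

noncomputable section

attribute [local instance 100] LieRing.ofAssociativeRing

namespace Vale.Agent.P029

open Low

/-- The derivation of the Ihara bracket is `Dp`. -/
theorem isIharaDer_eq {ψ : L} {D : LieDerivation ℚ L L} (hD : IsIharaDer ψ D) (a : L) :
    D a = Dp ψ a := by
  refine der_ext (K := ℚ) (g := L) LieHom.id (d := (D : L →ₗ[ℚ] L)) (d' := Dp ψ)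
    (fun a b => ?_) (fun a b => ?_) ?_ ?_ a
  · change D ⁅a, b⁆ = ⁅a, D b⁆ + ⁅D a, b⁆
    rw [LieDerivation.apply_lie_eq_add]
  · exact Dp_lie _ _ _
  · change D lx = _
    rw [hD.1, Dp_x]
  · change D ly = _
    rw [hD.2, Dp_y]
    rfl

theorem isIharaBracket_eq {ψ φ χ : L} (h : IsIharaBracket ψ φ χ) : χ = ihara ψ φ := by
  obtain ⟨D, E, hD, hE, rfl⟩ := h
  rw [isIharaDer_eq hD, isIharaDer_eq hE]
  rfl

theorem wClosed : WClosed := by
  intro m n ψ φ χ hψ hφ h
  rw [isIharaBracket_eq h]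
  rcases Nat.lt_or_ge m 2 with hm | hm
  · rw [W_small (by omega : m ≤ 2), Submodule.mem_bot] at hψ
    subst hψ
    have : ihara (0 : L) φ = 0 := by
      simp [ihara, Dp_zero_left]
    rw [this]
    exact zero_mem _
  rcases Nat.lt_or_ge n 2 with hn | hn
  · rw [W_small (by omega : n ≤ 2), Submodule.mem_bot] at hφ
    subst hφ
    have : ihara ψ (0 : L) = 0 := by
      simp only [ihara, map_zero, Dp_zero_left, sub_self, lie_zero, add_zero]
    rw [this]
    exact zero_mem _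
  exact W_of_sol (by omega) (sol_ihara hm hn (sol_of_W hm hψ) (sol_of_W hn hφ))

end Vale.Agent.P029
end
end
end

section

section

/-!
P029, part (D): the Knizhnik-Zamolodchikov associator, all definitions.
-/

open MeasureTheory Set Filter Topology

noncomputable section

namespace Vale.Agent.P029.KZ

section transport

variable {B : Type*} [NormedRing B] [NormedAlgebra ℂ B]

/-- Iterated integrals of a `B`-valued form `ω u du` from `s`, outermost variable on the left. -/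
def J (ω : ℝ → B) (s : ℝ) : ℕ → ℝ → B
  | 0, _ => 1
  | n + 1, r => ∫ u in s..r, ω u * J ω s n u

/-- The transport of `Y' = ω Y` from `s` to `t` (nilpotent of order `N`). -/
def Tr (N : ℕ) (ω : ℝ → B) (s t : ℝ) : B := ∑ n ∈ Finset.range (N + 1), J ω s n t

/-- `ω` is a continuous form on `[s,t]` with values in `M`. -/
structure Fm (M : Submodule ℂ B) (ω : ℝ → B) (s t : ℝ) : Prop where
  le : s ≤ t
  cont : ContinuousOn ω (Icc s t)
  mem : ∀ u ∈ Icc s t, ω u ∈ M

/-- The KZ form `a dz / z + b dz / (z - 1)` on `(0,1)`. -/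
def kz (a b : B) (u : ℝ) : B := (1 / u) • a + (1 / (u - 1)) • b

/-- The KZ form along a complex path `γ` with derivative `γ'`. -/
def kzc (a b : B) (γ γ' : ℝ → ℂ) (u : ℝ) : B := (γ' u / γ u) • a + (γ' u / (γ u - 1)) • b

/-- The regularised transport from `α` to `1 - β`. -/
def Phi (N : ℕ) (α β : ℝ) (a b : B) : B :=
  expT N (-(Real.log β : ℂ)) b * Tr N (kz a b) α (1 - β) * expT N (Real.log α : ℂ) a

end transport

section words

/-- Concatenation product of series in words. -/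
def conv {R : Type*} [CommSemiring R] (φ ψ : List Bool → R) (w : List Bool) : R :=
  ∑ k ∈ Finset.range (w.length + 1), φ (w.take k) * ψ (w.drop k)

/-- The series `exp (x c)` in the letter `c`. -/
def exS (c : Bool) (x : ℝ) (w : List Bool) : ℝ :=
  if w = List.replicate w.length c then x ^ w.length / (w.length.factorial : ℝ) else 0

/-- Iterated integrals of the words in `du / u` (`false`) and `du / (u - 1)` (`true`). -/
def II (s : ℝ) : List Bool → ℝ → ℝ
  | [], _ => 1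
  | c :: w, r => ∫ u in s..r, (if c then 1 / (u - 1) else 1 / u) * II s w u

/-- The coefficients of `Phi`. -/
def pc (α β : ℝ) : List Bool → ℝ :=
  conv (conv (exS true (-Real.log β)) fun w => II α w (1 - β)) (exS false (Real.log α))

/-- The coefficients of the KZ associator. -/
def kzφ (w : List Bool) : ℝ := limUnder (𝓝[>] (0 : ℝ)) fun ε => pc ε ε w

/-- The KZ associator at nilpotent arguments. -/
def ev {B : Type*} [NormedRing B] [NormedAlgebra ℂ B] (N : ℕ) (a b : B) : B :=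
  evS (fun w => (kzφ w : ℂ)) N a b

end words

section asymptotics

variable {V : Type*} [NormedAddCommGroup V]

/-- Moderate growth as `ε → 0`: powers of `log ε`. -/
def Md (f : ℝ → V) : Prop :=
  ∃ (C : ℝ) (K : ℕ), ∀ ε, 0 < ε → ε ≤ 1 / 4 → ‖f ε‖ ≤ C * (1 + |Real.log ε|) ^ K

/-- Small as `ε → 0`: `√ε` times powers of `log ε`. -/
def Sm (f : ℝ → V) : Prop :=
  ∃ (C : ℝ) (K : ℕ), ∀ ε, 0 < ε → ε ≤ 1 / 4 →
    ‖f ε‖ ≤ C * Real.sqrt ε * (1 + |Real.log ε|) ^ K

/-- `α ε = ε ^ p (1 + O(ε))`, inside `(0, 1/2]`. -/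
def Ap (p : ℕ) (α : ℝ → ℝ) : Prop :=
  1 ≤ p ∧ ∀ ε, 0 < ε → ε ≤ 1 / 4 →
    0 < α ε ∧ α ε ≤ 1 / 2 ∧ |Real.log (α ε) - p * Real.log ε| ≤ 4 * ε

end asymptotics

end Vale.Agent.P029.KZ
end
end
end

section

section

set_option linter.all false

/-!
P029-D, task KZ1: nilpotent sets and the truncated exponential.
-/

open MeasureTheory Set Filter Topology

noncomputable section

namespace Vale.Agent.P029.KZ

variable {B : Type*} [NormedRing B] [NormedAlgebra ℂ B]

omit [NormedAlgebra ℂ B] in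
theorem NilS.mono {S S' : Set B} {N : ℕ} (h : NilS S N) (hS : S' ⊆ S) : NilS S' N :=
  fun l hl hx => h l hl fun x hxl => hS (hx x hxl)

theorem NilExp_aux {S : Set B} {N : ℕ} (h : NilS S N) (l₁ : List B) :
    (∀ x ∈ l₁, x ∈ ((Submodule.span ℂ S : Submodule ℂ B) : Set B)) →
    ∀ l₂ : List B, (∀ x ∈ l₂, x ∈ S) → l₂.length + l₁.length = N + 1 → l₂.prod * l₁.prod = 0 := by
  induction l₁ with
  | nil =>
    intro _ l₂ h2 hl
    rw [List.prod_nil, mul_one]
    exact h l₂ (by simpa using hl) h2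
  | cons x l₁ ih =>
    intro h1 l₂ h2 hl
    rw [List.prod_cons]
    have hx : x ∈ Submodule.span ℂ S := h1 x List.mem_cons_self
    have ih' := ih (fun y hy => h1 y (List.mem_cons_of_mem _ hy))
    rw [List.length_cons] at hl
    refine Submodule.span_induction (p := fun x _ => l₂.prod * (x * l₁.prod) = 0)
      (fun y hy => ?_) ?_ (fun y z _ _ hy hz => ?_) (fun c y _ hy => ?_) hx
    · have h3 := ih' (l₂ ++ [y]) (fun z hz => by
        rcases List.mem_append.1 hz with h4 | h4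
        · exact h2 z h4
        · rw [List.mem_singleton.1 h4]; exact hy) (by
        rw [List.length_append, List.length_singleton]; omega)
      rw [List.prod_append, List.prod_singleton, mul_assoc] at h3
      exact h3
    · rw [zero_mul, mul_zero]
    · rw [add_mul, mul_add, hy, hz, add_zero]
    · rw [smul_mul_assoc, mul_smul_comm, hy, smul_zero]

/-- products of `N + 1` elements of the span vanish. -/
theorem nil_span {S : Set B} {N : ℕ} (h : NilS S N) :
    NilS ((Submodule.span ℂ S : Submodule ℂ B) : Set B) N := by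
  intro l hl hx
  have h1 := NilExp_aux h l hx [] (by simp) (by simpa using hl)
  rwa [List.prod_nil, one_mul] at h1

theorem nil_pow {S : Set B} {N : ℕ} (h : NilS S N) {m : B} (hm : m ∈ S) : m ^ (N + 1) = 0 := by
  have h1 := h (List.replicate (N + 1) m) (List.length_replicate)
    (fun x hx => by rw [List.eq_of_mem_replicate hx]; exact hm)
  rwa [List.prod_replicate] at h1

theorem expT_zero (N : ℕ) (m : B) : expT N 0 m = 1 := by
  unfold expT
  rw [Finset.sum_range_succ']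
  simp only [ne_eq, Nat.add_eq_zero_iff, one_ne_zero, and_false, not_false_eq_true, zero_pow, zero_div, zero_smul, Finset.sum_const_zero, pow_zero, Nat.factorial_zero, Nat.cast_one, div_self, one_smul, zero_add]

theorem expT_zero_right (N : ℕ) (c : ℂ) : expT N c (0 : B) = 1 := by
  unfold expT
  rw [Finset.sum_range_succ']
  simp

theorem NilExp_eq {N : ℕ} {m : B} (hm : m ^ (N + 1) = 0) (c : ℂ) :
    letI : Algebra ℚ B := Algebra.compHom B (algebraMap ℚ ℂ)
    expT N c m = IsNilpotent.exp (c • m) := by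
  letI : Algebra ℚ B := Algebra.compHom B (algebraMap ℚ ℂ)
  have h1 : (c • m) ^ (N + 1) = 0 := by rw [smul_pow, hm, smul_zero]
  rw [IsNilpotent.exp_eq_sum h1]
  unfold expT
  refine Finset.sum_congr rfl fun k _ => ?_
  have h2 : ∀ (r : ℚ) (x : B), r • x = (algebraMap ℚ ℂ r) • x := fun _ _ => rfl
  rw [h2, smul_pow, smul_smul, map_inv₀, map_natCast, div_eq_inv_mul]

theorem NilExp_nilp {N : ℕ} {m : B} (hm : m ^ (N + 1) = 0) (c : ℂ) : IsNilpotent (c • m) :=
  ⟨N + 1, by rw [smul_pow, hm, smul_zero]⟩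

theorem expT_add {N : ℕ} {m : B} (hm : m ^ (N + 1) = 0) (c d : ℂ) :
    expT N (c + d) m = expT N c m * expT N d m := by
  letI : Algebra ℚ B := Algebra.compHom B (algebraMap ℚ ℂ)
  rw [NilExp_eq hm, NilExp_eq hm, NilExp_eq hm, add_smul]
  exact IsNilpotent.exp_add_of_commute (((Commute.refl m).smul_left c).smul_right d)
    (NilExp_nilp hm c) (NilExp_nilp hm d)

theorem expT_neg_mul {N : ℕ} {m : B} (hm : m ^ (N + 1) = 0) (c : ℂ) :
    expT N (-c) m * expT N c m = 1 := by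
  rw [← expT_add hm, neg_add_cancel, expT_zero]

theorem expT_mul_neg {N : ℕ} {m : B} (hm : m ^ (N + 1) = 0) (c : ℂ) :
    expT N c m * expT N (-c) m = 1 := by
  rw [← expT_add hm, add_neg_cancel, expT_zero]

/-- exponential of a commuting sum. -/
theorem expT_add_right {N : ℕ} {m m' : B} (h : NilS {m, m'} N) (hc : Commute m m') (c : ℂ) :
    expT N c (m + m') = expT N c m * expT N c m' := by
  have h1 : m ^ (N + 1) = 0 := nil_pow h (by simp)
  have h2 : m' ^ (N + 1) = 0 := nil_pow h (by simp)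
  have h3 : (m + m') ^ (N + 1) = 0 := nil_pow (nil_span h)
    (Submodule.add_mem _ (Submodule.subset_span (by simp)) (Submodule.subset_span (by simp)))
  letI : Algebra ℚ B := Algebra.compHom B (algebraMap ℚ ℂ)
  rw [NilExp_eq h1, NilExp_eq h2, NilExp_eq h3, smul_add]
  exact IsNilpotent.exp_add_of_commute ((hc.smul_left c).smul_right c)
    (NilExp_nilp h1 c) (NilExp_nilp h2 c)

theorem expT_neg_right (N : ℕ) (c : ℂ) (m : B) : expT N c (-m) = expT N (-c) m := by
  unfold expT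
  refine Finset.sum_congr rfl fun k _ => ?_
  have h1 : (-m : B) = (-1 : ℂ) • m := by rw [neg_smul, one_smul]
  rw [h1, smul_pow, smul_smul]
  congr 1
  rw [neg_pow c k]
  ring

theorem expT_commute {x m : B} (h : Commute x m) (N : ℕ) (c : ℂ) : Commute x (expT N c m) :=
  Commute.sum_right _ _ _ fun k _ => (h.pow_right k).smul_right _

theorem NilExp_coef (c : ℂ) (k : ℕ) : ‖c ^ k / (k.factorial : ℂ)‖ ≤ ‖c‖ ^ k := by
  rw [norm_div, norm_pow, Complex.norm_natCast]
  exact div_le_self (by positivity) (by exact_mod_cast k.factorial_pos)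

/-- polynomial bound. -/
theorem expT_norm_le (N : ℕ) (m : B) : ∃ C : ℝ, 0 ≤ C ∧ ∀ c : ℂ, ‖expT N c m‖ ≤ C * (1 + ‖c‖) ^ N := by
  refine ⟨∑ k ∈ Finset.range (N + 1), ‖m ^ k‖, Finset.sum_nonneg fun k _ => norm_nonneg _,
    fun c => ?_⟩
  unfold expT
  refine (norm_sum_le _ _).trans ?_
  rw [Finset.sum_mul]
  refine Finset.sum_le_sum fun k hk => ?_
  have hk' : k ≤ N := Nat.lt_succ_iff.1 (Finset.mem_range.1 hk)
  have h0 : 0 ≤ ‖c‖ := norm_nonneg c
  rw [norm_smul, mul_comm]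
  refine mul_le_mul_of_nonneg_left ?_ (norm_nonneg _)
  exact (NilExp_coef c k).trans ((pow_le_pow_left₀ h0 (by linarith only []) k).trans
    (pow_le_pow_right₀ (by linarith only [h0]) hk'))

/-- `exp` of a small number is close to one. -/
theorem expT_sub_one_le (N : ℕ) (m : B) :
    ∃ C : ℝ, 0 ≤ C ∧ ∀ c : ℂ, ‖c‖ ≤ 1 → ‖expT N c m - 1‖ ≤ C * ‖c‖ := by
  refine ⟨∑ k ∈ Finset.range N, ‖m ^ (k + 1)‖, Finset.sum_nonneg fun k _ => norm_nonneg _,
    fun c hc => ?_⟩
  have h1 : expT N c m - 1 =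
      ∑ k ∈ Finset.range N, (c ^ (k + 1) / ((k + 1).factorial : ℂ)) • m ^ (k + 1) := by
    unfold expT
    rw [Finset.sum_range_succ']
    simp only [pow_zero, Nat.factorial_zero, Nat.cast_one, ne_eq, one_ne_zero, not_false_eq_true, div_self, one_smul, add_sub_cancel_right]
  rw [h1, Finset.sum_mul]
  refine (norm_sum_le _ _).trans (Finset.sum_le_sum fun k _ => ?_)
  rw [norm_smul, mul_comm]
  refine mul_le_mul_of_nonneg_left ?_ (norm_nonneg _)
  refine (NilExp_coef c (k + 1)).trans ?_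
  rw [pow_succ]
  exact mul_le_of_le_one_left (norm_nonneg _) (pow_le_one₀ (norm_nonneg _) hc)

theorem NilExp_deriv {N : ℕ} {m : B} (hm : m ^ (N + 1) = 0) (z : ℂ) :
    HasDerivAt (fun z : ℂ => expT N z m) (m * expT N z m) z := by
  have h1 : HasDerivAt (fun z : ℂ => expT N z m)
      (∑ k ∈ Finset.range (N + 1), (((k : ℂ) * z ^ (k - 1) * 1) / (k.factorial : ℂ)) • m ^ k) z := by
    unfold expT
    refine HasDerivAt.fun_sum fun k _ => ?_
    exact (((hasDerivAt_id z).fun_pow k).div_const _).smul_const _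
  refine h1.congr_deriv ?_
  unfold expT
  rw [Finset.sum_range_succ', Finset.sum_range_succ (fun k => (z ^ k / (k.factorial : ℂ)) • m ^ k),
    mul_add, mul_smul_comm, ← pow_succ', hm, smul_zero, add_zero, Nat.cast_zero, zero_mul, zero_mul,
    zero_div, zero_smul, add_zero, Finset.mul_sum]
  refine Finset.sum_congr rfl fun k _ => ?_
  rw [mul_smul_comm, ← pow_succ']
  congr 1
  have h2 : ((k + 1).factorial : ℂ) = ((k : ℂ) + 1) * (k.factorial : ℂ) := by
    rw [Nat.factorial_succ]; push_cast; ring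
  have h3 : (k.factorial : ℂ) ≠ 0 := by exact_mod_cast k.factorial_ne_zero
  have h4 : (k : ℂ) + 1 ≠ 0 := by exact_mod_cast Nat.succ_ne_zero k
  rw [h2, Nat.add_sub_cancel, mul_one]
  push_cast
  rw [mul_div_mul_left _ _ h4]

theorem expT_hasDerivAt {N : ℕ} {m : B} (hm : m ^ (N + 1) = 0) {f : ℝ → ℂ} {f' : ℂ} {u : ℝ}
    (hf : HasDerivAt f f' u) :
    HasDerivAt (fun u => expT N (f u) m) (f' • (m * expT N (f u) m)) u :=
  (NilExp_deriv hm (f u)).scomp u hf

/-- evaluation commutes: an element commuting with `a`, `b` commutes with `evS φ N a b`. -/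
theorem evS_commute {x a b : B} (ha : Commute x a) (hb : Commute x b) (φ : List Bool → ℂ) (N : ℕ) :
    Commute x (evS φ N a b) := by
  refine Commute.sum_right _ _ _ fun w _ => Commute.smul_right ?_ _
  unfold wd
  refine Commute.list_prod_right _ _ fun y hy => ?_
  obtain ⟨c, -, rfl⟩ := List.mem_map.1 hy
  split_ifs
  · exact hb
  · exact ha

end Vale.Agent.P029.KZ
end
end
end

section

section

/-!
P029-D, task KZ2: iterated integrals and existence of the transport.
-/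

open MeasureTheory Set Filter Topology

noncomputable section

namespace Vale.Agent.P029.KZ

variable {B : Type*} [NormedRing B] [NormedAlgebra ℂ B] [CompleteSpace B]

omit [CompleteSpace B] in
theorem Fm.sub {M : Submodule ℂ B} {ω : ℝ → B} {s t s' t' : ℝ} (h : Fm M ω s t) (hs : s ≤ s')
    (hst : s' ≤ t') (ht : t' ≤ t) : Fm M ω s' t' :=
  ⟨hst, h.cont.mono (Icc_subset_Icc hs ht), fun u hu => h.mem u (Icc_subset_Icc hs ht hu)⟩

theorem TrA_mul_integral (c : B) {f : ℝ → B} {a b : ℝ} (hf : IntervalIntegrable f volume a b) :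
    c * (∫ u in a..b, f u) = ∫ u in a..b, c * f u :=
  ((ContinuousLinearMap.mul ℂ B c).intervalIntegral_comp_comm hf).symm

theorem TrA_integral_mul (c : B) {f : ℝ → B} {a b : ℝ} (hf : IntervalIntegrable f volume a b) :
    (∫ u in a..b, f u) * c = ∫ u in a..b, f u * c :=
  (((ContinuousLinearMap.mul ℂ B).flip c).intervalIntegral_comp_comm hf).symm

theorem Tr_self (N : ℕ) (ω : ℝ → B) (s : ℝ) : Tr N ω s s = 1 := by
  unfold Tr
  rw [Finset.sum_range_succ']
  have h : ∀ k ∈ Finset.range N, J ω s (k + 1) s = 0 := by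
    intro k _
    simp only [J, intervalIntegral.integral_same]
  rw [Finset.sum_eq_zero h, zero_add]
  rfl

theorem J_continuousOn {ω : ℝ → B} {s t : ℝ} (hst : s ≤ t) (hω : ContinuousOn ω (Icc s t)) (n : ℕ) :
    ContinuousOn (J ω s n) (Icc s t) := by
  induction n with
  | zero => exact continuousOn_const
  | succ n ih =>
    have hc : ContinuousOn (fun u => ω u * J ω s n u) (Icc s t) := hω.mul ih
    have hi : IntegrableOn (fun u => ω u * J ω s n u) (uIcc s t) volume := by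
      rw [uIcc_of_le hst]
      exact hc.integrableOn_Icc
    have := intervalIntegral.continuousOn_primitive_interval hi
    rw [uIcc_of_le hst] at this
    exact this

theorem TrA_intervalIntegrable {ω : ℝ → B} {s t : ℝ} (hω : ContinuousOn ω (Icc s t)) (n : ℕ)
    {r : ℝ} (hr : r ∈ Icc s t) : IntervalIntegrable (fun u => ω u * J ω s n u) volume s r := by
  have hst : s ≤ t := hr.1.trans hr.2
  have hc : ContinuousOn (fun u => ω u * J ω s n u) (Icc s t) :=
    hω.mul (J_continuousOn hst hω n)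
  refine (hc.mono ?_).intervalIntegrable
  rw [uIcc_of_le hr.1]
  exact Icc_subset_Icc_right hr.2

theorem J_hasDerivAt {ω : ℝ → B} {s t : ℝ} (hω : ContinuousOn ω (Icc s t)) (n : ℕ) {r : ℝ}
    (hr : r ∈ Ioo s t) : HasDerivAt (J ω s (n + 1)) (ω r * J ω s n r) r := by
  have hst : s ≤ t := (hr.1.trans hr.2).le
  have hc : ContinuousOn (fun u => ω u * J ω s n u) (Icc s t) :=
    hω.mul (J_continuousOn hst hω n)
  have hnhds : Icc s t ∈ 𝓝 r := Icc_mem_nhds hr.1 hr.2
  have hca : ContinuousAt (fun u => ω u * J ω s n u) r := hc.continuousAt hnhds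
  have hmeas : StronglyMeasurableAtFilter (fun u => ω u * J ω s n u) (𝓝 r) volume :=
    hc.stronglyMeasurableAtFilter_nhdsWithin measurableSet_Icc r |>.filter_mono
      (le_of_eq (nhdsWithin_eq_nhds.2 hnhds).symm)
  exact intervalIntegral.integral_hasDerivAt_right
    (TrA_intervalIntegrable hω n (Ioo_subset_Icc_self hr)) hmeas hca

/-- the last iterated integral is killed by the letters: by induction on `n`, for any list `l` of
elements of `M` with `l.length + n = N + 1` one has `l.prod * J ω s n r = 0`. -/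
theorem TrA_J_nil {M : Submodule ℂ B} {N : ℕ} (hM : NilS (M : Set B) N) {ω : ℝ → B} {s t : ℝ}
    (h : Fm M ω s t) (n : ℕ) : ∀ r ∈ Icc s t, ∀ l : List B, l.length + n = N + 1 →
      (∀ x ∈ l, x ∈ M) → l.prod * J ω s n r = 0 := by
  induction n with
  | zero =>
    intro r _ l hl hlM
    rw [hM l (by omega) hlM, zero_mul]
  | succ n ih =>
    intro r hr l hl hlM
    have hJ : J ω s (n + 1) r = ∫ u in s..r, ω u * J ω s n u := rfl
    rw [hJ, TrA_mul_integral _ (TrA_intervalIntegrable h.cont n hr)]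
    have hz : ∀ u ∈ uIcc s r, l.prod * (ω u * J ω s n u) = 0 := by
      intro u hu
      rw [uIcc_of_le hr.1] at hu
      have hu' : u ∈ Icc s t := ⟨hu.1, hu.2.trans hr.2⟩
      have hlen : (l ++ [ω u]).length + n = N + 1 := by
        rw [List.length_append, List.length_singleton]
        omega
      have hmem : ∀ x ∈ l ++ [ω u], x ∈ M := by
        intro x hx
        rcases List.mem_append.1 hx with hx | hx
        · exact hlM x hx
        · rw [List.mem_singleton] at hx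
          rw [hx]
          exact h.mem u hu'
      have := ih u hu' (l ++ [ω u]) hlen hmem
      rw [List.prod_append, List.prod_singleton, mul_assoc] at this
      exact this
    have hz' : (∫ u in s..r, l.prod * (ω u * J ω s n u)) = ∫ _u in s..r, (0 : B) :=
      intervalIntegral.integral_congr hz
    rw [hz', intervalIntegral.integral_zero]

theorem J_nil {M : Submodule ℂ B} {N : ℕ} (hM : NilS (M : Set B) N) {ω : ℝ → B} {s t : ℝ}
    (h : Fm M ω s t) {r : ℝ} (hr : r ∈ Icc s t) {x : B} (hx : x ∈ M) : x * J ω s N r = 0 := by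
  have := TrA_J_nil hM h N r hr [x] (by rw [List.length_singleton, add_comm]) (by
    intro y hy
    rw [List.mem_singleton] at hy
    rw [hy]
    exact hx)
  rwa [List.prod_singleton] at this

/-- the transport solves the ODE. -/
theorem Tr_sol {M : Submodule ℂ B} {N : ℕ} (hM : NilS (M : Set B) N) {ω : ℝ → B} {s t : ℝ}
    (h : Fm M ω s t) :
    ContinuousOn (fun r => Tr N ω s r) (Icc s t) ∧
      ∀ r ∈ Ioo s t, HasDerivAt (fun r => Tr N ω s r) (ω r * Tr N ω s r) r := by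
  constructor
  · unfold Tr
    exact continuousOn_finsetSum _ fun n _ => J_continuousOn h.le h.cont n
  · intro r hr
    have hr' : r ∈ Icc s t := Ioo_subset_Icc_self hr
    have hd : HasDerivAt (fun r => ∑ n ∈ Finset.range N, J ω s (n + 1) r + J ω s 0 r)
        (∑ n ∈ Finset.range N, ω r * J ω s n r + 0) r := by
      refine (HasDerivAt.fun_sum fun n _ => J_hasDerivAt h.cont n hr).add ?_
      exact hasDerivAt_const r (1 : B)
    have e1 : (fun r => Tr N ω s r) =
        fun r => ∑ n ∈ Finset.range N, J ω s (n + 1) r + J ω s 0 r := by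
      funext r
      unfold Tr
      rw [Finset.sum_range_succ']
    have e2 : ω r * Tr N ω s r = ∑ n ∈ Finset.range N, ω r * J ω s n r + 0 := by
      unfold Tr
      rw [Finset.sum_range_succ, mul_add, J_nil hM h hr' (h.mem r hr'), Finset.mul_sum]
    rw [e1, e2]
    exact hd

theorem J_norm_le {ω : ℝ → B} {s t : ℝ} (hω : ContinuousOn ω (Icc s t)) (n : ℕ) {r : ℝ}
    (hr : r ∈ Icc s t) : ‖J ω s n r‖ ≤ ‖(1 : B)‖ * (∫ u in s..t, ‖ω u‖) ^ n := by
  have hst : s ≤ t := hr.1.trans hr.2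
  have hn : ContinuousOn (fun u => ‖ω u‖) (Icc s t) := hω.norm
  have hI0 : 0 ≤ ∫ u in s..t, ‖ω u‖ :=
    intervalIntegral.integral_nonneg hst fun u _ => norm_nonneg _
  induction n generalizing r with
  | zero => simp only [J, pow_zero, mul_one, le_refl]
  | succ n ih =>
    have hJ : J ω s (n + 1) r = ∫ u in s..r, ω u * J ω s n u := rfl
    have hnI : IntervalIntegrable (fun u => ‖ω u‖) volume s t := by
      refine ContinuousOn.intervalIntegrable ?_
      rw [uIcc_of_le hst]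
      exact hn
    have hnr : IntervalIntegrable (fun u => ‖ω u‖) volume s r := by
      refine ContinuousOn.intervalIntegrable ?_
      rw [uIcc_of_le hr.1]
      exact hn.mono (Icc_subset_Icc_right hr.2)
    set C : ℝ := ‖(1 : B)‖ * (∫ u in s..t, ‖ω u‖) ^ n with hC
    have hC0 : 0 ≤ C := by (clear * - hI0; positivity)
    have h1 : ‖∫ u in s..r, ω u * J ω s n u‖ ≤ ∫ u in s..r, ‖ω u‖ * C := by
      refine intervalIntegral.norm_integral_le_of_norm_le hr.1 ?_ (hnr.mul_const C)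
      refine Filter.Eventually.of_forall fun u hu => ?_
      have hu' : u ∈ Icc s t := ⟨hu.1.le, hu.2.trans hr.2⟩
      exact (norm_mul_le _ _).trans (mul_le_mul_of_nonneg_left (ih hu') (norm_nonneg _))
    have h2 : ∫ u in s..r, ‖ω u‖ ≤ ∫ u in s..t, ‖ω u‖ := by
      refine intervalIntegral.integral_mono_interval le_rfl hr.1 hr.2 ?_ hnI
      exact Filter.Eventually.of_forall fun u => norm_nonneg _
    rw [hJ]
    refine h1.trans ?_
    rw [intervalIntegral.integral_mul_const]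
    calc (∫ u in s..r, ‖ω u‖) * C ≤ (∫ u in s..t, ‖ω u‖) * C :=
          mul_le_mul_of_nonneg_right h2 hC0
      _ = ‖(1 : B)‖ * (∫ u in s..t, ‖ω u‖) ^ (n + 1) := by
          rw [hC, pow_succ]
          ring

theorem Tr_norm_le (N : ℕ) {ω : ℝ → B} {s t l : ℝ} (hst : s ≤ t) (hω : ContinuousOn ω (Icc s t))
    (hl : ∫ u in s..t, ‖ω u‖ ≤ l) :
    ‖Tr N ω s t‖ ≤ ‖(1 : B)‖ * (N + 1) * (1 + l) ^ N := by
  have hI0 : 0 ≤ ∫ u in s..t, ‖ω u‖ :=
    intervalIntegral.integral_nonneg hst fun u _ => norm_nonneg _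
  have hl0 : 0 ≤ l := hI0.trans hl
  unfold Tr
  refine (norm_sum_le _ _).trans ?_
  have h1 : ∀ n ∈ Finset.range (N + 1), ‖J ω s n t‖ ≤ ‖(1 : B)‖ * (1 + l) ^ N := by
    intro n hn
    have hnN : n ≤ N := Nat.lt_succ_iff.1 (Finset.mem_range.1 hn)
    refine (J_norm_le hω n ⟨hst, le_rfl⟩).trans ?_
    refine mul_le_mul_of_nonneg_left ?_ (norm_nonneg _)
    calc (∫ u in s..t, ‖ω u‖) ^ n ≤ (1 + l) ^ n :=
          pow_le_pow_left₀ hI0 (by linarith only [hl]) n
      _ ≤ (1 + l) ^ N := pow_le_pow_right₀ (by linarith only [hl, hI0]) hnN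
  refine (Finset.sum_le_sum h1).trans ?_
  rw [Finset.sum_const, Finset.card_range, nsmul_eq_mul]
  push_cast
  exact le_of_eq (by ring)

/-- an element commuting with all values of the form commutes with the transport. -/
theorem Tr_comm (N : ℕ) {ω : ℝ → B} {s t : ℝ} (hst : s ≤ t) (hω : ContinuousOn ω (Icc s t)) {c : B}
    (hc : ∀ u ∈ Icc s t, Commute c (ω u)) : Commute c (Tr N ω s t) := by
  have hJ : ∀ n : ℕ, ∀ r ∈ Icc s t, Commute c (J ω s n r) := by
    intro n
    induction n with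
    | zero => exact fun r _ => Commute.one_right c
    | succ n ih =>
      intro r hr
      have e : J ω s (n + 1) r = ∫ u in s..r, ω u * J ω s n u := rfl
      have hi := TrA_intervalIntegrable hω n hr
      unfold Commute SemiconjBy
      rw [e, TrA_mul_integral c hi, TrA_integral_mul c hi]
      refine intervalIntegral.integral_congr fun u hu => ?_
      rw [uIcc_of_le hr.1] at hu
      have hu' : u ∈ Icc s t := ⟨hu.1, hu.2.trans hr.2⟩
      exact ((hc u hu').mul_right (ih u hu')).eq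
  unfold Tr
  exact Commute.sum_right _ _ _ fun n _ => hJ n t ⟨hst, le_rfl⟩

end Vale.Agent.P029.KZ
end
end
end

section

section

/-!
P029-D, task KZ3: uniqueness and its consequences.
-/

open MeasureTheory Set Filter Topology

noncomputable section

namespace Vale.Agent.P029.KZ

variable {B : Type*} [NormedRing B] [NormedAlgebra ℂ B] [CompleteSpace B]

omit [CompleteSpace B] in
/-- uniqueness of the zero solution. -/
theorem TrB_zero {M : Submodule ℂ B} {ω : ℝ → B} {s t : ℝ}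
    (h : Fm M ω s t) {D : ℝ → B} (hD : ContinuousOn D (Icc s t))
    (hd : ∀ r ∈ Ioo s t, HasDerivAt D (ω r * D r) r) (h0 : D s = 0) : D t = 0 := by
  rcases eq_or_lt_of_le h.le with rfl | hst
  · exact h0
  obtain ⟨K, hK⟩ := isCompact_Icc.exists_bound_of_continuousOn h.cont
  have hs : s ∈ Icc s t := left_mem_Icc.2 hst.le
  have hright : ∀ x ∈ Ico s t, HasDerivWithinAt D (ω x * D x) (Ici x) x := by
    intro x hx
    rcases eq_or_lt_of_le hx.1 with rfl | hx'
    · refine hasDerivWithinAt_Ici_of_tendsto_deriv (s := Ioo s t)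
        (fun r hr => (hd r hr).differentiableAt.differentiableWithinAt)
        ((hD s hs).mono Ioo_subset_Icc_self) (Ioo_mem_nhdsGT hst) ?_
      have h1 : Tendsto (fun r => ω r * D r) (𝓝[>] s) (𝓝 (ω s * D s)) := by
        have h2 : ContinuousWithinAt (fun r => ω r * D r) (Icc s t) s :=
          (h.cont s hs).mul (hD s hs)
        have h3 : 𝓝[Ioo s t] s = 𝓝[>] s := nhdsWithin_Ioo_eq_nhdsGT hst
        rw [← h3]
        exact h2.mono_left (nhdsWithin_mono _ Ioo_subset_Icc_self)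
      refine h1.congr' ?_
      filter_upwards [Ioo_mem_nhdsGT hst] with r hr
      exact (hd r hr).deriv.symm
    · exact (hd x ⟨hx', hx.2⟩).hasDerivWithinAt
  have hb := norm_le_gronwallBound_of_norm_deriv_right_le (δ := 0) (K := K) (ε := 0) hD hright
    (by rw [h0, norm_zero]) (fun x hx => by
      rw [add_zero]
      exact (norm_mul_le _ _).trans (mul_le_mul_of_nonneg_right
        (hK x (Ico_subset_Icc_self hx)) (norm_nonneg _))) t (right_mem_Icc.2 hst.le)
  rw [gronwallBound_ε0_δ0] at hb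
  exact norm_le_zero_iff.1 hb

/-- uniqueness of solutions. -/
theorem Tr_unique {M : Submodule ℂ B} {N : ℕ} (hM : NilS (M : Set B) N) {ω : ℝ → B} {s t : ℝ}
    (h : Fm M ω s t) {Y : ℝ → B} (hY : ContinuousOn Y (Icc s t))
    (hd : ∀ r ∈ Ioo s t, HasDerivAt Y (ω r * Y r) r) : Y t = Tr N ω s t * Y s := by
  obtain ⟨hc, hT⟩ := Tr_sol hM h
  have h1 : Y t - Tr N ω s t * Y s = 0 := by
    refine TrB_zero (D := fun r => Y r - Tr N ω s r * Y s) h
      (hY.sub (hc.mul continuousOn_const)) (fun r hr => ?_) ?_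
    · have h2 := (hd r hr).sub ((hT r hr).mul_const (Y s))
      have h3 : ω r * Y r - ω r * Tr N ω s r * Y s = ω r * (Y r - Tr N ω s r * Y s) := by
        rw [mul_sub, mul_assoc]
      rw [h3] at h2
      exact h2
    · show Y s - Tr N ω s s * Y s = 0
      rw [Tr_self, one_mul, sub_self]
  exact sub_eq_zero.1 h1

omit [CompleteSpace B] in
theorem TrB_J_congr {ω ω' : ℝ → B} {s t : ℝ} (he : ∀ u ∈ Icc s t, ω u = ω' u) (n : ℕ) :
    ∀ r ∈ Icc s t, J ω s n r = J ω' s n r := by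
  induction n with
  | zero => exact fun r _ => rfl
  | succ n ih =>
    intro r hr
    show ∫ u in s..r, ω u * J ω s n u = ∫ u in s..r, ω' u * J ω' s n u
    refine intervalIntegral.integral_congr fun u hu => ?_
    rw [uIcc_of_le hr.1] at hu
    have hu' : u ∈ Icc s t := ⟨hu.1, hu.2.trans hr.2⟩
    show ω u * J ω s n u = ω' u * J ω' s n u
    rw [he u hu', ih u hu']

/-- the transport depends only on the form on `[s,t]`. -/
theorem Tr_congr {M : Submodule ℂ B} {N : ℕ} (hM : NilS (M : Set B) N) {ω ω' : ℝ → B} {s t : ℝ}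
    (h : Fm M ω s t) (he : ∀ u ∈ Icc s t, ω u = ω' u) : Tr N ω s t = Tr N ω' s t :=
  Finset.sum_congr rfl fun n _ => TrB_J_congr he n t (right_mem_Icc.2 h.le)

theorem Tr_comp {M : Submodule ℂ B} {N : ℕ} (hM : NilS (M : Set B) N) {ω : ℝ → B} {s t r : ℝ}
    (h : Fm M ω s t) (hr : r ∈ Icc s t) : Tr N ω s t = Tr N ω r t * Tr N ω s r := by
  obtain ⟨hc, hT⟩ := Tr_sol hM h
  exact Tr_unique hM (h.sub hr.1 hr.2 le_rfl) (Y := fun r => Tr N ω s r)
    (hc.mono (Icc_subset_Icc_left hr.1)) fun x hx => hT x ⟨lt_of_le_of_lt hr.1 hx.1, hx.2⟩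

omit [CompleteSpace B] in
theorem TrB_rev_mem {s t u : ℝ} (hu : u ∈ Icc s t) : s + t - u ∈ Icc s t :=
  ⟨by linarith [hu.2], by linarith [hu.1]⟩

omit [CompleteSpace B] in
theorem TrB_fm_rev {M : Submodule ℂ B} {ω : ℝ → B} {s t : ℝ} (h : Fm M ω s t) :
    Fm M (fun u => -ω (s + t - u)) s t := by
  refine ⟨h.le, ?_, fun u hu => M.neg_mem (h.mem _ (TrB_rev_mem hu))⟩
  refine (h.cont.comp (continuousOn_const.sub continuousOn_id) fun u hu => ?_).neg
  exact TrB_rev_mem hu

/-- the reversed path: `Y r = T (s + t - r)` solves the reversed equation. -/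
theorem Tr_rev_mul {M : Submodule ℂ B} {N : ℕ} (hM : NilS (M : Set B) N) {ω : ℝ → B} {s t : ℝ}
    (h : Fm M ω s t) : Tr N (fun u => -ω (s + t - u)) s t * Tr N ω s t = 1 := by
  obtain ⟨hc, hT⟩ := Tr_sol hM h
  have h1 := Tr_unique hM (TrB_fm_rev h) (Y := fun r => Tr N ω s (s + t - r))
    (hc.comp (continuousOn_const.sub continuousOn_id) fun u hu => TrB_rev_mem hu)
    (fun r hr => by
      have h2 : s + t - r ∈ Ioo s t := ⟨by linarith [hr.2], by linarith [hr.1]⟩
      have h3 : HasDerivAt (fun r => s + t - r) (-1) r := by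
        simpa only [id_eq] using (hasDerivAt_id r).const_sub (s + t)
      have h4 := (hT _ h2).scomp r h3
      have h5 : (-1 : ℝ) • (ω (s + t - r) * Tr N ω s (s + t - r)) =
          -ω (s + t - r) * Tr N ω s (s + t - r) := by
        rw [neg_one_smul, neg_mul]
      rw [h5] at h4
      exact h4)
  simp only [add_sub_cancel_left, add_sub_cancel_right] at h1
  rw [← h1]
  exact Tr_self N ω s

theorem Tr_mul_rev {M : Submodule ℂ B} {N : ℕ} (hM : NilS (M : Set B) N) {ω : ℝ → B} {s t : ℝ}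
    (h : Fm M ω s t) : Tr N ω s t * Tr N (fun u => -ω (s + t - u)) s t = 1 := by
  have h1 := Tr_rev_mul hM (TrB_fm_rev h)
  have h2 : (fun u => -(fun u => -ω (s + t - u)) (s + t - u)) = ω := by
    funext u
    simp
  rw [h2] at h1
  exact h1

/-- sum of two commuting forms (`ω₁ + ω₂` need not be checked to lie in a smaller space: all forms
take values in `M`). -/
theorem Tr_add {M : Submodule ℂ B} {N : ℕ} (hM : NilS (M : Set B) N) {ω₁ ω₂ : ℝ → B} {s t : ℝ}
    (h₁ : Fm M ω₁ s t) (h₂ : Fm M ω₂ s t)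
    (hc : ∀ u ∈ Icc s t, ∀ v ∈ Icc s t, Commute (ω₁ u) (ω₂ v)) :
    Tr N (fun u => ω₁ u + ω₂ u) s t = Tr N ω₁ s t * Tr N ω₂ s t := by
  obtain ⟨c1, T1⟩ := Tr_sol hM h₁
  obtain ⟨c2, T2⟩ := Tr_sol hM h₂
  have h : Fm M (fun u => ω₁ u + ω₂ u) s t :=
    ⟨h₁.le, h₁.cont.add h₂.cont, fun u hu => M.add_mem (h₁.mem u hu) (h₂.mem u hu)⟩
  have h1 := Tr_unique hM h (Y := fun r => Tr N ω₁ s r * Tr N ω₂ s r) (c1.mul c2) (fun r hr => by
    have h2 := (T1 r hr).mul (T2 r hr)
    have hr' : r ∈ Icc s t := Ioo_subset_Icc_self hr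
    have h3 : Commute (ω₂ r) (Tr N ω₁ s r) :=
      Tr_comm N hr'.1 (h₁.cont.mono (Icc_subset_Icc_right hr'.2)) fun u hu =>
        (hc u ⟨hu.1, hu.2.trans hr'.2⟩ r hr').symm
    have h4 : ω₁ r * Tr N ω₁ s r * Tr N ω₂ s r + Tr N ω₁ s r * (ω₂ r * Tr N ω₂ s r) =
        (ω₁ r + ω₂ r) * (Tr N ω₁ s r * Tr N ω₂ s r) := by
      rw [add_mul, mul_assoc, ← mul_assoc (Tr N ω₁ s r), ← h3.eq, mul_assoc]
    rw [h4] at h2
    exact h2)
  simp only [Tr_self, mul_one] at h1
  exact h1.symm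

/-- a scalar form: `F` is a primitive of `f`. -/
theorem Tr_smul {N : ℕ} {m : B} (hm : m ^ (N + 1) = 0) {f : ℝ → ℂ} {F : ℝ → ℂ} {s t : ℝ}
    (hst : s ≤ t) (hf : ContinuousOn f (Icc s t)) (hF : ContinuousOn F (Icc s t))
    (hd : ∀ r ∈ Ioo s t, HasDerivAt F (f r) r) :
    Tr N (fun u => f u • m) s t = expT N (F t - F s) m := by
  have hnil : NilS ({m} : Set B) N := by
    intro l hl hx
    have h1 : l = List.replicate (N + 1) m := List.eq_replicate_iff.2 ⟨hl, fun x hxl => hx x hxl⟩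
    rw [h1, List.prod_replicate, hm]
  have h : Fm (Submodule.span ℂ {m}) (fun u => f u • m) s t :=
    ⟨hst, hf.smul continuousOn_const, fun u _ =>
      Submodule.smul_mem _ _ (Submodule.mem_span_singleton_self m)⟩
  have h1 := Tr_unique (nil_span hnil) h (Y := fun r => expT N (F r - F s) m) (by
    unfold expT
    refine continuousOn_finsetSum _ fun k _ => ?_
    exact (((hF.sub continuousOn_const).pow k).div_const _).smul continuousOn_const)
    (fun r hr => by
      have h2 := expT_hasDerivAt hm ((hd r hr).sub_const (F s))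
      rw [← smul_mul_assoc] at h2
      exact h2)
  simp only [sub_self, expT_zero, mul_one] at h1
  exact h1.symm

end Vale.Agent.P029.KZ
end
end
end

section

section

/-!
P029-D, task KZ12: flat nilpotent connections on convex open sets are trivial.
-/

open MeasureTheory Set Filter Topology

noncomputable section

namespace Vale.Agent.P029.KZ

variable {B : Type*} [NormedRing B] [NormedAlgebra ℂ B] [CompleteSpace B]
variable {E : Type*} [NormedAddCommGroup E] [NormedSpace ℝ E]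

/-- `v ↦ A v * x`. -/
def rmul (A : E →L[ℝ] B) (x : B) : E →L[ℝ] B := ((ContinuousLinearMap.mul ℝ B).flip x).comp A

omit [CompleteSpace B] in
@[simp] lemma rmul_apply (A : E →L[ℝ] B) (x : B) (v : E) : rmul A x v = A v * x := rfl

omit [CompleteSpace B] in
/-- derivative of `p ↦ rmul (Ω p) (V p)`. -/
lemma flat_rmul_hasFDerivAt {Ω : E → E →L[ℝ] B} {Ω' : E →L[ℝ] E →L[ℝ] B} {V : E → B}
    {V' : E →L[ℝ] B} {p : E} (hΩ : HasFDerivAt Ω Ω' p) (hV : HasFDerivAt V V' p) :
    ∃ D : E →L[ℝ] E →L[ℝ] B, HasFDerivAt (fun q => rmul (Ω q) (V q)) D p ∧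
      ∀ x y, D x y = Ω' x y * V p + Ω p y * V' x := by
  have h1 : HasFDerivAt (fun q => (ContinuousLinearMap.mul ℝ B).flip (V q))
      (((ContinuousLinearMap.mul ℝ B).flip : B →L[ℝ] B →L[ℝ] B).comp V') p :=
    ((ContinuousLinearMap.mul ℝ B).flip : B →L[ℝ] B →L[ℝ] B).hasFDerivAt.comp p hV
  refine ⟨_, h1.clm_comp hΩ, fun x y => ?_⟩
  simp [add_comm]

/-- one step of the iteration. -/
lemma flat_step {U : Set E} (hU : Convex ℝ U) (ho : IsOpen U) (Ω : E → E →L[ℝ] B)
    (hd : DifferentiableOn ℝ Ω U) (hc : ∀ p ∈ U, ∀ x y, fderiv ℝ Ω p x y = fderiv ℝ Ω p y x)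
    (hf : ∀ p ∈ U, ∀ x y, Ω p x * Ω p y = Ω p y * Ω p x) (p₀ : E) (V' V : E → B)
    (hV : ∀ p ∈ U, HasFDerivAt V (rmul (Ω p) (V' p)) p) :
    ∃ V'' : E → B, V'' p₀ = 0 ∧ ∀ p ∈ U, HasFDerivAt V'' (rmul (Ω p) (V p)) p := by
  have key : ∀ p ∈ U, ∃ D : E →L[ℝ] E →L[ℝ] B, HasFDerivAt (fun q => rmul (Ω q) (V q)) D p ∧
      ∀ x y, D x y = fderiv ℝ Ω p x y * V p + Ω p y * (rmul (Ω p) (V' p)) x := fun p hp =>
    flat_rmul_hasFDerivAt ((hd.differentiableAt (ho.mem_nhds hp)).hasFDerivAt) (hV p hp)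
  have h1 : DifferentiableOn ℝ (fun q => rmul (Ω q) (V q)) U := fun p hp => by
    obtain ⟨D, hD, -⟩ := key p hp
    exact hD.differentiableAt.differentiableWithinAt
  obtain ⟨f, hf'⟩ := hU.exists_forall_hasFDerivAt_of_fderiv_symmetric ho h1 (by
    intro p hp x y
    obtain ⟨D, hD, hD'⟩ := key p hp
    rw [hD.fderiv, hD', hD', hc p hp x y, rmul_apply, rmul_apply, ← mul_assoc, ← mul_assoc,
      hf p hp x y])
  refine ⟨fun p => f p - f p₀, by simp, fun p hp => ?_⟩
  exact (hf' p hp).sub_const _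

/-- the sequence of iterated integrals. -/
lemma flat_seq {U : Set E} (hU : Convex ℝ U) (ho : IsOpen U) (Ω : E → E →L[ℝ] B)
    (hd : DifferentiableOn ℝ Ω U) (hc : ∀ p ∈ U, ∀ x y, fderiv ℝ Ω p x y = fderiv ℝ Ω p y x)
    (hf : ∀ p ∈ U, ∀ x y, Ω p x * Ω p y = Ω p y * Ω p x) (p₀ : E) :
    ∃ W : ℕ → E → B, (∀ p, W 0 p = 1) ∧ (∀ n, W (n + 1) p₀ = 0) ∧
      ∀ n, ∀ p ∈ U, HasFDerivAt (W (n + 1)) (rmul (Ω p) (W n p)) p := by
  have step : ∀ V' V : E → B, ∃ V'' : E → B, (∀ p ∈ U, HasFDerivAt V (rmul (Ω p) (V' p)) p) →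
      V'' p₀ = 0 ∧ ∀ p ∈ U, HasFDerivAt V'' (rmul (Ω p) (V p)) p := by
    intro V' V
    by_cases h : ∀ p ∈ U, HasFDerivAt V (rmul (Ω p) (V' p)) p
    · obtain ⟨V'', h''⟩ := flat_step hU ho Ω hd hc hf p₀ V' V h
      exact ⟨V'', fun _ => h''⟩
    · exact ⟨0, fun h' => (h h').elim⟩
  choose F hF using step
  let P : ℕ → (E → B) × (E → B) := fun n =>
    Nat.rec (fun _ => 0, fun _ => 1) (fun _ q => (q.2, F q.1 q.2)) n
  have hP : ∀ n, ∀ p ∈ U, HasFDerivAt (P n).2 (rmul (Ω p) ((P n).1 p)) p := by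
    intro n
    induction n with
    | zero =>
      intro p _
      have : rmul (Ω p) (0 : B) = 0 := by ext; simp
      simpa [P, this] using hasFDerivAt_const (1 : B) p
    | succ n ih => exact (hF _ _ ih).2
  exact ⟨fun n => (P n).2, fun p => rfl, fun n => (hF _ _ (hP n)).1, fun n => (hF _ _ (hP n)).2⟩

/-- Proof: `W = ∑_{n ≤ N} W_n`, `W_0 = 1`, `W_{n+1} p₀ = 0`, `d W_{n+1} = Ω W_n` (Poincare lemma
`Convex.exists_forall_hasFDerivAt_of_fderiv_symmetric`; the form `Ω W_n` is closed since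
`Ω x * Ω y` is symmetric and `dΩ` is symmetric). `Ω W_N = 0`: by induction on `n`, `l.prod * W_n p = 0`
for every list `l` of elements of `M` with `l.length + n = N + 1` (its derivative vanishes and it
vanishes at `p₀`, `U` is convex). -/
theorem flat {U : Set E} (hU : Convex ℝ U) (ho : IsOpen U) {M : Submodule ℂ B} {N : ℕ}
    (hM : NilS (M : Set B) N) (Ω : E → E →L[ℝ] B) (hΩ : ∀ p ∈ U, ∀ v, Ω p v ∈ M)
    (hd : DifferentiableOn ℝ Ω U) (hc : ∀ p ∈ U, ∀ x y, fderiv ℝ Ω p x y = fderiv ℝ Ω p y x)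
    (hf : ∀ p ∈ U, ∀ x y, Ω p x * Ω p y = Ω p y * Ω p x) {p₀ : E} (hp : p₀ ∈ U) :
    ∃ W : E → B, W p₀ = 1 ∧ ∀ p ∈ U, HasFDerivAt W (rmul (Ω p) (W p)) p := by
  obtain ⟨W, h0, hz, hs⟩ := flat_seq hU ho Ω hd hc hf p₀
  have kill : ∀ n, ∀ l : List B, l.length + n = N + 1 → (∀ x ∈ l, x ∈ (M : Set B)) → ∀ p ∈ U,
      l.prod * W n p = 0 := by
    intro n
    induction n with
    | zero =>
      intro l hl hlM p _
      rw [h0, mul_one]
      exact hM l (by simpa using hl) hlM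
    | succ n ih =>
      intro l hl hlM p hpU
      have hder : ∀ q ∈ U, HasFDerivAt (fun q => l.prod * W (n + 1) q) (0 : E →L[ℝ] B) q := by
        intro q hq
        have h1 := (hs n q hq).const_mul l.prod
        refine h1.congr_fderiv ?_
        ext v
        have h2 := ih (l ++ [Ω q v]) (by simp only [List.length_append, List.length_cons, List.length_nil, zero_add]; omega) (by
          intro x hx
          rcases List.mem_append.1 hx with hx | hx
          · exact hlM x hx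
          · rw [List.mem_singleton.1 hx]; exact hΩ q hq v) q hq
        simpa only [smul_apply, rmul_apply, smul_eq_mul, zero_apply, List.prod_append, List.prod_cons, List.prod_nil,     mul_one, mul_assoc] using h2
      have h3 := ho.is_const_of_fderiv_eq_zero (𝕜 := ℝ) (f := fun q => l.prod * W (n + 1) q)
        hU.isPreconnected
        (fun q hq => (hder q hq).differentiableAt.differentiableWithinAt)
        (fun q hq => (hder q hq).fderiv) hpU hp
      simpa only [hz, mul_zero] using h3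
  refine ⟨fun p => ∑ n ∈ Finset.range (N + 1), W n p, ?_, fun p hpU => ?_⟩
  · change ∑ n ∈ Finset.range (N + 1), W n p₀ = 1
    rw [Finset.sum_range_succ', h0]
    simp [hz]
  · have h1 : HasFDerivAt (fun p => ∑ n ∈ Finset.range N, W (n + 1) p + W 0 p)
        (∑ n ∈ Finset.range N, rmul (Ω p) (W n p) + 0) p := by
      refine HasFDerivAt.add (HasFDerivAt.fun_sum fun n _ => hs n p hpU) ?_
      have : W 0 = fun _ => (1 : B) := funext h0
      rw [this]
      exact hasFDerivAt_const _ _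
    have h2 : (fun p => ∑ n ∈ Finset.range (N + 1), W n p)
        = fun p => ∑ n ∈ Finset.range N, W (n + 1) p + W 0 p := by
      funext q
      rw [Finset.sum_range_succ']
    rw [h2]
    refine h1.congr_fderiv ?_
    ext v
    have h3 : Ω p v * W N p = 0 := by
      have := kill N [Ω p v] (by simp only [List.length_cons, List.length_nil, zero_add]; omega) (by simpa using hΩ p hpU v) p hpU
      simpa only [List.prod_cons, List.prod_nil, mul_one] using this
    have h4 : (∑ n ∈ Finset.range N, W (n + 1) p + W 0 p) = ∑ n ∈ Finset.range N, W n p + W N p := by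
      rw [← Finset.sum_range_succ' (fun n => W n p), Finset.sum_range_succ]
    simp only [add_zero, rmul_apply, sum_apply]
    rw [h4, mul_add, h3, add_zero, Finset.mul_sum]

omit [CompleteSpace B] in
lemma flat_Fm {U : Set E} {M : Submodule ℂ B}
    {Ω : E → E →L[ℝ] B} (hΩ : ∀ p ∈ U, ∀ v, Ω p v ∈ M) (hd : ContinuousOn Ω U)
    {s t : ℝ} (hst : s ≤ t) {γ γ' : ℝ → E}
    (hγ : ContinuousOn γ (Icc s t)) (hγ' : ContinuousOn γ' (Icc s t))
    (hγU : ∀ r ∈ Icc s t, γ r ∈ U) : Fm M (fun u => Ω (γ u) (γ' u)) s t :=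
  ⟨hst, (hd.comp hγ hγU).clm_apply hγ', fun u hu => hΩ _ (hγU u hu) _⟩

/-- a flat section along a path. -/
theorem flat_path {U : Set E} {M : Submodule ℂ B} {N : ℕ} (hM : NilS (M : Set B) N)
    {Ω : E → E →L[ℝ] B} (hΩ : ∀ p ∈ U, ∀ v, Ω p v ∈ M) (hd : ContinuousOn Ω U) {W : E → B}
    (hW : ∀ p ∈ U, HasFDerivAt W (rmul (Ω p) (W p)) p) {s t : ℝ} (hst : s ≤ t) {γ γ' : ℝ → E}
    (hγ : ContinuousOn γ (Icc s t)) (hγ' : ContinuousOn γ' (Icc s t))
    (hγd : ∀ r ∈ Ioo s t, HasDerivAt γ (γ' r) r) (hγU : ∀ r ∈ Icc s t, γ r ∈ U) :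
    W (γ t) = Tr N (fun u => Ω (γ u) (γ' u)) s t * W (γ s) := by
  have hF := flat_Fm hΩ hd hst hγ hγ' hγU
  have hWc : ContinuousOn W U := fun p hp => (hW p hp).continuousAt.continuousWithinAt
  refine Tr_unique hM hF (Y := fun r => W (γ r)) (hWc.comp hγ hγU) fun r hr => ?_
  exact (hW (γ r) (hγU r (Ioo_subset_Icc_self hr))).comp_hasDerivAt r (hγd r hr)

/-- a flat section which is a unit at one point of a convex set is a unit everywhere
(`flat_path` along segments, `Tr_rev_mul`, `Tr_mul_rev`). -/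
theorem flat_isUnit {U : Set E} (hU : Convex ℝ U) {M : Submodule ℂ B} {N : ℕ}
    (hM : NilS (M : Set B) N) {Ω : E → E →L[ℝ] B} (hΩ : ∀ p ∈ U, ∀ v, Ω p v ∈ M)
    (hd : ContinuousOn Ω U) {W : E → B} (hW : ∀ p ∈ U, HasFDerivAt W (rmul (Ω p) (W p)) p)
    {p₀ : E} (hp : p₀ ∈ U) (h1 : W p₀ = 1) {p : E} (hpU : p ∈ U) : IsUnit (W p) := by
  have hγU : ∀ r ∈ Icc (0 : ℝ) 1, AffineMap.lineMap p₀ p r ∈ U := fun r hr =>
    hU.lineMap_mem hp hpU hr
  have hγ : ContinuousOn (fun r : ℝ => AffineMap.lineMap p₀ p r) (Icc (0 : ℝ) 1) := by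
    exact (AffineMap.lineMap_continuous).continuousOn
  have hγ' : ContinuousOn (fun _ : ℝ => p - p₀) (Icc (0 : ℝ) 1) := continuousOn_const
  have hF := flat_Fm hΩ hd zero_le_one hγ hγ' hγU
  have h2 := flat_path hM hΩ hd hW zero_le_one hγ hγ' (fun r _ => by
    exact AffineMap.hasDerivAt_lineMap) hγU
  simp only [AffineMap.lineMap_apply_one, AffineMap.lineMap_apply_zero, h1, mul_one] at h2
  rw [h2]
  exact ⟨⟨_, _, Tr_mul_rev hM hF, Tr_rev_mul hM hF⟩, rfl⟩

end Vale.Agent.P029.KZ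
end
end
end

section

section

/-!
P029-D, task KZ15: the KZ connection on the pentagon `0 < x < y < 1`.
-/

open MeasureTheory Set Filter Topology

noncomputable section

namespace Vale.Agent.P029.KZ

variable {B : Type*} [NormedRing B] [NormedAlgebra ℂ B]

/-- `t12 dlog x + t13 dlog y + t23 dlog (y - x) + t24 dlog (1 - x) + t34 dlog (1 - y)`. -/
def pf (t12 t13 t23 t24 t34 : B) (p : ℝ × ℝ) : ℝ × ℝ →L[ℝ] B :=
  (1 / p.1) • (ContinuousLinearMap.fst ℝ ℝ ℝ).smulRight t12
    + (1 / p.2) • (ContinuousLinearMap.snd ℝ ℝ ℝ).smulRight t13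
    + (1 / (p.2 - p.1)) •
      (ContinuousLinearMap.snd ℝ ℝ ℝ - ContinuousLinearMap.fst ℝ ℝ ℝ).smulRight t23
    + (1 / (p.1 - 1)) • (ContinuousLinearMap.fst ℝ ℝ ℝ).smulRight t24
    + (1 / (p.2 - 1)) • (ContinuousLinearMap.snd ℝ ℝ ℝ).smulRight t34

lemma pf_apply (t12 t13 t23 t24 t34 : B) (p v : ℝ × ℝ) :
    pf t12 t13 t23 t24 t34 p v = (v.1 / p.1) • t12 + (v.2 / p.2) • t13
      + ((v.2 - v.1) / (p.2 - p.1)) • t23 + (v.1 / (p.1 - 1)) • t24 + (v.2 / (p.2 - 1)) • t34 := by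
  simp only [pf, ContinuousLinearMap.add_apply, ContinuousLinearMap.smul_apply,
    ContinuousLinearMap.smulRight_apply, ContinuousLinearMap.coe_fst', ContinuousLinearMap.coe_snd',
    ContinuousLinearMap.sub_apply, smul_smul]
  ring_nf

/-- the open pentagon. -/
def Up : Set (ℝ × ℝ) := {p | 0 < p.1 ∧ p.1 < p.2 ∧ p.2 < 1}

theorem pf_mem {M : Submodule ℂ B} {t12 t13 t23 t24 t34 : B} (h12 : t12 ∈ M) (h13 : t13 ∈ M)
    (h23 : t23 ∈ M) (h24 : t24 ∈ M) (h34 : t34 ∈ M) (p v : ℝ × ℝ) :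
    pf t12 t13 t23 t24 t34 p v ∈ M := by
  rw [pf_apply]
  exact M.add_mem (M.add_mem (M.add_mem (M.add_mem (M.smul_of_tower_mem _ h12)
    (M.smul_of_tower_mem _ h13)) (M.smul_of_tower_mem _ h23)) (M.smul_of_tower_mem _ h24))
    (M.smul_of_tower_mem _ h34)

/-- the derivative of `p ↦ ℓ / (ℓ p - c) • t`. -/
lemma pentForm_term (ℓ : ℝ × ℝ →L[ℝ] ℝ) (c : ℝ) (t : B) {p : ℝ × ℝ} (hp : ℓ p - c ≠ 0) :
    ∃ D : ℝ × ℝ →L[ℝ] ℝ × ℝ →L[ℝ] B,
      HasFDerivAt (fun q : ℝ × ℝ => (1 / (ℓ q - c)) • ℓ.smulRight t) D p ∧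
      ∀ x y, D x y = D y x := by
  have h1 : HasFDerivAt (fun q : ℝ × ℝ => ℓ q - c) ℓ p := ℓ.hasFDerivAt.sub_const c
  have h2 := (hasDerivAt_inv hp).comp_hasFDerivAt p h1
  have h3 := h2.smul_const (ℓ.smulRight t)
  have e : (fun q : ℝ × ℝ => (1 / (ℓ q - c)) • ℓ.smulRight t) =
      fun q => (Inv.inv ∘ fun q => ℓ q - c) q • ℓ.smulRight t := by
    funext q
    rw [one_div]
    rfl
  refine ⟨_, by rw [e]; exact h3, fun x y => ?_⟩
  simp only [ContinuousLinearMap.smulRight_apply, ContinuousLinearMap.smul_apply, smul_smul,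
    smul_eq_mul]
  congr 1
  ring

lemma pentForm_deriv (t12 t13 t23 t24 t34 : B) {p : ℝ × ℝ} (hp : p ∈ Up) :
    ∃ D : ℝ × ℝ →L[ℝ] ℝ × ℝ →L[ℝ] B, HasFDerivAt (pf t12 t13 t23 t24 t34) D p ∧
      ∀ x y, D x y = D y x := by
  obtain ⟨hp1, hp2, hp3⟩ := hp
  obtain ⟨D1, h1, s1⟩ := pentForm_term (ContinuousLinearMap.fst ℝ ℝ ℝ) 0 t12 (p := p)
    (by simpa using hp1.ne')
  obtain ⟨D2, h2, s2⟩ := pentForm_term (ContinuousLinearMap.snd ℝ ℝ ℝ) 0 t13 (p := p)
    (by simpa using (hp1.trans hp2).ne')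
  obtain ⟨D3, h3, s3⟩ := pentForm_term
    (ContinuousLinearMap.snd ℝ ℝ ℝ - ContinuousLinearMap.fst ℝ ℝ ℝ) 0 t23 (p := p)
    (by simpa only [sub_apply, ContinuousLinearMap.coe_snd', ContinuousLinearMap.coe_fst', sub_zero, ne_eq] using     (sub_pos.2 hp2).ne')
  obtain ⟨D4, h4, s4⟩ := pentForm_term (ContinuousLinearMap.fst ℝ ℝ ℝ) 1 t24 (p := p)
    (by simpa only [ContinuousLinearMap.coe_fst', ne_eq] using (sub_neg.2 (hp2.trans hp3)).ne)
  obtain ⟨D5, h5, s5⟩ := pentForm_term (ContinuousLinearMap.snd ℝ ℝ ℝ) 1 t34 (p := p)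
    (by simpa using (sub_neg.2 hp3).ne)
  refine ⟨D1 + D2 + D3 + D4 + D5, ?_, fun x y => ?_⟩
  · refine ((((h1.add h2).add h3).add h4).add h5).congr_of_eventuallyEq
      (Filter.Eventually.of_forall fun q => ?_)
    simp only [pf, Pi.add_apply, ContinuousLinearMap.coe_fst', ContinuousLinearMap.coe_snd',
      ContinuousLinearMap.sub_apply, sub_zero]
  · simp only [ContinuousLinearMap.add_apply]
    rw [s1 x y, s2 x y, s3 x y, s4 x y, s5 x y]

theorem pf_continuousOn (t12 t13 t23 t24 t34 : B) :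
    ContinuousOn (pf t12 t13 t23 t24 t34) Up := fun _ hp => by
  obtain ⟨D, hD, -⟩ := pentForm_deriv t12 t13 t23 t24 t34 hp
  exact hD.continuousAt.continuousWithinAt

/-- flatness: `F = t12/x - t23/(y-x) + t24/(x-1)`, `G = t13/y + t23/(y-x) + t34/(y-1)` commute:
with `c = [t12,t13] = [t13,t23] = -[t12,t23]` and `d = [t23,t34] = [t24,t23] = -[t24,t34]`
the coefficients `1/(xy) - 1/(x(y-x)) + 1/(y(y-x))` and
`-1/((y-x)(y-1)) + 1/((x-1)(y-x)) - 1/((x-1)(y-1))` vanish. -/
theorem pf_commute {t12 t13 t14 t23 t24 t34 : B} (h : T4 t12 t13 t14 t23 t24 t34) {p : ℝ × ℝ}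
    (hp : p ∈ Up) (v w : ℝ × ℝ) :
    pf t12 t13 t23 t24 t34 p v * pf t12 t13 t23 t24 t34 p w
      = pf t12 t13 t23 t24 t34 p w * pf t12 t13 t23 t24 t34 p v := by
  obtain ⟨hp1, hp2, hp3⟩ := hp
  obtain ⟨a, ha⟩ : ∃ a : ℝ, a = 1 / p.1 := ⟨_, rfl⟩
  obtain ⟨b, hb⟩ : ∃ b : ℝ, b = 1 / p.2 := ⟨_, rfl⟩
  obtain ⟨e, he⟩ : ∃ e : ℝ, e = 1 / (p.2 - p.1) := ⟨_, rfl⟩
  obtain ⟨g, hg⟩ : ∃ g : ℝ, g = 1 / (p.1 - 1) := ⟨_, rfl⟩
  obtain ⟨k, hk⟩ : ∃ k : ℝ, k = 1 / (p.2 - 1) := ⟨_, rfl⟩
  have n1 : p.1 ≠ 0 := hp1.ne'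
  have n2 : p.2 ≠ 0 := (hp1.trans hp2).ne'
  have n3 : p.2 - p.1 ≠ 0 := (sub_pos.2 hp2).ne'
  have n4 : p.1 - 1 ≠ 0 := (sub_neg.2 (hp2.trans hp3)).ne
  have n5 : p.2 - 1 ≠ 0 := (sub_neg.2 hp3).ne
  have r1 : a * b - a * e + e * b = 0 := by
    rw [ha, hb, he]
    field_simp
    ring
  have r2 : -(e * k) + g * e - g * k = 0 := by
    rw [he, hg, hk]
    field_simp
    ring
  obtain ⟨F, hF⟩ : ∃ F : B, F = a • t12 - e • t23 + g • t24 := ⟨_, rfl⟩
  obtain ⟨G, hG⟩ : ∃ G : B, G = b • t13 + e • t23 + k • t34 := ⟨_, rfl⟩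
  have hv : ∀ v : ℝ × ℝ, pf t12 t13 t23 t24 t34 p v = v.1 • F + v.2 • G := by
    intro v
    rw [pf_apply, hF, hG, ha, hb, he, hg, hk]
    simp only [div_eq_mul_inv, one_mul, sub_mul]
    module
  have a1 : t12 * t13 + t12 * t23 = t13 * t12 + t23 * t12 := by
    rw [← mul_add, ← add_mul]; exact h.a1
  have a2 : t13 * t12 + t13 * t23 = t12 * t13 + t23 * t13 := by
    rw [← mul_add, ← add_mul]; exact h.a2
  have e1 : t23 * t24 + t23 * t34 = t24 * t23 + t34 * t23 := by
    rw [← mul_add, ← add_mul]; exact h.e1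
  have e3 : t34 * t23 + t34 * t24 = t23 * t34 + t24 * t34 := by
    rw [← mul_add, ← add_mul]; exact h.e3
  have hFG : F * G = G * F := by
    rw [hF, hG]
    simp only [mul_add, add_mul, sub_mul, mul_sub, smul_mul_assoc, mul_smul_comm]
    linear_combination (norm := module) (a * e) • a1 + (a * k) • h.c1 + (e * b) • a2 - (g * b) • h.c2
      - (g * e) • e1 - (g * k) • e3 + r1 • (t12 * t13 - t13 * t12) + r2 • (t23 * t34 - t34 * t23)
  rw [hv, hv]
  simp only [mul_add, mul_smul_comm, add_mul, smul_mul_assoc, hFG]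
  module

/-- a flat section on the pentagon. -/
theorem pent_W [CompleteSpace B] {M : Submodule ℂ B} {N : ℕ} (hM : NilS (M : Set B) N)
    {t12 t13 t14 t23 t24 t34 : B} (h : T4 t12 t13 t14 t23 t24 t34) (h12 : t12 ∈ M) (h13 : t13 ∈ M)
    (h23 : t23 ∈ M) (h24 : t24 ∈ M) (h34 : t34 ∈ M) {p₀ : ℝ × ℝ} (hp : p₀ ∈ Up) :
    ∃ W : ℝ × ℝ → B, W p₀ = 1 ∧
      ∀ p ∈ Up, HasFDerivAt W (rmul (pf t12 t13 t23 t24 t34 p) (W p)) p := by
  have hUp : Up = {p : ℝ × ℝ | 0 < p.1} ∩ ({p | 0 < p.2 - p.1} ∩ {p | p.2 < 1}) := by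
    ext p
    simp only [Up, mem_ofPred_eq, sub_pos, mem_inter_iff]
  have hconv : Convex ℝ Up := by
    rw [hUp]
    exact (convex_halfSpace_gt (f := fun p : ℝ × ℝ => p.1)
        (LinearMap.fst ℝ ℝ ℝ).isLinear 0).inter
      ((convex_halfSpace_gt (f := fun p : ℝ × ℝ => p.2 - p.1)
        (LinearMap.snd ℝ ℝ ℝ - LinearMap.fst ℝ ℝ ℝ).isLinear 0).inter
      (convex_halfSpace_lt (f := fun p : ℝ × ℝ => p.2) (LinearMap.snd ℝ ℝ ℝ).isLinear 1))
  have hopen : IsOpen Up := by
    rw [hUp]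
    exact (isOpen_lt continuous_const continuous_fst).inter
      ((isOpen_lt continuous_const (continuous_snd.sub continuous_fst)).inter
        (isOpen_lt continuous_snd continuous_const))
  refine flat hconv hopen hM (pf t12 t13 t23 t24 t34)
    (fun p _ v => pf_mem h12 h13 h23 h24 h34 p v) ?_ ?_ (fun p hp x y => pf_commute h hp x y) hp
  · intro p hp
    obtain ⟨D, hD, -⟩ := pentForm_deriv t12 t13 t23 t24 t34 hp
    exact hD.differentiableAt.differentiableWithinAt
  · intro p hp x y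
    obtain ⟨D, hD, hs⟩ := pentForm_deriv t12 t13 t23 t24 t34 hp
    rw [hD.fderiv]
    exact hs x y

end Vale.Agent.P029.KZ
end
end
end

section

section

/-!
P029-D, task KZ16: the error forms on the five edges of the pentagon.
-/

open MeasureTheory Set Filter Topology

noncomputable section

namespace Vale.Agent.P029.KZ

variable {B : Type*} [NormedRing B] [NormedAlgebra ℂ B]

def pe1 (t24 : B) (ε u : ℝ) : B := (-(ε / (1 - ε * u))) • t24

def pe2 (t13 t34 : B) (ε u : ℝ) : B :=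
  (1 / (u + ε ^ 2) - 1 / u) • t13 + (1 / (u + ε ^ 2 - 1) - 1 / (u - 1)) • t34

def pe3 (t13 : B) (ε u : ℝ) : B := (ε / (1 - ε + ε * u)) • t13

def pe4 (t23 : B) (ε u : ℝ) : B := (1 / (u - 1 + ε ^ 2) - 1 / (u - 1)) • t23

def pe5 (t23 : B) (ε u : ℝ) : B := (1 / (u - ε ^ 2) - 1 / u) • t23

theorem pentErr_smul_mem {M : Submodule ℂ B} {x : B} (hx : x ∈ M) (r : ℝ) : r • x ∈ M := by
  have h := M.smul_mem (r : ℂ) hx
  rwa [Complex.coe_smul] at h

omit [NormedAlgebra ℂ B] in
theorem pentErr_bound {f : ℝ → B} {g : ℝ → ℝ} {p q c : ℝ} (hpq : p ≤ q)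
    (hf : ContinuousOn f (Icc p q)) (hg : ContinuousOn g (Icc p q))
    (h : ∀ u ∈ Icc p q, ‖f u‖ ≤ g u) (hI : ∫ u in p..q, g u ≤ c) :
    ∫ u in p..q, ‖f u‖ ≤ c := by
  refine le_trans ?_ hI
  refine intervalIntegral.integral_mono_on hpq ?_ ?_ h
  · exact (hf.norm.mono (by rw [uIcc_of_le hpq])).intervalIntegrable
  · exact (hg.mono (by rw [uIcc_of_le hpq])).intervalIntegrable

theorem pentErr_inv_sq {p q : ℝ} (hp : 0 < p) (hpq : p ≤ q) : ∫ u in p..q, 1 / u ^ 2 ≤ 1 / p := by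
  have hne : ∀ u ∈ uIcc p q, u ≠ 0 := fun u hu => by
    rw [uIcc_of_le hpq] at hu
    exact (hp.trans_le hu.1).ne'
  have hd : ∀ u ∈ uIcc p q, HasDerivAt (fun u : ℝ => -u⁻¹) (1 / u ^ 2) u := fun u hu => by
    have h := (hasDerivAt_inv (hne u hu)).fun_neg
    simpa only [one_div, neg_neg] using h
  have hi : IntervalIntegrable (fun u : ℝ => 1 / u ^ 2) volume p q := by
    apply ContinuousOn.intervalIntegrable
    exact continuousOn_const.div (by fun_prop) fun u hu => pow_ne_zero 2 (hne u hu)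
  rw [intervalIntegral.integral_eq_sub_of_hasDerivAt hd hi]
  have hq : 0 < q⁻¹ := inv_pos.2 (hp.trans_le hpq)
  rw [one_div]
  linarith

theorem pentErr_inv_sq' {p q : ℝ} (hq : q < 1) (hpq : p ≤ q) :
    ∫ u in p..q, 1 / (1 - u) ^ 2 ≤ 1 / (1 - q) := by
  have h := intervalIntegral.integral_comp_sub_left (a := p) (b := q) (fun u : ℝ => 1 / u ^ 2) 1
  rw [h]
  exact pentErr_inv_sq (by linarith only [hq]) (by linarith only [hpq])

variable {M : Submodule ℂ B} {ε : ℝ} (h0 : 0 < ε) (h1 : ε ≤ 1 / 4)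

include h0 h1

theorem pentErr_sq : 0 < ε ^ 2 ∧ ε ^ 2 ≤ ε / 4 := by
  constructor
  · positivity
  · nlinarith

theorem pe1_fm {x : B} (hx : x ∈ M) : Fm M (pe1 x ε) ε (1 - ε) := by
  refine ⟨by linarith, ?_, fun u _ => pentErr_smul_mem hx _⟩
  have hc : ContinuousOn (fun u : ℝ => -(ε / (1 - ε * u))) (Icc ε (1 - ε)) := by
    refine (continuousOn_const.div (by fun_prop) fun u hu => ?_).neg
    have : ε * u ≤ 1 / 4 * 1 := mul_le_mul h1 (by linarith only [h0, hu.2]) (by linarith only [h0, hu.1]) (by norm_num)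
    linarith only [this]
  exact hc.smul continuousOn_const

theorem pe2_fm {x y : B} (hx : x ∈ M) (hy : y ∈ M) : Fm M (pe2 x y ε) (ε - ε ^ 2) (1 - ε) := by
  obtain ⟨h2, h3⟩ := pentErr_sq h0 h1
  refine ⟨by linarith only [h1, h2], ?_, fun u _ => M.add_mem (pentErr_smul_mem hx _) (pentErr_smul_mem hy _)⟩
  have hc : ContinuousOn (fun u : ℝ => 1 / (u + ε ^ 2) - 1 / u) (Icc (ε - ε ^ 2) (1 - ε)) := by
    refine (continuousOn_const.div (by fun_prop) fun u hu => ?_).sub
      (continuousOn_const.div (by fun_prop) fun u hu => ?_)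
    · have := hu.1
      linarith only [h2, h3, this]
    · have := hu.1
      linarith only [h2, h3, this]
  have hc' : ContinuousOn (fun u : ℝ => 1 / (u + ε ^ 2 - 1) - 1 / (u - 1))
      (Icc (ε - ε ^ 2) (1 - ε)) := by
    refine (continuousOn_const.div (by fun_prop) fun u hu => ?_).sub
      (continuousOn_const.div (by fun_prop) fun u hu => ?_)
    · have := hu.2
      linarith only [h2, h3, this]
    · have := hu.2
      linarith
  exact (hc.smul continuousOn_const).add (hc'.smul continuousOn_const)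

theorem pe3_fm {x : B} (hx : x ∈ M) : Fm M (pe3 x ε) ε (1 - ε) := by
  refine ⟨by linarith, ?_, fun u _ => pentErr_smul_mem hx _⟩
  have hc : ContinuousOn (fun u : ℝ => ε / (1 - ε + ε * u)) (Icc ε (1 - ε)) := by
    refine continuousOn_const.div (by fun_prop) fun u hu => ?_
    have : 0 ≤ ε * u := mul_nonneg h0.le (by linarith only [h0, hu.1])
    linarith only [h1, this]
  exact hc.smul continuousOn_const

theorem pe4_fm {x : B} (hx : x ∈ M) : Fm M (pe4 x ε) (ε ^ 2) (1 - ε) := by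
  obtain ⟨h2, h3⟩ := pentErr_sq h0 h1
  refine ⟨by linarith only [h1, h3], ?_, fun u _ => pentErr_smul_mem hx _⟩
  have hc : ContinuousOn (fun u : ℝ => 1 / (u - 1 + ε ^ 2) - 1 / (u - 1)) (Icc (ε ^ 2) (1 - ε)) := by
    refine (continuousOn_const.div (by fun_prop) fun u hu => ?_).sub
      (continuousOn_const.div (by fun_prop) fun u hu => ?_)
    · have := hu.2
      linarith only [h2, h3, this]
    · have := hu.2
      linarith only [h2, h3, this]
  exact hc.smul continuousOn_const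

theorem pe5_fm {x : B} (hx : x ∈ M) : Fm M (pe5 x ε) ε (1 - ε ^ 2) := by
  obtain ⟨h2, h3⟩ := pentErr_sq h0 h1
  refine ⟨by linarith, ?_, fun u _ => pentErr_smul_mem hx _⟩
  have hc : ContinuousOn (fun u : ℝ => 1 / (u - ε ^ 2) - 1 / u) (Icc ε (1 - ε ^ 2)) := by
    refine (continuousOn_const.div (by fun_prop) fun u hu => ?_).sub
      (continuousOn_const.div (by fun_prop) fun u hu => ?_)
    · have := hu.1
      linarith only [h2, h3, this]
    · have := hu.1
      linarith only [h2, h3, this]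
  exact hc.smul continuousOn_const

theorem pe1_int (x : B) : ∫ u in ε..(1 - ε), ‖pe1 x ε u‖ ≤ 4 * ‖x‖ * ε := by
  refine pentErr_bound (g := fun _ => 4 / 3 * ε * ‖x‖) (by linarith)
    (pe1_fm h0 h1 (M := ⊤) (x := x) trivial).cont continuousOn_const (fun u hu => ?_) ?_
  · have h2 : ε * u ≤ 1 / 4 * 1 :=
      mul_le_mul h1 (by linarith only [h0, hu.2]) (by linarith only [h0, hu.1]) (by norm_num)
    have h3 : (0 : ℝ) < 1 - ε * u := by linarith only [h2]
    unfold pe1
    rw [norm_smul, Real.norm_eq_abs, abs_neg, abs_of_nonneg (div_nonneg h0.le h3.le)]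
    refine mul_le_mul_of_nonneg_right ?_ (norm_nonneg x)
    rw [div_le_iff₀ h3]
    nlinarith only [h0, h2]
  · rw [intervalIntegral.integral_const, smul_eq_mul]
    have : 0 ≤ ε * ‖x‖ := mul_nonneg h0.le (norm_nonneg x)
    nlinarith only [this, h0]

/-- `|1/(u+ε²) - 1/u| ≤ ε²/u²`, and for `v = 1 - u ≥ ε`: `v - ε² ≥ 3v/4`, so
`|1/(u-1+ε²) - 1/(u-1)| = ε²/(v(v-ε²)) ≤ (4/3) ε²/v²`. -/
theorem pe2_int (x y : B) : ∫ u in (ε - ε ^ 2)..(1 - ε), ‖pe2 x y ε u‖ ≤ 4 * (‖x‖ + ‖y‖) * ε := by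
  obtain ⟨h2, h3⟩ := pentErr_sq h0 h1
  have hx := norm_nonneg x
  have hy := norm_nonneg y
  have hle : ε - ε ^ 2 ≤ 1 - ε := by linarith only [h1, h2]
  have c1 : ContinuousOn (fun u : ℝ => 1 / u ^ 2) (Icc (ε - ε ^ 2) (1 - ε)) :=
    continuousOn_const.div (by fun_prop) fun u hu => pow_ne_zero 2 (by linarith only [h2, h3, hu.1])
  have c2 : ContinuousOn (fun u : ℝ => 1 / (1 - u) ^ 2) (Icc (ε - ε ^ 2) (1 - ε)) :=
    continuousOn_const.div (by (clear * -; fun_prop)) fun u hu => pow_ne_zero 2 (by linarith only [h2, h3, hu.2])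
  refine pentErr_bound (g := fun u => (ε ^ 2 * ‖x‖) * (1 / u ^ 2) +
    (4 / 3 * ε ^ 2 * ‖y‖) * (1 / (1 - u) ^ 2)) hle
    (pe2_fm h0 h1 (M := ⊤) (x := x) (y := y) trivial trivial).cont
    ((continuousOn_const.mul c1).add (continuousOn_const.mul c2)) (fun u hu => ?_) ?_
  · unfold pe2
    refine (norm_add_le _ _).trans (add_le_add ?_ ?_)
    · rw [norm_smul, Real.norm_eq_abs]
      have hu0 : 0 < u := by linarith only [h2, h3, hu.1]
      have e : 1 / (u + ε ^ 2) - 1 / u = -(ε ^ 2 / (u * (u + ε ^ 2))) := by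
        field_simp
        ring
      rw [e, abs_neg, abs_of_nonneg (by positivity)]
      have h4 : ε ^ 2 / (u * (u + ε ^ 2)) ≤ ε ^ 2 * (1 / u ^ 2) := by
        rw [mul_one_div]
        exact div_le_div_of_nonneg_left h2.le (by positivity) (by nlinarith only [hu0])
      calc _ ≤ ε ^ 2 * (1 / u ^ 2) * ‖x‖ := mul_le_mul_of_nonneg_right h4 hx
        _ = _ := by ring
    · rw [norm_smul, Real.norm_eq_abs]
      have hv : ε ≤ 1 - u := by linarith only [hu.2]
      have hv0 : 0 < 1 - u := h0.trans_le hv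
      have h5 : 3 / 4 * (1 - u) ≤ 1 - u - ε ^ 2 := by linarith
      have h6 : 0 < 1 - u - ε ^ 2 := by linarith only [h2, h3, hv]
      have e : 1 / (u + ε ^ 2 - 1) - 1 / (u - 1) = -(ε ^ 2 / ((1 - u) * (1 - u - ε ^ 2))) := by
        have a1 : u + ε ^ 2 - 1 ≠ 0 := by linarith only [h2, h3, hv]
        have a2 : u - 1 ≠ 0 := by linarith only [h2, h3, hv]
        have a3 : 1 - u ≠ 0 := hv0.ne'
        have a4 : 1 - u - ε ^ 2 ≠ 0 := h6.ne'
        field_simp
        ring
      rw [e, abs_neg, abs_of_nonneg (by (clear * - h0 hv0 h6; positivity))]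
      have h4 : ε ^ 2 / ((1 - u) * (1 - u - ε ^ 2)) ≤ 4 / 3 * ε ^ 2 * (1 / (1 - u) ^ 2) := by
        rw [mul_one_div, div_le_div_iff₀ (by (clear * - hv0 h6; positivity)) (by (clear * - hv0; positivity))]
        nlinarith only [mul_le_mul_of_nonneg_left h5 (mul_nonneg h2.le hv0.le)]
      calc _ ≤ 4 / 3 * ε ^ 2 * (1 / (1 - u) ^ 2) * ‖y‖ := mul_le_mul_of_nonneg_right h4 hy
        _ = _ := by ring
  · have i1 : IntervalIntegrable (fun u : ℝ => 1 / u ^ 2) volume (ε - ε ^ 2) (1 - ε) :=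
      (c1.mono (by rw [uIcc_of_le hle])).intervalIntegrable
    have i2 : IntervalIntegrable (fun u : ℝ => 1 / (1 - u) ^ 2) volume (ε - ε ^ 2) (1 - ε) :=
      (c2.mono (by rw [uIcc_of_le hle])).intervalIntegrable
    rw [intervalIntegral.integral_add (i1.const_mul _) (i2.const_mul _),
      intervalIntegral.integral_const_mul, intervalIntegral.integral_const_mul]
    have j1 := pentErr_inv_sq (by linarith only [h2, h3] : 0 < ε - ε ^ 2) hle
    have j2 := pentErr_inv_sq' (by linarith only [h2, h3] : 1 - ε < 1) hle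
    have k1 : ε ^ 2 * ‖x‖ * (∫ u in (ε - ε ^ 2)..(1 - ε), 1 / u ^ 2) ≤ 4 * ‖x‖ * ε := by
      have hp : 0 < ε - ε ^ 2 := by linarith only [h2, h3]
      have l1 : 1 / (ε - ε ^ 2) ≤ 4 / 3 * (1 / ε) := by
        rw [mul_one_div, div_le_div_iff₀ hp h0]
        linarith only [h3]
      calc _ ≤ ε ^ 2 * ‖x‖ * (4 / 3 * (1 / ε)) :=
            mul_le_mul_of_nonneg_left (j1.trans l1) (by (clear * - h0; positivity))
        _ = 4 / 3 * ‖x‖ * ε := by (clear * - h0; field_simp)
        _ ≤ _ := by nlinarith only [hx, h0]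
    have k2 : 4 / 3 * ε ^ 2 * ‖y‖ * (∫ u in (ε - ε ^ 2)..(1 - ε), 1 / (1 - u) ^ 2) ≤
        4 * ‖y‖ * ε := by
      have e : 1 - (1 - ε) = ε := by ring
      rw [e] at j2
      calc _ ≤ 4 / 3 * ε ^ 2 * ‖y‖ * (1 / ε) := mul_le_mul_of_nonneg_left j2 (by (clear * - h0; positivity))
        _ = 4 / 3 * ‖y‖ * ε := by field_simp
        _ ≤ _ := by nlinarith only [hy, h0]
    linarith

theorem pe3_int (x : B) : ∫ u in ε..(1 - ε), ‖pe3 x ε u‖ ≤ 4 * ‖x‖ * ε := by
  refine pentErr_bound (g := fun _ => 4 / 3 * ε * ‖x‖) (by linarith only [h1])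
    (pe3_fm h0 h1 (M := ⊤) (x := x) trivial).cont continuousOn_const (fun u hu => ?_) ?_
  · have h2 : 0 ≤ ε * u := mul_nonneg h0.le (by linarith only [h0, hu.1])
    have h3 : (0 : ℝ) < 1 - ε + ε * u := by linarith only [h1, h2]
    unfold pe3
    rw [norm_smul, Real.norm_eq_abs, abs_of_nonneg (div_nonneg h0.le h3.le)]
    refine mul_le_mul_of_nonneg_right ?_ (norm_nonneg x)
    rw [div_le_iff₀ h3]
    nlinarith only [h0, h1, h2]
  · rw [intervalIntegral.integral_const, smul_eq_mul]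
    have : 0 ≤ ε * ‖x‖ := mul_nonneg h0.le (norm_nonneg x)
    nlinarith only [this, h0]

theorem pe4_int (x : B) : ∫ u in (ε ^ 2)..(1 - ε), ‖pe4 x ε u‖ ≤ 4 * ‖x‖ * ε := by
  obtain ⟨h2, h3⟩ := pentErr_sq h0 h1
  have hx := norm_nonneg x
  have hle : ε ^ 2 ≤ 1 - ε := by linarith only [h1, h3]
  have c2 : ContinuousOn (fun u : ℝ => 1 / (1 - u) ^ 2) (Icc (ε ^ 2) (1 - ε)) :=
    continuousOn_const.div (by (clear * -; fun_prop)) fun u hu => pow_ne_zero 2 (by linarith only [h2, h3, hu.2])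
  refine pentErr_bound (g := fun u => (4 / 3 * ε ^ 2 * ‖x‖) * (1 / (1 - u) ^ 2)) hle
    (pe4_fm h0 h1 (M := ⊤) (x := x) trivial).cont
    (continuousOn_const.mul c2) (fun u hu => ?_) ?_
  · unfold pe4
    rw [norm_smul, Real.norm_eq_abs]
    have hv : ε ≤ 1 - u := by linarith only [hu.2]
    have hv0 : 0 < 1 - u := h0.trans_le hv
    have h5 : 3 / 4 * (1 - u) ≤ 1 - u - ε ^ 2 := by linarith
    have h6 : 0 < 1 - u - ε ^ 2 := by linarith only [h2, h3, hv]
    have e : 1 / (u - 1 + ε ^ 2) - 1 / (u - 1) = -(ε ^ 2 / ((1 - u) * (1 - u - ε ^ 2))) := by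
      have a1 : u - 1 + ε ^ 2 ≠ 0 := by linarith only [h2, h3, hv]
      have a2 : u - 1 ≠ 0 := by linarith only [h2, h3, hv]
      have a3 : 1 - u ≠ 0 := hv0.ne'
      have a4 : 1 - u - ε ^ 2 ≠ 0 := h6.ne'
      field_simp
      ring
    rw [e, abs_neg, abs_of_nonneg (by (clear * - h0 hv0 h6; positivity))]
    have h4 : ε ^ 2 / ((1 - u) * (1 - u - ε ^ 2)) ≤ 4 / 3 * ε ^ 2 * (1 / (1 - u) ^ 2) := by
      rw [mul_one_div, div_le_div_iff₀ (by (clear * - hv0 h6; positivity)) (by positivity)]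
      nlinarith only [mul_le_mul_of_nonneg_left h5 (mul_nonneg h2.le hv0.le)]
    calc _ ≤ 4 / 3 * ε ^ 2 * (1 / (1 - u) ^ 2) * ‖x‖ := mul_le_mul_of_nonneg_right h4 hx
      _ = _ := by ring
  · rw [intervalIntegral.integral_const_mul]
    have j2 := pentErr_inv_sq' (by linarith only [h2, h3] : 1 - ε < 1) hle
    have e : 1 - (1 - ε) = ε := by ring
    rw [e] at j2
    calc _ ≤ 4 / 3 * ε ^ 2 * ‖x‖ * (1 / ε) := mul_le_mul_of_nonneg_left j2 (by positivity)
      _ = 4 / 3 * ‖x‖ * ε := by field_simp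
      _ ≤ _ := by nlinarith only [hx, h0]

theorem pe5_int (x : B) : ∫ u in ε..(1 - ε ^ 2), ‖pe5 x ε u‖ ≤ 4 * ‖x‖ * ε := by
  obtain ⟨h2, h3⟩ := pentErr_sq h0 h1
  have hx := norm_nonneg x
  have hle : ε ≤ 1 - ε ^ 2 := by linarith
  have c2 : ContinuousOn (fun u : ℝ => 1 / u ^ 2) (Icc ε (1 - ε ^ 2)) :=
    continuousOn_const.div (by fun_prop) fun u hu => pow_ne_zero 2 (by linarith only [h2, h3, hu.1])
  refine pentErr_bound (g := fun u => (4 / 3 * ε ^ 2 * ‖x‖) * (1 / u ^ 2)) hle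
    (pe5_fm h0 h1 (M := ⊤) (x := x) trivial).cont
    (continuousOn_const.mul c2) (fun u hu => ?_) ?_
  · unfold pe5
    rw [norm_smul, Real.norm_eq_abs]
    have hv0 : 0 < u := h0.trans_le hu.1
    have h5 : 3 / 4 * u ≤ u - ε ^ 2 := by nlinarith only [h3, hu.1]
    have h6 : 0 < u - ε ^ 2 := by linarith only [h2, h5]
    have e : 1 / (u - ε ^ 2) - 1 / u = ε ^ 2 / (u * (u - ε ^ 2)) := by
      have a3 : u ≠ 0 := hv0.ne'
      have a4 : u - ε ^ 2 ≠ 0 := h6.ne'
      field_simp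
      ring
    rw [e, abs_of_nonneg (by (clear * - h0 hv0 h6; positivity))]
    have h4 : ε ^ 2 / (u * (u - ε ^ 2)) ≤ 4 / 3 * ε ^ 2 * (1 / u ^ 2) := by
      rw [mul_one_div, div_le_div_iff₀ (by (clear * - hv0 h6; positivity)) (by positivity)]
      nlinarith only [mul_le_mul_of_nonneg_left h5 (mul_nonneg h2.le hv0.le)]
    calc _ ≤ 4 / 3 * ε ^ 2 * (1 / u ^ 2) * ‖x‖ := mul_le_mul_of_nonneg_right h4 hx
      _ = _ := by ring
  · rw [intervalIntegral.integral_const_mul]
    have j2 := pentErr_inv_sq h0 hle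
    calc _ ≤ 4 / 3 * ε ^ 2 * ‖x‖ * (1 / ε) := mul_le_mul_of_nonneg_left j2 (by positivity)
      _ = 4 / 3 * ‖x‖ * ε := by field_simp
      _ ≤ _ := by nlinarith only [hx, h0]

end Vale.Agent.P029.KZ
end
end
end

section

section

/-!
P029-D, task KZ5: products of series in words.
-/

open MeasureTheory Set Filter Topology

noncomputable section

set_option linter.unusedSectionVars false

namespace Vale.Agent.P029.KZ

variable {B : Type*} [NormedRing B] [NormedAlgebra ℂ B]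

theorem wd_append (a b : B) (u v : List Bool) : wd a b (u ++ v) = wd a b u * wd a b v := by
  simp only [wd, List.map_append, List.prod_append]

theorem wd_eq_zero {a b : B} {N : ℕ} (h : NilS {a, b} N) {w : List Bool} (hw : N < w.length) :
    wd a b w = 0 := by
  rw [← List.take_append_drop (N + 1) w, wd_append]
  have h1 : wd a b (w.take (N + 1)) = 0 := by
    apply h
    · rw [List.length_map, List.length_take]
      omega
    · intro x hx
      obtain ⟨c, -, rfl⟩ := List.mem_map.1 hx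
      cases c <;> simp
  rw [h1, zero_mul]

theorem evS_conv {a b : B} {N : ℕ} (h : NilS {a, b} N) (φ ψ : List Bool → ℝ) :
    evS (fun w => ((conv φ ψ w : ℝ) : ℂ)) N a b
      = evS (fun w => (φ w : ℂ)) N a b * evS (fun w => (ψ w : ℂ)) N a b := by
  have hR : evS (fun w => (φ w : ℂ)) N a b * evS (fun w => (ψ w : ℂ)) N a b
      = ∑ p ∈ (words N ×ˢ words N).filter (fun p => p.1.length + p.2.length ≤ N),
        ((φ p.1 : ℂ) * (ψ p.2 : ℂ)) • wd a b (p.1 ++ p.2) := by
    unfold evS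
    rw [Finset.sum_mul_sum, ← Finset.sum_product', Finset.sum_filter]
    refine Finset.sum_congr rfl fun p _ => ?_
    rw [smul_mul_smul_comm, ← wd_append]
    split_ifs with hp
    · rfl
    · rw [wd_eq_zero h (by rw [List.length_append]; omega), smul_zero]
  have hL : evS (fun w => ((conv φ ψ w : ℝ) : ℂ)) N a b
      = ∑ q ∈ (words N).sigma (fun w => Finset.range (w.length + 1)),
        ((φ (q.1.take q.2) : ℂ) * (ψ (q.1.drop q.2) : ℂ)) • wd a b q.1 := by
    unfold evS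
    rw [Finset.sum_sigma]
    refine Finset.sum_congr rfl fun w _ => ?_
    simp only [conv]
    push_cast
    rw [Finset.sum_smul]
  rw [hL, hR]
  refine Finset.sum_bij' (fun q _ => (q.1.take q.2, q.1.drop q.2))
    (fun p _ => ⟨p.1 ++ p.2, p.1.length⟩) ?_ ?_ ?_ ?_ ?_
  · rintro ⟨w, k⟩ hq
    simp only [Finset.mem_sigma, mem_words, Finset.mem_range] at hq
    simp only [Finset.mem_filter, Finset.mem_product, mem_words, List.length_take,
      List.length_drop]
    omega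
  · rintro ⟨u, v⟩ hp
    simp only [Finset.mem_filter, Finset.mem_product, mem_words] at hp
    simp only [Finset.mem_sigma, mem_words, Finset.mem_range, List.length_append]
    omega
  · rintro ⟨w, k⟩ hq
    simp only [Finset.mem_sigma, mem_words, Finset.mem_range] at hq
    simp only [List.take_append_drop, List.length_take]
    congr 1
    omega
  · rintro ⟨u, v⟩ hp
    simp
  · rintro ⟨w, k⟩ hq
    simp only [List.take_append_drop]

theorem Words_wd_replicate (a b : B) (c : Bool) (k : ℕ) :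
    wd a b (List.replicate k c) = (if c then b else a) ^ k := by
  rw [wd, List.map_replicate, List.prod_replicate]

theorem Words_evS_exS (N : ℕ) (x : ℝ) (a b : B) (c : Bool) :
    evS (fun w => (exS c x w : ℂ)) N a b = expT N (x : ℂ) (if c then b else a) := by
  unfold evS expT
  have hinj : Set.InjOn (fun k : ℕ => List.replicate k c) (Finset.range (N + 1)) := by
    intro i _ j _ hij
    have := congrArg List.length hij
    simpa using this
  have hsub : (Finset.range (N + 1)).image (fun k : ℕ => List.replicate k c) ⊆ words N := by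
    intro w hw
    obtain ⟨k, hk, rfl⟩ := Finset.mem_image.1 hw
    rw [mem_words, List.length_replicate]
    exact Nat.lt_succ_iff.1 (Finset.mem_range.1 hk)
  rw [← Finset.sum_subset hsub, Finset.sum_image hinj]
  · refine Finset.sum_congr rfl fun k _ => ?_
    rw [Words_wd_replicate]
    simp only [exS, List.length_replicate, if_true]
    push_cast
    rfl
  · intro w hw hw'
    have : w ≠ List.replicate w.length c := by
      intro he
      apply hw'
      rw [Finset.mem_image]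
      exact ⟨w.length, Finset.mem_range.2 (Nat.lt_succ_of_le (mem_words.1 hw)), he.symm⟩
    simp only [exS, if_neg this, Complex.ofReal_zero, zero_smul]

theorem evS_exS_false (N : ℕ) (x : ℝ) (a b : B) :
    evS (fun w => (exS false x w : ℂ)) N a b = expT N (x : ℂ) a :=
  Words_evS_exS N x a b false

theorem evS_exS_true (N : ℕ) (x : ℝ) (a b : B) :
    evS (fun w => (exS true x w : ℂ)) N a b = expT N (x : ℂ) b :=
  Words_evS_exS N x a b true

end Vale.Agent.P029.KZ
end
end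
end

section

section

/-!
P029-D, task KZ6: the KZ transport as a series in words; bounds of the KZ form.
-/

open MeasureTheory Set Filter Topology

noncomputable section

namespace Vale.Agent.P029.KZ

/-- The finite set of words of length `n`. -/
def WordsTr_L : ℕ → Finset (List Bool)
  | 0 => {[]}
  | n + 1 => (WordsTr_L n).image (List.cons false) ∪ (WordsTr_L n).image (List.cons true)

lemma WordsTr_mem_L {n : ℕ} {w : List Bool} : w ∈ WordsTr_L n ↔ w.length = n := by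
  induction n generalizing w with
  | zero => simp [WordsTr_L]
  | succ n ih =>
    cases w with
    | nil => simp [WordsTr_L]
    | cons c w =>
      cases c <;> simp [WordsTr_L, ih]

lemma WordsTr_sum_L {M : Type*} [AddCommMonoid M] (f : List Bool → M) (n : ℕ) :
    ∑ w ∈ WordsTr_L (n + 1), f w =
      ∑ w ∈ WordsTr_L n, (f (false :: w) + f (true :: w)) := by
  rw [WordsTr_L, Finset.sum_union, Finset.sum_image, Finset.sum_image, ← Finset.sum_add_distrib]
  · intro x _ y _ h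
    simpa using h
  · intro x _ y _ h
    simpa using h
  · rw [Finset.disjoint_left]
    intro x hx hy
    simp only [Finset.mem_image] at hx hy
    obtain ⟨u, -, rfl⟩ := hx
    obtain ⟨v, -, hv⟩ := hy
    simp at hv

lemma WordsTr_sum_words {M : Type*} [AddCommMonoid M] (f : List Bool → M) (N : ℕ) :
    ∑ w ∈ words N, f w = ∑ n ∈ Finset.range (N + 1), ∑ w ∈ WordsTr_L n, f w := by
  have h : words N = (Finset.range (N + 1)).biUnion WordsTr_L := by
    ext w
    rw [mem_words]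
    simp only [Finset.mem_biUnion, Finset.mem_range, WordsTr_mem_L]
    constructor
    · intro h
      exact ⟨w.length, by omega, rfl⟩
    · rintro ⟨k, hk, h⟩
      omega
  rw [h, Finset.sum_biUnion]
  intro i _ j _ hij
  simp only [Function.onFun]
  rw [Finset.disjoint_left]
  intro w hi hj
  rw [WordsTr_mem_L] at hi hj
  exact hij (hi.symm.trans hj)

/-- The forms `du / u` and `du / (u - 1)`. -/
lemma WordsTr_form_cont {s t : ℝ} (hs : 0 < s) (ht : t < 1) (c : Bool) :
    ContinuousOn (fun u : ℝ => if c then 1 / (u - 1) else 1 / u) (Icc s t) := by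
  cases c
  · simp only [Bool.false_eq_true, if_false]
    refine continuousOn_const.div continuousOn_id ?_
    intro u hu
    have : 0 < u := lt_of_lt_of_le hs hu.1
    exact this.ne'
  · simp only [if_true]
    refine continuousOn_const.div (continuousOn_id.sub continuousOn_const) ?_
    intro u hu
    have : u < 1 := lt_of_le_of_lt hu.2 ht
    have h2 : u - 1 < 0 := by linarith
    exact h2.ne

lemma WordsTr_II_cont {s t : ℝ} (hs : 0 < s) (hst : s ≤ t) (ht : t < 1) (w : List Bool) :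
    ContinuousOn (II s w) (Icc s t) := by
  induction w with
  | nil => exact continuousOn_const
  | cons c w ih =>
    have h1 : ContinuousOn (fun u : ℝ => (if c then 1 / (u - 1) else 1 / u) * II s w u)
        (Icc s t) := (WordsTr_form_cont hs ht c).mul ih
    have h2 : IntegrableOn (fun u : ℝ => (if c then 1 / (u - 1) else 1 / u) * II s w u)
        (uIcc s t) := by
      rw [uIcc_of_le hst]
      exact h1.integrableOn_Icc
    have h3 := intervalIntegral.continuousOn_primitive_interval h2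
    rw [uIcc_of_le hst] at h3
    exact h3

variable {B : Type*} [NormedRing B] [NormedAlgebra ℂ B]

lemma WordsTr_real_smul (r : ℝ) (a : B) : r • a = (r : ℂ) • a :=
  (Complex.coe_smul r a).symm

lemma WordsTr_kz_cont (a b : B) {s t : ℝ} (hs : 0 < s) (ht : t < 1) :
    ContinuousOn (kz a b) (Icc s t) := by
  have h0 := WordsTr_form_cont hs ht false
  have h1 := WordsTr_form_cont hs ht true
  simp only [Bool.false_eq_true, if_false] at h0
  simp only [if_true] at h1
  exact (h0.smul continuousOn_const).add (h1.smul continuousOn_const)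

variable [CompleteSpace B]

omit [CompleteSpace B] in
theorem kz_fm {M : Submodule ℂ B} {a b : B} (ha : a ∈ M) (hb : b ∈ M) {s t : ℝ} (hs : 0 < s)
    (hst : s ≤ t) (ht : t < 1) : Fm M (kz a b) s t := by
  refine ⟨hst, WordsTr_kz_cont a b hs ht, fun u _ => ?_⟩
  unfold kz
  rw [WordsTr_real_smul, WordsTr_real_smul]
  exact M.add_mem (M.smul_mem _ ha) (M.smul_mem _ hb)

/-- `∫_α^{1-β} ‖kz‖ ≤ ‖a‖ |log α| + ‖b‖ |log β|`. -/
theorem kz_int_le (a b : B) {α β : ℝ} (hα : 0 < α) (hα' : α ≤ 1 / 2) (hβ : 0 < β)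
    (hβ' : β ≤ 1 / 2) :
    ∫ u in α..(1 - β), ‖kz a b u‖ ≤ ‖a‖ * |Real.log α| + ‖b‖ * |Real.log β| := by
  have hle : α ≤ 1 - β := by linarith
  have hc : ContinuousOn (fun u => ‖kz a b u‖) (Icc α (1 - β)) :=
    (WordsTr_kz_cont a b hα (by linarith only [hβ])).norm
  have h0 := WordsTr_form_cont hα (show (1 : ℝ) - β < 1 by linarith only [hβ]) false
  have h1 := WordsTr_form_cont hα (show (1 : ℝ) - β < 1 by linarith only [hβ]) true
  simp only [Bool.false_eq_true, if_false] at h0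
  simp only [if_true] at h1
  have hi0 : IntervalIntegrable (fun u : ℝ => 1 / u) volume α (1 - β) := by
    apply ContinuousOn.intervalIntegrable
    rwa [uIcc_of_le hle]
  have hi1 : IntervalIntegrable (fun u : ℝ => 1 / (u - 1)) volume α (1 - β) := by
    apply ContinuousOn.intervalIntegrable
    rwa [uIcc_of_le hle]
  have hi2 : IntervalIntegrable (fun u => ‖kz a b u‖) volume α (1 - β) := by
    apply ContinuousOn.intervalIntegrable
    rwa [uIcc_of_le hle]
  have hmono : ∫ u in α..(1 - β), ‖kz a b u‖ ≤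
      ∫ u in α..(1 - β), (‖a‖ * (1 / u) + ‖b‖ * (-(1 / (u - 1)))) := by
    refine intervalIntegral.integral_mono_on hle hi2
      ((hi0.const_mul _).add (IntervalIntegrable.const_mul (hi1.neg : IntervalIntegrable
        (fun u : ℝ => -(1 / (u - 1))) volume α (1 - β)) _)) ?_
    intro u hu
    have hu0 : 0 < u := lt_of_lt_of_le hα hu.1
    have hu1 : u - 1 < 0 := by linarith only [hβ, hu.2]
    unfold kz
    refine (norm_add_le _ _).trans ?_
    rw [norm_smul, norm_smul, Real.norm_eq_abs, Real.norm_eq_abs,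
      abs_of_pos (by (clear * - hu0; positivity) : (0 : ℝ) < 1 / u),
      abs_of_neg (by exact div_neg_of_pos_of_neg one_pos hu1 : 1 / (u - 1) < 0)]
    apply le_of_eq
    ring
  refine hmono.trans ?_
  have hi1' : IntervalIntegrable (fun u : ℝ => -(1 / (u - 1))) volume α (1 - β) := hi1.neg
  rw [intervalIntegral.integral_add (hi0.const_mul _) (hi1'.const_mul _),
    intervalIntegral.integral_const_mul, intervalIntegral.integral_const_mul,
    intervalIntegral.integral_neg]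
  have e0 : ∫ u in α..(1 - β), (1 : ℝ) / u = Real.log (1 - β) - Real.log α := by
    rw [integral_one_div_of_pos hα (by linarith only [hβ']), Real.log_div (by linarith only [hβ']) hα.ne']
  have e1 : ∫ u in α..(1 - β), (1 : ℝ) / (u - 1) = Real.log β - Real.log (1 - α) := by
    have := intervalIntegral.integral_comp_sub_right (a := α) (b := 1 - β)
      (fun v : ℝ => 1 / v) 1
    rw [this, integral_one_div_of_neg (by linarith only [hα']) (by linarith only [hβ])]
    have h2 : (1 - β - 1) / (α - 1) = β / (1 - α) := by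
      rw [show (1 : ℝ) - β - 1 = -β by ring, show α - 1 = -(1 - α) by ring, neg_div_neg_eq]
    rw [h2, Real.log_div hβ.ne' (by linarith only [hα'])]
  rw [e0, e1]
  have l0 : Real.log α ≤ 0 := Real.log_nonpos hα.le (by linarith only [hα'])
  have l1 : Real.log β ≤ 0 := Real.log_nonpos hβ.le (by linarith only [hβ'])
  have l2 : Real.log (1 - β) ≤ 0 := Real.log_nonpos (by linarith only [hβ']) (by linarith only [hβ])
  have l3 : Real.log (1 - α) ≤ 0 := Real.log_nonpos (by linarith only [hα']) (by linarith only [hα])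
  rw [abs_of_nonpos l0, abs_of_nonpos l1]
  have n0 := norm_nonneg a
  have n1 := norm_nonneg b
  nlinarith only [n0, l2, n1, l3]

/-- `J (kz a b) s n r` as a sum over the words of length `n`. -/
lemma WordsTr_J {a b : B} {s t : ℝ} (hs : 0 < s) (ht : t < 1) (n : ℕ) :
    ∀ r ∈ Icc s t, J (kz a b) s n r = ∑ w ∈ WordsTr_L n, (II s w r : ℂ) • wd a b w := by
  induction n with
  | zero =>
    intro r _
    simp only [J, WordsTr_L, wd, Complex.coe_smul, Finset.sum_singleton, II, List.map_nil, List.prod_nil, one_smul]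
  | succ n ih =>
    intro r hr
    have hst : s ≤ t := hr.1.trans hr.2
    have hii : ∀ (c : Bool) (w : List Bool), IntervalIntegrable
        (fun u : ℝ => (if c then 1 / (u - 1) else 1 / u) * II s w u) volume s r := by
      intro c w
      apply ContinuousOn.intervalIntegrable
      rw [uIcc_of_le hr.1]
      exact ((WordsTr_form_cont hs ht c).mul (WordsTr_II_cont hs hst ht w)).mono
        (Icc_subset_Icc le_rfl hr.2)
    have hic : ∀ (c : Bool) (w : List Bool), IntervalIntegrable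
        (fun u : ℝ => (((if c then 1 / (u - 1) else 1 / u) * II s w u : ℝ) : ℂ) •
          wd a b (c :: w)) volume s r := by
      intro c w
      apply ContinuousOn.intervalIntegrable
      rw [uIcc_of_le hr.1]
      refine ContinuousOn.smul ?_ continuousOn_const
      exact Complex.continuous_ofReal.comp_continuousOn
        (((WordsTr_form_cont hs ht c).mul (WordsTr_II_cont hs hst ht w)).mono
          (Icc_subset_Icc le_rfl hr.2))
    have hval : ∀ (c : Bool) (w : List Bool),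
        ∫ u in s..r, (((if c then 1 / (u - 1) else 1 / u) * II s w u : ℝ) : ℂ) •
          wd a b (c :: w) = (II s (c :: w) r : ℂ) • wd a b (c :: w) := by
      intro c w
      rw [intervalIntegral.integral_smul_const, intervalIntegral.integral_ofReal]
      rfl
    have h1 : J (kz a b) s (n + 1) r = ∫ u in s..r, ∑ w ∈ WordsTr_L n,
        ((((if false then 1 / (u - 1) else 1 / u) * II s w u : ℝ) : ℂ) • wd a b (false :: w) +
        (((if true then 1 / (u - 1) else 1 / u) * II s w u : ℝ) : ℂ) • wd a b (true :: w)) := by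
      rw [J]
      refine intervalIntegral.integral_congr ?_
      intro u hu
      rw [uIcc_of_le hr.1] at hu
      simp only
      rw [ih u ⟨hu.1, hu.2.trans hr.2⟩, Finset.mul_sum]
      refine Finset.sum_congr rfl fun w _ => ?_
      unfold kz
      rw [WordsTr_real_smul, WordsTr_real_smul, add_mul]
      have e0 : wd a b (false :: w) = a * wd a b w := by simp [wd]
      have e1 : wd a b (true :: w) = b * wd a b w := by simp [wd]
      rw [e0, e1]
      simp only [if_true, Bool.false_eq_true, if_false]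
      push_cast
      simp only [smul_mul_assoc, mul_smul_comm, smul_smul]
      rw [mul_comm (1 / (u : ℂ)), mul_comm (1 / ((u : ℂ) - 1))]
    rw [h1, intervalIntegral.integral_finsetSum, WordsTr_sum_L]
    · refine Finset.sum_congr rfl fun w _ => ?_
      rw [intervalIntegral.integral_add (hic false w) (hic true w), hval, hval]
    · intro w _
      exact (hic false w).add (hic true w)

/-- `J (kz a b) s n r = ∑ over the words of length n of II s w r • wd a b w`, summed up. -/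
theorem Tr_kz {a b : B} {N : ℕ} {s t : ℝ} (hs : 0 < s) (hst : s ≤ t) (ht : t < 1) :
    Tr N (kz a b) s t = evS (fun w => (II s w t : ℂ)) N a b := by
  unfold Tr evS
  rw [WordsTr_sum_words]
  exact Finset.sum_congr rfl fun n _ => WordsTr_J hs ht n t ⟨hst, le_rfl⟩

theorem Phi_eq {a b : B} {N : ℕ} (h : NilS {a, b} N) {α β : ℝ} (hα : 0 < α) (hα' : α ≤ 1 / 2)
    (hβ : 0 < β) (hβ' : β ≤ 1 / 2) :
    Phi N α β a b = evS (fun w => (pc α β w : ℂ)) N a b := by
  unfold Phi pc
  rw [evS_conv h, evS_conv h, evS_exS_true, evS_exS_false,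
    Tr_kz hα (by linarith) (by linarith only [hβ])]
  push_cast
  rfl

end Vale.Agent.P029.KZ
end
end
end

section

section

/-!
P029-D, task KZ13: calculus of moderate and small functions of `ε`.
-/

open MeasureTheory Set Filter Topology

noncomputable section

namespace Vale.Agent.P029.KZ

theorem Asym_one_le (ε : ℝ) : 1 ≤ 1 + |Real.log ε| := by
  have := abs_nonneg (Real.log ε)
  linarith

theorem Asym_le_sqrt {ε : ℝ} (h0 : 0 < ε) (h1 : ε ≤ 1 / 4) : ε ≤ Real.sqrt ε := by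
  apply Real.le_sqrt_of_sq_le
  nlinarith

theorem Asym_sqrt_le {ε : ℝ} (h1 : ε ≤ 1 / 4) : Real.sqrt ε ≤ 1 := by
  rw [Real.sqrt_le_one]
  linarith

section
variable {V : Type*} [NormedAddCommGroup V]

theorem Asym_md {f : ℝ → V} (hf : Md f) : ∃ (C : ℝ) (K : ℕ), 0 ≤ C ∧ ∀ n, K ≤ n → ∀ ε, 0 < ε →
    ε ≤ 1 / 4 → ‖f ε‖ ≤ C * (1 + |Real.log ε|) ^ n := by
  obtain ⟨C, K, h⟩ := hf
  refine ⟨|C|, K, abs_nonneg _, fun n hn ε h0 h1 => (h ε h0 h1).trans ?_⟩
  have h2 := Asym_one_le ε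
  have h3 : (1 + |Real.log ε|) ^ K ≤ (1 + |Real.log ε|) ^ n := pow_le_pow_right₀ h2 hn
  have h4 : 0 ≤ (1 + |Real.log ε|) ^ K := by positivity
  exact (mul_le_mul_of_nonneg_right (le_abs_self C) h4).trans
    (mul_le_mul_of_nonneg_left h3 (abs_nonneg C))

theorem Asym_sm {f : ℝ → V} (hf : Sm f) : ∃ (C : ℝ) (K : ℕ), 0 ≤ C ∧ ∀ n, K ≤ n → ∀ ε, 0 < ε →
    ε ≤ 1 / 4 → ‖f ε‖ ≤ C * Real.sqrt ε * (1 + |Real.log ε|) ^ n := by
  obtain ⟨C, K, h⟩ := hf
  refine ⟨|C|, K, abs_nonneg _, fun n hn ε h0 h1 => (h ε h0 h1).trans ?_⟩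
  have h2 := Asym_one_le ε
  have h3 : (1 + |Real.log ε|) ^ K ≤ (1 + |Real.log ε|) ^ n := pow_le_pow_right₀ h2 hn
  have h4 : 0 ≤ (1 + |Real.log ε|) ^ K := by positivity
  have h5 : 0 ≤ Real.sqrt ε := Real.sqrt_nonneg ε
  have h6 : C * Real.sqrt ε ≤ |C| * Real.sqrt ε := mul_le_mul_of_nonneg_right (le_abs_self C) h5
  exact (mul_le_mul_of_nonneg_right h6 h4).trans
    (mul_le_mul_of_nonneg_left h3 (mul_nonneg (abs_nonneg C) h5))

theorem Md.const (x : V) : Md fun _ => x :=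
  ⟨‖x‖, 0, fun ε _ _ => by rw [pow_zero, mul_one]⟩

theorem Md.congr {f g : ℝ → V} (hf : Md f) (h : ∀ ε, 0 < ε → ε ≤ 1 / 4 → f ε = g ε) : Md g := by
  obtain ⟨C, K, hC⟩ := hf
  exact ⟨C, K, fun ε h0 h1 => by rw [← h ε h0 h1]; exact hC ε h0 h1⟩

theorem Sm.congr {f g : ℝ → V} (hf : Sm f) (h : ∀ ε, 0 < ε → ε ≤ 1 / 4 → f ε = g ε) : Sm g := by
  obtain ⟨C, K, hC⟩ := hf
  exact ⟨C, K, fun ε h0 h1 => by rw [← h ε h0 h1]; exact hC ε h0 h1⟩

theorem Sm.zero : Sm fun _ : ℝ => (0 : V) :=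
  ⟨0, 0, fun _ _ _ => by simp⟩

theorem Md.add {f g : ℝ → V} (hf : Md f) (hg : Md g) : Md fun ε => f ε + g ε := by
  obtain ⟨C, K, -, h⟩ := Asym_md hf
  obtain ⟨C', K', -, h'⟩ := Asym_md hg
  refine ⟨C + C', K + K', fun ε h0 h1 => (norm_add_le _ _).trans ?_⟩
  rw [add_mul]
  exact add_le_add (h _ (Nat.le_add_right K K') ε h0 h1) (h' _ (Nat.le_add_left K' K) ε h0 h1)

theorem Sm.add {f g : ℝ → V} (hf : Sm f) (hg : Sm g) : Sm fun ε => f ε + g ε := by
  obtain ⟨C, K, -, h⟩ := Asym_sm hf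
  obtain ⟨C', K', -, h'⟩ := Asym_sm hg
  refine ⟨C + C', K + K', fun ε h0 h1 => (norm_add_le _ _).trans ?_⟩
  rw [add_mul, add_mul]
  exact add_le_add (h _ (Nat.le_add_right K K') ε h0 h1) (h' _ (Nat.le_add_left K' K) ε h0 h1)

theorem Sm.neg {f : ℝ → V} (hf : Sm f) : Sm fun ε => -f ε := by
  obtain ⟨C, K, h⟩ := hf
  exact ⟨C, K, fun ε h0 h1 => by rw [norm_neg]; exact h ε h0 h1⟩

theorem Sm.sub {f g : ℝ → V} (hf : Sm f) (hg : Sm g) : Sm fun ε => f ε - g ε := by
  have h := hf.add hg.neg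
  exact h.congr fun ε _ _ => (sub_eq_add_neg _ _).symm

theorem Sm.md {f : ℝ → V} (hf : Sm f) : Md f := by
  obtain ⟨C, K, hC, h⟩ := Asym_sm hf
  refine ⟨C, K, fun ε h0 h1 => (h K le_rfl ε h0 h1).trans ?_⟩
  have h2 := Asym_one_le ε
  have h4 : 0 ≤ (1 + |Real.log ε|) ^ K := by (clear * -; positivity)
  exact mul_le_mul_of_nonneg_right (mul_le_of_le_one_right hC (Asym_sqrt_le h1)) h4

/-- `f - g` small and `g` moderate. -/
theorem Md.of_sub {f g : ℝ → V} (hfg : Sm fun ε => f ε - g ε) (hg : Md g) : Md f :=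
  (hfg.md.add hg).congr fun ε _ _ => sub_add_cancel _ _

/-- a constant which is small vanishes. -/
theorem Sm.const_eq_zero {x : V} (h : Sm fun _ => x) : x = 0 := by
  obtain ⟨C, K, h⟩ := h
  have h1 : Tendsto (fun t : ℝ => t ^ K * Real.exp (-t)) atTop (𝓝 0) :=
    Real.tendsto_pow_mul_exp_neg_atTop_nhds_zero K
  have h2 : Tendsto (fun t : ℝ => (1 + t) / 2) atTop atTop := by
    apply Tendsto.atTop_div_const (by norm_num)
    exact tendsto_atTop_add_const_left _ _ tendsto_id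
  have h3 := (h1.comp h2).const_mul (C * (2 ^ K * Real.exp (1 / 2)))
  rw [mul_zero] at h3
  have h4 : ∀ᶠ t : ℝ in atTop, ‖x‖ ≤ C * (2 ^ K * Real.exp (1 / 2)) *
      ((fun t : ℝ => t ^ K * Real.exp (-t)) ∘ fun t : ℝ => (1 + t) / 2) t := by
    filter_upwards [eventually_ge_atTop (2 : ℝ)] with t ht
    have e1 : Real.exp (-t) ≤ 1 / 4 := by
      have h5 : (4 : ℝ) ≤ Real.exp t := by
        have h6 : (1 + t / 2) ≤ Real.exp (t / 2) := by
          have := Real.add_one_le_exp (t / 2)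
          linarith
        have h7 : Real.exp t = Real.exp (t / 2) * Real.exp (t / 2) := by
          rw [← Real.exp_add]
          congr 1
          ring
        rw [h7]
        nlinarith only [ht, h6]
      rw [Real.exp_neg, inv_eq_one_div]
      exact one_div_le_one_div_of_le (by norm_num) h5
    have h5 := h (Real.exp (-t)) (Real.exp_pos _) e1
    rw [Real.log_exp, abs_neg, abs_of_nonneg (by linarith only [ht] : (0 : ℝ) ≤ t), Real.sqrt_eq_rpow,
      ← Real.exp_mul] at h5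
    refine h5.trans (le_of_eq ?_)
    simp only [Function.comp_apply, div_pow]
    have e2 : Real.exp (-t * (1 / 2)) = Real.exp (1 / 2) * Real.exp (-((1 + t) / 2)) := by
      rw [← Real.exp_add]
      congr 1
      ring
    rw [e2]
    (clear * - ht; field_simp)
  have h5 := ge_of_tendsto h3 h4
  exact norm_le_zero_iff.mp h5

/-- a bound by `C ε (1+|log ε|)^K` is small. -/
theorem Sm.of_le {f : ℝ → V} (C : ℝ) (K : ℕ)
    (h : ∀ ε, 0 < ε → ε ≤ 1 / 4 → ‖f ε‖ ≤ C * ε * (1 + |Real.log ε|) ^ K) : Sm f := by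
  refine ⟨|C|, K, fun ε h0 h1 => (h ε h0 h1).trans ?_⟩
  have h2 := Asym_one_le ε
  have h4 : 0 ≤ (1 + |Real.log ε|) ^ K := by positivity
  apply mul_le_mul_of_nonneg_right _ h4
  exact (mul_le_mul_of_nonneg_right (le_abs_self C) h0.le).trans
    (mul_le_mul_of_nonneg_left (Asym_le_sqrt h0 h1) (abs_nonneg C))

end

section
variable {B : Type*} [NormedRing B]

theorem Md.mul {f g : ℝ → B} (hf : Md f) (hg : Md g) : Md fun ε => f ε * g ε := by
  obtain ⟨C, K, hC, h⟩ := Asym_md hf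
  obtain ⟨C', K', hC', h'⟩ := Asym_md hg
  refine ⟨C * C', K + K', fun ε h0 h1 => (norm_mul_le _ _).trans ?_⟩
  have h2 := Asym_one_le ε
  have e : C * C' * (1 + |Real.log ε|) ^ (K + K')
      = (C * (1 + |Real.log ε|) ^ K) * (C' * (1 + |Real.log ε|) ^ K') := by ring
  rw [e]
  exact mul_le_mul (h K le_rfl ε h0 h1) (h' K' le_rfl ε h0 h1) (norm_nonneg _) (by (clear * - hC; positivity))

theorem Sm.mul_md {f g : ℝ → B} (hf : Sm f) (hg : Md g) : Sm fun ε => f ε * g ε := by
  obtain ⟨C, K, hC, h⟩ := Asym_sm hf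
  obtain ⟨C', K', hC', h'⟩ := Asym_md hg
  refine ⟨C * C', K + K', fun ε h0 h1 => (norm_mul_le _ _).trans ?_⟩
  have h2 := Asym_one_le ε
  have h3 := Real.sqrt_nonneg ε
  have e : C * C' * Real.sqrt ε * (1 + |Real.log ε|) ^ (K + K')
      = (C * Real.sqrt ε * (1 + |Real.log ε|) ^ K) * (C' * (1 + |Real.log ε|) ^ K') := by ring
  rw [e]
  exact mul_le_mul (h K le_rfl ε h0 h1) (h' K' le_rfl ε h0 h1) (norm_nonneg _) (by (clear * - hC h0; positivity))

theorem Md.mul_sm {f g : ℝ → B} (hf : Md f) (hg : Sm g) : Sm fun ε => f ε * g ε := by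
  obtain ⟨C, K, hC, h⟩ := Asym_md hf
  obtain ⟨C', K', hC', h'⟩ := Asym_sm hg
  refine ⟨C * C', K + K', fun ε h0 h1 => (norm_mul_le _ _).trans ?_⟩
  have h2 := Asym_one_le ε
  have h3 := Real.sqrt_nonneg ε
  have e : C * C' * Real.sqrt ε * (1 + |Real.log ε|) ^ (K + K')
      = (C * (1 + |Real.log ε|) ^ K) * (C' * Real.sqrt ε * (1 + |Real.log ε|) ^ K') := by ring
  rw [e]
  exact mul_le_mul (h K le_rfl ε h0 h1) (h' K' le_rfl ε h0 h1) (norm_nonneg _) (by (clear * - hC; positivity))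

/-- product of two equivalences. -/
theorem Sm.mul_sub {f g f' g' : ℝ → B} (hf : Sm fun ε => f ε - f' ε) (hg : Sm fun ε => g ε - g' ε)
    (hf' : Md f') (hg' : Md g') : Sm fun ε => f ε * g ε - f' ε * g' ε := by
  have h1 := hf.mul_md (Md.of_sub hg hg')
  have h2 := hf'.mul_sm hg
  refine (h1.add h2).congr fun ε _ _ => ?_
  rw [sub_mul, _root_.mul_sub]
  abel

end

section
variable {B : Type*} [NormedRing B] [NormedAlgebra ℂ B]

theorem Asym_expT_le (N : ℕ) (m : B) (k : ℝ) : ∃ C : ℝ, 0 ≤ C ∧ ∀ ε : ℝ,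
    ‖expT N ((k * Real.log ε : ℝ) : ℂ) m‖ ≤ C * (1 + |Real.log ε|) ^ N := by
  obtain ⟨C, hC, h⟩ := expT_norm_le N m
  refine ⟨C * (1 + |k|) ^ N, by positivity, fun ε => (h _).trans ?_⟩
  rw [mul_assoc, ← mul_pow, Complex.norm_real, Real.norm_eq_abs, abs_mul]
  apply mul_le_mul_of_nonneg_left _ hC
  apply pow_le_pow_left₀ (by positivity)
  nlinarith [abs_nonneg k, abs_nonneg (Real.log ε)]

theorem Md.expT (N : ℕ) (m : B) (k : ℝ) : Md fun ε => expT N ((k * Real.log ε : ℝ) : ℂ) m := by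
  obtain ⟨C, -, h⟩ := Asym_expT_le N m k
  exact ⟨C, N, fun ε _ _ => h ε⟩

theorem Ap.pow {p : ℕ} (hp : 1 ≤ p) (hp' : p ≤ 2) : Ap p fun ε => ε ^ p := by
  refine ⟨hp, fun ε h0 h1 => ⟨by positivity, ?_, ?_⟩⟩
  · have h2 : ε ^ p ≤ ε ^ 1 := pow_le_pow_of_le_one h0.le (by linarith only [h1]) hp
    rw [pow_one] at h2
    linarith only [h1, h2]
  · rw [Real.log_pow, sub_self, abs_zero]
    linarith only [h0]

theorem Ap.id : Ap 1 fun ε => ε := by
  refine ⟨le_rfl, fun ε h0 h1 => ⟨h0, by linarith, ?_⟩⟩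
  rw [Nat.cast_one, one_mul, sub_self, abs_zero]
  linarith only [h0]

/-- `ε - ε²`. -/
theorem Ap.sub_sq : Ap 1 fun ε => ε - ε ^ 2 := by
  refine ⟨le_rfl, fun ε h0 h1 => ?_⟩
  have h2 : 0 < 1 - ε := by linarith
  have e : ε - ε ^ 2 = ε * (1 - ε) := by ring
  simp only [e]
  refine ⟨mul_pos h0 h2, by nlinarith only [h1], ?_⟩
  rw [Real.log_mul h0.ne' h2.ne', Nat.cast_one, one_mul, add_sub_cancel_left]
  have h3 : Real.log (1 - ε) ≤ 0 := Real.log_nonpos h2.le (by linarith only [h0])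
  rw [abs_of_nonpos h3]
  have h4 := Real.one_sub_inv_le_log_of_pos h2
  have h5 : (1 - ε)⁻¹ ≤ 1 + 4 * ε := by
    rw [inv_le_iff_one_le_mul₀ h2]
    nlinarith only [h0, h1]
  linarith only [h4, h5]

/-- `ε / (1 + ε)`. -/
theorem Ap.div_one_add : Ap 1 fun ε => ε / (1 + ε) := by
  refine ⟨le_rfl, fun ε h0 h1 => ?_⟩
  have h2 : 0 < 1 + ε := by linarith only [h0]
  refine ⟨div_pos h0 h2, ?_, ?_⟩
  · rw [div_le_iff₀ h2]
    linarith only [h1]
  · rw [Real.log_div h0.ne' h2.ne', Nat.cast_one, one_mul, sub_sub_cancel_left, abs_neg]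
    have h3 : 0 ≤ Real.log (1 + ε) := Real.log_nonneg (by linarith only [h0])
    rw [abs_of_nonneg h3]
    have h4 := Real.log_le_sub_one_of_pos h2
    linarith only [h0, h4]

theorem Asym_pos {p : ℕ} {α : ℝ → ℝ} (h : Ap p α) {ε : ℝ} (h0 : 0 < ε) (h1 : ε ≤ 1 / 4) :
    α ε ≤ Real.exp 1 * ε := by
  obtain ⟨hp, h⟩ := h
  obtain ⟨ha, -, hl⟩ := h ε h0 h1
  have h2 := (abs_le.mp hl).2
  have h3 : Real.log ε ≤ 0 := Real.log_nonpos h0.le (by linarith only [h1])
  have h4 : (p : ℝ) * Real.log ε ≤ Real.log ε := by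
    have : (1 : ℝ) ≤ p := by exact_mod_cast hp
    nlinarith only [h3, this]
  have h5 : Real.log (α ε) ≤ 1 + Real.log ε := by linarith only [h1, h2, h4]
  have h6 := Real.exp_le_exp.mpr h5
  rwa [Real.exp_log ha, Real.exp_add, Real.exp_log h0] at h6

/-- for `α` of type `Ap p`: `√α` is small. -/
theorem Ap.sqrt_le {p : ℕ} {α : ℝ → ℝ} (h : Ap p α) : ∃ C : ℝ, 0 ≤ C ∧ ∀ ε, 0 < ε → ε ≤ 1 / 4 →
    α ε ≤ C * ε ∧ Real.sqrt (α ε) ≤ C * Real.sqrt ε ∧ |Real.log (α ε)| ≤ C * (1 + |Real.log ε|) := by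
  have he : 1 ≤ Real.exp 1 := Real.one_le_exp (by norm_num)
  have hp : (1 : ℝ) ≤ p := by exact_mod_cast h.1
  refine ⟨Real.exp 1 + p, by positivity, fun ε h0 h1 => ?_⟩
  have h2 := Asym_pos h h0 h1
  have h3 : α ε ≤ (Real.exp 1 + p) * ε := by nlinarith only [h2, h0]
  refine ⟨h3, ?_, ?_⟩
  · have hC : (1 : ℝ) ≤ Real.exp 1 + p := by linarith only [he]
    have h4 : (Real.exp 1 + p) * ε ≤ (Real.exp 1 + p) ^ 2 * ε := by
      apply mul_le_mul_of_nonneg_right _ h0.le
      nlinarith only [he]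
    have h5 := Real.sqrt_le_sqrt (h3.trans h4)
    rwa [Real.sqrt_mul (by positivity), Real.sqrt_sq (by linarith only [he])] at h5
  · have h4 := (h.2 ε h0 h1).2.2
    have h5 : |Real.log (α ε)| ≤ |Real.log (α ε) - p * Real.log ε| + |p * Real.log ε| := by
      have := abs_add_le (Real.log (α ε) - p * Real.log ε) (p * Real.log ε)
      rwa [sub_add_cancel] at this
    rw [abs_mul, abs_of_nonneg (by linarith only [] : (0 : ℝ) ≤ p)] at h5
    have h6 := abs_nonneg (Real.log ε)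
    nlinarith only [he, h1, h4, h5, h6]

/-- `(α ε)^{c m}` against `ε^{c p m}`, `c = ±1`. -/
theorem Ap.expT_sub {p : ℕ} {α : ℝ → ℝ} (h : Ap p α) {N : ℕ} {m : B} (hm : m ^ (N + 1) = 0)
    (c : ℝ) (hc : |c| ≤ 1) :
    Sm fun ε => KZ.expT N ((c * Real.log (α ε) : ℝ) : ℂ) m
      - KZ.expT N ((c * p * Real.log ε : ℝ) : ℂ) m := by
  obtain ⟨C, hC, h2⟩ := Asym_expT_le N m (c * p)
  obtain ⟨C', hC', h3⟩ := expT_sub_one_le N m
  refine Sm.of_le (C * (C' * 4)) N fun ε h0 h1 => ?_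
  have h4 := (h.2 ε h0 h1).2.2
  obtain ⟨d, hd⟩ : ∃ d : ℝ, d = c * (Real.log (α ε) - p * Real.log ε) := ⟨_, rfl⟩
  have hd1 : |d| ≤ 4 * ε := by
    rw [hd, abs_mul]
    have := abs_nonneg (Real.log (α ε) - p * Real.log ε)
    nlinarith only [h4, hc, this]
  have e1 : ((c * Real.log (α ε) : ℝ) : ℂ) = ((c * p * Real.log ε : ℝ) : ℂ) + (d : ℂ) := by
    rw [← Complex.ofReal_add]
    congr 1
    rw [hd]
    ring
  have e2 : KZ.expT N ((c * Real.log (α ε) : ℝ) : ℂ) m
      - KZ.expT N ((c * p * Real.log ε : ℝ) : ℂ) m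
      = KZ.expT N ((c * p * Real.log ε : ℝ) : ℂ) m * (KZ.expT N (d : ℂ) m - 1) := by
    rw [e1, expT_add hm, mul_sub, mul_one]
  rw [e2]
  have h5 : ‖KZ.expT N (d : ℂ) m - 1‖ ≤ C' * (4 * ε) := by
    have hn : ‖(d : ℂ)‖ = |d| := by rw [Complex.norm_real, Real.norm_eq_abs]
    refine (h3 _ (by rw [hn]; linarith only [h1, hd1])).trans ?_
    rw [hn]
    exact mul_le_mul_of_nonneg_left hd1 hC'
  refine (norm_mul_le _ _).trans ((mul_le_mul (h2 ε) h5 (norm_nonneg _) (by (clear * - hC; positivity))).trans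
    (le_of_eq ?_))
  ring

end

end Vale.Agent.P029.KZ
end
end
end

section

section

/-!
P029-D, task KZ4: perturbation of the transport.
-/

open MeasureTheory Set Filter Topology

noncomputable section

namespace Vale.Agent.P029.KZ

variable {B : Type*} [NormedRing B] [NormedAlgebra ℂ B] [CompleteSpace B]

theorem TrC_isUnit {M : Submodule ℂ B} {N : ℕ} (hM : NilS (M : Set B) N) {ω : ℝ → B} {s t : ℝ}
    (h : Fm M ω s t) {r : ℝ} (hr : r ∈ Icc s t) : IsUnit (Tr N ω s r) := by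
  have h' : Fm M ω s r := h.sub le_rfl hr.1 hr.2
  exact ⟨⟨Tr N ω s r, Tr N (fun u => -ω (s + r - u)) s r, Tr_mul_rev hM h', Tr_rev_mul hM h'⟩,
    rfl⟩

/-- `Tr N ω r t = Tr N ω s t * (Tr N ω s r)⁻¹` -/
theorem TrC_inv {M : Submodule ℂ B} {N : ℕ} (hM : NilS (M : Set B) N) {ω : ℝ → B} {s t : ℝ}
    (h : Fm M ω s t) {r : ℝ} (hr : r ∈ Icc s t) :
    Tr N ω s t * Ring.inverse (Tr N ω s r) = Tr N ω r t := by
  rw [Tr_comp hM h hr, mul_assoc, Ring.mul_inverse_cancel _ (TrC_isUnit hM h hr), mul_one]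

theorem TrC_hasDerivAt_inv {U : ℝ → B} {U' : B} {r : ℝ} (hU : HasDerivAt U U' r)
    (hu : IsUnit (U r)) :
    HasDerivAt (fun r => Ring.inverse (U r)) (-(Ring.inverse (U r) * U' * Ring.inverse (U r))) r := by
  obtain ⟨x, hx⟩ := hu
  have h1 : HasFDerivAt (𝕜 := ℝ) Ring.inverse
      (-ContinuousLinearMap.mulLeftRight ℝ B ↑x⁻¹ ↑x⁻¹) (U r) := by
    rw [← hx]
    exact hasFDerivAt_ringInverse (𝕜 := ℝ) x
  have h2 := h1.comp_hasDerivAt r hU
  have h3 : (-ContinuousLinearMap.mulLeftRight ℝ B ↑x⁻¹ ↑x⁻¹) U' =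
      -(Ring.inverse (U r) * U' * Ring.inverse (U r)) := by
    rw [← hx, Ring.inverse_unit]
    simp only [neg_apply, ContinuousLinearMap.mulLeftRight_apply]
  rw [← h3]
  exact h2

/-- With `P r = Tr N ω₁ r t`, `d/dr (P r * Tr N ω₂ s r) = P r * (ω₂ r - ω₁ r) * Tr N ω₂ s r`;
both factors are bounded by `‖1‖ (N+1) (1+l)^N`. -/
theorem Tr_pert {M : Submodule ℂ B} {N : ℕ} (hM : NilS (M : Set B) N) {ω₁ ω₂ : ℝ → B} {s t l : ℝ}
    (h₁ : Fm M ω₁ s t) (h₂ : Fm M ω₂ s t) (hl₁ : ∫ u in s..t, ‖ω₁ u‖ ≤ l)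
    (hl₂ : ∫ u in s..t, ‖ω₂ u‖ ≤ l) :
    ‖Tr N ω₂ s t - Tr N ω₁ s t‖ ≤
      (‖(1 : B)‖ * (N + 1) * (1 + l) ^ N) ^ 2 * ∫ u in s..t, ‖ω₂ u - ω₁ u‖ := by
  have hst : s ≤ t := h₁.le
  obtain ⟨hc₁, hd₁⟩ := Tr_sol hM h₁
  obtain ⟨hc₂, hd₂⟩ := Tr_sol hM h₂
  have hu₁ : ∀ r ∈ Icc s t, IsUnit (Tr N ω₁ s r) := fun r hr => TrC_isUnit hM h₁ hr
  set c : ℝ := ‖(1 : B)‖ * (N + 1) * (1 + l) ^ N with hc
  -- the two factors
  set P : ℝ → B := fun r => Tr N ω₁ s t * Ring.inverse (Tr N ω₁ s r) with hP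
  have hPeq : ∀ r ∈ Icc s t, P r = Tr N ω₁ r t := fun r hr => TrC_inv hM h₁ hr
  have hPc : ContinuousOn P (Icc s t) := by
    intro r hr
    have h1 : ContinuousAt Ring.inverse (Tr N ω₁ s r) := by
      obtain ⟨x, hx⟩ := hu₁ r hr
      rw [← hx]
      exact NormedRing.inverse_continuousAt x
    exact continuousWithinAt_const.mul
      (h1.comp_continuousWithinAt (f := fun r => Tr N ω₁ s r) (hc₁ r hr))
  have hPd : ∀ r ∈ Ioo s t, HasDerivAt P (-(P r * ω₁ r)) r := by
    intro r hr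
    have hr' : r ∈ Icc s t := Ioo_subset_Icc_self hr
    have h1 := (TrC_hasDerivAt_inv (hd₁ r hr) (hu₁ r hr')).const_mul (Tr N ω₁ s t)
    refine h1.congr_deriv ?_
    have h2 : Ring.inverse (Tr N ω₁ s r) * (ω₁ r * Tr N ω₁ s r) * Ring.inverse (Tr N ω₁ s r) =
        Ring.inverse (Tr N ω₁ s r) * ω₁ r := by
      rw [mul_assoc, mul_assoc, Ring.mul_inverse_cancel _ (hu₁ r hr'), mul_one]
    rw [h2, hP]
    simp only [mul_neg, mul_assoc]
  have hH : ∀ r ∈ Ioo s t, HasDerivAt (fun r => P r * Tr N ω₂ s r)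
      (P r * (ω₂ r - ω₁ r) * Tr N ω₂ s r) r := by
    intro r hr
    refine ((hPd r hr).mul (hd₂ r hr)).congr_deriv ?_
    noncomm_ring
  have hHc : ContinuousOn (fun r => P r * Tr N ω₂ s r) (Icc s t) := hPc.mul hc₂
  have hdc : ContinuousOn (fun r => ω₂ r - ω₁ r) (Icc s t) := h₂.cont.sub h₁.cont
  have hH'c : ContinuousOn (fun r => P r * (ω₂ r - ω₁ r) * Tr N ω₂ s r) (Icc s t) :=
    (hPc.mul hdc).mul hc₂
  have hint : IntervalIntegrable (fun r => P r * (ω₂ r - ω₁ r) * Tr N ω₂ s r) volume s t :=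
    hH'c.intervalIntegrable_of_Icc hst
  have hint2 : IntervalIntegrable (fun r => ‖ω₂ r - ω₁ r‖) volume s t :=
    hdc.norm.intervalIntegrable_of_Icc hst
  have key := intervalIntegral.integral_eq_sub_of_hasDerivAt_of_le hst hHc hH hint
  have e1 : P t * Tr N ω₂ s t = Tr N ω₂ s t := by
    rw [hPeq t ⟨hst, le_rfl⟩, Tr_self, one_mul]
  have e2 : P s * Tr N ω₂ s s = Tr N ω₁ s t := by
    rw [hPeq s ⟨le_rfl, hst⟩, Tr_self, mul_one]
  rw [e1, e2] at key
  rw [← key, ← intervalIntegral.integral_const_mul]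
  have hl0 : 0 ≤ l :=
    (intervalIntegral.integral_nonneg hst fun u _ => norm_nonneg (ω₁ u)).trans hl₁
  have hc0 : 0 ≤ c := by (clear * - hl0; positivity)
  have hb₁ : ∀ r ∈ Icc s t, ‖P r‖ ≤ c := by
    intro r hr
    rw [hPeq r hr]
    refine Tr_norm_le N hr.2 (h₁.cont.mono (Icc_subset_Icc hr.1 le_rfl)) (le_trans ?_ hl₁)
    exact intervalIntegral.integral_mono_interval hr.1 hr.2 le_rfl
      (Filter.Eventually.of_forall fun u => norm_nonneg (ω₁ u))
      (h₁.cont.norm.intervalIntegrable_of_Icc hst)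
  have hb₂ : ∀ r ∈ Icc s t, ‖Tr N ω₂ s r‖ ≤ c := by
    intro r hr
    refine Tr_norm_le N hr.1 (h₂.cont.mono (Icc_subset_Icc le_rfl hr.2)) (le_trans ?_ hl₂)
    exact intervalIntegral.integral_mono_interval le_rfl hr.1 hr.2
      (Filter.Eventually.of_forall fun u => norm_nonneg (ω₂ u))
      (h₂.cont.norm.intervalIntegrable_of_Icc hst)
  refine intervalIntegral.norm_integral_le_of_norm_le hst ?_ (hint2.const_mul _)
  refine Filter.Eventually.of_forall fun r hr => ?_
  have hr' : r ∈ Icc s t := Ioc_subset_Icc_self hr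
  calc ‖P r * (ω₂ r - ω₁ r) * Tr N ω₂ s r‖
      ≤ ‖P r‖ * ‖ω₂ r - ω₁ r‖ * ‖Tr N ω₂ s r‖ :=
        (norm_mul_le _ _).trans (mul_le_mul_of_nonneg_right (norm_mul_le _ _) (norm_nonneg _))
    _ ≤ c * ‖ω₂ r - ω₁ r‖ * c := by
        gcongr
        · exact hb₁ r hr'
        · exact hb₂ r hr'
    _ = c ^ 2 * ‖ω₂ r - ω₁ r‖ := by ring

end Vale.Agent.P029.KZ
end
end
end

section

section

/-!
P029-D, task KZ8: Cauchy estimate for the regularised transports.
-/

open MeasureTheory Set Filter Topology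

noncomputable section

namespace Vale.Agent.P029.KZ

variable {B : Type*} [NormedRing B] [NormedAlgebra ℂ B] [CompleteSpace B]

omit [CompleteSpace B] in
theorem phiCauchy_kz_left (a : B) (u : ℝ) : kz a 0 u = (((1 / u : ℝ)) : ℂ) • a := by
  rw [kz, smul_zero, add_zero, Complex.coe_smul]

omit [CompleteSpace B] in
theorem phiCauchy_kz_right (b : B) (u : ℝ) : kz 0 b u = (((1 / (u - 1) : ℝ)) : ℂ) • b := by
  rw [kz, smul_zero, zero_add, Complex.coe_smul]

theorem phiCauchy_Tr_left {a : B} {N : ℕ} (ha : a ^ (N + 1) = 0) {s t : ℝ} (hs : 0 < s)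
    (hst : s ≤ t) : Tr N (kz a 0) s t = expT N ((Real.log t : ℂ) - (Real.log s : ℂ)) a := by
  have h1 : kz a 0 = fun u : ℝ => (((1 / u : ℝ)) : ℂ) • a := funext fun u => phiCauchy_kz_left a u
  rw [h1]
  refine Tr_smul ha hst (F := fun u => (Real.log u : ℂ)) ?_ ?_ ?_
  · refine Complex.continuous_ofReal.comp_continuousOn ?_
    exact continuousOn_const.div continuousOn_id fun u hu => (lt_of_lt_of_le hs hu.1).ne'
  · refine Complex.continuous_ofReal.comp_continuousOn ?_
    exact continuousOn_id.log fun u hu => (lt_of_lt_of_le hs hu.1).ne'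
  · intro r hr
    have h2 := (Real.hasDerivAt_log (hs.trans hr.1).ne').ofReal_comp
    rw [one_div]
    exact h2

theorem phiCauchy_Tr_right {b : B} {N : ℕ} (hb : b ^ (N + 1) = 0) {s t : ℝ}
    (hst : s ≤ t) (ht : t < 1) :
    Tr N (kz 0 b) s t = expT N ((Real.log (1 - t) : ℂ) - (Real.log (1 - s) : ℂ)) b := by
  have h1 : kz 0 b = fun u : ℝ => (((1 / (u - 1) : ℝ)) : ℂ) • b :=
    funext fun u => phiCauchy_kz_right b u
  rw [h1]
  refine Tr_smul hb hst (F := fun u => (Real.log (1 - u) : ℂ)) ?_ ?_ ?_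
  · refine Complex.continuous_ofReal.comp_continuousOn ?_
    exact continuousOn_const.div (continuousOn_id.sub continuousOn_const) fun u hu =>
      (sub_neg.2 (lt_of_le_of_lt hu.2 ht)).ne
  · refine Complex.continuous_ofReal.comp_continuousOn ?_
    exact (continuousOn_const.sub continuousOn_id).log fun u hu =>
      (sub_pos.2 (lt_of_le_of_lt hu.2 ht)).ne'
  · intro r hr
    have hr1 : 0 < 1 - r := by linarith only [ht, hr.2]
    have h2 : HasDerivAt (fun u : ℝ => Real.log (1 - u)) (-1 / (1 - r)) r :=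
      ((hasDerivAt_id r).const_sub 1).log hr1.ne'
    have h3 := h2.ofReal_comp
    have h4 : -1 / (1 - r) = 1 / (r - 1) := by
      have h5 : r - 1 ≠ 0 := by linarith only [hr1]
      rw [div_eq_div_iff hr1.ne' h5]
      ring
    rw [h4] at h3
    exact h3

omit [NormedAlgebra ℂ B] [CompleteSpace B] in
/-- the product of four factors. -/
theorem phiCauchy_four {P Q R S : B} {cP cQ cR cS ε X : ℝ} {N : ℕ}
    (hP : ‖P‖ ≤ cP * X ^ N) (hQ : ‖Q‖ ≤ cQ * X ^ N) (hR : ‖R‖ ≤ (cR * X ^ N) ^ 2 * ε)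
    (hS : ‖S‖ ≤ cS * X ^ N) :
    ‖P * Q * R * S‖ ≤ (cP * cQ * cR ^ 2 * cS) * ε * X ^ (5 * N) := by
  have h1 : ‖P * Q * R * S‖ ≤ ‖P‖ * ‖Q‖ * ‖R‖ * ‖S‖ := by
    refine (norm_mul_le _ _).trans ?_
    refine mul_le_mul_of_nonneg_right ?_ (norm_nonneg _)
    refine (norm_mul_le _ _).trans ?_
    exact mul_le_mul_of_nonneg_right (norm_mul_le _ _) (norm_nonneg _)
  have hP0 := (norm_nonneg P).trans hP
  have hQ0 := (norm_nonneg Q).trans hQ
  have hR0 := (norm_nonneg R).trans hR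
  calc ‖P * Q * R * S‖ ≤ ‖P‖ * ‖Q‖ * ‖R‖ * ‖S‖ := h1
    _ ≤ (cP * X ^ N) * (cQ * X ^ N) * ((cR * X ^ N) ^ 2 * ε) * (cS * X ^ N) := by
        gcongr
    _ = (cP * cQ * cR ^ 2 * cS) * ε * X ^ (5 * N) := by
        have : X ^ (5 * N) = (X ^ N) ^ 5 := by rw [← pow_mul, mul_comm]
        rw [this]
        ring

omit [NormedAlgebra ℂ B] [CompleteSpace B] in
theorem phiCauchy_four' {P Q R S : B} {cP cQ cR cS ε X : ℝ} {N : ℕ}
    (hP : ‖P‖ ≤ cP * X ^ N) (hQ : ‖Q‖ ≤ cQ * X ^ N) (hR : ‖R‖ ≤ (cR * X ^ N) ^ 2 * ε)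
    (hS : ‖S‖ ≤ cS * X ^ N) :
    ‖P * R * Q * S‖ ≤ (cP * cQ * cR ^ 2 * cS) * ε * X ^ (5 * N) := by
  have h1 : ‖P * R * Q * S‖ ≤ ‖P‖ * ‖R‖ * ‖Q‖ * ‖S‖ := by
    refine (norm_mul_le _ _).trans ?_
    refine mul_le_mul_of_nonneg_right ?_ (norm_nonneg _)
    refine (norm_mul_le _ _).trans ?_
    exact mul_le_mul_of_nonneg_right (norm_mul_le _ _) (norm_nonneg _)
  have hP0 := (norm_nonneg P).trans hP
  have hQ0 := (norm_nonneg Q).trans hQ
  have hR0 := (norm_nonneg R).trans hR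
  calc ‖P * R * Q * S‖ ≤ ‖P‖ * ‖R‖ * ‖Q‖ * ‖S‖ := h1
    _ ≤ (cP * X ^ N) * ((cR * X ^ N) ^ 2 * ε) * (cQ * X ^ N) * (cS * X ^ N) := by
        gcongr
    _ = (cP * cQ * cR ^ 2 * cS) * ε * X ^ (5 * N) := by
        have : X ^ (5 * N) = (X ^ N) ^ 5 := by rw [← pow_mul, mul_comm]
        rw [this]
        ring

/-- comparison of two forms on a short interval. -/
theorem phiCauchy_pert {M : Submodule ℂ B} {N : ℕ} (hM : NilS (M : Set B) N) {ω₁ ω₂ : ℝ → B}
    {s t l κ D X : ℝ} (h₁ : Fm M ω₁ s t) (h₂ : Fm M ω₂ s t) (hl₁ : ∫ u in s..t, ‖ω₁ u‖ ≤ l)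
    (hl₂ : ∫ u in s..t, ‖ω₂ u‖ ≤ l) (hl : 0 ≤ l) (hD : 1 + l ≤ D * X)
    (hκ : ∀ u ∈ Icc s t, ‖ω₂ u - ω₁ u‖ ≤ κ) :
    ‖Tr N ω₂ s t - Tr N ω₁ s t‖ ≤
      ((‖(1 : B)‖ * (N + 1) * D ^ N) * X ^ N) ^ 2 * (κ * (t - s)) := by
  have h3 := Tr_pert hM h₁ h₂ hl₁ hl₂
  have h4 : ∫ u in s..t, ‖ω₂ u - ω₁ u‖ ≤ κ * (t - s) := by
    have h5 := intervalIntegral.norm_integral_le_of_norm_le_const (a := s) (b := t) (C := κ)
      (f := fun u => ‖ω₂ u - ω₁ u‖) (fun u hu => by
        rw [norm_norm]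
        rw [uIoc_of_le h₁.le] at hu
        exact hκ u ⟨hu.1.le, hu.2⟩)
    rw [abs_of_nonneg (by linarith only [h₁.le])] at h5
    exact (le_abs_self _).trans h5
  have h6 : (1 + l) ^ N ≤ (D * X) ^ N := pow_le_pow_left₀ (by linarith only [hl]) hD N
  rw [mul_pow] at h6
  have h7 : 0 ≤ ∫ u in s..t, ‖ω₂ u - ω₁ u‖ :=
    intervalIntegral.integral_nonneg h₁.le fun u _ => norm_nonneg _
  have h8 : ‖(1 : B)‖ * (N + 1) * (1 + l) ^ N ≤ (‖(1 : B)‖ * (N + 1) * D ^ N) * X ^ N := by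
    calc ‖(1 : B)‖ * (N + 1) * (1 + l) ^ N ≤ ‖(1 : B)‖ * (N + 1) * (D ^ N * X ^ N) := by
          (clear * - h6; gcongr)
      _ = _ := by ring
  refine h3.trans ?_
  have h9 : 0 ≤ ‖(1 : B)‖ * (N + 1) * (1 + l) ^ N := by (clear * - hl; positivity)
  (clear * - hl h8 h4 h7; gcongr)

/-- moving the left end point. -/
theorem Phi_left {a b : B} {N : ℕ} (h : NilS {a, b} N) : ∃ (C : ℝ) (K : ℕ), 0 ≤ C ∧
    ∀ α α' β : ℝ, 0 < α' → α' ≤ α → α ≤ 1 / 2 → 0 < β → β ≤ 1 / 2 →
      ‖Phi N α β a b - Phi N α' β a b‖ ≤ C * α * (1 + |Real.log α'| + |Real.log β|) ^ K := by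
  obtain ⟨Ca, hCa0, hCa⟩ := expT_norm_le N a
  obtain ⟨Cb, hCb0, hCb⟩ := expT_norm_le N b
  have hM := nil_span h
  have haM : a ∈ Submodule.span ℂ {a, b} := Submodule.subset_span (by simp)
  have hbM : b ∈ Submodule.span ℂ {a, b} := Submodule.subset_span (by simp)
  have hna : a ^ (N + 1) = 0 := nil_pow h (by simp)
  set D : ℝ := 1 + ‖a‖ + ‖b‖ with hD
  have hD0 : 0 ≤ D := by (clear * -; positivity)
  refine ⟨(Cb * (‖(1 : B)‖ * (N + 1) * D ^ N) * (‖(1 : B)‖ * (N + 1) * D ^ N) ^ 2 * Ca)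
    * (2 * ‖b‖), 5 * N, by (clear * - hCb0 hCa0; positivity), fun α α' β hα' hαα' hα hβ hβ' => ?_⟩
  have hα0 : 0 < α := lt_of_lt_of_le hα' hαα'
  set X : ℝ := 1 + |Real.log α'| + |Real.log β| with hX
  have hlogα : |Real.log α| ≤ |Real.log α'| := by
    have h1 : Real.log α ≤ 0 := Real.log_nonpos hα0.le (by linarith only [hα])
    have h2 : Real.log α' ≤ Real.log α := Real.log_le_log hα' hαα'
    rw [abs_of_nonpos h1, abs_of_nonpos (h2.trans h1)]
    linarith only [h2]
  set l : ℝ := ‖a‖ * |Real.log α'| + ‖b‖ * |Real.log β| with hl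
  have hl0 : 0 ≤ l := by (clear * -; positivity)
  have hlX : 1 + l ≤ D * X := by
    rw [hl, hD, hX]
    have h1 := norm_nonneg a
    have h2 := norm_nonneg b
    have h3 := abs_nonneg (Real.log α')
    have h4 := abs_nonneg (Real.log β)
    nlinarith only [h1, h2, h3, h4]
  have hFm : Fm (Submodule.span ℂ {a, b}) (kz a b) α' (1 - β) :=
    kz_fm haM hbM hα' (by linarith only [hαα', hα, hβ']) (by linarith only [hβ])
  have hFm0 : Fm (Submodule.span ℂ {a, b}) (kz a 0) α' (1 - β) :=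
    kz_fm haM (Submodule.zero_mem _) hα' (by linarith only [hαα', hα, hβ']) (by linarith only [hβ])
  have hsub : Fm (Submodule.span ℂ {a, b}) (kz a b) α' α := hFm.sub le_rfl hαα' (by linarith only [hα, hβ'])
  have hsub0 : Fm (Submodule.span ℂ {a, b}) (kz a 0) α' α := hFm0.sub le_rfl hαα' (by linarith only [hα, hβ'])
  have hrest : Fm (Submodule.span ℂ {a, b}) (kz a b) α (1 - β) :=
    hFm.sub hαα' (by linarith only [hα, hβ']) le_rfl
  have hint : ∀ {ω : ℝ → B}, Fm (Submodule.span ℂ {a, b}) ω α' (1 - β) →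
      ∫ u in α'..α, ‖ω u‖ ≤ ∫ u in α'..(1 - β), ‖ω u‖ := fun {ω} hω =>
    intervalIntegral.integral_mono_interval le_rfl hαα' (by linarith only [hα, hβ'])
      (Eventually.of_forall fun u => norm_nonneg _)
      (hω.cont.norm.intervalIntegrable_of_Icc hω.le)
  have hl1 : ∫ u in α'..α, ‖kz a b u‖ ≤ l :=
    (hint hFm).trans (kz_int_le a b hα' (by linarith only [hαα', hα]) hβ hβ')
  have hl2 : ∫ u in α'..α, ‖kz a 0 u‖ ≤ l := by
    refine (hint hFm0).trans ((kz_int_le a 0 hα' (by linarith only [hαα', hα]) hβ hβ').trans ?_)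
    rw [norm_zero, zero_mul, add_zero, hl]
    have : 0 ≤ ‖b‖ * |Real.log β| := by (clear * -; positivity)
    linarith only [this]
  have hpert := phiCauchy_pert hM hsub hsub0 hl1 hl2 hl0 hlX (κ := 2 * ‖b‖) (fun u hu => by
    have h1 : kz a 0 u - kz a b u = -((1 / (u - 1)) • b) := by
      rw [kz, kz, smul_zero, add_zero]
      abel
    rw [h1, norm_neg, norm_smul, Real.norm_eq_abs]
    refine mul_le_mul_of_nonneg_right ?_ (norm_nonneg _)
    have h2 : u - 1 ≤ -(1 / 2) := by linarith only [hα, hu.2]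
    rw [abs_div, abs_one, abs_of_neg (by linarith only [h2]), div_le_iff₀ (by linarith only [h2])]
    linarith only [h2])
  -- the factors
  have hP : ‖expT N (-(Real.log β : ℂ)) b‖ ≤ Cb * X ^ N := by
    refine (hCb _).trans ?_
    rw [norm_neg, Complex.norm_real, Real.norm_eq_abs]
    have : 1 + |Real.log β| ≤ X := by rw [hX]; linarith only [abs_nonneg (Real.log α')]
    (clear * - this hCb0; gcongr)
  have hS : ‖expT N (Real.log α' : ℂ) a‖ ≤ Ca * X ^ N := by
    refine (hCa _).trans ?_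
    rw [Complex.norm_real, Real.norm_eq_abs]
    have : 1 + |Real.log α'| ≤ X := by rw [hX]; linarith only [abs_nonneg (Real.log β)]
    (clear * - this hCa0; gcongr)
  have hQ : ‖Tr N (kz a b) α (1 - β)‖ ≤ (‖(1 : B)‖ * (N + 1) * D ^ N) * X ^ N := by
    have h1 := Tr_norm_le N hrest.le hrest.cont (kz_int_le a b hα0 hα hβ hβ')
    refine h1.trans ?_
    have h2 : 1 + (‖a‖ * |Real.log α| + ‖b‖ * |Real.log β|) ≤ D * X := by
      refine le_trans ?_ hlX
      rw [hl]
      have := mul_le_mul_of_nonneg_left hlogα (norm_nonneg a)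
      linarith only [this]
    calc ‖(1 : B)‖ * (N + 1) * (1 + (‖a‖ * |Real.log α| + ‖b‖ * |Real.log β|)) ^ N
        ≤ ‖(1 : B)‖ * (N + 1) * (D * X) ^ N := by (clear * - h2; gcongr)
      _ = _ := by rw [mul_pow]; ring
  have hR : ‖expT N ((Real.log α : ℂ) - (Real.log α' : ℂ)) a - Tr N (kz a b) α' α‖ ≤
      ((‖(1 : B)‖ * (N + 1) * D ^ N) * X ^ N) ^ 2 * (2 * ‖b‖ * α) := by
    rw [← phiCauchy_Tr_left hna hα' hαα']
    refine hpert.trans ?_
    have h1 : 2 * ‖b‖ * (α - α') ≤ 2 * ‖b‖ * α := by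
      have := norm_nonneg b
      nlinarith only [hα', this]
    have h2 : 0 ≤ ((‖(1 : B)‖ * (N + 1) * D ^ N) * X ^ N) ^ 2 := by (clear * -; positivity)
    exact mul_le_mul_of_nonneg_left h1 h2
  have hcomp : Tr N (kz a b) α' (1 - β) = Tr N (kz a b) α (1 - β) * Tr N (kz a b) α' α :=
    Tr_comp hM hFm ⟨hαα', by linarith only [hα, hβ']⟩
  have hexp : expT N (Real.log α : ℂ) a
      = expT N ((Real.log α : ℂ) - (Real.log α' : ℂ)) a * expT N (Real.log α' : ℂ) a := by
    rw [← expT_add hna, sub_add_cancel]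
  have hdiff : Phi N α β a b - Phi N α' β a b
      = expT N (-(Real.log β : ℂ)) b * Tr N (kz a b) α (1 - β)
        * (expT N ((Real.log α : ℂ) - (Real.log α' : ℂ)) a - Tr N (kz a b) α' α)
        * expT N (Real.log α' : ℂ) a := by
    rw [Phi, Phi, hcomp, hexp]
    noncomm_ring
  rw [hdiff]
  refine (phiCauchy_four hP hQ hR hS).trans (le_of_eq ?_)
  ring

/-- moving the right end point. -/
theorem Phi_right {a b : B} {N : ℕ} (h : NilS {a, b} N) : ∃ (C : ℝ) (K : ℕ), 0 ≤ C ∧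
    ∀ α β β' : ℝ, 0 < α → α ≤ 1 / 2 → 0 < β' → β' ≤ β → β ≤ 1 / 2 →
      ‖Phi N α β a b - Phi N α β' a b‖ ≤ C * β * (1 + |Real.log α| + |Real.log β'|) ^ K := by
  obtain ⟨Ca, hCa0, hCa⟩ := expT_norm_le N a
  obtain ⟨Cb, hCb0, hCb⟩ := expT_norm_le N b
  have hM := nil_span h
  have haM : a ∈ Submodule.span ℂ {a, b} := Submodule.subset_span (by simp)
  have hbM : b ∈ Submodule.span ℂ {a, b} := Submodule.subset_span (by simp)
  have hnb : b ^ (N + 1) = 0 := nil_pow h (by simp)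
  set D : ℝ := 1 + ‖a‖ + ‖b‖ with hD
  have hD0 : 0 ≤ D := by (clear * -; positivity)
  refine ⟨(Cb * (‖(1 : B)‖ * (N + 1) * D ^ N) * (‖(1 : B)‖ * (N + 1) * D ^ N) ^ 2 * Ca)
    * (2 * ‖a‖), 5 * N, by (clear * - hCb0 hCa0; positivity), fun α β β' hα hα' hβ' hββ' hβ => ?_⟩
  have hβ0 : 0 < β := lt_of_lt_of_le hβ' hββ'
  set X : ℝ := 1 + |Real.log α| + |Real.log β'| with hX
  have hlogβ : |Real.log β| ≤ |Real.log β'| := by
    have h1 : Real.log β ≤ 0 := Real.log_nonpos hβ0.le (by linarith only [hβ])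
    have h2 : Real.log β' ≤ Real.log β := Real.log_le_log hβ' hββ'
    rw [abs_of_nonpos h1, abs_of_nonpos (h2.trans h1)]
    linarith only [h2]
  set l : ℝ := ‖a‖ * |Real.log α| + ‖b‖ * |Real.log β'| with hl
  have hl0 : 0 ≤ l := by (clear * -; positivity)
  have hlX : 1 + l ≤ D * X := by
    rw [hl, hD, hX]
    have h1 := norm_nonneg a
    have h2 := norm_nonneg b
    have h3 := abs_nonneg (Real.log α)
    have h4 := abs_nonneg (Real.log β')
    nlinarith only [h1, h2, h3, h4]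
  have hFm : Fm (Submodule.span ℂ {a, b}) (kz a b) α (1 - β') :=
    kz_fm haM hbM hα (by linarith only [hα', hββ', hβ]) (by linarith only [hβ'])
  have hFm0 : Fm (Submodule.span ℂ {a, b}) (kz 0 b) α (1 - β') :=
    kz_fm (Submodule.zero_mem _) hbM hα (by linarith only [hα', hββ', hβ]) (by linarith only [hβ'])
  have hsub : Fm (Submodule.span ℂ {a, b}) (kz a b) (1 - β) (1 - β') :=
    hFm.sub (by linarith only [hα', hβ]) (by linarith only [hββ']) le_rfl
  have hsub0 : Fm (Submodule.span ℂ {a, b}) (kz 0 b) (1 - β) (1 - β') :=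
    hFm0.sub (by linarith only [hα', hβ]) (by linarith only [hββ']) le_rfl
  have hrest : Fm (Submodule.span ℂ {a, b}) (kz a b) α (1 - β) :=
    hFm.sub le_rfl (by linarith only [hα', hβ]) (by linarith only [hββ'])
  have hint : ∀ {ω : ℝ → B}, Fm (Submodule.span ℂ {a, b}) ω α (1 - β') →
      ∫ u in (1 - β)..(1 - β'), ‖ω u‖ ≤ ∫ u in α..(1 - β'), ‖ω u‖ := fun {ω} hω =>
    intervalIntegral.integral_mono_interval (by linarith only [hα', hβ]) (by linarith only [hββ']) le_rfl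
      (Eventually.of_forall fun u => norm_nonneg _)
      (hω.cont.norm.intervalIntegrable_of_Icc hω.le)
  have hl1 : ∫ u in (1 - β)..(1 - β'), ‖kz a b u‖ ≤ l :=
    (hint hFm).trans (kz_int_le a b hα hα' hβ' (by linarith only [hββ', hβ]))
  have hl2 : ∫ u in (1 - β)..(1 - β'), ‖kz 0 b u‖ ≤ l := by
    refine (hint hFm0).trans ((kz_int_le 0 b hα hα' hβ' (by linarith only [hββ', hβ])).trans ?_)
    rw [norm_zero, zero_mul, zero_add, hl]
    have : 0 ≤ ‖a‖ * |Real.log α| := by (clear * -; positivity)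
    linarith only [this]
  have hpert := phiCauchy_pert hM hsub hsub0 hl1 hl2 hl0 hlX (κ := 2 * ‖a‖) (fun u hu => by
    have h1 : kz 0 b u - kz a b u = -((1 / u) • a) := by
      rw [kz, kz, smul_zero, zero_add]
      abel
    rw [h1, norm_neg, norm_smul, Real.norm_eq_abs]
    refine mul_le_mul_of_nonneg_right ?_ (norm_nonneg _)
    have h2 : 1 / 2 ≤ u := by linarith only [hβ, hu.1]
    rw [abs_div, abs_one, abs_of_pos (by linarith only [h2]), div_le_iff₀ (by linarith only [h2])]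
    linarith only [h2])
  -- the factors
  have hP : ‖expT N (-(Real.log β' : ℂ)) b‖ ≤ Cb * X ^ N := by
    refine (hCb _).trans ?_
    rw [norm_neg, Complex.norm_real, Real.norm_eq_abs]
    have : 1 + |Real.log β'| ≤ X := by rw [hX]; linarith only [abs_nonneg (Real.log α)]
    (clear * - this hCb0; gcongr)
  have hS : ‖expT N (Real.log α : ℂ) a‖ ≤ Ca * X ^ N := by
    refine (hCa _).trans ?_
    rw [Complex.norm_real, Real.norm_eq_abs]
    have : 1 + |Real.log α| ≤ X := by rw [hX]; linarith only [abs_nonneg (Real.log β')]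
    (clear * - this hCa0; gcongr)
  have hQ : ‖Tr N (kz a b) α (1 - β)‖ ≤ (‖(1 : B)‖ * (N + 1) * D ^ N) * X ^ N := by
    have h1 := Tr_norm_le N hrest.le hrest.cont (kz_int_le a b hα hα' hβ0 hβ)
    refine h1.trans ?_
    have h2 : 1 + (‖a‖ * |Real.log α| + ‖b‖ * |Real.log β|) ≤ D * X := by
      refine le_trans ?_ hlX
      rw [hl]
      have := mul_le_mul_of_nonneg_left hlogβ (norm_nonneg b)
      linarith only [this]
    calc ‖(1 : B)‖ * (N + 1) * (1 + (‖a‖ * |Real.log α| + ‖b‖ * |Real.log β|)) ^ N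
        ≤ ‖(1 : B)‖ * (N + 1) * (D * X) ^ N := by (clear * - h2; gcongr)
      _ = _ := by rw [mul_pow]; ring
  have hTr := phiCauchy_Tr_right hnb (s := 1 - β) (t := 1 - β') (by linarith only [hββ']) (by linarith only [hβ'])
  rw [sub_sub_cancel, sub_sub_cancel] at hTr
  have hR : ‖expT N ((Real.log β' : ℂ) - (Real.log β : ℂ)) b
      - Tr N (kz a b) (1 - β) (1 - β')‖ ≤
      ((‖(1 : B)‖ * (N + 1) * D ^ N) * X ^ N) ^ 2 * (2 * ‖a‖ * β) := by
    rw [← hTr]
    refine hpert.trans ?_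
    have h1 : 2 * ‖a‖ * (1 - β' - (1 - β)) ≤ 2 * ‖a‖ * β := by
      have := norm_nonneg a
      nlinarith only [hβ', this]
    have h2 : 0 ≤ ((‖(1 : B)‖ * (N + 1) * D ^ N) * X ^ N) ^ 2 := by (clear * -; positivity)
    exact mul_le_mul_of_nonneg_left h1 h2
  have hcomp : Tr N (kz a b) α (1 - β')
      = Tr N (kz a b) (1 - β) (1 - β') * Tr N (kz a b) α (1 - β) :=
    Tr_comp hM hFm ⟨by linarith only [hα', hβ], by linarith only [hββ']⟩
  have hexp : expT N (-(Real.log β : ℂ)) b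
      = expT N (-(Real.log β' : ℂ)) b * expT N ((Real.log β' : ℂ) - (Real.log β : ℂ)) b := by
    rw [← expT_add hnb]
    congr 1
    ring
  have hdiff : Phi N α β a b - Phi N α β' a b
      = expT N (-(Real.log β' : ℂ)) b
        * (expT N ((Real.log β' : ℂ) - (Real.log β : ℂ)) b - Tr N (kz a b) (1 - β) (1 - β'))
        * Tr N (kz a b) α (1 - β) * expT N (Real.log α : ℂ) a := by
    rw [Phi, Phi, hcomp, hexp]
    noncomm_ring
  rw [hdiff]
  refine (phiCauchy_four' hP hQ hR hS).trans (le_of_eq ?_)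
  ring

end Vale.Agent.P029.KZ
end
end
end

section

section

/-!
P029-D, task KZ7: the universal algebra (endomorphisms of the functions on `words N`): the
coefficients of a series can be read off at one nilpotent pair.
-/

open MeasureTheory Set Filter Topology

noncomputable section

namespace Vale.Agent.P029.KZ

/-- Functions on the words of length at most `N`. -/
abbrev UnivV (N : ℕ) : Type := ↥(words N) → ℂ

/-- Extension by zero to all words. -/
def univE (N : ℕ) (v : UnivV N) (w : List Bool) : ℂ :=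
  if h : w ∈ words N then v ⟨w, h⟩ else 0

/-- Prepend the letter `c`. -/
def univOpL (N : ℕ) (c : Bool) : UnivV N →ₗ[ℂ] UnivV N where
  toFun v := fun w => if w.1.head? = some c then univE N v w.1.tail else 0
  map_add' v v' := by
    funext w
    simp only [univE, Pi.add_apply]
    split_ifs <;> simp
  map_smul' r v := by
    funext w
    simp only [univE, Pi.smul_apply, RingHom.id_apply]
    split_ifs <;> simp

/-- Prepend the letter `c`, as a continuous linear map. -/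
def univOp (N : ℕ) (c : Bool) : UnivV N →L[ℂ] UnivV N :=
  LinearMap.toContinuousLinearMap (univOpL N c)

lemma univOp_apply (N : ℕ) (c : Bool) (v : UnivV N) (w : ↥(words N)) :
    univOp N c v w = if w.1.head? = some c then univE N v w.1.tail else 0 := rfl

/-- The delta function of a word (zero if the word is too long). -/
def univD (N : ℕ) (w : List Bool) : UnivV N := fun w' => if w'.1 = w then 1 else 0

lemma univOp_univD (N : ℕ) (c : Bool) (w : List Bool) :
    univOp N c (univD N w) = univD N (c :: w) := by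
  funext w'
  obtain ⟨w', hw'⟩ := w'
  rw [univOp_apply]
  cases w' with
  | nil => simp [univD]
  | cons d w'' =>
    have h2 : w'' ∈ words N := by
      rw [mem_words] at hw' ⊢
      simp only [List.length_cons] at hw'
      omega
    simp only [List.head?_cons, Option.some.injEq, List.tail_cons, univE, h2, dif_pos, univD,
      List.cons.injEq]
    by_cases h' : w'' = w
    · subst h'
      by_cases h : d = c <;> simp [h, h2]
    · by_cases h : d = c <;> simp [h, h2, h']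

lemma univ_wd (N : ℕ) (w : List Bool) :
    (wd (univOp N false) (univOp N true) w) (univD N []) = univD N w := by
  induction w with
  | nil => simp [wd]
  | cons c w ih =>
    have h : wd (univOp N false) (univOp N true) (c :: w)
        = univOp N c * wd (univOp N false) (univOp N true) w := by
      cases c <;> simp [wd]
    rw [h]
    change univOp N c (wd (univOp N false) (univOp N true) w (univD N [])) = _
    rw [ih, univOp_univD]

lemma univ_nil_aux (N : ℕ) (l : List (UnivV N →L[ℂ] UnivV N))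
    (hl : ∀ x ∈ l, x ∈ ({univOp N false, univOp N true} : Set (UnivV N →L[ℂ] UnivV N)))
    (v : UnivV N) (w : ↥(words N)) (hw : w.1.length < l.length) : (l.prod v) w = 0 := by
  induction l generalizing w with
  | nil => simp at hw
  | cons x l ih =>
    obtain ⟨c, hc⟩ : ∃ c, x = univOp N c := by
      have := hl x (by simp)
      rcases this with h | h
      · exact ⟨false, h⟩
      · exact ⟨true, h⟩
    subst hc
    rw [List.prod_cons]
    change univOp N c (l.prod v) w = 0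
    rw [univOp_apply]
    split_ifs with h1
    · unfold univE
      split_ifs with h2
      · apply ih (fun x hx => hl x (List.mem_cons_of_mem _ hx))
        obtain ⟨w, hw'⟩ := w
        cases w with
        | nil => simp at h1
        | cons d w => simpa using hw
      · rfl
    · rfl

/-- There is a complete normed algebra `B` (take `V →L[ℂ] V`, `V = ↥(words N) → ℂ`), nilpotent
elements `a, b` (prepend a letter, zero if too long) and continuous linear functionals reading off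
the coefficients. -/
theorem exists_univ (N : ℕ) :
    ∃ (B : Type) (_ : NormedRing B) (_ : NormedAlgebra ℂ B) (_ : CompleteSpace B) (a b : B)
      (cf : List Bool → (B →L[ℂ] ℂ)),
      NilS {a, b} N ∧ ∀ (φ : List Bool → ℂ) (w : List Bool), w.length ≤ N →
        cf w (evS φ N a b) = φ w := by
  refine ⟨UnivV N →L[ℂ] UnivV N, inferInstance, inferInstance, inferInstance,
    univOp N false, univOp N true,
    fun w => if h : w ∈ words N then
      (ContinuousLinearMap.proj (R := ℂ) (φ := fun _ : ↥(words N) => ℂ) ⟨w, h⟩).comp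
        (ContinuousLinearMap.apply ℂ (UnivV N) (univD N [])) else 0, ?_, ?_⟩
  · intro l hl hl'
    ext v w
    have hw := w.2
    rw [mem_words] at hw
    rw [univ_nil_aux N l hl' v w (by omega)]
    rfl
  · intro φ w hw
    have hw' : w ∈ words N := mem_words.2 hw
    simp only [hw', dif_pos]
    rw [ContinuousLinearMap.comp_apply, ContinuousLinearMap.apply_apply,
      ContinuousLinearMap.proj_apply]
    have h1 : (evS φ N (univOp N false) (univOp N true)) (univD N [])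
        = ∑ u ∈ words N, φ u • univD N u := by
      unfold evS
      rw [ContinuousLinearMap.sum_apply]
      refine Finset.sum_congr rfl fun u _ => ?_
      rw [ContinuousLinearMap.smul_apply, univ_wd]
    rw [h1, Finset.sum_apply, Finset.sum_eq_single w]
    · simp [univD]
    · intro u _ huw
      simp [univD, Ne.symm huw]
    · intro h
      exact absurd hw' h

end Vale.Agent.P029.KZ
end
end
end

section

section

/-!
P029-D, task KZ9: existence of the limit, with rate; the coefficients `kzφ`.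
-/

open MeasureTheory Set Filter Topology

noncomputable section

namespace Vale.Agent.P029.KZ

/-- `√ε (1 + 2 |log ε|)^K → 0`. -/
theorem phiLim_small (K : ℕ) :
    Tendsto (fun ε : ℝ => Real.sqrt ε * (1 + |Real.log ε| + |Real.log ε|) ^ K) (𝓝[>] (0 : ℝ))
      (𝓝 0) := by
  set s : ℝ := 1 / (4 * ((K : ℝ) + 1)) with hs
  have hs0 : 0 < s := by positivity
  have hsK : s * K ≤ 1 / 4 := by
    rw [hs, div_mul_eq_mul_div, one_mul, div_le_div_iff₀ (by positivity) (by norm_num)]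
    linarith only []
  have hbd : ∀ ε ∈ Ioc (0 : ℝ) 1, Real.sqrt ε * (1 + |Real.log ε| + |Real.log ε|) ^ K ≤
      (1 + 2 / s) ^ K * ε ^ (1 / 4 : ℝ) := by
    intro ε hε
    have h1 : |Real.log ε| ≤ (ε⁻¹) ^ s / s := by
      rw [abs_of_nonpos (Real.log_nonpos hε.1.le hε.2), ← Real.log_inv]
      exact Real.log_le_rpow_div (inv_nonneg.2 hε.1.le) hs0
    have h2 : 1 ≤ (ε⁻¹) ^ s := Real.one_le_rpow ((one_le_inv₀ hε.1).2 hε.2) hs0.le
    have h3 : 1 + |Real.log ε| + |Real.log ε| ≤ (1 + 2 / s) * (ε⁻¹) ^ s := by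
      have e : (1 + 2 / s) * (ε⁻¹) ^ s = (ε⁻¹) ^ s + (ε⁻¹) ^ s / s + (ε⁻¹) ^ s / s := by
        field_simp
        ring
      rw [e]
      linarith only [h1, h2]
    have h4 : ((ε⁻¹) ^ s) ^ K ≤ (ε⁻¹) ^ (1 / 4 : ℝ) := by
      rw [← Real.rpow_natCast, ← Real.rpow_mul (inv_nonneg.2 hε.1.le)]
      exact Real.rpow_le_rpow_of_exponent_le ((one_le_inv₀ hε.1).2 hε.2) hsK
    have h5 : Real.sqrt ε * (ε⁻¹) ^ (1 / 4 : ℝ) = ε ^ (1 / 4 : ℝ) := by
      rw [Real.sqrt_eq_rpow, Real.inv_rpow hε.1.le, ← Real.rpow_neg hε.1.le,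
        ← Real.rpow_add hε.1]
      norm_num
    calc Real.sqrt ε * (1 + |Real.log ε| + |Real.log ε|) ^ K
        ≤ Real.sqrt ε * ((1 + 2 / s) * (ε⁻¹) ^ s) ^ K := by (clear * - h3; gcongr)
      _ = (1 + 2 / s) ^ K * (Real.sqrt ε * ((ε⁻¹) ^ s) ^ K) := by rw [mul_pow]; ring
      _ ≤ (1 + 2 / s) ^ K * (Real.sqrt ε * (ε⁻¹) ^ (1 / 4 : ℝ)) := by (clear * - h4; gcongr)
      _ = (1 + 2 / s) ^ K * ε ^ (1 / 4 : ℝ) := by rw [h5]
  have hlim : Tendsto (fun ε : ℝ => (1 + 2 / s) ^ K * ε ^ (1 / 4 : ℝ)) (𝓝[>] (0 : ℝ)) (𝓝 0) := by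
    have h1 : Tendsto (fun ε : ℝ => ε ^ (1 / 4 : ℝ)) (𝓝[>] (0 : ℝ)) (𝓝 0) := by
      have h2 : ContinuousAt (fun ε : ℝ => ε ^ (1 / 4 : ℝ)) 0 :=
        Real.continuousAt_rpow_const 0 _ (Or.inr (by norm_num))
      have h3 := h2.tendsto
      rw [Real.zero_rpow (by norm_num)] at h3
      exact h3.mono_left nhdsWithin_le_nhds
    simpa only [one_div, mul_zero] using h1.const_mul ((1 + 2 / s) ^ K)
  refine squeeze_zero' ?_ ?_ hlim
  · exact Eventually.of_forall fun ε => by (clear * -; positivity)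
  · filter_upwards [Ioc_mem_nhdsGT (zero_lt_one' ℝ)] with ε hε using hbd ε hε

/-- The dyadic diagonal sequence converges geometrically. -/
theorem phiLim_dyadic {V : Type*} [NormedAddCommGroup V] [CompleteSpace V] {F : ℝ → ℝ → V}
    {C : ℝ} {K : ℕ} (hC : 0 ≤ C)
    (hl : ∀ α α' β : ℝ, 0 < α' → α' ≤ α → α ≤ 1 / 2 → 0 < β → β ≤ 1 / 2 →
      ‖F α β - F α' β‖ ≤ C * α * (1 + |Real.log α'| + |Real.log β|) ^ K)
    (hr : ∀ α β β' : ℝ, 0 < α → α ≤ 1 / 2 → 0 < β' → β' ≤ β → β ≤ 1 / 2 →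
      ‖F α β - F α β'‖ ≤ C * β * (1 + |Real.log α| + |Real.log β'|) ^ K) :
    ∃ (L : V) (D : ℝ), 0 ≤ D ∧ ∀ n : ℕ,
      ‖F ((1 / 2) ^ (n + 1)) ((1 / 2) ^ (n + 1)) - L‖ ≤ D * Real.sqrt ((1 / 2) ^ (n + 1)) := by
  set ρ : ℝ := Real.sqrt (1 / 2) with hρ
  have hρ0 : 0 < ρ := Real.sqrt_pos.2 (by norm_num)
  have hρ2 : ρ ^ 2 = 1 / 2 := Real.sq_sqrt (by norm_num)
  have hρ1 : ρ < 1 := by
    by_contra h
    push Not at h
    nlinarith only [hρ2, h]
  have hsq : ∀ n : ℕ, Real.sqrt ((1 / 2 : ℝ) ^ n) = ρ ^ n := by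
    intro n
    rw [← hρ2, ← pow_mul, mul_comm, pow_mul, Real.sqrt_sq (by positivity)]
  -- polynomial times geometric is bounded
  obtain ⟨M, hM0, hM⟩ : ∃ M : ℝ, 0 ≤ M ∧ ∀ n : ℕ, ((n : ℝ) + 1) ^ K * ρ ^ n ≤ M := by
    have h1 := tendsto_pow_const_mul_const_pow_of_abs_lt_one K (r := ρ)
      (by rw [abs_of_pos hρ0]; exact hρ1)
    obtain ⟨M, hM⟩ := h1.bddAbove_range
    have hMn : ∀ n : ℕ, (n : ℝ) ^ K * ρ ^ n ≤ M := fun n => hM ⟨n, rfl⟩
    have hM0 : 0 ≤ M := le_trans (by positivity) (hMn 1)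
    refine ⟨M / ρ, by positivity, fun n => ?_⟩
    have h2 := hMn (n + 1)
    rw [le_div_iff₀ hρ0]
    push_cast at h2
    calc ((n : ℝ) + 1) ^ K * ρ ^ n * ρ = ((n : ℝ) + 1) ^ K * ρ ^ (n + 1) := by ring
      _ ≤ M := h2
  set f : ℕ → V := fun n => F ((1 / 2) ^ (n + 1)) ((1 / 2) ^ (n + 1)) with hf
  have hlog : ∀ n : ℕ, |Real.log ((1 / 2 : ℝ) ^ n)| ≤ n := by
    intro n
    have h1 : Real.log 2 ≤ 1 := by
      have := Real.log_le_sub_one_of_pos (show (0 : ℝ) < 2 by norm_num)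
      linarith only [this]
    have h2 : 0 ≤ Real.log 2 := Real.log_nonneg (by norm_num)
    rw [Real.log_pow, one_div, Real.log_inv, abs_mul, abs_neg, abs_of_nonneg h2, Nat.abs_cast]
    calc (n : ℝ) * Real.log 2 ≤ n * 1 := by (clear * - h1; gcongr)
      _ = n := mul_one _
  have hstep : ∀ n : ℕ, dist (f n) (f (n + 1)) ≤ (C * 5 ^ K * M) * ρ ^ n := by
    intro n
    have ha0 : (0 : ℝ) < (1 / 2) ^ (n + 1 + 1) := by positivity
    have ha1 : (1 / 2 : ℝ) ^ (n + 1 + 1) ≤ (1 / 2) ^ (n + 1) :=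
      pow_le_pow_of_le_one (by norm_num) (by norm_num) (by omega)
    have ha2 : (1 / 2 : ℝ) ^ (n + 1) ≤ 1 / 2 := by
      calc (1 / 2 : ℝ) ^ (n + 1) ≤ (1 / 2) ^ 1 :=
            pow_le_pow_of_le_one (by norm_num) (by norm_num) (by omega)
        _ = 1 / 2 := pow_one _
    have h1 := hl _ _ _ ha0 ha1 ha2 (lt_of_lt_of_le ha0 ha1) ha2
    have h2 := hr ((1 / 2) ^ (n + 1 + 1)) ((1 / 2) ^ (n + 1)) ((1 / 2) ^ (n + 1 + 1)) ha0
      (ha1.trans ha2) ha0 ha1 ha2
    have hl1 := hlog (n + 1)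
    have hl2 := hlog (n + 1 + 1)
    push_cast at hl1 hl2
    have h3 : 1 + |Real.log ((1 / 2 : ℝ) ^ (n + 1 + 1))| + |Real.log ((1 / 2 : ℝ) ^ (n + 1))| ≤
        5 * ((n : ℝ) + 1) := by
      have : (0 : ℝ) ≤ n := Nat.cast_nonneg n
      linarith only [hl1, hl2]
    have h4 : 1 + |Real.log ((1 / 2 : ℝ) ^ (n + 1 + 1))| +
        |Real.log ((1 / 2 : ℝ) ^ (n + 1 + 1))| ≤ 5 * ((n : ℝ) + 1) := by
      have : (0 : ℝ) ≤ n := Nat.cast_nonneg n
      linarith only [hl2]
    have h5 : (1 / 2 : ℝ) ^ (n + 1) = 1 / 2 * (ρ ^ n * ρ ^ n) := by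
      rw [pow_succ, ← hρ2]; ring
    rw [dist_eq_norm]
    calc ‖f n - f (n + 1)‖
        = ‖(F ((1 / 2) ^ (n + 1)) ((1 / 2) ^ (n + 1)) -
              F ((1 / 2) ^ (n + 1 + 1)) ((1 / 2) ^ (n + 1))) +
            (F ((1 / 2) ^ (n + 1 + 1)) ((1 / 2) ^ (n + 1)) -
              F ((1 / 2) ^ (n + 1 + 1)) ((1 / 2) ^ (n + 1 + 1)))‖ := by
          rw [sub_add_sub_cancel]
      _ ≤ C * (1 / 2) ^ (n + 1) * (1 + |Real.log ((1 / 2 : ℝ) ^ (n + 1 + 1))| +
              |Real.log ((1 / 2 : ℝ) ^ (n + 1))|) ^ K +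
            C * (1 / 2) ^ (n + 1) * (1 + |Real.log ((1 / 2 : ℝ) ^ (n + 1 + 1))| +
              |Real.log ((1 / 2 : ℝ) ^ (n + 1 + 1))|) ^ K :=
          (norm_add_le _ _).trans (add_le_add h1 h2)
      _ ≤ C * (1 / 2) ^ (n + 1) * (5 * ((n : ℝ) + 1)) ^ K +
            C * (1 / 2) ^ (n + 1) * (5 * ((n : ℝ) + 1)) ^ K := by (clear * - h3 hC h4; gcongr)
      _ = C * 5 ^ K * (((n : ℝ) + 1) ^ K * ρ ^ n) * ρ ^ n := by
          rw [h5, mul_pow]; ring
      _ ≤ C * 5 ^ K * M * ρ ^ n := by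
          have := hM n
          (clear * - this hC; gcongr)
  have hcs : CauchySeq f := cauchySeq_of_le_geometric ρ _ hρ1 hstep
  obtain ⟨L, hL⟩ := cauchySeq_tendsto_of_complete hcs
  have h1ρ : 0 < 1 - ρ := by linarith only [hρ1]
  refine ⟨L, C * 5 ^ K * M / (1 - ρ) / ρ, by (clear * - hC hM0 hρ1; positivity), fun n => ?_⟩
  have h1 := dist_le_of_le_geometric_of_tendsto ρ (C * 5 ^ K * M) hρ1 hstep hL n
  rw [dist_eq_norm] at h1
  refine h1.trans (le_of_eq ?_)
  rw [hsq, pow_succ]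
  (clear * - hρ0 h1ρ; field_simp)

/-- pure real analysis: a two-parameter family with the Cauchy estimates of `PhiCauchy` converges
with a rate (dyadic points `2^{-k}` on the diagonal, then compare with the diagonal point of
`m = min α β`). -/
theorem exists_lim {V : Type*} [NormedAddCommGroup V] [CompleteSpace V] {F : ℝ → ℝ → V}
    {C : ℝ} {K : ℕ} (hC : 0 ≤ C)
    (hl : ∀ α α' β : ℝ, 0 < α' → α' ≤ α → α ≤ 1 / 2 → 0 < β → β ≤ 1 / 2 →
      ‖F α β - F α' β‖ ≤ C * α * (1 + |Real.log α'| + |Real.log β|) ^ K)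
    (hr : ∀ α β β' : ℝ, 0 < α → α ≤ 1 / 2 → 0 < β' → β' ≤ β → β ≤ 1 / 2 →
      ‖F α β - F α β'‖ ≤ C * β * (1 + |Real.log α| + |Real.log β'|) ^ K) :
    ∃ (L : V) (C' : ℝ) (K' : ℕ), 0 ≤ C' ∧ ∀ α β : ℝ, 0 < α → α ≤ 1 / 2 → 0 < β → β ≤ 1 / 2 →
      ‖F α β - L‖ ≤ C' * (Real.sqrt α + Real.sqrt β) * (1 + |Real.log α| + |Real.log β|) ^ K' := by
  obtain ⟨L, D, hD, hLD⟩ := phiLim_dyadic hC hl hr
  refine ⟨L, C * 3 ^ K + D, K, by positivity, ?_⟩
  intro α β hα hα' hβ hβ'
  obtain ⟨m, hm0, hmα, hmβ, hmor⟩ : ∃ m : ℝ, 0 < m ∧ m ≤ α ∧ m ≤ β ∧ (m = α ∨ m = β) :=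
    ⟨min α β, lt_min hα hβ, min_le_left _ _, min_le_right _ _, min_choice α β⟩
  obtain ⟨n, hn1, hn2⟩ := exists_nat_pow_near_of_lt_one (x := 2 * m) (y := 1 / 2)
    (by linarith only [hm0]) (by linarith only [hα', hmα]) (by norm_num) (by norm_num)
  set q : ℝ := (1 / 2) ^ (n + 1 + 1) with hq
  have hq0 : 0 < q := by positivity
  have hqm : q ≤ m := by
    have : q = (1 / 2) ^ (n + 1) * (1 / 2) := by rw [hq, pow_succ]
    rw [this]; linarith only [hn1]
  have hmq : m ≤ 2 * q := by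
    have : q = (1 / 2) ^ n * (1 / 4) := by rw [hq, pow_succ, pow_succ]; ring
    rw [this]; linarith only [hn2]
  have hq1 : q ≤ 1 / 2 := by linarith only [hα', hmα, hqm]
  have hlog2 : Real.log 2 ≤ 1 := by
    have := Real.log_le_sub_one_of_pos (show (0 : ℝ) < 2 by norm_num)
    linarith only [this]
  have habs : ∀ x : ℝ, 0 < x → x ≤ 1 / 2 → |Real.log x| = -Real.log x := fun x h0 h1 =>
    abs_of_nonpos (Real.log_nonpos h0.le (by linarith only [h1]))
  have hlα := habs α hα hα'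
  have hlβ := habs β hβ hβ'
  have hlq := habs q hq0 hq1
  have hpα : 0 ≤ |Real.log α| := abs_nonneg _
  have hpβ : 0 ≤ |Real.log β| := abs_nonneg _
  have hlm : |Real.log q| ≤ |Real.log α| + |Real.log β| + 1 := by
    have h1 : Real.log m ≤ Real.log 2 + Real.log q := by
      rw [← Real.log_mul (by norm_num) hq0.ne']
      exact Real.log_le_log hm0 hmq
    have h2 : -Real.log m ≤ |Real.log α| + |Real.log β| := by
      rcases hmor with h | h
      · rw [h, ← hlα]; linarith only [hpβ]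
      · rw [h, ← hlβ]; linarith only [hpα]
    rw [hlq]
    linarith only [hlog2, h1, h2]
  set Λ : ℝ := 1 + |Real.log α| + |Real.log β| with hΛ
  have hΛ1 : 1 ≤ Λ := by linarith only [hpα, hpβ]
  have e1 := hl α q β hq0 (hqm.trans hmα) hα' hβ hβ'
  have e2 := hr q β q hq0 hq1 hq0 (hqm.trans hmβ) hβ'
  have e3 := hLD (n + 1)
  rw [← hq] at e3
  have hsα : α ≤ Real.sqrt α := by
    apply Real.le_sqrt_of_sq_le
    nlinarith only [hα, hα']
  have hsβ : β ≤ Real.sqrt β := by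
    apply Real.le_sqrt_of_sq_le
    nlinarith only [hβ, hβ']
  have hsq : Real.sqrt q ≤ Real.sqrt α := Real.sqrt_le_sqrt (hqm.trans hmα)
  have hsβ0 : 0 ≤ Real.sqrt β := Real.sqrt_nonneg _
  have hsα0 : 0 ≤ Real.sqrt α := Real.sqrt_nonneg _
  have f1 : 1 + |Real.log q| + |Real.log β| ≤ 3 * Λ := by linarith only [hpα, hpβ, hlm]
  have f2 : 1 + |Real.log q| + |Real.log q| ≤ 3 * Λ := by linarith only [hpα, hpβ, hlm]
  have g1 : C * α * (1 + |Real.log q| + |Real.log β|) ^ K ≤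
      C * Real.sqrt α * (3 * Λ) ^ K := by (clear * - hsα hC f1 hα; gcongr)
  have g2 : C * β * (1 + |Real.log q| + |Real.log q|) ^ K ≤
      C * Real.sqrt β * (3 * Λ) ^ K := by (clear * - hsβ hC f2 hβ; gcongr)
  have g3 : D * Real.sqrt q ≤ D * (Real.sqrt α + Real.sqrt β) * Λ ^ K := by
    have h1 : (1 : ℝ) ≤ Λ ^ K := one_le_pow₀ hΛ1
    calc D * Real.sqrt q ≤ D * (Real.sqrt α + Real.sqrt β) := by gcongr; linarith only [hβ, hsβ, hsq]
      _ = D * (Real.sqrt α + Real.sqrt β) * 1 := (mul_one _).symm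
      _ ≤ D * (Real.sqrt α + Real.sqrt β) * Λ ^ K := by (clear * - h1 hD hα hβ; gcongr)
  calc ‖F α β - L‖ = ‖(F α β - F q β) + (F q β - F q q) + (F q q - L)‖ := by
        congr 1; abel
    _ ≤ ‖F α β - F q β‖ + ‖F q β - F q q‖ + ‖F q q - L‖ := norm_add₃_le
    _ ≤ C * Real.sqrt α * (3 * Λ) ^ K + C * Real.sqrt β * (3 * Λ) ^ K +
        D * (Real.sqrt α + Real.sqrt β) * Λ ^ K := by linarith only [e1, e2, e3, g1, g2, g3]
    _ = (C * 3 ^ K + D) * (Real.sqrt α + Real.sqrt β) * Λ ^ K := by rw [mul_pow]; ring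

/-- The regularised transports satisfy the hypotheses of `exists_lim`. -/
theorem phiLim_exists {B : Type*} [NormedRing B] [NormedAlgebra ℂ B] [CompleteSpace B]
    {a b : B} {N : ℕ} (h : NilS {a, b} N) : ∃ (L : B) (C : ℝ) (K : ℕ), 0 ≤ C ∧
    ∀ α β : ℝ, 0 < α → α ≤ 1 / 2 → 0 < β → β ≤ 1 / 2 →
      ‖Phi N α β a b - L‖
        ≤ C * (Real.sqrt α + Real.sqrt β) * (1 + |Real.log α| + |Real.log β|) ^ K := by
  obtain ⟨C₁, K₁, hC₁, h₁⟩ := Phi_left h
  obtain ⟨C₂, K₂, hC₂, h₂⟩ := Phi_right h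
  refine exists_lim (F := fun α β => Phi N α β a b) (C := C₁ + C₂) (K := K₁ + K₂)
    (by positivity) ?_ ?_
  · intro α α' β h1 h2 h3 h4 h5
    refine (h₁ α α' β h1 h2 h3 h4 h5).trans ?_
    have hα : 0 < α := h1.trans_le h2
    have e : (1 + |Real.log α'| + |Real.log β|) ^ K₁ ≤
        (1 + |Real.log α'| + |Real.log β|) ^ (K₁ + K₂) :=
      pow_le_pow_right₀ (by
        have := abs_nonneg (Real.log α')
        have := abs_nonneg (Real.log β)
        (clear a b N h C₁ K₁ hC₁ h₁ C₂ K₂ hC₂ h₂ α h1 h2 h3 h4 h5 hα; linarith)) (by omega)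
    gcongr
    linarith only [hC₂]
  · intro α β β' h1 h2 h3 h4 h5
    refine (h₂ α β β' h1 h2 h3 h4 h5).trans ?_
    have hβ : 0 < β := h3.trans_le h4
    have e : (1 + |Real.log α| + |Real.log β'|) ^ K₂ ≤
        (1 + |Real.log α| + |Real.log β'|) ^ (K₁ + K₂) :=
      pow_le_pow_right₀ (by
        have := abs_nonneg (Real.log α)
        have := abs_nonneg (Real.log β')
        (clear a b N h C₁ K₁ hC₁ h₁ C₂ K₂ hC₂ h₂ β h1 h2 h3 h4 h5 hβ; linarith)) (by omega)
    gcongr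
    linarith only [hC₁]

/-- A rate gives the limit along the diagonal. -/
theorem phiLim_tendsto {V : Type*} [NormedAddCommGroup V] {F : ℝ → ℝ → V} {L : V} {C : ℝ}
    {K : ℕ} (h : ∀ α β : ℝ, 0 < α → α ≤ 1 / 2 → 0 < β → β ≤ 1 / 2 →
      ‖F α β - L‖ ≤ C * (Real.sqrt α + Real.sqrt β) * (1 + |Real.log α| + |Real.log β|) ^ K) :
    Tendsto (fun ε => F ε ε) (𝓝[>] (0 : ℝ)) (𝓝 L) := by
  rw [tendsto_iff_norm_sub_tendsto_zero]
  have h1 := (phiLim_small K).const_mul (2 * C)
  rw [mul_zero] at h1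
  refine squeeze_zero' (Eventually.of_forall fun ε => norm_nonneg _) ?_ h1
  filter_upwards [Ioc_mem_nhdsGT (show (0 : ℝ) < 1 / 2 by norm_num)] with ε hε
  refine (h ε ε hε.1 hε.2 hε.1 hε.2).trans (le_of_eq ?_)
  ring

/-- convergence of the coefficients (apply the previous theorem in the universal algebra). -/
theorem tendsto_pc (w : List Bool) :
    Tendsto (fun ε => pc ε ε w) (𝓝[>] (0 : ℝ)) (𝓝 (kzφ w)) := by
  obtain ⟨B, _, _, _, a, b, cf, hnil, hcf⟩ := exists_univ w.length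
  obtain ⟨L, C, K, hC, hL⟩ := phiLim_exists hnil
  have h1 : Tendsto (fun ε => Phi w.length ε ε a b) (𝓝[>] (0 : ℝ)) (𝓝 L) :=
    phiLim_tendsto (F := fun α β => Phi w.length α β a b) hL
  have h2 : Tendsto (fun ε => (cf w (Phi w.length ε ε a b)).re) (𝓝[>] (0 : ℝ))
      (𝓝 (cf w L).re) :=
    (Complex.continuous_re.tendsto _).comp (((cf w).continuous.tendsto _).comp h1)
  have h3 : Tendsto (fun ε => pc ε ε w) (𝓝[>] (0 : ℝ)) (𝓝 (cf w L).re) := by
    refine h2.congr' ?_
    filter_upwards [Ioc_mem_nhdsGT (show (0 : ℝ) < 1 / 2 by norm_num)] with ε hε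
    rw [Phi_eq hnil hε.1 hε.2 hε.1 hε.2, hcf _ w le_rfl, Complex.ofReal_re]
  exact tendsto_nhds_limUnder ⟨_, h3⟩

variable {B : Type*} [NormedRing B] [NormedAlgebra ℂ B] [CompleteSpace B]

theorem tendsto_Phi {a b : B} {N : ℕ} (h : NilS {a, b} N) :
    Tendsto (fun ε => Phi N ε ε a b) (𝓝[>] (0 : ℝ)) (𝓝 (ev N a b)) := by
  have h1 : Tendsto (fun ε => evS (fun w => (pc ε ε w : ℂ)) N a b) (𝓝[>] (0 : ℝ))
      (𝓝 (ev N a b)) := by
    unfold ev evS
    refine tendsto_finsetSum _ fun w _ => ?_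
    exact ((Complex.continuous_ofReal.tendsto _).comp (tendsto_pc w)).smul_const _
  refine h1.congr' ?_
  filter_upwards [Ioc_mem_nhdsGT (show (0 : ℝ) < 1 / 2 by norm_num)] with ε hε
  rw [Phi_eq h hε.1 hε.2 hε.1 hε.2]

theorem Phi_rate {a b : B} {N : ℕ} (h : NilS {a, b} N) : ∃ (C : ℝ) (K : ℕ), 0 ≤ C ∧
    ∀ α β : ℝ, 0 < α → α ≤ 1 / 2 → 0 < β → β ≤ 1 / 2 →
      ‖Phi N α β a b - ev N a b‖
        ≤ C * (Real.sqrt α + Real.sqrt β) * (1 + |Real.log α| + |Real.log β|) ^ K := by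
  obtain ⟨L, C, K, hC, hL⟩ := phiLim_exists h
  have h1 : Tendsto (fun ε => Phi N ε ε a b) (𝓝[>] (0 : ℝ)) (𝓝 L) :=
    phiLim_tendsto (F := fun α β => Phi N α β a b) hL
  have h2 : L = ev N a b := tendsto_nhds_unique h1 (tendsto_Phi h)
  subst h2
  exact ⟨C, K, hC, hL⟩

end Vale.Agent.P029.KZ
end
end
end

section

section

/-!
P029-D, task KZ18: algebra of the main terms of the pentagon.
-/

open MeasureTheory Set Filter Topology

noncomputable section

namespace Vale.Agent.P029.KZ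

variable {B : Type*} [NormedRing B] [NormedAlgebra ℂ B]

omit [NormedAlgebra ℂ B] in
theorem PentMain_mon {a F1 p q F2 r s F3 u Z1 P Z2 S : B} (h1 : p * q = Z1 * P)
    (h2 : r * s = Z2 * S) (c1 : Commute Z1 F1) (c2 : Commute P F2) (c3 : Commute P Z2)
    (hPS : P * S = 1) (c4 : Commute Z2 F3) :
    (a * F1 * p) * (q * F2 * r) * (s * F3 * u) = a * Z1 * (F1 * F2 * F3) * (Z2 * u) := by
  calc (a * F1 * p) * (q * F2 * r) * (s * F3 * u)
      = a * F1 * (p * q) * F2 * (r * s) * F3 * u := by simp only [mul_assoc]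
    _ = a * (F1 * Z1) * (P * F2) * (Z2 * S) * F3 * u := by rw [h1, h2]; simp only [mul_assoc]
    _ = a * (Z1 * F1) * (F2 * P) * (Z2 * S) * F3 * u := by rw [c1.eq, c2.eq]
    _ = a * Z1 * F1 * F2 * (P * Z2) * S * F3 * u := by simp only [mul_assoc]
    _ = a * Z1 * F1 * F2 * (Z2 * P) * S * F3 * u := by rw [c3.eq]
    _ = a * Z1 * F1 * F2 * Z2 * (P * S) * F3 * u := by simp only [mul_assoc]
    _ = a * Z1 * F1 * F2 * (Z2 * F3) * u := by rw [hPS, mul_one]; simp only [mul_assoc]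
    _ = a * Z1 * F1 * F2 * (F3 * Z2) * u := by rw [c4.eq]
    _ = a * Z1 * (F1 * F2 * F3) * (Z2 * u) := by simp only [mul_assoc]

omit [NormedAlgebra ℂ B] in
theorem PentMain_mon2 {a Z1 Z2 u A F4 P2 Q2 F5 R : B} (h1 : A * Q2 = a * Z1)
    (h2 : P2 * R = Z2 * u) (c1 : Commute P2 Q2) (c2 : Commute P2 F5) (c3 : Commute Q2 F4) :
    (A * F4 * P2) * (Q2 * F5 * R) = a * Z1 * (F4 * F5) * (Z2 * u) := by
  calc (A * F4 * P2) * (Q2 * F5 * R) = A * F4 * (P2 * Q2) * F5 * R := by simp only [mul_assoc]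
    _ = A * F4 * (Q2 * P2) * F5 * R := by rw [c1.eq]
    _ = A * (F4 * Q2) * (P2 * F5) * R := by simp only [mul_assoc]
    _ = A * (Q2 * F4) * (F5 * P2) * R := by rw [c3.eq, c2.eq]
    _ = (A * Q2) * (F4 * F5) * (P2 * R) := by simp only [mul_assoc]
    _ = a * Z1 * (F4 * F5) * (Z2 * u) := by rw [h1, h2]

theorem PentMain_comm {m m' : B} (hc : Commute m m') (N : ℕ) (c d : ℂ) :
    Commute (expT N c m) (expT N d m') :=
  expT_commute (expT_commute hc.symm N c).symm N d

theorem PentMain_split {N : ℕ} {m m' : B} (h : NilS {m, m'} N) (hc : Commute m m') (c d : ℂ) :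
    expT N d m * expT N c m' = expT N c (m + m') * expT N (d - c) m := by
  have hm : m ^ (N + 1) = 0 := nil_pow h (by simp)
  rw [expT_add_right h hc, mul_assoc, (PentMain_comm hc.symm N c (d - c)).eq, ← mul_assoc,
    ← expT_add hm, add_sub_cancel]

theorem PentMain_aux {N : ℕ} {t12 t13 t14 t23 t24 t34 : B}
    (hN : NilS {t12, t13, t14, t23, t24, t34} N) (h : T4 t12 t13 t14 t23 t24 t34) (x : ℂ)
    (φ : List Bool → ℂ) :
    (expT N x t34 * evS φ N t23 t34 * expT N (-x) t23)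
      * (expT N x (t24 + t34) * evS φ N (t12 + t13) (t24 + t34) * expT N (-x) (t12 + t13))
      * (expT N x t23 * evS φ N t12 t23 * expT N (-x) t12)
    = expT N x t34 * expT N x (t23 + t24 + t34)
        * (evS φ N t23 t34 * evS φ N (t12 + t13) (t24 + t34) * evS φ N t12 t23)
        * (expT N (-x) (t12 + t13 + t23) * expT N (-x) t12)
    ∧ (expT N x (t23 + t24) * evS φ N t12 (t23 + t24) * expT N (-(2 * x)) t12)
      * (expT N (2 * x) t34 * evS φ N (t13 + t23) t34 * expT N (-x) (t13 + t23))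
    = expT N x t34 * expT N x (t23 + t24 + t34)
        * (evS φ N t12 (t23 + t24) * evS φ N (t13 + t23) t34)
        * (expT N (-x) (t12 + t13 + t23) * expT N (-x) t12) := by
  have hs := nil_span hN
  have m12 : t12 ∈ Submodule.span ℂ ({t12, t13, t14, t23, t24, t34} : Set B) :=
    Submodule.subset_span (by simp only [mem_insert_iff, mem_singleton_iff, true_or])
  have m13 : t13 ∈ Submodule.span ℂ ({t12, t13, t14, t23, t24, t34} : Set B) :=
    Submodule.subset_span (by simp)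
  have m23 : t23 ∈ Submodule.span ℂ ({t12, t13, t14, t23, t24, t34} : Set B) :=
    Submodule.subset_span (by simp)
  have m24 : t24 ∈ Submodule.span ℂ ({t12, t13, t14, t23, t24, t34} : Set B) :=
    Submodule.subset_span (by simp)
  have m34 : t34 ∈ Submodule.span ℂ ({t12, t13, t14, t23, t24, t34} : Set B) :=
    Submodule.subset_span (by simp)
  have pair : ∀ {m m' : B}, m ∈ Submodule.span ℂ ({t12, t13, t14, t23, t24, t34} : Set B) →
      m' ∈ Submodule.span ℂ ({t12, t13, t14, t23, t24, t34} : Set B) → NilS {m, m'} N := by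
    intro m m' h1 h2
    refine hs.mono fun y hy => ?_
    rcases hy with rfl | hy
    · exact h1
    · rw [Set.mem_singleton_iff.1 hy]
      exact h2
  have k1 : Commute t23 (t24 + t34) := h.e1
  have k2 : Commute t23 (t12 + t13) := h.a3
  have k3 : Commute t12 (t13 + t23) := h.a1
  have k4 : Commute t34 (t23 + t24) := h.e3
  have k5 : Commute t12 t34 := h.c1
  have z1 : t23 + t24 + t34 = t23 + (t24 + t34) := add_assoc _ _ _
  have z1' : t23 + t24 + t34 = t34 + (t23 + t24) := add_comm _ _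
  have z2 : t12 + t13 + t23 = t23 + (t12 + t13) := add_comm _ _
  have z2' : t12 + t13 + t23 = t12 + (t13 + t23) := add_assoc _ _ _
  have kz1a : Commute (t23 + t24 + t34) t23 := by
    rw [z1]; exact (Commute.refl t23).add_left k1.symm
  have kz1b : Commute (t23 + t24 + t34) t34 := by
    rw [z1']; exact (Commute.refl t34).add_left k4.symm
  have kz2a : Commute (t12 + t13 + t23) t23 := by
    rw [z2]; exact (Commute.refl t23).add_left k2.symm
  have kz2b : Commute (t12 + t13 + t23) t12 := by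
    rw [z2']; exact (Commute.refl t12).add_left k3.symm
  have n23 : t23 ^ (N + 1) = 0 := nil_pow hs m23
  refine ⟨PentMain_mon (P := expT N (-x - x) t23) (S := expT N (x - -x) t23) ?_ ?_ ?_ ?_ ?_ ?_ ?_,
    PentMain_mon2 ?_ ?_ ?_ ?_ ?_⟩
  · rw [z1]
    exact PentMain_split (pair m23 (add_mem m24 m34)) k1 x (-x)
  · rw [z2, (PentMain_comm k2.symm N (-x) x).eq]
    exact PentMain_split (pair m23 (add_mem m12 m13)) k2 (-x) x
  · exact evS_commute (expT_commute kz1a.symm N x).symm (expT_commute kz1b.symm N x).symm φ N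
  · exact evS_commute (expT_commute k2.symm N _).symm (expT_commute k1.symm N _).symm φ N
  · exact PentMain_comm kz2a.symm N _ _
  · rw [← expT_add n23]
    have : -x - x + (x - -x) = 0 := by ring
    rw [this, expT_zero]
  · exact evS_commute (expT_commute kz2b.symm N _).symm (expT_commute kz2a.symm N _).symm φ N
  · have h1 := PentMain_split (pair m34 (add_mem m23 m24)) k4 x (2 * x)
    rw [← z1', show 2 * x - x = x by ring] at h1
    rw [(PentMain_comm k4.symm N x (2 * x)).eq, h1, (PentMain_comm kz1b N x x).eq]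
  · have h1 := PentMain_split (pair m12 (add_mem m13 m23)) k3 (-x) (-(2 * x))
    rw [← z2', show -(2 * x) - -x = -x by ring] at h1
    exact h1
  · exact PentMain_comm k5 N _ _
  · exact evS_commute (expT_commute k3.symm N _).symm (expT_commute k5.symm N _).symm φ N
  · exact evS_commute (expT_commute k5 N _).symm (expT_commute k4.symm N _).symm φ N

/-- The main terms (`x = log ε`): with `X = e^{x t34} e^{x (t23+t24+t34)}` and
`Y = e^{-x (t12+t13+t23)} e^{-x t12}` both sides are `X * [...] * Y`. -/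
theorem pent_main {N : ℕ} {t12 t13 t14 t23 t24 t34 : B}
    (hN : NilS {t12, t13, t14, t23, t24, t34} N) (h : T4 t12 t13 t14 t23 t24 t34) (x : ℝ)
    (φ : List Bool → ℂ) :
    (expT N (((1 : ℕ) * x : ℝ) : ℂ) t34 * evS φ N t23 t34 * expT N ((-((1 : ℕ) * x) : ℝ) : ℂ) t23)
      * (expT N (((1 : ℕ) * x : ℝ) : ℂ) (t24 + t34) * evS φ N (t12 + t13) (t24 + t34)
          * expT N ((-((1 : ℕ) * x) : ℝ) : ℂ) (t12 + t13))
      * (expT N (((1 : ℕ) * x : ℝ) : ℂ) t23 * evS φ N t12 t23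
          * expT N ((-((1 : ℕ) * x) : ℝ) : ℂ) t12)
    = expT N (x : ℂ) t34 * expT N (x : ℂ) (t23 + t24 + t34)
        * (evS φ N t23 t34 * evS φ N (t12 + t13) (t24 + t34) * evS φ N t12 t23)
        * (expT N (-(x : ℂ)) (t12 + t13 + t23) * expT N (-(x : ℂ)) t12)
    ∧ (expT N (((1 : ℕ) * x : ℝ) : ℂ) (t23 + t24) * evS φ N t12 (t23 + t24)
          * expT N ((-((2 : ℕ) * x) : ℝ) : ℂ) t12)
      * (expT N (((2 : ℕ) * x : ℝ) : ℂ) t34 * evS φ N (t13 + t23) t34
          * expT N ((-((1 : ℕ) * x) : ℝ) : ℂ) (t13 + t23))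
    = expT N (x : ℂ) t34 * expT N (x : ℂ) (t23 + t24 + t34)
        * (evS φ N t12 (t23 + t24) * evS φ N (t13 + t23) t34)
        * (expT N (-(x : ℂ)) (t12 + t13 + t23) * expT N (-(x : ℂ)) t12) := by
  have e1 : ((((1 : ℕ) * x : ℝ)) : ℂ) = (x : ℂ) := by push_cast; ring
  have e2 : (((-((1 : ℕ) * x) : ℝ)) : ℂ) = -(x : ℂ) := by push_cast; ring
  have e3 : ((((2 : ℕ) * x : ℝ)) : ℂ) = 2 * (x : ℂ) := by push_cast; ring
  have e4 : (((-((2 : ℕ) * x) : ℝ)) : ℂ) = -(2 * (x : ℂ)) := by push_cast; ring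
  rw [e1, e2, e3, e4]
  exact PentMain_aux hN h (x : ℂ) φ

end Vale.Agent.P029.KZ
end
end
end

section

section

/-!
P029-D, task KZ21: the error forms on the three half circles of the hexagon.
-/

open MeasureTheory Set Filter Topology

noncomputable section

namespace Vale.Agent.P029.KZ

variable {B : Type*} [NormedRing B] [NormedAlgebra ℂ B]

/-- error form on the arcs around `1` and `∞`. -/
def he2 (x : B) (s ε θ : ℝ) : B :=
  ((s * Complex.I * ε * Complex.exp (-(s * Complex.I * θ)))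
    / (1 - ε * Complex.exp (-(s * Complex.I * θ)))) • x

/-- error form on the arc around `0`. -/
def he6 (x : B) (s ε θ : ℝ) : B :=
  (-(s * Complex.I * ε * Complex.exp (-(s * Complex.I * θ)))
    / (1 + ε * Complex.exp (-(s * Complex.I * θ)))) • x

lemma hexErr_norm_exp (s θ : ℝ) : ‖Complex.exp (-(s * Complex.I * θ))‖ = 1 := by
  have : (-(s * Complex.I * θ) : ℂ) = ((-(s * θ) : ℝ) : ℂ) * Complex.I := by
    push_cast; ring
  rw [this, Complex.norm_exp_ofReal_mul_I]

lemma hexErr_norm (s ε θ : ℝ) (h0 : 0 < ε) :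
    ‖(ε : ℂ) * Complex.exp (-(s * Complex.I * θ))‖ = ε := by
  rw [norm_mul, hexErr_norm_exp, mul_one, Complex.norm_real, Real.norm_of_nonneg h0.le]

lemma hexErr_sub (s ε θ : ℝ) (h0 : 0 < ε) (h1 : ε ≤ 1 / 4) :
    3 / 4 ≤ ‖(1 : ℂ) - ε * Complex.exp (-(s * Complex.I * θ))‖ := by
  have h := norm_sub_norm_le (1 : ℂ) (ε * Complex.exp (-(s * Complex.I * θ)))
  rw [hexErr_norm s ε θ h0, norm_one] at h
  linarith

lemma hexErr_add (s ε θ : ℝ) (h0 : 0 < ε) (h1 : ε ≤ 1 / 4) :
    3 / 4 ≤ ‖(1 : ℂ) + ε * Complex.exp (-(s * Complex.I * θ))‖ := by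
  have h := norm_sub_norm_le (1 : ℂ) (-(ε * Complex.exp (-(s * Complex.I * θ))))
  rw [norm_neg, hexErr_norm s ε θ h0, norm_one, sub_neg_eq_add] at h
  linarith

lemma hexErr_ne_sub (s ε θ : ℝ) (h0 : 0 < ε) (h1 : ε ≤ 1 / 4) :
    (1 : ℂ) - ε * Complex.exp (-(s * Complex.I * θ)) ≠ 0 := by
  intro h
  have := hexErr_sub s ε θ h0 h1
  rw [h, norm_zero] at this
  linarith only [this]

lemma hexErr_ne_add (s ε θ : ℝ) (h0 : 0 < ε) (h1 : ε ≤ 1 / 4) :
    (1 : ℂ) + ε * Complex.exp (-(s * Complex.I * θ)) ≠ 0 := by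
  intro h
  have := hexErr_add s ε θ h0 h1
  rw [h, norm_zero] at this
  linarith only [this]

lemma hexErr_num {s ε : ℝ} (θ : ℝ) (hs : s = 1 ∨ s = -1) (h0 : 0 < ε) :
    ‖(s * Complex.I * ε * Complex.exp (-(s * Complex.I * θ)) : ℂ)‖ = ε := by
  have e : (s * Complex.I * ε * Complex.exp (-(s * Complex.I * θ)) : ℂ) =
      (s * Complex.I) * (ε * Complex.exp (-(s * Complex.I * θ))) := by ring
  rw [e, norm_mul, hexErr_norm s ε θ h0, norm_mul, Complex.norm_I, mul_one, Complex.norm_real]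
  rcases hs with rfl | rfl <;> simp

theorem he2_fm {M : Submodule ℂ B} {x : B} (hx : x ∈ M) {s ε : ℝ} (hs : s = 1 ∨ s = -1)
    (h0 : 0 < ε) (h1 : ε ≤ 1 / 4) : Fm M (he2 x s ε) 0 Real.pi := by
  refine ⟨Real.pi_pos.le, ?_, fun u _ => M.smul_mem _ hx⟩
  apply Continuous.continuousOn
  unfold he2
  refine Continuous.smul ?_ continuous_const
  refine Continuous.div (by fun_prop) (by fun_prop) fun θ => hexErr_ne_sub s ε θ h0 h1

theorem he6_fm {M : Submodule ℂ B} {x : B} (hx : x ∈ M) {s ε : ℝ} (hs : s = 1 ∨ s = -1)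
    (h0 : 0 < ε) (h1 : ε ≤ 1 / 4) : Fm M (he6 x s ε) 0 Real.pi := by
  refine ⟨Real.pi_pos.le, ?_, fun u _ => M.smul_mem _ hx⟩
  apply Continuous.continuousOn
  unfold he6
  refine Continuous.smul ?_ continuous_const
  refine Continuous.div (by fun_prop) (by fun_prop) fun θ => hexErr_ne_add s ε θ h0 h1

theorem he2_le (x : B) {s ε : ℝ} (hs : s = 1 ∨ s = -1) (h0 : 0 < ε) (h1 : ε ≤ 1 / 4) (u : ℝ) :
    ‖he2 x s ε u‖ ≤ 2 * ‖x‖ * ε := by
  unfold he2
  rw [norm_smul, norm_div, hexErr_num u hs h0]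
  have h := hexErr_sub s ε u h0 h1
  have h2 : ε / ‖(1 : ℂ) - ε * Complex.exp (-(s * Complex.I * u))‖ ≤ 2 * ε := by
    rw [div_le_iff₀ (by linarith only [h])]
    nlinarith only [h0, h]
  calc _ ≤ (2 * ε) * ‖x‖ := mul_le_mul_of_nonneg_right h2 (norm_nonneg _)
    _ = 2 * ‖x‖ * ε := by ring

theorem he6_le (x : B) {s ε : ℝ} (hs : s = 1 ∨ s = -1) (h0 : 0 < ε) (h1 : ε ≤ 1 / 4) (u : ℝ) :
    ‖he6 x s ε u‖ ≤ 2 * ‖x‖ * ε := by
  unfold he6
  rw [norm_smul, norm_div, norm_neg, hexErr_num u hs h0]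
  have h := hexErr_add s ε u h0 h1
  have h2 : ε / ‖(1 : ℂ) + ε * Complex.exp (-(s * Complex.I * u))‖ ≤ 2 * ε := by
    rw [div_le_iff₀ (by linarith only [h])]
    nlinarith only [h0, h]
  calc _ ≤ (2 * ε) * ‖x‖ := mul_le_mul_of_nonneg_right h2 (norm_nonneg _)
    _ = 2 * ‖x‖ * ε := by ring

end Vale.Agent.P029.KZ
end
end
end

section

section

/-!
P029-D, task KZ10: simple coefficients of the associator.
-/

open MeasureTheory Set Filter Topology

noncomputable section

namespace Vale.Agent.P029.KZ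

/-! ### words -/

theorem phiCoef_exS_nil (c : Bool) (x : ℝ) : exS c x [] = 1 := by
  simp only [exS, List.length_nil, List.replicate_zero, ↓reduceIte, pow_zero, Nat.factorial_zero, Nat.cast_one, ne_eq, one_ne_zero, not_false_eq_true, div_self]

theorem phiCoef_exS_replicate (c : Bool) (x : ℝ) (n : ℕ) :
    exS c x (List.replicate n c) = x ^ n / (n.factorial : ℝ) := by
  simp [exS]

theorem phiCoef_exS_zero {c d : Bool} (hcd : d ≠ c) (x : ℝ) {w : List Bool} (hd : d ∈ w) :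
    exS c x w = 0 := by
  unfold exS
  rw [if_neg]
  intro h
  rw [h] at hd
  exact hcd (List.eq_of_mem_replicate hd)

theorem phiCoef_conv_replicate (φ ψ : List Bool → ℝ) (n : ℕ) (c : Bool) :
    conv φ ψ (List.replicate n c) = ∑ k ∈ Finset.range (n + 1),
      φ (List.replicate k c) * ψ (List.replicate (n - k) c) := by
  unfold conv
  rw [List.length_replicate]
  refine Finset.sum_congr rfl fun k hk => ?_
  have hk' : k ≤ n := by simpa [Nat.lt_succ_iff] using hk
  rw [List.take_replicate, List.drop_replicate, min_eq_left hk']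

theorem phiCoef_conv_nil (φ ψ : List Bool → ℝ) : conv φ ψ [] = φ [] * ψ [] := by
  simp [conv]

/-- the left factor is trivial on all nonempty prefixes -/
theorem phiCoef_conv_left {φ ψ : List Bool → ℝ} {w : List Bool} (h0 : φ [] = 1)
    (h : ∀ k, 1 ≤ k → k ≤ w.length → φ (w.take k) = 0) : conv φ ψ w = ψ w := by
  unfold conv
  rw [Finset.sum_eq_single 0]
  · simp [h0]
  · intro k hk hk0
    have hk' : k ≤ w.length := by simpa [Nat.lt_succ_iff] using hk
    rw [h k (by omega) hk', zero_mul]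
  · intro h1
    simp only [Finset.mem_range, lt_add_iff_pos_left, Order.lt_add_one_iff, zero_le, not_true_eq_false] at h1

/-- the right factor is trivial on all nonempty suffixes -/
theorem phiCoef_conv_right {φ ψ : List Bool → ℝ} {w : List Bool} (h0 : ψ [] = 1)
    (h : ∀ k, k < w.length → ψ (w.drop k) = 0) : conv φ ψ w = φ w := by
  unfold conv
  rw [Finset.sum_eq_single w.length]
  · simp [h0]
  · intro k hk hk0
    have hk' : k ≤ w.length := by simpa [Nat.lt_succ_iff] using hk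
    rw [h k (by omega), mul_zero]
  · intro h1
    simp at h1

theorem phiCoef_binom (x y : ℝ) (n : ℕ) :
    ∑ k ∈ Finset.range (n + 1), x ^ k / (k.factorial : ℝ) * (y ^ (n - k) / ((n - k).factorial : ℝ))
      = (x + y) ^ n / (n.factorial : ℝ) := by
  rw [add_pow, Finset.sum_div]
  refine Finset.sum_congr rfl fun k hk => ?_
  have hk' : k ≤ n := by simpa [Nat.lt_succ_iff] using hk
  have h1 : (n.factorial : ℝ) = (n.choose k : ℝ) * (k.factorial : ℝ) * ((n - k).factorial : ℝ) := by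
    exact_mod_cast (Nat.choose_mul_factorial_mul_factorial hk').symm
  have h2 : (n.choose k : ℝ) ≠ 0 := by
    exact_mod_cast (Nat.choose_pos hk').ne'
  have h3 : (k.factorial : ℝ) ≠ 0 := by exact_mod_cast k.factorial_ne_zero
  have h4 : ((n - k).factorial : ℝ) ≠ 0 := by exact_mod_cast (n - k).factorial_ne_zero
  rw [h1]
  field_simp

/-! ### iterated integrals -/

theorem phiCoef_II_false {s : ℝ} (hs : 0 < s) (m : ℕ) : ∀ r, s ≤ r →
    II s (List.replicate m false) r = (Real.log r - Real.log s) ^ m / (m.factorial : ℝ) := by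
  induction m with
  | zero => intro r _; simp [II]
  | succ m ih =>
    intro r hr
    have h1 : II s (List.replicate (m + 1) false) r =
        ∫ u in s..r, (1 / u) * ((Real.log u - Real.log s) ^ m / (m.factorial : ℝ)) := by
      rw [List.replicate_succ, II]
      refine intervalIntegral.integral_congr fun u hu => ?_
      rw [uIcc_of_le hr] at hu
      simp only [Bool.false_eq_true, if_false]
      rw [ih u hu.1]
    have hd : ∀ u ∈ uIcc s r, HasDerivAt
        (fun u => (Real.log u - Real.log s) ^ (m + 1) / ((m + 1).factorial : ℝ))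
        ((1 / u) * ((Real.log u - Real.log s) ^ m / (m.factorial : ℝ))) u := by
      intro u hu
      rw [uIcc_of_le hr] at hu
      have hu0 : u ≠ 0 := (hs.trans_le hu.1).ne'
      have h2 := (((Real.hasDerivAt_log hu0).sub_const (Real.log s)).pow (m + 1)).div_const
        (((m + 1).factorial : ℕ) : ℝ)
      refine h2.congr_deriv ?_
      have h3 : (m.factorial : ℝ) ≠ 0 := by exact_mod_cast m.factorial_ne_zero
      rw [Nat.factorial_succ]
      push_cast
      have h4 : (m : ℝ) + 1 ≠ 0 := by (clear * -; positivity)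
      field_simp
      try ring
    rw [h1, intervalIntegral.integral_eq_sub_of_hasDerivAt hd]
    · simp only [sub_self, ne_eq, Nat.add_eq_zero_iff, one_ne_zero, and_false, not_false_eq_true, zero_pow, zero_div, sub_zero]
    · refine ContinuousOn.intervalIntegrable fun u hu => ?_
      rw [uIcc_of_le hr] at hu
      have hu0 : u ≠ 0 := (hs.trans_le hu.1).ne'
      exact ((continuousAt_const.div continuousAt_id hu0).mul
        ((((Real.continuousAt_log hu0).sub continuousAt_const).pow m).div_const _)).continuousWithinAt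

theorem phiCoef_II_true {s : ℝ} (m : ℕ) : ∀ r, s ≤ r → r < 1 →
    II s (List.replicate m true) r =
      (Real.log (1 - r) - Real.log (1 - s)) ^ m / (m.factorial : ℝ) := by
  induction m with
  | zero => intro r _ _; simp only [List.replicate_zero, II, pow_zero, Nat.factorial_zero, Nat.cast_one, ne_eq, one_ne_zero, not_false_eq_true, div_self]
  | succ m ih =>
    intro r hr hr1
    have h1 : II s (List.replicate (m + 1) true) r =
        ∫ u in s..r, (1 / (u - 1)) *
          ((Real.log (1 - u) - Real.log (1 - s)) ^ m / (m.factorial : ℝ)) := by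
      rw [List.replicate_succ, II]
      refine intervalIntegral.integral_congr fun u hu => ?_
      rw [uIcc_of_le hr] at hu
      simp only [if_true]
      rw [ih u hu.1 (hu.2.trans_lt hr1)]
    have hlog : ∀ u, u < 1 → HasDerivAt (fun u => Real.log (1 - u)) (1 / (u - 1)) u := by
      intro u hu
      have h2 : (1 : ℝ) - u ≠ 0 := (sub_pos.2 hu).ne'
      have h3 := ((hasDerivAt_id u).const_sub 1).log h2
      refine h3.congr_deriv ?_
      have h4 : u - 1 ≠ 0 := by
        intro h5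
        apply h2
        linarith only [h5]
      simp only [id]
      rw [div_eq_div_iff h2 h4]
      ring
    have hd : ∀ u ∈ uIcc s r, HasDerivAt
        (fun u => (Real.log (1 - u) - Real.log (1 - s)) ^ (m + 1) / ((m + 1).factorial : ℝ))
        ((1 / (u - 1)) * ((Real.log (1 - u) - Real.log (1 - s)) ^ m / (m.factorial : ℝ))) u := by
      intro u hu
      rw [uIcc_of_le hr] at hu
      have hu1 : u < 1 := hu.2.trans_lt hr1
      have h2 := (((hlog u hu1).sub_const (Real.log (1 - s))).pow (m + 1)).div_const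
        (((m + 1).factorial : ℕ) : ℝ)
      refine h2.congr_deriv ?_
      have h3 : (m.factorial : ℝ) ≠ 0 := by exact_mod_cast m.factorial_ne_zero
      rw [Nat.factorial_succ]
      push_cast
      have h4 : (m : ℝ) + 1 ≠ 0 := by (clear * -; positivity)
      have h5 : u - 1 ≠ 0 := by
        intro h5
        linarith only [hu1, h5]
      field_simp
      try ring
    rw [h1, intervalIntegral.integral_eq_sub_of_hasDerivAt hd]
    · simp only [sub_self, ne_eq, Nat.add_eq_zero_iff, one_ne_zero, and_false, not_false_eq_true, zero_pow, zero_div, sub_zero]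
    · refine ContinuousOn.intervalIntegrable fun u hu => ?_
      rw [uIcc_of_le hr] at hu
      have hu1 : u < 1 := hu.2.trans_lt hr1
      have h5 : u - 1 ≠ 0 := by
        intro h5
        linarith only [hu1, h5]
      exact ((continuousAt_const.div (continuousAt_id.sub continuousAt_const) h5).mul
        ((((hlog u hu1).continuousAt.sub continuousAt_const).pow m).div_const _)).continuousWithinAt

/-- negative integrands -/
theorem phiCoef_step {f : ℝ → ℝ → ℝ}
    (hc : ∀ s R, 0 < s → s ≤ R → R < 1 → ContinuousOn (f s) (Icc s R))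
    (hn : ∀ s u, 0 < s → s ≤ u → u < 1 → f s u ≤ 0)
    (hneg : ∀ s u, 0 < s → s < u → u < 1 → f s u < 0)
    (hm : ∀ s s' u, 0 < s → s ≤ s' → s' ≤ u → u < 1 → f s u ≤ f s' u) :
    (∀ s R, 0 < s → s ≤ R → R < 1 → ContinuousOn (fun r => ∫ u in s..r, f s u) (Icc s R)) ∧
    (∀ s r, 0 < s → s ≤ r → r < 1 → ∫ u in s..r, f s u ≤ 0) ∧
    (∀ s r, 0 < s → s < r → r < 1 → ∫ u in s..r, f s u < 0) ∧
    (∀ s s' r, 0 < s → s ≤ s' → s' ≤ r → r < 1 → ∫ u in s..r, f s u ≤ ∫ u in s'..r, f s' u) ∧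
    (∀ s r r', 0 < s → s ≤ r → r ≤ r' → r' < 1 → ∫ u in s..r', f s u ≤ ∫ u in s..r, f s u) := by
  have hi : ∀ s a b, 0 < s → s ≤ a → a ≤ b → b < 1 → IntervalIntegrable (f s) volume a b := by
    intro s a b h0 h1 h2 h3
    refine ContinuousOn.intervalIntegrable ?_
    rw [uIcc_of_le h2]
    exact (hc s b h0 (h1.trans h2) h3).mono (Icc_subset_Icc_left h1)
  have hle : ∀ s a b, 0 < s → s ≤ a → a ≤ b → b < 1 → ∫ u in a..b, f s u ≤ 0 := by
    intro s a b h0 h1 h2 h3
    have h4 := intervalIntegral.integral_mono_on (μ := volume) (f := f s) (g := fun _ => (0 : ℝ)) h2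
      (hi s a b h0 h1 h2 h3) (by simp) fun u hu => hn s u h0 (h1.trans hu.1) (hu.2.trans_lt h3)
    simpa only [ge_iff_le, intervalIntegral.integral_zero] using h4
  refine ⟨?_, fun s r h0 h1 h2 => hle s s r h0 le_rfl h1 h2, ?_, ?_, ?_⟩
  · intro s R h0 h1 h2
    have h3 : IntegrableOn (f s) (uIcc s R) := by
      rw [uIcc_of_le h1]
      exact (hc s R h0 h1 h2).integrableOn_Icc
    have h4 := intervalIntegral.continuousOn_primitive_interval h3
    rwa [uIcc_of_le h1] at h4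
  · intro s r h0 h1 h2
    have h3 := intervalIntegral.intervalIntegral_pos_of_pos_on (f := fun u => -f s u)
      (hi s s r h0 le_rfl h1.le h2).neg
      (fun u hu => neg_pos.2 (hneg s u h0 hu.1 (hu.2.trans h2))) h1
    rw [intervalIntegral.integral_neg] at h3
    linarith
  · intro s s' r h0 h1 h2 h3
    have h0' : 0 < s' := h0.trans_le h1
    rw [← intervalIntegral.integral_add_adjacent_intervals
      (hi s s s' h0 le_rfl h1 (h2.trans_lt h3)) (hi s s' r h0 h1 h2 h3)]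
    have h4 := hle s s s' h0 le_rfl h1 (h2.trans_lt h3)
    have h5 := intervalIntegral.integral_mono_on (μ := volume) (f := f s) (g := f s') h2
      (hi s s' r h0 h1 h2 h3) (hi s' s' r h0' le_rfl h2 h3)
      fun u hu => hm s s' u h0 h1 hu.1 (hu.2.trans_lt h3)
    linarith only [h4, h5]
  · intro s r r' h0 h1 h2 h3
    rw [← intervalIntegral.integral_add_adjacent_intervals
      (hi s s r h0 le_rfl h1 (h2.trans_lt h3)) (hi s r r' h0 h1 h2 h3)]
    have h4 := hle s r r' h0 h1 h2 h3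
    linarith

/-- positivity and monotonicity of the depth one integrals -/
theorem phiCoef_depth_aux (k : ℕ) :
    (∀ s R, 0 < s → s ≤ R → R < 1 →
      ContinuousOn (II s (List.replicate k false ++ [true])) (Icc s R)) ∧
    (∀ s r, 0 < s → s ≤ r → r < 1 → II s (List.replicate k false ++ [true]) r ≤ 0) ∧
    (∀ s r, 0 < s → s < r → r < 1 → II s (List.replicate k false ++ [true]) r < 0) ∧
    (∀ s s' r, 0 < s → s ≤ s' → s' ≤ r → r < 1 → II s (List.replicate k false ++ [true]) r ≤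
      II s' (List.replicate k false ++ [true]) r) ∧
    (∀ s r r', 0 < s → s ≤ r → r ≤ r' → r' < 1 → II s (List.replicate k false ++ [true]) r' ≤
      II s (List.replicate k false ++ [true]) r) := by
  induction k with
  | zero =>
    have hlt : ∀ u : ℝ, u < 1 → 1 / (u - 1) * 1 < 0 := by
      intro u hu
      rw [mul_one]
      exact one_div_neg.2 (by linarith)
    refine phiCoef_step (f := fun _ u => 1 / (u - 1) * 1) ?_
      (fun s u _ _ h => (hlt u h).le) (fun s u _ _ h => hlt u h) (fun _ _ _ _ _ _ _ => le_rfl)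
    intro s R _ _ h2 u hu
    have h5 : u - 1 ≠ 0 := by
      intro h5
      linarith [hu.2]
    exact ((continuousAt_const.div (continuousAt_id.sub continuousAt_const) h5).mul
      continuousAt_const).continuousWithinAt
  | succ k ih =>
    obtain ⟨i1, i2, i3, i4, -⟩ := ih
    have hpos : ∀ s u : ℝ, 0 < s → s ≤ u → 0 < 1 / u := fun s u h0 h1 =>
      one_div_pos.2 (h0.trans_le h1)
    refine phiCoef_step (f := fun s u => 1 / u * II s (List.replicate k false ++ [true]) u)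
      ?_ ?_ ?_ ?_
    · intro s R h0 h1 h2
      refine ContinuousOn.mul (fun u hu => ?_) (i1 s R h0 h1 h2)
      exact (continuousAt_const.div continuousAt_id (h0.trans_le hu.1).ne').continuousWithinAt
    · intro s u h0 h1 h2
      exact mul_nonpos_of_nonneg_of_nonpos (hpos s u h0 h1).le (i2 s u h0 h1 h2)
    · intro s u h0 h1 h2
      exact mul_neg_of_pos_of_neg (hpos s u h0 h1.le) (i3 s u h0 h1 h2)
    · intro s s' u h0 h1 h2 h3
      exact mul_le_mul_of_nonneg_left (i4 s s' u h0 h1 h2 h3) (hpos s u h0 (h1.trans h2)).le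

theorem kzφ_nil : kzφ [] = 1 := by
  have h : ∀ ε, pc ε ε [] = 1 := by
    intro ε
    unfold pc
    rw [phiCoef_conv_nil, phiCoef_conv_nil, phiCoef_exS_nil, phiCoef_exS_nil]
    simp [II]
  unfold kzφ
  simp only [h]
  exact tendsto_const_nhds.limUnder_eq

theorem phiCoef_log_tendsto :
    Tendsto (fun ε : ℝ => Real.log (1 - ε)) (𝓝[>] (0 : ℝ)) (𝓝 0) := by
  have h1 : ContinuousAt (fun ε : ℝ => Real.log (1 - ε)) 0 := by
    refine (continuousAt_const.sub continuousAt_id).log ?_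
    simp
  have h2 : Tendsto (fun ε : ℝ => Real.log (1 - ε)) (𝓝 0) (𝓝 (Real.log (1 - 0))) := h1
  rw [sub_zero, Real.log_one] at h2
  exact h2.mono_left nhdsWithin_le_nhds

theorem phiCoef_small : ∀ᶠ ε in 𝓝[>] (0 : ℝ), 0 < ε ∧ ε < 1 / 4 := by
  have : Ioo (0 : ℝ) (1 / 4) ∈ 𝓝[>] (0 : ℝ) := Ioo_mem_nhdsGT (by norm_num)
  exact this

/-- `pc ε ε (a^n) = (log (1-ε))^n / n!` (binomial theorem) -/
theorem kzφ_false (n : ℕ) (hn : 1 ≤ n) : kzφ (List.replicate n false) = 0 := by
  have h : ∀ ε : ℝ, 0 < ε → ε < 1 / 4 → pc ε ε (List.replicate n false) =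
      (Real.log (1 - ε)) ^ n / (n.factorial : ℝ) := by
    intro ε h0 h1
    unfold pc
    rw [phiCoef_conv_replicate]
    have e : ∀ k : ℕ, conv (exS true (-Real.log ε)) (fun w => II ε w (1 - ε))
        (List.replicate k false) = (Real.log (1 - ε) - Real.log ε) ^ k / (k.factorial : ℝ) := by
      intro k
      rw [phiCoef_conv_left (phiCoef_exS_nil _ _), phiCoef_II_false h0 k _ (by linarith only [h1])]
      intro j hj1 hj
      apply phiCoef_exS_zero (d := false) (by simp)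
      rw [List.length_replicate] at hj
      rw [List.take_replicate, min_eq_left hj]
      exact List.mem_replicate.2 ⟨by omega, rfl⟩
    simp only [e, phiCoef_exS_replicate]
    rw [phiCoef_binom]
    congr 2
    ring
  have h2 : Tendsto (fun ε => pc ε ε (List.replicate n false)) (𝓝[>] (0 : ℝ)) (𝓝 0) := by
    have h3 := (phiCoef_log_tendsto.pow n).div_const (n.factorial : ℝ)
    rw [zero_pow (by omega), zero_div] at h3
    refine h3.congr' ?_
    filter_upwards [phiCoef_small] with ε hε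
    exact (h ε hε.1 hε.2).symm
  exact h2.limUnder_eq

theorem kzφ_true (n : ℕ) (hn : 1 ≤ n) : kzφ (List.replicate n true) = 0 := by
  have h : ∀ ε : ℝ, 0 < ε → ε < 1 / 4 → pc ε ε (List.replicate n true) =
      (-Real.log (1 - ε)) ^ n / (n.factorial : ℝ) := by
    intro ε h0 h1
    unfold pc
    rw [phiCoef_conv_right (phiCoef_exS_nil _ _), phiCoef_conv_replicate]
    · have e : ∀ k : ℕ, II ε (List.replicate k true) (1 - ε) =
          (Real.log ε - Real.log (1 - ε)) ^ k / (k.factorial : ℝ) := by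
        intro k
        rw [phiCoef_II_true k _ (by linarith only [h1]) (by linarith only [h0]), sub_sub_cancel]
      simp only [e, phiCoef_exS_replicate]
      rw [phiCoef_binom]
      congr 2
      ring
    · intro j hj
      apply phiCoef_exS_zero (d := true) (by simp)
      rw [List.length_replicate] at hj
      rw [List.drop_replicate]
      exact List.mem_replicate.2 ⟨by omega, rfl⟩
  have h2 : Tendsto (fun ε => pc ε ε (List.replicate n true)) (𝓝[>] (0 : ℝ)) (𝓝 0) := by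
    have h3 := (phiCoef_log_tendsto.neg.pow n).div_const (n.factorial : ℝ)
    rw [neg_zero, zero_pow (by omega), zero_div] at h3
    refine h3.congr' ?_
    filter_upwards [phiCoef_small] with ε hε
    exact (h ε hε.1 hε.2).symm
  exact h2.limUnder_eq

/-- `pc ε ε (a^(n-1) b) = II ε (a^(n-1) b) (1-ε) ≤ II (1/4) (a^(n-1) b) (3/4) < 0` for
`ε < 1/4`. -/
theorem kzφ_depth (n : ℕ) (hn : 2 ≤ n) : kzφ (List.replicate (n - 1) false ++ [true]) ≠ 0 := by
  obtain ⟨-, -, hneg, hs, hr⟩ := phiCoef_depth_aux (n - 1)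
  have h : ∀ ε : ℝ, pc ε ε (List.replicate (n - 1) false ++ [true]) =
      II ε (List.replicate (n - 1) false ++ [true]) (1 - ε) := by
    intro ε
    unfold pc
    rw [phiCoef_conv_right (phiCoef_exS_nil _ _), phiCoef_conv_left (phiCoef_exS_nil _ _)]
    · intro k hk1 hk
      apply phiCoef_exS_zero (d := false) (by simp)
      rw [List.take_append]
      apply List.mem_append_left
      rw [List.take_replicate]
      exact List.mem_replicate.2 ⟨by
        have : 1 ≤ min k (n - 1) := le_min hk1 (by omega)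
        omega, rfl⟩
    · intro k hk
      apply phiCoef_exS_zero (d := true) (by simp)
      rw [List.length_append, List.length_replicate, List.length_singleton] at hk
      rw [List.drop_append]
      apply List.mem_append_right
      rw [List.length_replicate]
      have : k - (n - 1) = 0 := by omega
      rw [this]
      simp
  have h1 : II (1 / 4) (List.replicate (n - 1) false ++ [true]) (3 / 4) < 0 :=
    hneg _ _ (by norm_num) (by norm_num) (by norm_num)
  have h2 : kzφ (List.replicate (n - 1) false ++ [true]) ≤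
      II (1 / 4) (List.replicate (n - 1) false ++ [true]) (3 / 4) := by
    refine le_of_tendsto (tendsto_pc _) ?_
    filter_upwards [phiCoef_small] with ε hε
    rw [h]
    calc II ε (List.replicate (n - 1) false ++ [true]) (1 - ε)
        ≤ II (1 / 4) (List.replicate (n - 1) false ++ [true]) (1 - ε) :=
          hs _ _ _ hε.1 hε.2.le (by linarith only [hε]) (by linarith only [hε])
      _ ≤ II (1 / 4) (List.replicate (n - 1) false ++ [true]) (3 / 4) :=
          hr _ _ _ (by norm_num) (by norm_num) (by linarith only [hε]) (by linarith only [hε])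
  exact (h2.trans_lt h1).ne

end Vale.Agent.P029.KZ
end
end
end

section

section

/-!
# P029: the upper bound `dim W_n ≤ d_n`
-/

noncomputable section

attribute [local instance 100] LieRing.ofAssociativeRing

namespace Vale.Agent.P029


theorem finrank_W_le (n : ℕ) : Module.finrank ℚ (W n) ≤ Module.finrank ℚ (Fpart n) := by
  rcases Nat.lt_or_ge 2 n with hn | hn
  swap
  · rw [W_small hn]; simp only [finrank_bot, zero_le]
  obtain ⟨-, -, h⟩ := finrank_bar (n := n) (V := W n) (fun ψ hψ => hψ.1)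
  rw [← h]
  exact char2_bound' hn (bar n (W n)) (fun ψ hψ => bar_W (by omega) hψ)

end Vale.Agent.P029
end
end
end

section

section

/-!
# P029: the induction for the isomorphism theorem
-/

noncomputable section

attribute [local instance 100] LieRing.ofAssociativeRing

namespace Vale.Agent.P029

namespace IsoInd

/-- The weights of the letters of `F`. -/
abbrev w3 : ℕ → ℕ := fun k => 2 * k + 3

lemma wt_ge (t : Tr ℕ) : 3 ≤ t.wt w3 := by
  induction t with
  | leaf x => simp only [Tr.wt, w3, le_add_iff_nonneg_left, zero_le]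
  | node a b ha hb => simp only [Tr.wt]; omega

lemma f_tree (hcl : WClosed) (f : F →ₗ[ℚ] L)
    (h0 : ∀ k, f (FreeLieAlgebra.of ℚ k) ∈ W (2 * k + 3))
    (hbr : ∀ a b, IsIharaBracket (f a) (f b) (f ⁅a, b⁆)) (t : Tr ℕ) :
    f (t.eval (FreeLieAlgebra.of ℚ)) ∈ W (t.wt w3) := by
  induction t with
  | leaf x => exact h0 x
  | node a b ha hb => exact hcl _ _ _ _ _ ha hb (hbr _ _)

lemma f_wt (hcl : WClosed) (f : F →ₗ[ℚ] L)
    (h0 : ∀ k, f (FreeLieAlgebra.of ℚ k) ∈ W (2 * k + 3))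
    (hbr : ∀ a b, IsIharaBracket (f a) (f b) (f ⁅a, b⁆)) (n : ℕ) :
    (Fpart n).map f ≤ W n := by
  rw [Submodule.map_le_iff_le_comap]
  unfold Fpart wtPart
  rw [Submodule.span_le]
  rintro _ ⟨t, rfl, rfl⟩
  exact f_tree hcl f h0 hbr t

lemma eval_wt {R : Type} [CommRing R] {X : Type} (w : X → ℕ) (t : Tr X) :
    t.eval (FreeLieAlgebra.of R) ∈ wtPart R w (t.wt w) :=
  Submodule.subset_span ⟨t, rfl, rfl⟩

lemma Fnode_le (n : ℕ) : Fnode n ≤ Fpart n := by
  unfold Fnode
  rw [Submodule.span_le]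
  rintro _ ⟨u, v, h, rfl⟩
  exact Submodule.subset_span ⟨Tr.node u v, h, rfl⟩

/-- brackets of homogeneous elements -/
lemma bracket_Fnode {i j : ℕ} {a b : F} (ha : a ∈ Fpart i) (hb : b ∈ Fpart j) :
    ⁅a, b⁆ ∈ Fnode (i + j) := by
  unfold Fpart wtPart at ha hb
  induction ha using Submodule.span_induction with
  | mem x hx =>
    obtain ⟨u, hu, rfl⟩ := hx
    induction hb using Submodule.span_induction with
    | mem y hy =>
      obtain ⟨v, hv, rfl⟩ := hy
      exact Submodule.subset_span ⟨u, v, by rw [hu, hv], rfl⟩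
    | zero => rw [lie_zero]; exact zero_mem _
    | add x y _ _ hx hy => rw [lie_add]; exact add_mem hx hy
    | smul c x _ hx => rw [lie_smul]; exact Submodule.smul_mem _ _ hx
  | zero => rw [zero_lie]; exact zero_mem _
  | add x y _ _ hx hy => rw [add_lie]; exact add_mem hx hy
  | smul c x _ hx => rw [smul_lie]; exact Submodule.smul_mem _ _ hx

/-- The map `α ↦ ad (α(p₁, p₂, …))`. -/
def lam : FreeLieAlgebra K2 ℕ →ₗ[K2] Module.End K2 KK :=
  (LieAlgebra.ad K2 KK : KK →ₗ[K2] Module.End K2 KK).comp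
    (FreeLieAlgebra.lift K2 pk : FreeLieAlgebra K2 ℕ →ₗ[K2] KK)

/-- The map `ψ ↦ ψ(X₁, X₅)`. -/
def Th (Y : Fin 5 → Module.End K2 KK) : FreeLieAlgebra K2 (Fin 2) →ₗ[K2] Module.End K2 KK :=
  (FreeLieAlgebra.lift K2 ![Y 0, Y 4] : FreeLieAlgebra K2 (Fin 2) →ₗ[K2] Module.End K2 KK)

lemma rel_iff (Y : Fin 5 → Module.End K2 KK) (ψ : FreeLieAlgebra K2 (Fin 2))
    (α : FreeLieAlgebra K2 ℕ) : Rel Y ψ α ↔ Th Y ψ = lam α := by
  constructor
  · intro h
    apply LinearMap.ext
    intro z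
    exact h z
  · intro h z
    exact congrArg (fun T : Module.End K2 KK => T z) h

lemma lam_inj' {n : ℕ} {α : FreeLieAlgebra K2 ℕ} (hα : α ∈ wtPart K2 w3 n) (h : lam α = 0) :
    α = 0 := by
  apply lam_inj hα
  intro z
  exact congrArg (fun T : Module.End K2 KK => T z) h

/-- Step A. -/
lemma stepA {Y : Fin 5 → Module.End K2 KK} (hY : IsRep2 Y) (f : F →ₗ[ℚ] L) {j : ℕ} (hj : 3 ≤ j)
    (h1 : (Fpart j).map f = W j) (h2 : ∀ a ∈ Fpart j, f a = 0 → a = 0)
    {β : FreeLieAlgebra K2 ℕ} (hβ : β ∈ wtPart K2 w3 j) :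
    ∃ ψ ∈ bar j (W j), Rel Y ψ β := by
  obtain ⟨hF1, hF2, hF3⟩ := finrank_F j
  obtain ⟨hB1, hB2, hB3⟩ := finrank_bar (n := j) (V := W j) (fun ψ hψ => hψ.1)
  have hle : (bar j (W j)).map (Th Y) ≤ (wtPart K2 w3 j).map lam := by
    rintro _ ⟨ψ, hψ, rfl⟩
    obtain ⟨hw, ha, h5⟩ := bar_W (by omega) hψ
    obtain ⟨α, hα, hr, -⟩ := rel_exists hY hj hw ha h5
    exact ⟨α, hα, ((rel_iff Y ψ α).1 hr).symm⟩
  have hinj1 : ∀ ψ ∈ bar j (W j), Th Y ψ = 0 → ψ = 0 := by
    intro ψ hψ h0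
    obtain ⟨hw, ha, h5⟩ := bar_W (by omega) hψ
    obtain ⟨α, hα, hr, hz⟩ := rel_exists hY hj hw ha h5
    rw [rel_iff, h0] at hr
    exact hz (lam_inj' hα hr.symm)
  have e1 : Module.finrank K2 ((bar j (W j)).map (Th Y)) = Module.finrank K2 (bar j (W j)) := by
    rw [← LinearMap.range_domRestrict]
    apply LinearMap.finrank_range_of_inj
    rw [injective_iff_map_eq_zero]
    intro a ha
    exact Subtype.ext (hinj1 a a.2 ha)
  have e2 : Module.finrank K2 ((wtPart K2 w3 j).map lam) = Module.finrank K2 (wtPart K2 w3 j) := by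
    rw [← LinearMap.range_domRestrict]
    apply LinearMap.finrank_range_of_inj
    rw [injective_iff_map_eq_zero]
    intro a ha
    exact Subtype.ext (lam_inj' a.2 ha)
  have e3 : Module.finrank ℚ (W j) = Module.finrank ℚ (Fpart j) := by
    rw [← h1, ← LinearMap.range_domRestrict]
    apply LinearMap.finrank_range_of_inj
    rw [injective_iff_map_eq_zero]
    intro a ha
    exact Subtype.ext (h2 a a.2 ha)
  have : FiniteDimensional K2 ((wtPart K2 w3 j).map lam) := inferInstance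
  have heq : (bar j (W j)).map (Th Y) = (wtPart K2 w3 j).map lam := by
    apply Submodule.eq_of_le_of_finrank_eq hle
    rw [e1, e2, hB3, e3, hF3]
  have : lam β ∈ (bar j (W j)).map (Th Y) := by
    rw [heq]; exact ⟨β, hβ, rfl⟩
  obtain ⟨ψ, hψ, hh⟩ := this
  exact ⟨ψ, hψ, (rel_iff Y ψ β).2 hh⟩

/-- Step B. -/
lemma stepB {Y : Fin 5 → Module.End K2 KK} (hY : IsRep2 Y) (f : F →ₗ[ℚ] L)
    (hbr : ∀ a b, IsIharaBracket (f a) (f b) (f ⁅a, b⁆)) {i j : ℕ} (hi : 3 ≤ i) (hj : 3 ≤ j)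
    (h1 : (Fpart i).map f = W i) (h2 : ∀ a ∈ Fpart i, f a = 0 → a = 0)
    (h3 : (Fpart j).map f = W j) (h4 : ∀ a ∈ Fpart j, f a = 0 → a = 0)
    {α β : FreeLieAlgebra K2 ℕ} (hα : α ∈ wtPart K2 w3 i) (hβ : β ∈ wtPart K2 w3 j) :
    ∃ ψ ∈ bar (i + j) ((Fnode (i + j)).map f), Rel Y ψ ⁅α, β⁆ := by
  obtain ⟨_, ⟨z1, hz1, hz1W, rfl⟩, hr1⟩ := stepA hY f hi h1 h2 hα
  obtain ⟨_, ⟨z2, hz2, hz2W, rfl⟩, hr2⟩ := stepA hY f hj h3 h4 hβ
  obtain ⟨y, hy, hyb, D, E, hD, hE, hyK⟩ := bar_bracket hz1 hz2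
  rw [← h1] at hz1W
  rw [← h3] at hz2W
  obtain ⟨u, hu, hu'⟩ := hz1W
  obtain ⟨v, hv, hv'⟩ := hz2W
  refine ⟨base K2 (Fin 2) y, ⟨y, hy, ?_, rfl⟩, ?_⟩
  · rw [← hu', ← hv'] at hyb
    rw [ihara_unique hyb (hbr u v)]
    exact ⟨⁅u, v⁆, bracket_Fnode hu hv, rfl⟩
  · rw [hyK]
    exact rel_bracket hY hr1 hr2 hD hE

/-- The weight `n` part of `[F, F]` over `K2`. -/
def Knode (n : ℕ) : Submodule K2 (FreeLieAlgebra K2 ℕ) :=
  Submodule.span K2 {a | ∃ u v : Tr ℕ, u.wt w3 + v.wt w3 = n ∧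
    a = ⁅u.eval (FreeLieAlgebra.of K2), v.eval (FreeLieAlgebra.of K2)⁆}

lemma Knode_le (n : ℕ) : Knode n ≤ wtPart K2 w3 n := by
  unfold Knode
  rw [Submodule.span_le]
  rintro _ ⟨u, v, h, rfl⟩
  exact Submodule.subset_span ⟨Tr.node u v, h, rfl⟩

/-- Step C. -/
lemma stepC {Y : Fin 5 → Module.End K2 KK} (hY : IsRep2 Y) (f : F →ₗ[ℚ] L)
    (hbr : ∀ a b, IsIharaBracket (f a) (f b) (f ⁅a, b⁆)) {n : ℕ}
    (hwt : (Fpart n).map f ≤ W n)
    (ih : ∀ j < n, (Fpart j).map f = W j ∧ (∀ a ∈ Fpart j, f a = 0 → a = 0)) :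
    Module.finrank K2 (Knode n) ≤ Module.finrank ℚ ((Fnode n).map f) := by
  obtain ⟨hF1, hF2, hF3⟩ := finrank_F n
  have hVW : (Fnode n).map f ≤ wtPart ℚ (fun _ : Fin 2 => 1) n := fun ψ hψ =>
    (hwt (Submodule.map_mono (Fnode_le n) hψ)).1
  obtain ⟨hB1, hB2, hB3⟩ := finrank_bar hVW
  have hle : (Knode n).map lam ≤ (bar n ((Fnode n).map f)).map (Th Y) := by
    rw [Submodule.map_le_iff_le_comap]
    unfold Knode
    rw [Submodule.span_le]
    rintro _ ⟨u, v, h, rfl⟩
    have hu3 := wt_ge u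
    have hv3 := wt_ge v
    obtain ⟨a1, a2⟩ := ih (u.wt w3) (by omega)
    obtain ⟨b1, b2⟩ := ih (v.wt w3) (by omega)
    obtain ⟨ψ, hψ, hr⟩ := stepB hY f hbr hu3 hv3 a1 a2 b1 b2 (eval_wt w3 u) (eval_wt w3 v)
    rw [h] at hψ
    exact ⟨ψ, hψ, (rel_iff _ _ _).1 hr⟩
  have e2 : Module.finrank K2 ((Knode n).map lam) = Module.finrank K2 (Knode n) := by
    rw [← LinearMap.range_domRestrict]
    apply LinearMap.finrank_range_of_inj
    rw [injective_iff_map_eq_zero]
    intro a ha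
    exact Subtype.ext (lam_inj' (Knode_le n a.2) ha)
  calc Module.finrank K2 (Knode n) = Module.finrank K2 ((Knode n).map lam) := e2.symm
    _ ≤ Module.finrank K2 ((bar n ((Fnode n).map f)).map (Th Y)) :=
        Submodule.finrank_mono hle
    _ ≤ Module.finrank K2 (bar n ((Fnode n).map f)) := Submodule.finrank_map_le _ _
    _ = Module.finrank ℚ ((Fnode n).map f) := hB3

end IsoInd

open IsoInd

theorem iso_ind (hcl : WClosed) (f : F →ₗ[ℚ] L) (h0 : ∀ k, f (FreeLieAlgebra.of ℚ k) ∈ W (2 * k + 3))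
    (hc : ∀ k, coefXY (2 * k + 2) (f (FreeLieAlgebra.of ℚ k)) ≠ 0)
    (hbr : ∀ a b, IsIharaBracket (f a) (f b) (f ⁅a, b⁆)) (n : ℕ) :
    (Fpart n).map f = W n ∧ (∀ a ∈ Fpart n, f a = 0 → a = 0) := by
  obtain ⟨Y, hY⟩ := exists_rep2
  induction n using Nat.strong_induction_on with
  | _ n ih =>
    have hwt := f_wt hcl f h0 hbr n
    obtain ⟨hF1, hF2, hF3⟩ := finrank_F n
    obtain ⟨hW1, -, -⟩ := finrank_bar (n := n) (V := W n) (fun ψ hψ => hψ.1)
    have hC := stepC hY f hbr hwt ih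
    have : FiniteDimensional K2 (Knode n) := Submodule.finiteDimensional_of_le (Knode_le n)
    have : FiniteDimensional ℚ ((Fpart n).map f) := inferInstance
    have hVle : (Fnode n).map f ≤ (Fpart n).map f := Submodule.map_mono (Fnode_le n)
    have key : Module.finrank ℚ (Fpart n) ≤ Module.finrank ℚ ((Fpart n).map f) := by
      by_cases hn : ∃ k, 2 * k + 3 = n
      · obtain ⟨k, rfl⟩ := hn
        -- the letter is not in the image of the brackets
        have hlt : (Fnode (2 * k + 3)).map f < (Fpart (2 * k + 3)).map f := by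
          refine lt_of_le_of_ne hVle ?_
          intro heq
          have hmem : f (FreeLieAlgebra.of ℚ k) ∈ (Fpart (2 * k + 3)).map f :=
            ⟨_, Submodule.subset_span ⟨Tr.leaf k, rfl, rfl⟩, rfl⟩
          rw [← heq] at hmem
          obtain ⟨c, hcl'⟩ := Low.coefXY_linear (2 * k + 2)
          have hz : (Fnode (2 * k + 3)).map f ≤ LinearMap.ker c := by
            rw [Submodule.map_le_iff_le_comap]
            unfold Fnode
            rw [Submodule.span_le]
            rintro _ ⟨u, v, h, rfl⟩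
            have hu3 := wt_ge u
            have hv3 := wt_ge v
            have h1 := (f_tree hcl f h0 hbr u).1
            have h2 := (f_tree hcl f h0 hbr v).1
            have := Low.coefXY_ihara (m := 2 * k + 2) (by omega) (by omega) h1 h2
            rw [← isIharaBracket_eq (hbr _ _)] at this
            simp only [Submodule.comap_coe, Set.mem_preimage, SetLike.mem_coe, LinearMap.mem_ker]
            rw [hcl', this]
          have := hz hmem
          rw [LinearMap.mem_ker, hcl'] at this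
          exact hc k this
        have h1 := Submodule.finrank_lt_finrank_of_lt hlt
        have h2 : wtPart K2 w3 (2 * k + 3) ≤
            Knode (2 * k + 3) ⊔ Submodule.span K2 {FreeLieAlgebra.of K2 k} := by
          unfold wtPart
          rw [Submodule.span_le]
          rintro _ ⟨t, ht, rfl⟩
          cases t with
          | leaf x =>
            have : x = k := by simp only [Tr.wt, w3, Nat.add_right_cancel_iff, mul_eq_mul_left_iff, OfNat.ofNat_ne_zero, or_false] at ht; omega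
            subst this
            exact Submodule.mem_sup_right (Submodule.mem_span_singleton_self _)
          | node a b =>
            exact Submodule.mem_sup_left (Submodule.subset_span ⟨a, b, ht, rfl⟩)
        have h3 := Submodule.finrank_mono h2
        have h4 := Submodule.finrank_add_le_finrank_add_finrank (Knode (2 * k + 3))
          (Submodule.span K2 {(FreeLieAlgebra.of K2 k : FreeLieAlgebra K2 ℕ)})
        have h5 : Module.finrank K2 (Submodule.span K2
            {(FreeLieAlgebra.of K2 k : FreeLieAlgebra K2 ℕ)}) ≤ 1 :=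
          (finrank_span_le_card _).trans (by simp)
        have : Module.finrank K2 (wtPart K2 w3 (2 * k + 3)) =
          Module.finrank ℚ (Fpart (2 * k + 3)) := hF3
        omega
      · have h2 : wtPart K2 w3 n ≤ Knode n := by
          unfold wtPart
          rw [Submodule.span_le]
          rintro _ ⟨t, ht, rfl⟩
          cases t with
          | leaf x => exact absurd ⟨x, ht⟩ hn
          | node a b => exact Submodule.subset_span ⟨a, b, ht, rfl⟩
        have h3 := Submodule.finrank_mono h2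
        have h4 := Submodule.finrank_mono hVle
        have : Module.finrank K2 (wtPart K2 w3 n) = Module.finrank ℚ (Fpart n) := hF3
        omega
    refine ⟨?_, ?_⟩
    · apply Submodule.eq_of_le_of_finrank_le hwt
      exact (finrank_W_le n).trans key
    · have h1 : Module.finrank ℚ (LinearMap.range (f.domRestrict (Fpart n))) +
          Module.finrank ℚ (LinearMap.ker (f.domRestrict (Fpart n))) =
            Module.finrank ℚ (Fpart n) := LinearMap.finrank_range_add_finrank_ker _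
      rw [LinearMap.range_domRestrict] at h1
      have h2 : Module.finrank ℚ (LinearMap.ker (f.domRestrict (Fpart n))) = 0 := by omega
      rw [Submodule.finrank_eq_zero] at h2
      intro a ha h
      have : (⟨a, ha⟩ : Fpart n) ∈ LinearMap.ker (f.domRestrict (Fpart n)) := h
      rw [h2, Submodule.mem_bot] at this
      exact congrArg Subtype.val this

end Vale.Agent.P029
end
end
end

section

section

/-!
# P029: the isomorphism for every family `σ`, given that `W` is closed under the Ihara bracket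
-/

noncomputable section

attribute [local instance 100] LieRing.ofAssociativeRing

namespace Vale.Agent.P029

namespace Iso

theorem W_le (n : ℕ) : W n ≤ wtPart ℚ (fun _ : Fin 2 => 1) n := fun _ h => h.1

end Iso

/- N9 -/
theorem iso_of_closed (hcl : WClosed) (σ : ℕ → L) (hσ : ∀ k, σ k ∈ W (2 * k + 3))
    (hc : ∀ k, coefXY (2 * k + 2) (σ k) ≠ 0) :
    ∃ f : F →ₗ[ℚ] L, (∀ k, f (FreeLieAlgebra.of ℚ k) = σ k) ∧ IsGradedIso f := by
  obtain ⟨f, hf, hbr⟩ := exists_ihara_hom σ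
  have h0 : ∀ k, f (FreeLieAlgebra.of ℚ k) ∈ W (2 * k + 3) := fun k => by
    rw [hf k]; exact hσ k
  have h1 : ∀ k, coefXY (2 * k + 2) (f (FreeLieAlgebra.of ℚ k)) ≠ 0 := fun k => by
    rw [hf k]; exact hc k
  have h2 := iso_ind hcl f h0 h1 hbr
  refine ⟨f, hf, hbr, ?_, fun n => (h2 n).1⟩
  exact inj_of_graded f (fun n => (h2 n).1.le.trans (Iso.W_le n)) (fun n => (h2 n).2)

/-- The conjecture from the closure of `W` and elements of depth one. -/
theorem DD_of_sigma (hcl : WClosed)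
    (h : ∀ k, ∃ s ∈ W (2 * k + 3), coefXY (2 * k + 2) s ≠ 0) : DeligneDrinfeld := by
  choose σ hσ hc using h
  obtain ⟨f, hf, hiso⟩ := iso_of_closed hcl σ hσ hc
  exact ⟨f, fun k => by rw [hf k]; exact hσ k, hiso⟩

end Vale.Agent.P029
end
end
end

section

section

/-!
P029, lower half: the algebra generated by finitely many jointly nilpotent elements embeds in a
Banach algebra.
-/

namespace Vale.Agent.P029.Low

open Submodule in
/-- the algebra generated by a finite jointly nilpotent set is finite dimensional -/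
theorem fd_adjoin {B : Type} [Ring B] [Algebra ℂ B] {S : Set B} (hS : S.Finite) {N : ℕ}
    (h : KZ.NilS S N) : FiniteDimensional ℂ (Algebra.adjoin ℂ S) := by
  have hfin : {l : List B | l.length ≤ N ∧ ∀ x ∈ l, x ∈ S}.Finite := by
    have := hS.to_subtype
    refine ((List.finite_length_le S N).image (List.map Subtype.val)).subset ?_
    rintro l ⟨h1, h2⟩
    refine ⟨l.attach.map fun x => ⟨x.1, h2 _ x.2⟩, by simpa only [Set.mem_ofPred_eq, List.length_map, List.length_attach] using h1, ?_⟩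
    rw [List.map_map]
    exact List.attach_map_subtype_val l
  have h2 : Subalgebra.toSubmodule (Algebra.adjoin ℂ S) =
      span ℂ (List.prod '' {l : List B | l.length ≤ N ∧ ∀ x ∈ l, x ∈ S}) := by
    rw [Algebra.adjoin_eq_span]
    apply le_antisymm
    · refine span_le.2 fun x hx => ?_
      obtain ⟨l, hl, rfl⟩ := Submonoid.exists_list_of_mem_closure hx
      rcases le_or_gt l.length N with h3 | h3
      · exact subset_span ⟨l, ⟨h3, hl⟩, rfl⟩
      · have h4 : (l.take (N + 1)).prod = 0 :=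
          h _ (by rw [List.length_take]; omega) fun x hx => hl x (List.mem_of_mem_take hx)
        have h5 : l.prod = 0 := by
          rw [← List.take_append_drop (N + 1) l, List.prod_append, h4, zero_mul]
        rw [h5]
        exact zero_mem _
    · refine span_le.2 ?_
      rintro _ ⟨l, ⟨-, h4⟩, rfl⟩
      exact subset_span (Submonoid.list_prod_mem _ fun x hx => Submonoid.subset_closure (h4 x hx))
  have h3 : FiniteDimensional ℂ (Subalgebra.toSubmodule (Algebra.adjoin ℂ S)) := by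
    rw [h2]
    exact FiniteDimensional.span_of_finite ℂ (hfin.image _)
  exact h3

/- EC1 -/
theorem normed_model {B : Type} [Ring B] [Algebra ℂ B] {S : Set B} (hS : S.Finite) {N : ℕ}
    (h : KZ.NilS S N) : ∃ (C : Type) (_ : NormedRing C) (_ : NormedAlgebra ℂ C)
      (_ : CompleteSpace C) (F : Algebra.adjoin ℂ S →ₐ[ℂ] C), Function.Injective F := by
  have := fd_adjoin hS h
  let d := Module.finrank ℂ (Algebra.adjoin ℂ S)
  let e : Algebra.adjoin ℂ S ≃ₗ[ℂ] (Fin d → ℂ) := (Module.finBasis ℂ (Algebra.adjoin ℂ S)).equivFun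
  refine ⟨(Fin d → ℂ) →L[ℂ] (Fin d → ℂ), inferInstance, inferInstance, inferInstance,
    ((Module.End.toContinuousLinearMap (𝕜 := ℂ) (Fin d → ℂ)).toAlgHom.comp
      (e.conjAlgEquiv ℂ).toAlgHom).comp (Algebra.lmul ℂ (Algebra.adjoin ℂ S)), ?_⟩
  have h1 : Function.Injective (Algebra.lmul ℂ (Algebra.adjoin ℂ S)) := Algebra.lmul_injective
  intro x y hxy
  apply h1
  exact (e.conjAlgEquiv ℂ).injective
    ((Module.End.toContinuousLinearMap (𝕜 := ℂ) (Fin d → ℂ)).injective hxy)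

end Vale.Agent.P029.Low
end
end

section

section

/-! P029 lower half, EC2: the KZ associator is a truncated associator. -/

noncomputable section

attribute [local instance 100] LieRing.ofAssociativeRing

namespace Vale.Agent.P029.Low

open Vale.Agent.P029

namespace AssocKZ

/-! ### nilpotent sets -/

section nil
variable {B : Type} [Ring B]

theorem mono {S S' : Set B} {N : ℕ} (h : KZ.NilS S N) (hS : S' ⊆ S) : KZ.NilS S' N :=
  fun l hl hx => h l hl fun x hxl => hS (hx x hxl)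

variable [Algebra ℂ B]

theorem span_aux {S : Set B} {N : ℕ} (h : KZ.NilS S N) (l₁ : List B) :
    (∀ x ∈ l₁, x ∈ ((Submodule.span ℂ S : Submodule ℂ B) : Set B)) →
    ∀ l₂ : List B, (∀ x ∈ l₂, x ∈ S) → l₂.length + l₁.length = N + 1 →
      l₂.prod * l₁.prod = 0 := by
  induction l₁ with
  | nil =>
    intro _ l₂ h2 hl
    rw [List.prod_nil, mul_one]
    exact h l₂ (by simpa using hl) h2
  | cons x l₁ ih =>
    intro h1 l₂ h2 hl
    rw [List.prod_cons]
    have hx : x ∈ Submodule.span ℂ S := h1 x List.mem_cons_self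
    have ih' := ih (fun y hy => h1 y (List.mem_cons_of_mem _ hy))
    rw [List.length_cons] at hl
    refine Submodule.span_induction (p := fun x _ => l₂.prod * (x * l₁.prod) = 0)
      (fun y hy => ?_) ?_ (fun y z _ _ hy hz => ?_) (fun c y _ hy => ?_) hx
    · have h3 := ih' (l₂ ++ [y]) (fun z hz => by
        rcases List.mem_append.1 hz with h4 | h4
        · exact h2 z h4
        · rw [List.mem_singleton.1 h4]; exact hy) (by
        rw [List.length_append, List.length_singleton]; omega)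
      rw [List.prod_append, List.prod_singleton, mul_assoc] at h3
      exact h3
    · rw [zero_mul, mul_zero]
    · rw [add_mul, mul_add, hy, hz, add_zero]
    · rw [smul_mul_assoc, mul_smul_comm, hy, smul_zero]

/-- products of `N + 1` elements of the span vanish. -/
theorem nspan {S : Set B} {N : ℕ} (h : KZ.NilS S N) :
    KZ.NilS ((Submodule.span ℂ S : Submodule ℂ B) : Set B) N := by
  intro l hl hx
  have h1 := span_aux h l hx [] (by simp) (by simpa using hl)
  rwa [List.prod_nil, one_mul] at h1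

end nil

/-! ### homomorphisms -/

section map
variable {A B C : Type} [Ring A] [Algebra ℂ A] [Ring B] [Algebra ℂ B] [Ring C] [Algebra ℂ C]

theorem nil_transfer (G : A →ₐ[ℂ] B) (hG : Function.Injective G) (F : A →ₐ[ℂ] C) {T : Set A}
    {N : ℕ} (h : KZ.NilS (G '' T) N) : KZ.NilS (F '' T) N := by
  intro l hl hx
  obtain ⟨l', rfl, hl'⟩ : ∃ l' : List A, l'.map F = l ∧ ∀ x ∈ l', x ∈ T := by
    clear hl
    induction l with
    | nil => exact ⟨[], rfl, by simp⟩
    | cons x l ih =>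
      obtain ⟨l', h1, h2⟩ := ih (fun y hy => hx y (List.mem_cons_of_mem _ hy))
      obtain ⟨y, hy, rfl⟩ := hx x List.mem_cons_self
      refine ⟨y :: l', by rw [List.map_cons, h1], ?_⟩
      intro z hz
      rcases List.mem_cons.1 hz with rfl | hz
      · exact hy
      · exact h2 z hz
  have h3 := h (l'.map G) (by simpa using hl) (by
    intro x hx'
    obtain ⟨y, hy, rfl⟩ := List.mem_map.1 hx'
    exact ⟨y, hl' y hy, rfl⟩)
  rw [← map_list_prod] at h3
  have h4 : l'.prod = 0 := hG (by rw [h3, map_zero])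
  rw [← map_list_prod, h4, map_zero]

theorem map_wd (F : A →ₐ[ℂ] B) (a b : A) (w : List Bool) :
    F (KZ.wd a b w) = KZ.wd (F a) (F b) w := by
  rw [KZ.wd, KZ.wd, map_list_prod, List.map_map]
  congr 1
  refine List.map_congr_left fun c _ => ?_
  exact apply_ite F _ _ _

theorem map_evS (F : A →ₐ[ℂ] B) (φ : List Bool → ℂ) (N : ℕ) (a b : A) :
    F (KZ.evS φ N a b) = KZ.evS φ N (F a) (F b) := by
  rw [KZ.evS, KZ.evS, map_sum]
  exact Finset.sum_congr rfl fun w _ => by rw [map_smul, map_wd]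

theorem map_expT (F : A →ₐ[ℂ] B) (N : ℕ) (c : ℂ) (a : A) :
    F (KZ.expT N c a) = KZ.expT N c (F a) := by
  rw [KZ.expT, KZ.expT, map_sum]
  exact Finset.sum_congr rfl fun k _ => by rw [map_smul, map_pow]

end map

/-- The polynomial of a series. -/
def PP (φ : List Bool → ℂ) (N : ℕ) : FA ℂ :=
  KZ.evS φ N (FreeAlgebra.ι ℂ (0 : Fin 2)) (FreeAlgebra.ι ℂ (1 : Fin 2))

theorem ev_PP {B : Type} [Ring B] [Algebra ℂ B] (φ : List Bool → ℂ) (N : ℕ) (a b : B) :
    ev a b (PP φ N) = KZ.evS φ N a b := by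
  rw [PP, map_evS, ev, FreeAlgebra.lift_ι_apply, FreeAlgebra.lift_ι_apply]
  rfl

/-! ### transfer to arbitrary algebras -/

section transfer
variable {B : Type} [Ring B] [Algebra ℂ B] {Φ : List Bool → ℂ} {N : ℕ}

theorem gl_alg (hgl : ∀ (B : Type) [NormedRing B] [NormedAlgebra ℂ B] [CompleteSpace B] (N : ℕ)
      (a b a' b' : B), KZ.NilS {a, b, a', b'} N → a * a' = a' * a → a * b' = b' * a →
      b * a' = a' * b → b * b' = b' * b →
      KZ.evS Φ N (a + a') (b + b') = KZ.evS Φ N a b * KZ.evS Φ N a' b')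
    {a b a' b' : B} (hN : KZ.NilS {a, b, a', b'} N) (h1 : a * a' = a' * a)
    (h2 : a * b' = b' * a) (h3 : b * a' = a' * b) (h4 : b * b' = b' * b) :
    KZ.evS Φ N (a + a') (b + b') = KZ.evS Φ N a b * KZ.evS Φ N a' b' := by
  obtain ⟨C, _, _, _, F, hF⟩ := normed_model (S := {a, b, a', b'}) (Set.toFinite _) hN
  let G : Algebra.adjoin ℂ ({a, b, a', b'} : Set B) →ₐ[ℂ] B := (Algebra.adjoin ℂ _).val
  have hG : Function.Injective G := Subtype.val_injective
  let α : Algebra.adjoin ℂ ({a, b, a', b'} : Set B) := ⟨a, Algebra.subset_adjoin (by simp)⟩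
  let β : Algebra.adjoin ℂ ({a, b, a', b'} : Set B) := ⟨b, Algebra.subset_adjoin (by simp)⟩
  let α' : Algebra.adjoin ℂ ({a, b, a', b'} : Set B) := ⟨a', Algebra.subset_adjoin (by simp)⟩
  let β' : Algebra.adjoin ℂ ({a, b, a', b'} : Set B) := ⟨b', Algebra.subset_adjoin (by simp)⟩
  have hN' : KZ.NilS {F α, F β, F α', F β'} N := by
    have h5 := nil_transfer G hG F (T := {α, β, α', β'}) (N := N) (by
      rw [Set.image_insert_eq, Set.image_insert_eq, Set.image_insert_eq, Set.image_singleton]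
      exact hN)
    rwa [Set.image_insert_eq, Set.image_insert_eq, Set.image_insert_eq, Set.image_singleton] at h5
  have key := hgl C N (F α) (F β) (F α') (F β') hN'
    (by rw [← map_mul, ← map_mul]; exact congrArg F (Subtype.ext h1))
    (by rw [← map_mul, ← map_mul]; exact congrArg F (Subtype.ext h2))
    (by rw [← map_mul, ← map_mul]; exact congrArg F (Subtype.ext h3))
    (by rw [← map_mul, ← map_mul]; exact congrArg F (Subtype.ext h4))
  rw [← map_add, ← map_add, ← map_evS, ← map_evS, ← map_evS, ← map_mul] at key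
  have k2 := congrArg G (hF key)
  rw [map_mul, map_evS, map_evS, map_evS, map_add, map_add] at k2
  exact k2

theorem inv_alg (hinv : ∀ (B : Type) [NormedRing B] [NormedAlgebra ℂ B] [CompleteSpace B] (N : ℕ)
      (a b : B), KZ.NilS {a, b} N → KZ.evS Φ N b a * KZ.evS Φ N a b = 1)
    {a b : B} (hN : KZ.NilS {a, b} N) : KZ.evS Φ N b a * KZ.evS Φ N a b = 1 := by
  obtain ⟨C, _, _, _, F, hF⟩ := normed_model (S := {a, b}) (Set.toFinite _) hN
  let G : Algebra.adjoin ℂ ({a, b} : Set B) →ₐ[ℂ] B := (Algebra.adjoin ℂ _).val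
  have hG : Function.Injective G := Subtype.val_injective
  let α : Algebra.adjoin ℂ ({a, b} : Set B) := ⟨a, Algebra.subset_adjoin (by simp)⟩
  let β : Algebra.adjoin ℂ ({a, b} : Set B) := ⟨b, Algebra.subset_adjoin (by simp)⟩
  have hN' : KZ.NilS {F α, F β} N := by
    have h5 := nil_transfer G hG F (T := {α, β}) (N := N) (by
      rw [Set.image_insert_eq, Set.image_singleton]
      exact hN)
    rwa [Set.image_insert_eq, Set.image_singleton] at h5
  have key := hinv C N (F α) (F β) hN'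
  rw [← map_evS, ← map_evS, ← map_mul, ← map_one F] at key
  have k2 := congrArg G (hF key)
  rw [map_mul, map_evS, map_evS, map_one] at k2
  exact k2

theorem hex_alg (hhex : ∀ (B : Type) [NormedRing B] [NormedAlgebra ℂ B] [CompleteSpace B] (N : ℕ)
      (a b c : B), KZ.NilS {a, b} N → a + b + c = 0 → ∀ σ : ℂ, σ = 1 ∨ σ = -1 →
      KZ.expT N (σ * Complex.I * Real.pi) a * KZ.evS Φ N c a
        * KZ.expT N (σ * Complex.I * Real.pi) c * KZ.evS Φ N b c
        * KZ.expT N (σ * Complex.I * Real.pi) b * KZ.evS Φ N a b = 1)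
    {a b c : B} (hN : KZ.NilS {a, b} N) (h0 : a + b + c = 0) {σ : ℂ} (hσ : σ = 1 ∨ σ = -1) :
    KZ.expT N (σ * Complex.I * Real.pi) a * KZ.evS Φ N c a
        * KZ.expT N (σ * Complex.I * Real.pi) c * KZ.evS Φ N b c
        * KZ.expT N (σ * Complex.I * Real.pi) b * KZ.evS Φ N a b = 1 := by
  obtain ⟨C, _, _, _, F, hF⟩ := normed_model (S := {a, b}) (Set.toFinite _) hN
  let G : Algebra.adjoin ℂ ({a, b} : Set B) →ₐ[ℂ] B := (Algebra.adjoin ℂ _).val
  have hG : Function.Injective G := Subtype.val_injective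
  let α : Algebra.adjoin ℂ ({a, b} : Set B) := ⟨a, Algebra.subset_adjoin (by simp)⟩
  let β : Algebra.adjoin ℂ ({a, b} : Set B) := ⟨b, Algebra.subset_adjoin (by simp)⟩
  have hN' : KZ.NilS {F α, F β} N := by
    have h5 := nil_transfer G hG F (T := {α, β}) (N := N) (by
      rw [Set.image_insert_eq, Set.image_singleton]
      exact hN)
    rwa [Set.image_insert_eq, Set.image_singleton] at h5
  have hc : c = G (-(α + β)) := by
    rw [map_neg, map_add]
    exact eq_neg_of_add_eq_zero_right h0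
  have key := hhex C N (F α) (F β) (F (-(α + β))) hN' (by
    rw [← map_add, ← map_add, add_neg_cancel, map_zero]) σ hσ
  rw [← map_evS, ← map_evS, ← map_evS, ← map_expT, ← map_expT, ← map_expT, ← map_mul, ← map_mul,
    ← map_mul, ← map_mul, ← map_mul, ← map_one F] at key
  have k2 := congrArg G (hF key)
  rw [map_mul, map_mul, map_mul, map_mul, map_mul, map_evS, map_evS, map_evS, map_expT, map_expT,
    map_expT, map_one, ← hc] at k2
  exact k2

theorem pent_alg (hpent : ∀ (B : Type) [NormedRing B] [NormedAlgebra ℂ B] [CompleteSpace B]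
      (N : ℕ) (t12 t13 t14 t23 t24 t34 : B), KZ.NilS {t12, t13, t14, t23, t24, t34} N →
      KZ.T4 t12 t13 t14 t23 t24 t34 →
      KZ.evS Φ N t12 (t23 + t24) * KZ.evS Φ N (t13 + t23) t34
        = KZ.evS Φ N t23 t34 * KZ.evS Φ N (t12 + t13) (t24 + t34) * KZ.evS Φ N t12 t23)
    {t12 t13 t14 t23 t24 t34 : B} (hN : KZ.NilS {t12, t13, t14, t23, t24, t34} N)
    (h : KZ.T4 t12 t13 t14 t23 t24 t34) :
      KZ.evS Φ N t12 (t23 + t24) * KZ.evS Φ N (t13 + t23) t34
        = KZ.evS Φ N t23 t34 * KZ.evS Φ N (t12 + t13) (t24 + t34) * KZ.evS Φ N t12 t23 := by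
  obtain ⟨S, hS⟩ : ∃ S : Set B, S = {t12, t13, t14, t23, t24, t34} := ⟨_, rfl⟩
  rw [← hS] at hN
  obtain ⟨C, _, _, _, F, hF⟩ := normed_model (by rw [hS]; exact Set.toFinite _) hN
  let G : Algebra.adjoin ℂ S →ₐ[ℂ] B := (Algebra.adjoin ℂ _).val
  have hG : Function.Injective G := Subtype.val_injective
  let u12 : Algebra.adjoin ℂ S := ⟨t12, Algebra.subset_adjoin (by simp [hS])⟩
  let u13 : Algebra.adjoin ℂ S := ⟨t13, Algebra.subset_adjoin (by simp [hS])⟩
  let u14 : Algebra.adjoin ℂ S := ⟨t14, Algebra.subset_adjoin (by simp [hS])⟩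
  let u23 : Algebra.adjoin ℂ S := ⟨t23, Algebra.subset_adjoin (by simp [hS])⟩
  let u24 : Algebra.adjoin ℂ S := ⟨t24, Algebra.subset_adjoin (by simp only [hS, Set.mem_insert_iff, Set.mem_singleton_iff, true_or, or_true])⟩
  let u34 : Algebra.adjoin ℂ S := ⟨t34, Algebra.subset_adjoin (by simp [hS])⟩
  have hN' : KZ.NilS {F u12, F u13, F u14, F u23, F u24, F u34} N := by
    have h5 := nil_transfer G hG F (T := {u12, u13, u14, u23, u24, u34}) (N := N) (by
      rw [Set.image_insert_eq, Set.image_insert_eq, Set.image_insert_eq, Set.image_insert_eq,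
        Set.image_insert_eq, Set.image_singleton]
      rw [hS] at hN
      exact hN)
    rwa [Set.image_insert_eq, Set.image_insert_eq, Set.image_insert_eq, Set.image_insert_eq,
      Set.image_insert_eq, Set.image_singleton] at h5
  have hT : KZ.T4 (F u12) (F u13) (F u14) (F u23) (F u24) (F u34) := by
    constructor
    · rw [← map_mul, ← map_mul]; exact congrArg F (Subtype.ext h.c1)
    · rw [← map_mul, ← map_mul]; exact congrArg F (Subtype.ext h.c2)
    · rw [← map_mul, ← map_mul]; exact congrArg F (Subtype.ext h.c3)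
    · rw [← map_add, ← map_mul, ← map_mul]; exact congrArg F (Subtype.ext h.a1)
    · rw [← map_add, ← map_mul, ← map_mul]; exact congrArg F (Subtype.ext h.a2)
    · rw [← map_add, ← map_mul, ← map_mul]; exact congrArg F (Subtype.ext h.a3)
    · rw [← map_add, ← map_mul, ← map_mul]; exact congrArg F (Subtype.ext h.b1)
    · rw [← map_add, ← map_mul, ← map_mul]; exact congrArg F (Subtype.ext h.b2)
    · rw [← map_add, ← map_mul, ← map_mul]; exact congrArg F (Subtype.ext h.b3)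
    · rw [← map_add, ← map_mul, ← map_mul]; exact congrArg F (Subtype.ext h.d1)
    · rw [← map_add, ← map_mul, ← map_mul]; exact congrArg F (Subtype.ext h.d2)
    · rw [← map_add, ← map_mul, ← map_mul]; exact congrArg F (Subtype.ext h.d3)
    · rw [← map_add, ← map_mul, ← map_mul]; exact congrArg F (Subtype.ext h.e1)
    · rw [← map_add, ← map_mul, ← map_mul]; exact congrArg F (Subtype.ext h.e2)
    · rw [← map_add, ← map_mul, ← map_mul]; exact congrArg F (Subtype.ext h.e3)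
  have key := hpent C N _ _ _ _ _ _ hN' hT
  rw [← map_add, ← map_add, ← map_add, ← map_add, ← map_evS, ← map_evS, ← map_evS, ← map_evS,
    ← map_evS, ← map_mul, ← map_mul, ← map_mul] at key
  have k2 := congrArg G (hF key)
  rw [map_mul, map_mul, map_mul, map_evS, map_evS, map_evS, map_evS, map_evS, map_add, map_add,
    map_add, map_add] at k2
  exact k2

end transfer

/-! ### values at zero -/

section zero
variable {B : Type} [Ring B] {Φ : List Bool → ℂ} {N : ℕ}

theorem wd_zero {a b : B} {w : List Bool} {c : Bool} (hc : c ∈ w)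
    (h0 : (if c then b else a) = 0) : KZ.wd a b w = 0 := by
  rw [KZ.wd]
  refine List.prod_eq_zero ?_
  rw [← h0]
  exact List.mem_map_of_mem (f := fun c : Bool => if c then b else a) hc

theorem eq_replicate {w : List Bool} {c : Bool} (h : (!c) ∉ w) :
    w = List.replicate w.length c := by
  rw [List.eq_replicate_iff]
  refine ⟨rfl, fun x hx => ?_⟩
  by_contra hne
  have : x = !c := by
    cases x <;> cases c <;> simp_all
  exact h (this ▸ hx)

theorem ev_zero [Algebra ℂ B] (h0 : Φ [] = 1) {c : Bool} (hc : ∀ n : ℕ, 1 ≤ n → Φ (List.replicate n c) = 0)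
    {a b : B} (hab : (if (!c) then b else a) = 0) : KZ.evS Φ N a b = 1 := by
  rw [KZ.evS, Finset.sum_eq_single []]
  · rw [h0, one_smul]; rfl
  · intro w _ hw
    by_cases h : (!c) ∈ w
    · rw [wd_zero h hab, smul_zero]
    · have h1 := eq_replicate h
      have h2 : 1 ≤ w.length := List.length_pos_iff.2 hw
      rw [h1, hc _ h2, zero_smul]
  · intro h
    exact absurd (KZ.mem_words.2 (by simp)) h

end zero

/-! ### homogeneous parts and coefficients -/

section hp

theorem wd_mul_X {R : Type} [Ring R] (a b : R) (w : List Bool) :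
    KZ.wd (Polynomial.C a * Polynomial.X) (Polynomial.C b * Polynomial.X) w
      = Polynomial.C (KZ.wd a b w) * Polynomial.X ^ w.length := by
  induction w with
  | nil => simp [KZ.wd]
  | cons c w ih =>
    have h1 : ∀ {M : Type} [Monoid M] (a b : M), KZ.wd a b (c :: w) =
        (if c then b else a) * KZ.wd a b w := by
      intro M _ a b
      rw [KZ.wd, KZ.wd, List.map_cons, List.prod_cons]
    rw [h1, h1, ih, List.length_cons, pow_succ', Polynomial.C_mul]
    have h2 : (if c then Polynomial.C b * Polynomial.X else Polynomial.C a * Polynomial.X)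
        = Polynomial.C (if c then b else a) * Polynomial.X := by
      split_ifs <;> rfl
    rw [h2, mul_assoc, mul_assoc, ← mul_assoc Polynomial.X (Polynomial.C _), Polynomial.X_mul_C,
      mul_assoc]

theorem hp_PP (Φ : List Bool → ℂ) (N k : ℕ) : hp k (PP Φ N) =
    ∑ w ∈ KZ.words N, Φ w • (if k = w.length then
      KZ.wd (FreeAlgebra.ι ℂ (0 : Fin 2)) (FreeAlgebra.ι ℂ (1 : Fin 2)) w else 0) := by
  rw [hp, PP, map_evS, hg, FreeAlgebra.lift_ι_apply, FreeAlgebra.lift_ι_apply, KZ.evS,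
    Polynomial.finsetSum_coeff]
  refine Finset.sum_congr rfl fun w _ => ?_
  rw [wd_mul_X, Polynomial.coeff_smul, Polynomial.coeff_C_mul_X_pow]

/-- Letters as indices. -/
def cv (c : Bool) : Fin 2 := if c then 1 else 0

theorem cv_inj : Function.Injective cv := by
  intro a b
  cases a <;> cases b <;> simp [cv]

theorem wd_single (w : List Bool) :
    KZ.wd (MonoidAlgebra.single (FreeMonoid.of (0 : Fin 2)) (1 : ℂ))
      (MonoidAlgebra.single (FreeMonoid.of (1 : Fin 2)) (1 : ℂ)) w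
      = MonoidAlgebra.single (FreeMonoid.ofList (w.map cv)) (1 : ℂ) := by
  induction w with
  | nil => rfl
  | cons c w ih =>
    rw [KZ.wd, List.map_cons, List.prod_cons]
    rw [KZ.wd] at ih
    rw [ih]
    have h1 : (if c then MonoidAlgebra.single (FreeMonoid.of (1 : Fin 2)) (1 : ℂ)
        else MonoidAlgebra.single (FreeMonoid.of (0 : Fin 2)) (1 : ℂ))
        = MonoidAlgebra.single (FreeMonoid.of (cv c)) (1 : ℂ) := by
      cases c <;> rfl
    rw [h1, MonoidAlgebra.single_mul_single, mul_one, List.map_cons, FreeMonoid.ofList_cons]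

theorem cXY_PP (Φ : List Bool → ℂ) {N m : ℕ} (hm : m + 1 ≤ N) :
    cXY m (PP Φ N) = Φ (List.replicate m false ++ [true]) := by
  have h1 : FreeAlgebra.equivMonoidAlgebraFreeMonoid (PP Φ N) =
      ∑ w ∈ KZ.words N, Φ w • MonoidAlgebra.single (FreeMonoid.ofList (w.map cv)) (1 : ℂ) := by
    have h2 := map_evS (FreeAlgebra.equivMonoidAlgebraFreeMonoid (R := ℂ)
      (X := Fin 2)).toAlgHom Φ N (FreeAlgebra.ι ℂ (0 : Fin 2)) (FreeAlgebra.ι ℂ (1 : Fin 2))
    have h3 : ∀ i : Fin 2, (FreeAlgebra.equivMonoidAlgebraFreeMonoid (R := ℂ)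
      (X := Fin 2)).toAlgHom (FreeAlgebra.ι ℂ i) =
        MonoidAlgebra.single (FreeMonoid.of i) (1 : ℂ) := by
      intro i
      simp [FreeAlgebra.equivMonoidAlgebraFreeMonoid, MonoidAlgebra.of_apply]
    rw [h3, h3] at h2
    refine h2.trans ?_
    rw [KZ.evS]
    exact Finset.sum_congr rfl fun w _ => by rw [wd_single]
  have h4 : ((List.replicate m false ++ [true]).map cv) = List.replicate m (0 : Fin 2) ++ [1] := by
    simp [cv]
  rw [cXY, h1, MonoidAlgebra.coeff_sum, Finsupp.finsetSum_apply,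
    Finset.sum_eq_single (List.replicate m false ++ [true])]
  · rw [h4]
    simp
  · intro w _ hw
    have h5 : FreeMonoid.ofList (w.map cv) ≠
        FreeMonoid.ofList (List.replicate m (0 : Fin 2) ++ [1]) := by
      intro h6
      have h7 : w.map cv = (List.replicate m false ++ [true]).map cv := by
        rw [h4]; exact FreeMonoid.ofList.injective h6
      exact hw (List.map_injective_iff.2 cv_inj h7)
    rw [MonoidAlgebra.coeff_smul, Finsupp.smul_apply, MonoidAlgebra.coeff_single,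
      Finsupp.single_eq_of_ne (Ne.symm h5), smul_zero]
  · intro h6
    exact absurd (KZ.mem_words.2 (by simpa only [List.length_append, List.length_replicate, List.length_cons, List.length_nil, zero_add,     Order.add_one_le_iff] using hm)) h6

end hp

/-! ### the cyclic pentagon -/

section pent
variable {B : Type} [Ring B] [Algebra ℂ B] {Φ : List Bool → ℂ} {N : ℕ}

omit [Algebra ℂ B] in
theorem tri_aux {a b c : B} (h : a * (a + b + c) = (a + b + c) * a) :
    a * (b + c) = (b + c) * a := by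
  rw [add_assoc, mul_add, add_mul] at h
  exact add_left_cancel h

theorem half {u v : B} (h : u + u = v + v) : u = v := by
  have h1 : ∀ w : B, w = (1 / 2 : ℂ) • (w + w) := by
    intro w
    rw [← two_smul ℂ w, smul_smul]
    norm_num
  rw [h1 u, h1 v, h]

omit [Algebra ℂ B] in
theorem PS_comm' {X : Fin 5 → Fin 5 → B} (hX : PS X) (i j k l : Fin 5) (h1 : i ≠ j) (h2 : i ≠ k)
    (h3 : i ≠ l) (h4 : j ≠ k) (h5 : j ≠ l) (h6 : k ≠ l) : X i j * X k l = X k l * X i j := by
  have h := hX.comm i j k l h1 h2 h3 h4 h5 h6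
  rwa [Ring.lie_def, sub_eq_zero] at h

theorem pent_PS (h0 : Φ [] = 1) (hf : ∀ n : ℕ, 1 ≤ n → Φ (List.replicate n false) = 0)
    (ht : ∀ n : ℕ, 1 ≤ n → Φ (List.replicate n true) = 0)
    (hgl : ∀ (B : Type) [NormedRing B] [NormedAlgebra ℂ B] [CompleteSpace B] (N : ℕ)
      (a b a' b' : B), KZ.NilS {a, b, a', b'} N → a * a' = a' * a → a * b' = b' * a →
      b * a' = a' * b → b * b' = b' * b →
      KZ.evS Φ N (a + a') (b + b') = KZ.evS Φ N a b * KZ.evS Φ N a' b')
    (hinv : ∀ (B : Type) [NormedRing B] [NormedAlgebra ℂ B] [CompleteSpace B] (N : ℕ)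
      (a b : B), KZ.NilS {a, b} N → KZ.evS Φ N b a * KZ.evS Φ N a b = 1)
    (hpent : ∀ (B : Type) [NormedRing B] [NormedAlgebra ℂ B] [CompleteSpace B]
      (N : ℕ) (t12 t13 t14 t23 t24 t34 : B), KZ.NilS {t12, t13, t14, t23, t24, t34} N →
      KZ.T4 t12 t13 t14 t23 t24 t34 →
      KZ.evS Φ N t12 (t23 + t24) * KZ.evS Φ N (t13 + t23) t34
        = KZ.evS Φ N t23 t34 * KZ.evS Φ N (t12 + t13) (t24 + t34) * KZ.evS Φ N t12 t23)
    {X : Fin 5 → Fin 5 → B} (hX : PS X) (hN : KZ.NilS {z | ∃ i j, z = X i j} N) :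
    KZ.evS Φ N (X 2 3) (X 3 4) * KZ.evS Φ N (X 4 0) (X 0 1) * KZ.evS Φ N (X 1 2) (X 2 3)
      * KZ.evS Φ N (X 3 4) (X 4 0) * KZ.evS Φ N (X 0 1) (X 1 2) = 1 := by
  -- sum relations
  have s40 : X 1 2 + X 1 3 + X 2 3 = X 4 0 := by
    have h := PS_tri hX (a := 1) (b := 2) (c := 3) (d := 4) (e := 0) (by decide)
      (fun u v h => half h)
    rw [← h, hX.symm 3 1]; abel
  have s34 : X 0 1 + X 0 2 + X 1 2 = X 3 4 := by
    have h := PS_tri hX (a := 0) (b := 1) (c := 2) (d := 3) (e := 4) (by decide)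
      (fun u v h => half h)
    rw [← h, hX.symm 2 0]; abel
  have s24 : X 0 1 + X 0 3 + X 1 3 = X 2 4 := by
    have h := PS_tri hX (a := 0) (b := 1) (c := 3) (d := 2) (e := 4) (by decide)
      (fun u v h => half h)
    rw [← h, hX.symm 3 0]; abel
  have s14 : X 0 2 + X 0 3 + X 2 3 = X 1 4 := by
    have h := PS_tri hX (a := 0) (b := 2) (c := 3) (d := 1) (e := 4) (by decide)
      (fun u v h => half h)
    rw [← h, hX.symm 3 0]; abel
  have c1 := PS_comm' hX 0 1 2 3 (by decide) (by decide) (by decide) (by decide) (by decide)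
    (by decide)
  have c2 := PS_comm' hX 0 2 1 3 (by decide) (by decide) (by decide) (by decide) (by decide)
    (by decide)
  have c3 := PS_comm' hX 0 3 1 2 (by decide) (by decide) (by decide) (by decide) (by decide)
    (by decide)
  -- triples
  have k34 : ∀ i j : Fin 5, i ≠ j → i ≠ 3 → i ≠ 4 → j ≠ 3 → j ≠ 4 →
      X i j * (X 0 1 + X 0 2 + X 1 2) = (X 0 1 + X 0 2 + X 1 2) * X i j := by
    intro i j h1 h2 h3 h4 h5
    rw [s34]
    exact PS_comm' hX i j 3 4 h1 h2 h3 h4 h5 (by decide)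
  have k24 : ∀ i j : Fin 5, i ≠ j → i ≠ 2 → i ≠ 4 → j ≠ 2 → j ≠ 4 →
      X i j * (X 0 1 + X 0 3 + X 1 3) = (X 0 1 + X 0 3 + X 1 3) * X i j := by
    intro i j h1 h2 h3 h4 h5
    rw [s24]
    exact PS_comm' hX i j 2 4 h1 h2 h3 h4 h5 (by decide)
  have k14 : ∀ i j : Fin 5, i ≠ j → i ≠ 1 → i ≠ 4 → j ≠ 1 → j ≠ 4 →
      X i j * (X 0 2 + X 0 3 + X 2 3) = (X 0 2 + X 0 3 + X 2 3) * X i j := by
    intro i j h1 h2 h3 h4 h5
    rw [s14]
    exact PS_comm' hX i j 1 4 h1 h2 h3 h4 h5 (by decide)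
  have k40 : ∀ i j : Fin 5, i ≠ j → i ≠ 4 → i ≠ 0 → j ≠ 4 → j ≠ 0 →
      X i j * (X 1 2 + X 1 3 + X 2 3) = (X 1 2 + X 1 3 + X 2 3) * X i j := by
    intro i j h1 h2 h3 h4 h5
    rw [s40]
    exact PS_comm' hX i j 4 0 h1 h2 h3 h4 h5 (by decide)
  have e1 : ∀ p q r : B, p + q + r = q + p + r := fun p q r => by abel
  have e2 : ∀ p q r : B, p + q + r = r + p + q := fun p q r => by abel
  have hT : KZ.T4 (X 0 1) (X 0 2) (X 0 3) (X 1 2) (X 1 3) (X 2 3) := by
    constructor
    · exact c1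
    · exact c2
    · exact c3
    · exact tri_aux (k34 0 1 (by decide) (by decide) (by decide) (by decide) (by decide))
    · refine tri_aux ?_
      rw [← e1]
      exact k34 0 2 (by decide) (by decide) (by decide) (by decide) (by decide)
    · refine tri_aux ?_
      rw [← e2]
      exact k34 1 2 (by decide) (by decide) (by decide) (by decide) (by decide)
    · exact tri_aux (k24 0 1 (by decide) (by decide) (by decide) (by decide) (by decide))
    · refine tri_aux ?_
      rw [← e1]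
      exact k24 0 3 (by decide) (by decide) (by decide) (by decide) (by decide)
    · refine tri_aux ?_
      rw [← e2]
      exact k24 1 3 (by decide) (by decide) (by decide) (by decide) (by decide)
    · exact tri_aux (k14 0 2 (by decide) (by decide) (by decide) (by decide) (by decide))
    · refine tri_aux ?_
      rw [← e1]
      exact k14 0 3 (by decide) (by decide) (by decide) (by decide) (by decide)
    · refine tri_aux ?_
      rw [← e2]
      exact k14 2 3 (by decide) (by decide) (by decide) (by decide) (by decide)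
    · exact tri_aux (k40 1 2 (by decide) (by decide) (by decide) (by decide) (by decide))
    · refine tri_aux ?_
      rw [← e1]
      exact k40 1 3 (by decide) (by decide) (by decide) (by decide) (by decide)
    · refine tri_aux ?_
      rw [← e2]
      exact k40 2 3 (by decide) (by decide) (by decide) (by decide) (by decide)
  -- nilpotency
  have hsp := nspan hN
  have hm : ∀ i j, X i j ∈ Submodule.span ℂ {z | ∃ i j, z = X i j} := fun i j =>
    Submodule.subset_span ⟨i, j, rfl⟩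
  have hm2 : ∀ i j k l, X i j + X k l ∈ Submodule.span ℂ {z | ∃ i j, z = X i j} :=
    fun i j k l => Submodule.add_mem _ (hm i j) (hm k l)
  have hm0 : (0 : B) ∈ Submodule.span ℂ {z | ∃ i j, z = X i j} := Submodule.zero_mem _
  have P1 := pent_alg (Φ := Φ) hpent (mono hN (by
    rintro z (rfl | rfl | rfl | rfl | rfl | rfl) <;> exact ⟨_, _, rfl⟩)) hT
  -- values at zero
  have z1 : ∀ b : B, KZ.evS Φ N 0 b = 1 := fun b => ev_zero h0 (c := true) ht rfl
  have z2 : ∀ a : B, KZ.evS Φ N a 0 = 1 := fun a => ev_zero h0 (c := false) hf rfl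
  have A1 : KZ.evS Φ N (X 0 1) (X 4 0) = KZ.evS Φ N (X 0 1) (X 1 2 + X 1 3) := by
    have h := gl_alg (Φ := Φ) (N := N) hgl (a := X 0 1) (b := X 1 2 + X 1 3) (a' := 0)
      (b' := X 2 3) (mono hsp (by
        rintro z (rfl | rfl | rfl | rfl)
        · exact hm _ _
        · exact hm2 _ _ _ _
        · exact hm0
        · exact hm _ _)) (by rw [mul_zero, zero_mul]) c1 (by rw [mul_zero, zero_mul]) (by
        symm
        refine tri_aux ?_
        rw [← e2]
        exact k40 2 3 (by decide) (by decide) (by decide) (by decide) (by decide))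
    rw [add_zero, s40, z1, mul_one] at h
    exact h
  have A2 : KZ.evS Φ N (X 3 4) (X 2 3) = KZ.evS Φ N (X 0 2 + X 1 2) (X 2 3) := by
    have h := gl_alg (Φ := Φ) (N := N) hgl (a := X 0 2 + X 1 2) (b := X 2 3) (a' := X 0 1)
      (b' := 0) (mono hsp (by
        rintro z (rfl | rfl | rfl | rfl)
        · exact hm2 _ _ _ _
        · exact hm _ _
        · exact hm _ _
        · exact hm0)) (by
        symm
        exact tri_aux (k34 0 1 (by decide) (by decide) (by decide) (by decide) (by decide)))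
        (by rw [mul_zero, zero_mul]) c1.symm (by rw [mul_zero, zero_mul])
    rw [add_zero, z2, mul_one] at h
    rw [← h, ← s34]
    congr 1
    abel
  have A3 : KZ.evS Φ N (X 3 4) (X 4 0) = KZ.evS Φ N (X 0 1 + X 0 2) (X 1 3 + X 2 3) := by
    have hcc : KZ.evS Φ N (X 1 2) (X 1 2) = 1 := by
      have h := gl_alg (Φ := Φ) (N := N) hgl (a := X 1 2) (b := 0) (a' := 0)
        (b' := X 1 2) (mono hsp (by
          rintro z (rfl | rfl | rfl | rfl)
          · exact hm _ _
          · exact hm0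
          · exact hm0
          · exact hm _ _)) (by rw [mul_zero, zero_mul]) rfl rfl (by rw [mul_zero, zero_mul])
      rw [add_zero, zero_add, z1, z2, mul_one] at h
      exact h
    have h := gl_alg (Φ := Φ) (N := N) hgl (a := X 0 1 + X 0 2) (b := X 1 3 + X 2 3)
      (a' := X 1 2) (b' := X 1 2) (mono hsp (by
        rintro z (rfl | rfl | rfl | rfl)
        · exact hm2 _ _ _ _
        · exact hm2 _ _ _ _
        · exact hm _ _
        · exact hm _ _)) hT.a3.symm hT.a3.symm hT.e1.symm hT.e1.symm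
    rw [hcc, mul_one, s34] at h
    rw [← h, ← s40]
    congr 1
    abel
  have I1 : KZ.evS Φ N (X 4 0) (X 0 1) * KZ.evS Φ N (X 0 1) (X 4 0) = 1 :=
    inv_alg hinv (mono hN (by rintro z (rfl | rfl) <;> exact ⟨_, _, rfl⟩))
  have I2 : KZ.evS Φ N (X 2 3) (X 3 4) * KZ.evS Φ N (X 3 4) (X 2 3) = 1 :=
    inv_alg hinv (mono hN (by rintro z (rfl | rfl) <;> exact ⟨_, _, rfl⟩))
  rw [← A1, ← A2, ← A3] at P1
  calc KZ.evS Φ N (X 2 3) (X 3 4) * KZ.evS Φ N (X 4 0) (X 0 1) * KZ.evS Φ N (X 1 2) (X 2 3)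
      * KZ.evS Φ N (X 3 4) (X 4 0) * KZ.evS Φ N (X 0 1) (X 1 2)
      = KZ.evS Φ N (X 2 3) (X 3 4) * KZ.evS Φ N (X 4 0) (X 0 1) * (KZ.evS Φ N (X 1 2) (X 2 3)
      * KZ.evS Φ N (X 3 4) (X 4 0) * KZ.evS Φ N (X 0 1) (X 1 2)) := by
        simp only [mul_assoc]
    _ = KZ.evS Φ N (X 2 3) (X 3 4) * (KZ.evS Φ N (X 4 0) (X 0 1) *
        KZ.evS Φ N (X 0 1) (X 4 0)) * KZ.evS Φ N (X 3 4) (X 2 3) := by
        rw [← P1]; simp only [mul_assoc]
    _ = 1 := by rw [I1, mul_one, I2]

end pent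

end AssocKZ

open AssocKZ in
/- EC2 -/
theorem assoc_of_target (h : KZ.Target) (N : ℕ) (hN : 2 ≤ N) :
    ∃ P : FA ℂ, Assoc N P ∧ cXY (N - 1) P ≠ 0 := by
  obtain ⟨φ, h0, hd, hf, ht, hgl, hinv, hhex, hpent⟩ := h
  set Φ : List Bool → ℂ := fun w => (φ w : ℂ) with hΦ
  have h0' : Φ [] = 1 := by simp [hΦ, h0]
  have hf' : ∀ n : ℕ, 1 ≤ n → Φ (List.replicate n false) = 0 := by
    intro n hn; simp [hΦ, hf n hn]
  have ht' : ∀ n : ℕ, 1 ≤ n → Φ (List.replicate n true) = 0 := by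
    intro n hn; simp [hΦ, ht n hn]
  have hd' : cXY (N - 1) (PP Φ N) ≠ 0 := by
    rw [cXY_PP Φ (by omega)]
    simpa only [hΦ, ne_eq, Complex.ofReal_eq_zero] using hd N hN
  refine ⟨PP Φ N, ⟨?_, ?_, ?_, ?_, ?_, ?_⟩, hd'⟩
  · -- degree zero
    rw [hp_PP, Finset.sum_eq_single []]
    · rw [h0', one_smul]; rfl
    · intro w _ hw
      rw [if_neg (fun h => hw (List.length_eq_zero_iff.1 h.symm)), smul_zero]
    · intro h
      exact absurd (KZ.mem_words.2 (by simp)) h
  · -- degree one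
    rw [hp_PP]
    refine Finset.sum_eq_zero fun w _ => ?_
    by_cases h1 : 1 = w.length
    · obtain ⟨c, rfl⟩ := List.length_eq_one_iff.1 h1.symm
      have h2 : Φ [c] = 0 := by
        cases c
        · exact hf' 1 le_rfl
        · exact ht' 1 le_rfl
      rw [h2, zero_smul]
    · rw [if_neg h1, smul_zero]
  · intro B _ _ a b a' b' hN h1 h2 h3 h4
    rw [ev_PP, ev_PP, ev_PP]
    exact gl_alg hgl hN h1 h2 h3 h4
  · intro B _ _ a b hN
    rw [ev_PP, ev_PP]
    exact inv_alg hinv hN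
  · intro B _ _ a b c hN h0 s hs
    rw [ev_PP, ev_PP, ev_PP]
    exact hex_alg hhex hN h0 hs
  · intro B _ _ X hX hN
    simp only [ev_PP]
    exact pent_PS h0' hf' ht' hgl hinv hpent hX hN

end Vale.Agent.P029.Low
end
end
end

section

section

/-! P029 lower half: the flow preserves the pentagon. -/

noncomputable section

attribute [local instance 100] LieRing.ofAssociativeRing

namespace Vale.Agent.P029.Low

open Vale.Agent.P029 TrivSqZeroExt

namespace ExpPent

/-- The letters. -/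
abbrev lt (i j : Fin 5) : FreeAlgebra ℂ (Fin 5 × Fin 5) := FreeAlgebra.ι ℂ (i, j)

/-- The relations of a `P5`-system. -/
def R : Set (FreeAlgebra ℂ (Fin 5 × Fin 5)) :=
  {f | (∃ i, f = lt i i) ∨ (∃ i j, f = lt i j - lt j i) ∨ (∃ i, f = ∑ j, lt i j) ∨
    ∃ i j k l, i ≠ j ∧ i ≠ k ∧ i ≠ l ∧ j ≠ k ∧ j ≠ l ∧ k ≠ l ∧ f = ⁅lt i j, lt k l⁆}

lemma R_iff {B : Type} [Ring B] [Algebra ℂ B] (X : Fin 5 × Fin 5 → B) :
    (∀ f ∈ R, FreeAlgebra.lift ℂ X f = 0) ↔ PS (fun i j => X (i, j)) := by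
  constructor
  · intro h
    refine ⟨fun i => ?_, fun i j => ?_, fun i => ?_, fun i j k l h1 h2 h3 h4 h5 h6 => ?_⟩
    · have := h (lt i i) (Or.inl ⟨i, rfl⟩)
      simpa using this
    · have := h (lt i j - lt j i) (Or.inr (Or.inl ⟨i, j, rfl⟩))
      simpa [sub_eq_zero] using this
    · have := h (∑ j, lt i j) (Or.inr (Or.inr (Or.inl ⟨i, rfl⟩)))
      simpa only [map_sum, FreeAlgebra.lift_ι_apply] using this
    · have := h ⁅lt i j, lt k l⁆ (Or.inr (Or.inr (Or.inr ⟨i, j, k, l, h1, h2, h3, h4, h5, h6, rfl⟩)))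
      simpa only [LieRing.of_associative_ring_bracket, map_sub, map_mul, FreeAlgebra.lift_ι_apply] using this
  · rintro h f (⟨i, rfl⟩ | ⟨i, j, rfl⟩ | ⟨i, rfl⟩ | ⟨i, j, k, l, h1, h2, h3, h4, h5, h6, rfl⟩)
    · simpa using h.diag i
    · simpa [sub_eq_zero] using h.symm i j
    · simpa only [map_sum, FreeAlgebra.lift_ι_apply] using h.sum i
    · have := h.comm i j k l h1 h2 h3 h4 h5 h6
      simpa only [LieRing.of_associative_ring_bracket, map_sub, map_mul, FreeAlgebra.lift_ι_apply] using this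

/-- The values of the derivation. -/
def zz (ψ : LK ℂ) (i : Fin 5 × Fin 5) : FreeAlgebra ℂ (Fin 5 × Fin 5) := Zep ℂ lt ψ i.1 i.2

lemma Zep_map {g h : Type} [LieRing g] [LieAlgebra ℂ g] [LieRing h] [LieAlgebra ℂ h]
    (f : g →ₗ⁅ℂ⁆ h) (X : Fin 5 → Fin 5 → g) (ψ : LK ℂ) (i j : Fin 5) :
    f (Zep ℂ X ψ i j) = Zep ℂ (fun i j => f (X i j)) ψ i j := by
  fin_cases i <;> fin_cases j <;> simp [Zep, cc, map_sb]

lemma lift_zz {B : Type} [Ring B] [Algebra ℂ B] (X : Fin 5 × Fin 5 → B) (ψ : LK ℂ)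
    (i j : Fin 5) : FreeAlgebra.lift ℂ X (zz ψ (i, j)) = Zep ℂ (fun i j => X (i, j)) ψ i j := by
  have h := Zep_map (AlgHom.toLieHom (FreeAlgebra.lift ℂ X)) lt ψ i j
  simpa only [zz, AlgHom.coe_toLieHom, FreeAlgebra.lift_ι_apply] using h

/-- The span of the words of length at least `k`. -/
def WW (k : ℕ) : Submodule ℂ (FreeAlgebra ℂ (Fin 5 × Fin 5)) :=
  Submodule.span ℂ {f | ∃ l : List (Fin 5 × Fin 5), k ≤ l.length ∧
    f = (l.map (FreeAlgebra.ι ℂ)).prod}

lemma WW_mul {i j : ℕ} {a b : FreeAlgebra ℂ (Fin 5 × Fin 5)} (ha : a ∈ WW i) (hb : b ∈ WW j) :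
    a * b ∈ WW (i + j) := by
  have h := Submodule.mul_mem_mul ha hb
  rw [WW, WW, Submodule.span_mul_span] at h
  refine Submodule.span_mono ?_ h
  rintro _ ⟨_, ⟨l, hl, rfl⟩, _, ⟨l', hl', rfl⟩, rfl⟩
  refine ⟨l ++ l', by simp only [List.length_append]; omega, by simp⟩

lemma WW_mono {i j : ℕ} (h : i ≤ j) : WW j ≤ WW i := by
  refine Submodule.span_mono ?_
  rintro _ ⟨l, hl, rfl⟩
  exact ⟨l, h.trans hl, rfl⟩

lemma WW_lie {i j : ℕ} {a b : FreeAlgebra ℂ (Fin 5 × Fin 5)} (ha : a ∈ WW i) (hb : b ∈ WW j) :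
    ⁅a, b⁆ ∈ WW (i + j) := by
  rw [LieRing.of_associative_ring_bracket]
  refine sub_mem (WW_mul ha hb) ?_
  rw [add_comm]
  exact WW_mul hb ha

lemma lt_mem (i j : Fin 5) : lt i j ∈ WW 1 := by
  refine Submodule.subset_span ⟨[(i, j)], by simp, by simp⟩

lemma sb_mem {a b : FreeAlgebra ℂ (Fin 5 × Fin 5)} (ha : a ∈ WW 1) (hb : b ∈ WW 1) (ψ : LK ℂ) :
    sb a b ψ ∈ WW 1 := by
  induction ψ using lk_induction with
  | hx => simpa using ha
  | hy => simpa using hb
  | h0 => simp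
  | hadd u v hu hv => simpa only [map_add] using add_mem hu hv
  | hsmul c u hu => simpa only [map_smul] using Submodule.smul_mem _ _ hu
  | hlie u v hu hv =>
    rw [LieHom.map_lie]
    exact WW_mono (by norm_num) (WW_lie hu hv)

theorem Zep_ind {g : Type} [LieRing g] [LieAlgebra ℂ g] (X : Fin 5 → Fin 5 → g) (ψ : LK ℂ)
    (S : g → Prop) (h0 : S 0) (h1 : ∀ i j a b c, S ⁅X i j, cc ℂ X ψ a b c⁆)
    (h2 : ∀ i j a b c a' b' c', S ⁅X i j, cc ℂ X ψ a b c + cc ℂ X ψ a' b' c'⁆) (i j : Fin 5) :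
    S (Zep ℂ X ψ i j) := by
  fin_cases i <;> fin_cases j
  · exact h0
  · exact h0
  · exact h1 0 2 1 0 2
  · exact h2 0 3 0 1 2 4 3 0
  · exact h2 0 4 0 1 2 3 4 0
  · exact h0
  · exact h0
  · exact h1 1 2 0 1 2
  · exact h2 1 3 1 0 2 4 3 1
  · exact h2 1 4 1 0 2 3 4 1
  · exact h1 0 2 1 0 2
  · exact h1 1 2 0 1 2
  · exact h0
  · exact h1 2 3 4 3 2
  · exact h1 2 4 3 4 2
  · exact h2 0 3 0 1 2 4 3 0
  · exact h2 1 3 1 0 2 4 3 1
  · exact h1 2 3 4 3 2
  · exact h0
  · exact h0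
  · exact h2 0 4 0 1 2 3 4 0
  · exact h2 1 4 1 0 2 3 4 1
  · exact h1 2 4 3 4 2
  · exact h0
  · exact h0

lemma WW_lie2 {a b : FreeAlgebra ℂ (Fin 5 × Fin 5)} (ha : a ∈ WW 1) (hb : b ∈ WW 1) :
    ⁅a, b⁆ ∈ WW 2 :=
  WW_mono (by norm_num) (WW_lie ha hb)

lemma zz_mem (ψ : LK ℂ) (i : Fin 5 × Fin 5) : zz ψ i ∈ WW 2 := by
  have hc : ∀ a b c, cc ℂ lt ψ a b c ∈ WW 1 := by
    intro a b c
    unfold cc
    exact sb_mem (lt_mem _ _) (lt_mem _ _) ψ
  have h0 : (0 : FreeAlgebra ℂ (Fin 5 × Fin 5)) ∈ WW 2 := zero_mem _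
  have h1 : ∀ i j a b c, ⁅lt i j, cc ℂ lt ψ a b c⁆ ∈ WW 2 :=
    fun i j a b c => WW_lie2 (lt_mem i j) (hc a b c)
  have h2 : ∀ i j a b c a' b' c', ⁅lt i j, cc ℂ lt ψ a b c + cc ℂ lt ψ a' b' c'⁆ ∈ WW 2 :=
    fun i j a b c a' b' c' => WW_lie2 (lt_mem i j) (add_mem (hc a b c) (hc a' b' c'))
  unfold zz
  exact Zep_ind lt ψ (fun u => u ∈ WW 2) h0 h1 h2 i.1 i.2

/-- `a + ε b` in the dual numbers. -/
def dn {B : Type} [Ring B] (u : Dbl B) : DualNumber B := inl u.re + inr u.ep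

lemma dn_zero {B : Type} [Ring B] : dn (0 : Dbl B) = 0 := by
  simp only [dn, Dbl.re_zero, inl_zero, Dbl.ep_zero, DualNumber.inr_eq_smul_eps, zero_smul, add_zero]

lemma dn_add {B : Type} [Ring B] (u v : Dbl B) : dn (u + v) = dn u + dn v := by
  simp only [dn, Dbl.re_add, Dbl.ep_add, inl_add, inr_add]
  abel

lemma dn_lie {B : Type} [Ring B] (u v : Dbl B) : dn ⁅u, v⁆ = ⁅dn u, dn v⁆ := by
  apply TrivSqZeroExt.ext
  · simp only [dn, Dbl.re_lie, LieRing.of_associative_ring_bracket, inl_sub, inl_mul, Dbl.ep_lie, DualNumber.inr_eq_smul_eps, fst_add, fst_sub, fst_mul, fst_inl, fst_smul, DualNumber.fst_eps, smul_eq_mul, mul_zero, add_zero]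
  · simp only [dn, LieRing.of_associative_ring_bracket, Dbl.re_lie, Dbl.ep_lie, snd_add, snd_inl,
      snd_inr, snd_sub, snd_mul, fst_add, fst_inl, fst_inr, smul_eq_mul,
      MulOpposite.smul_eq_mul_unop, MulOpposite.unop_op, add_zero, zero_add]
    abel

lemma PS_dn {B : Type} [Ring B] {Z : Fin 5 → Fin 5 → Dbl B} (h : PS Z) :
    PS (fun i j => dn (Z i j)) := by
  refine ⟨fun i => ?_, fun i j => ?_, fun i => ?_, fun i j k l h1 h2 h3 h4 h5 h6 => ?_⟩
  · rw [h.diag, dn_zero]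
  · rw [h.symm]
  · have := h.sum i
    simp only [Fin.sum_univ_five, ← dn_add] at this ⊢
    rw [this, dn_zero]
  · rw [← dn_lie, h.comm i j k l h1 h2 h3 h4 h5 h6, dn_zero]

lemma ev_toFree {B : Type} [Ring B] [Algebra ℂ B] (a b : B) (ψ : LK ℂ) :
    ev a b (toFree ℂ (Fin 2) ψ) = sb a b ψ := by
  have : ((AlgHom.toLieHom (ev a b)).comp (toFree ℂ (Fin 2)) : LK ℂ →ₗ⁅ℂ⁆ B) = sb a b := by
    apply hom_ext'
    · rw [sb_x]
      simp [kx, toFree_of, ev]
    · rw [sb_y]
      simp [ky, toFree_of, ev]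
  rw [← this]
  rfl

lemma ev_comp {B C : Type} [Ring B] [Algebra ℂ B] [Ring C] [Algebra ℂ C] (f : B →ₐ[ℂ] C)
    (a b : B) (P : FA ℂ) : f (ev a b P) = ev (f a) (f b) P := by
  have : f.comp (ev a b) = ev (f a) (f b) := by
    apply FreeAlgebra.hom_ext
    funext i
    fin_cases i <;> simp [ev]
  rw [← this]
  rfl

lemma prod_mem_Fil {V : Type} [Ring V] [Algebra ℂ V] {N : ℕ} {δ : V →ₗ[ℂ] V}
    {Fil : ℕ → Submodule ℂ V} (h : FilAlg N δ Fil) (l : List V) (hl : ∀ x ∈ l, x ∈ Fil 1) :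
    l.prod ∈ Fil l.length := by
  induction l with
  | nil => simp only [List.length_nil, h.zero, List.prod_nil, Submodule.mem_top]
  | cons x l ih =>
    rw [List.prod_cons, List.length_cons, add_comm]
    exact h.mul 1 _ _ _ (hl x (by simp)) (ih fun y hy => hl y (by simp [hy]))

end ExpPent

theorem pent_exp {N m : ℕ} (hm : 2 ≤ m) {ψ : LK ℂ} (h : Sol ℂ m ψ) {P : FA ℂ} (hP : Assoc N P)
    (B : Type) [Ring B] [Algebra ℂ B] (X : Fin 5 → Fin 5 → B) (hX : PS X)
    (hN : KZ.NilS {z | ∃ i j, z = X i j} N) :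
    ev (X 2 3) (X 3 4) (eTF N ψ P) * ev (X 4 0) (X 0 1) (eTF N ψ P)
      * ev (X 1 2) (X 2 3) (eTF N ψ P) * ev (X 3 4) (X 4 0) (eTF N ψ P)
      * ev (X 0 1) (X 1 2) (eTF N ψ P) = 1 := by
  have hG : GG ψ = 0 := GG_zero hm h
  obtain ⟨V, _, _, X', δ, Fil, hR, hF, hX1, hδ, hU⟩ := exists_univ ExpPent.R N
    (ExpPent.zz ψ) (fun i => ExpPent.zz_mem ψ i) (by
      intro C _ _ Y hY
      rw [ExpPent.R_iff] at hY ⊢
      have h1 := PS_dbl hm h hG hY
      have h2 := ExpPent.PS_dn h1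
      have h3 : (fun i j => (inl (Y (i, j)) + inr (FreeAlgebra.lift ℂ Y (ExpPent.zz ψ (i, j))) :
          DualNumber C)) = fun i j => ExpPent.dn (Dbl.mk (Y (i, j))
            (Zep ℂ (fun i j => Y (i, j)) ψ i j)) := by
        funext i j
        rw [ExpPent.lift_zz]
        rfl
      rw [h3]
      exact h2)
  have hPS : PS (fun i j => X' (i, j)) := (ExpPent.R_iff X').1 hR
  set Y : Fin 5 → Fin 5 → V := fun i j => X' (i, j) with hY
  have hδY : ∀ i j, δ (Y i j) = Zep ℂ Y ψ i j := by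
    intro i j
    rw [hY]
    simp only
    rw [hδ, ExpPent.lift_zz]
  have hYF : ∀ i j, Y i j ∈ Fil 1 := fun i j => hX1 _
  obtain ⟨F, hF2⟩ := hU B (fun i => X i.1 i.2) ((ExpPent.R_iff _).2 hX) (by
    intro l hl hl2
    apply hN l hl
    intro x hx
    obtain ⟨i, rfl⟩ := hl2 x hx
    exact ⟨i.1, i.2, rfl⟩)
  have hnil : KZ.NilS {z | ∃ i j, z = Y i j} N := by
    intro l hl hl2
    have := ExpPent.prod_mem_Fil hF l (by
      intro x hx
      obtain ⟨i, j, rfl⟩ := hl2 x hx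
      exact hYF i j)
    rw [hl, hF.top] at this
    simpa only [Submodule.mem_bot] using this
  have hFY : ∀ i j, F (Y i j) = X i j := fun i j => hF2 (i, j)
  -- it suffices to prove the identity in `V`
  suffices H : ev (Y 2 3) (Y 3 4) (eTF N ψ P) * ev (Y 4 0) (Y 0 1) (eTF N ψ P)
      * ev (Y 1 2) (Y 2 3) (eTF N ψ P) * ev (Y 3 4) (Y 4 0) (eTF N ψ P)
      * ev (Y 0 1) (Y 1 2) (eTF N ψ P) = 1 by
    have := congrArg F H
    simpa only [map_mul, ExpPent.ev_comp, hFY, map_one] using this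
  set p := cc ℂ Y ψ 0 1 2 with hp
  set q := cc ℂ Y ψ 3 4 0 with hq
  set r := cc ℂ Y ψ 1 2 3 with hr
  set s := cc ℂ Y ψ 4 0 1 with hs
  set t := cc ℂ Y ψ 2 3 4 with ht
  have hsum : p + r + t + q + s = 0 := penta_sum h hPS
  have kx1 := pent_dbl hm h hG hPS (kx ℂ)
  have ky1 := pent_dbl hm h hG hPS (ky ℂ)
  have ccx : ∀ a b c, cc ℂ Y (kx ℂ) a b c = Y a b := fun a b c => by simp [cc]
  have ccy : ∀ a b c, cc ℂ Y (ky ℂ) a b c = Y b c := fun a b c => by simp [cc]
  have ccy2 : ∀ a b c, cc ℂ Y ⁅ky ℂ, ψ⁆ a b c = ⁅Y b c, cc ℂ Y ψ a b c⁆ := fun a b c => by simp only [cc, LieHom.map_lie, sb_y]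
  have cc0 : ∀ a b c, cc ℂ Y 0 a b c = 0 := fun a b c => by simp only [cc, map_zero]
  simp only [sb_x, sb_y, Dp_x, Dp_y, ccx, ccy, ccy2, cc0, ← hp, ← hq, ← hr, ← hs, ← ht] at kx1 ky1
  obtain ⟨a1, a2, a3, a4, a5⟩ := kx1
  obtain ⟨b1, b2, b3, b4, b5⟩ := ky1
  replace a1 := congrArg Dbl.ep a1
  replace a2 := congrArg Dbl.ep a2
  replace a3 := congrArg Dbl.ep a3
  replace a4 := congrArg Dbl.ep a4
  replace a5 := congrArg Dbl.ep a5
  replace b1 := congrArg Dbl.ep b1
  replace b2 := congrArg Dbl.ep b2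
  replace b3 := congrArg Dbl.ep b3
  replace b4 := congrArg Dbl.ep b4
  replace b5 := congrArg Dbl.ep b5
  simp only [Dbl.ep_mk, ← hδY, LieRing.of_associative_ring_bracket] at a1 a2 a3 a4 a5 b1 b2 b3 b4 b5
  -- the elements of positive filtration
  have hFsb : ∀ (a b : V), a ∈ Fil 1 → b ∈ Fil 1 → ∀ φ : LK ℂ, sb a b φ ∈ Fil 1 := by
    intro a b ha hb φ
    induction φ using lk_induction with
    | hx => simpa using ha
    | hy => simpa using hb
    | h0 => simp
    | hadd u v hu hv => simpa only [map_add] using add_mem hu hv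
    | hsmul c u hu => simpa only [map_smul] using Submodule.smul_mem _ _ hu
    | hlie u v hu hv =>
      rw [LieHom.map_lie, LieRing.of_associative_ring_bracket]
      exact sub_mem (hF.anti 1 (hF.mul 1 1 _ _ hu hv)) (hF.anti 1 (hF.mul 1 1 _ _ hv hu))
  have hpF : p ∈ Fil 1 := hFsb _ _ (hYF _ _) (hYF _ _) ψ
  have hqF : q ∈ Fil 1 := hFsb _ _ (hYF _ _) (hYF _ _) ψ
  have hrF : r ∈ Fil 1 := hFsb _ _ (hYF _ _) (hYF _ _) ψ
  have hsF : s ∈ Fil 1 := hFsb _ _ (hYF _ _) (hYF _ _) ψ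
  have ep : ev (Y 0 1) (Y 1 2) (toFree ℂ (Fin 2) ψ) = p := ExpPent.ev_toFree _ _ _
  have eq : ev (Y 3 4) (Y 4 0) (toFree ℂ (Fin 2) ψ) = q := ExpPent.ev_toFree _ _ _
  have er : ev (Y 1 2) (Y 2 3) (toFree ℂ (Fin 2) ψ) = r := ExpPent.ev_toFree _ _ _
  have es : ev (Y 4 0) (Y 0 1) (toFree ℂ (Fin 2) ψ) = s := ExpPent.ev_toFree _ _ _
  have et : ev (Y 2 3) (Y 3 4) (toFree ℂ (Fin 2) ψ) = t := ExpPent.ev_toFree _ _ _
  have E1 := ev_eTF hF (ψ := ψ) (a := Y 0 1) (b := Y 1 2) (u := 0)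
    (by rw [a1]; simp) (by rw [ep, b1]; simp) P
  have E2 := ev_eTF hF (ψ := ψ) (a := Y 3 4) (b := Y 4 0) (u := -p)
    (by rw [a2]; noncomm_ring) (by rw [eq, b2]; noncomm_ring) P
  have E3 := ev_eTF hF (ψ := ψ) (a := Y 1 2) (b := Y 2 3) (u := -(p + q))
    (by rw [a3]; noncomm_ring) (by rw [er, b3]; noncomm_ring) P
  have E4 := ev_eTF hF (ψ := ψ) (a := Y 4 0) (b := Y 0 1) (u := -(p + q + r))
    (by rw [a4]; noncomm_ring) (by rw [es, b4]; noncomm_ring) P
  have E5 := ev_eTF hF (ψ := ψ) (a := Y 2 3) (b := Y 3 4) (u := -(p + q + r + s))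
    (by rw [a5]; noncomm_ring) (by rw [et, b5]; noncomm_ring) P
  rw [ep] at E1
  rw [eq] at E2
  rw [er] at E3
  rw [es] at E4
  rw [et] at E5
  have u1 : (0 : V) - p = -p := by abel
  have u2 : -p - q = -(p + q) := by abel
  have u3 : -(p + q) - r = -(p + q + r) := by abel
  have u4 : -(p + q + r) - s = -(p + q + r + s) := by abel
  have u5 : -(p + q + r + s) - t = 0 := by
    have : -(p + q + r + s) - t = -(p + r + t + q + s) := by abel
    rw [this, hsum, neg_zero]
  rw [u1] at E1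
  rw [u2] at E2
  rw [u3] at E3
  rw [u4] at E4
  rw [u5] at E5
  rw [E1, E2, E3, E4, E5]
  have m1 : -p ∈ Fil 1 := neg_mem hpF
  have m2 : -(p + q) ∈ Fil 1 := neg_mem (add_mem hpF hqF)
  have m3 : -(p + q + r) ∈ Fil 1 := neg_mem (add_mem (add_mem hpF hqF) hrF)
  have m4 : -(p + q + r + s) ∈ Fil 1 := neg_mem (add_mem (add_mem (add_mem hpF hqF) hrF) hsF)
  have m0 : (0 : V) ∈ Fil 1 := zero_mem _
  rw [EX_mul hF m0 m4 m3, EX_mul hF m0 m3 m2, EX_mul hF m0 m2 m1,
    EX_mul hF m0 m1 m0, hP.pent V Y hPS hnil, EX_one hF]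

end Vale.Agent.P029.Low
end
end
end

section

section

/-! P029 lower half: the exponential action preserves truncated associators, and the existence of
a solution with a nonzero coefficient of `x^(n-1) y` (task EH). -/

noncomputable section

attribute [local instance 100] LieRing.ofAssociativeRing

namespace Vale.Agent.P029.Low

open Vale.Agent.P029

theorem assoc_exp {N m : ℕ} (hm : 2 ≤ m) {ψ : LK ℂ} (h : Sol ℂ m ψ) {P : FA ℂ}
    (hP : Assoc N P) : Assoc N (eTF N ψ P) where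
  one := by rw [hp_eTF_low hm h.wt (by omega)]; exact hP.one
  lin := by rw [hp_eTF_low hm h.wt (by omega)]; exact hP.lin
  gl := fun B _ _ a b a' b' hN h1 h2 h3 h4 => gl_exp hm h hP B a b a' b' hN h1 h2 h3 h4
  inv := fun B _ _ a b hN => inv_exp hm h hP B a b hN
  hex := fun B _ _ a b c hN h0 s hs => hex_exp hm h hP B a b c hN h0 s hs
  pent := fun B _ _ X hX hN => pent_exp hm h hP B X hX hN

namespace Induct

theorem hp_sub (k : ℕ) (P Q : FA ℂ) : hp k (P - Q) = hp k P - hp k Q := by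
  unfold hp
  rw [map_sub, Polynomial.coeff_sub]

theorem cXY_sub (m : ℕ) (P Q : FA ℂ) : cXY m (P - Q) = cXY m P - cXY m Q := by
  have h := DegE.cXY_add m (P - Q) Q
  rw [sub_add_cancel] at h
  rw [h, add_sub_cancel_right]

/-- One step: two associators which agree below `j` differ by a solution of weight `j`. -/
theorem step {n j : ℕ} (hj : 2 ≤ j) (hjn : j ≤ n) {P Q : FA ℂ} (hP : Assoc n P)
    (hQ : Assoc n Q) (hlow : ∀ k < j, hp k Q = hp k P) :
    ∃ ψ, Sol ℂ j ψ ∧ toFree ℂ (Fin 2) ψ = hp j P - hp j Q := by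
  refine sol_of_lin hj ?_ (lin_of_assoc hj (assoc_mono hjn hP) (assoc_mono hjn hQ)
    fun k hk => (hlow k hk).symm)
  rw [hp_sub, hp_hp, hp_hp]

theorem chain {n : ℕ} (hodd : Odd n) {P : FA ℂ} (hP : Assoc n P) (j : ℕ) (hj : 2 ≤ j) :
    j ≤ n → ∃ Q, Assoc n Q ∧ (∀ k < j, hp k Q = hp k P) ∧
      cXY (n - 1) Q = -cXY (n - 1) P := by
  induction j, hj using Nat.le_induction with
  | base =>
    intro hn
    refine ⟨_, assoc_neg hP, fun k hk => ?_, ?_⟩
    · interval_cases k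
      · rw [(assoc_neg hP).one, hP.one]
      · rw [(assoc_neg hP).lin, hP.lin]
    · rw [cXY_neg, Nat.sub_add_cancel (by omega), hodd.neg_one_pow, neg_one_mul]
  | succ j hj ih =>
    intro hn
    obtain ⟨Q, hQ, hlow, hc⟩ := ih (by omega)
    obtain ⟨ψ, hψ, hχ⟩ := step hj (by omega) hP hQ hlow
    refine ⟨eTF n ψ Q, assoc_exp hj hψ hQ, fun k hk => ?_, ?_⟩
    · rcases Nat.lt_succ_iff_lt_or_eq.1 hk with h | rfl
      · rw [hp_eTF_low hj hψ.wt h, hlow k h]
      · rw [hp_eTF_eq hj (by omega) hψ.wt hQ.one hQ.lin, hχ, add_sub_cancel]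
    · rw [cXY_eTF hj (by omega) hψ.wt, hc]

end Induct

open Induct in
theorem exists_sol_C {n : ℕ} (hn : 3 ≤ n) (hodd : Odd n) {P : FA ℂ} (hP : Assoc n P)
    (hc : cXY (n - 1) P ≠ 0) :
    ∃ ψ, Sol ℂ n ψ ∧ cXY (n - 1) (toFree ℂ (Fin 2) ψ) ≠ 0 := by
  obtain ⟨Q, hQ, hlow, hcQ⟩ := chain hodd hP n (by omega) le_rfl
  obtain ⟨ψ, hψ, hχ⟩ := step (by omega) le_rfl hP hQ hlow
  refine ⟨ψ, hψ, ?_⟩
  have h1 : ∀ R : FA ℂ, cXY (n - 1) (hp n R) = cXY (n - 1) R := by
    intro R
    have h := cXY_hp (n - 1) R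
    rwa [Nat.sub_add_cancel (by omega)] at h
  rw [hχ, cXY_sub, h1, h1, hcQ, sub_neg_eq_add, ← two_mul]
  exact mul_ne_zero two_ne_zero hc

end Vale.Agent.P029.Low
end
end
end

section

section

/-!
P029-D, task KZ17: the exact pentagon identity between transports along
`V1 = (ε²,ε) → V2 = (ε-ε²,ε) → V3 = (1-ε,1-ε+ε²) → V4 = (1-ε,1-ε²)` and
`V1 → V5 = (ε²,1-ε²) → V4`.
-/

open MeasureTheory Set Filter Topology

noncomputable section

namespace Vale.Agent.P029.KZ

variable {B : Type*} [NormedRing B] [NormedAlgebra ℂ B] [CompleteSpace B]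

/-- transport of a flat section along an edge, with the form written as `ω'`. -/
theorem pentExact_edge {M : Submodule ℂ B} {N : ℕ} (hM : NilS (M : Set B) N)
    {t12 t13 t23 t24 t34 : B} (h12 : t12 ∈ M) (h13 : t13 ∈ M)
    (h23 : t23 ∈ M) (h24 : t24 ∈ M) (h34 : t34 ∈ M) {W : ℝ × ℝ → B}
    (hW : ∀ p ∈ Up, HasFDerivAt W (rmul (pf t12 t13 t23 t24 t34 p) (W p)) p)
    {s t : ℝ} (hst : s ≤ t) {γ : ℝ → ℝ × ℝ} {v : ℝ × ℝ} (hγ : ∀ r, HasDerivAt γ v r)
    (hγU : ∀ r ∈ Icc s t, γ r ∈ Up) {ω' : ℝ → B}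
    (he : ∀ u ∈ Icc s t, pf t12 t13 t23 t24 t34 (γ u) v = ω' u) :
    W (γ t) = Tr N ω' s t * W (γ s) := by
  have hc : ContinuousOn γ (Icc s t) := fun r _ => (hγ r).continuousAt.continuousWithinAt
  have hΩ : ∀ p ∈ Up, ∀ w, pf t12 t13 t23 t24 t34 p w ∈ M := fun p _ w =>
    pf_mem h12 h13 h23 h24 h34 p w
  have h1 := flat_path hM hΩ (pf_continuousOn t12 t13 t23 t24 t34) hW hst (γ' := fun _ => v) hc
    continuousOn_const (fun r _ => hγ r) hγU
  rw [h1]
  congr 1
  exact Tr_congr hM (flat_Fm hΩ (pf_continuousOn t12 t13 t23 t24 t34) hst (γ' := fun _ => v) hc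
    continuousOn_const hγU) he

theorem pent_exact {M : Submodule ℂ B} {N : ℕ} (hM : NilS (M : Set B) N)
    {t12 t13 t14 t23 t24 t34 : B} (h : T4 t12 t13 t14 t23 t24 t34) (h12 : t12 ∈ M) (h13 : t13 ∈ M)
    (h23 : t23 ∈ M) (h24 : t24 ∈ M) (h34 : t34 ∈ M) {ε : ℝ} (h0 : 0 < ε) (h1 : ε ≤ 1 / 4) :
    Tr N (fun u => kz t23 t34 u + pe3 t13 ε u) ε (1 - ε)
      * Tr N (fun u => kz (t12 + t13) (t24 + t34) u + pe2 t13 t34 ε u) (ε - ε ^ 2) (1 - ε)
      * Tr N (fun u => kz t12 t23 u + pe1 t24 ε u) ε (1 - ε)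
    = Tr N (fun u => kz t12 (t23 + t24) u + pe4 t23 ε u) (ε ^ 2) (1 - ε)
      * Tr N (fun u => kz (t13 + t23) t34 u + pe5 t23 ε u) ε (1 - ε ^ 2) := by
  have hε2 : 0 < ε ^ 2 := by (clear * - h0; positivity)
  have hε3 : ε ^ 2 < ε := by nlinarith
  have hV1 : ((ε ^ 2, ε) : ℝ × ℝ) ∈ Up := ⟨hε2, hε3, by linarith only [h1]⟩
  obtain ⟨W, hW1, hW⟩ := pent_W hM h h12 h13 h23 h24 h34 hV1
  -- edge 1
  have e1 := pentExact_edge hM h12 h13 h23 h24 h34 hW (s := ε) (t := 1 - ε) (by linarith only [h1])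
    (γ := fun u => (ε * u, ε)) (v := (ε, 0))
    (fun r => (by simpa using (hasDerivAt_id r).const_mul ε : HasDerivAt (fun u => ε * u) ε r).prodMk
      (hasDerivAt_const r ε))
    (fun r hr => ⟨mul_pos h0 (by linarith only [hε2, hε3, hr.1]), by
      show ε * r < ε
      nlinarith only [h0, hr.2], by show ε < 1; linarith⟩)
    (ω' := fun u => kz t12 t23 u + pe1 t24 ε u)
    (fun u hu => by
      have hu0 : 0 < u := by linarith only [hε2, hε3, hu.1]
      have hu1 : u < 1 := by linarith only [hε2, hε3, hu.2]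
      have hne1 : u - 1 ≠ 0 := by linarith only [hu1]
      have hne2 : ε * u - 1 ≠ 0 := by nlinarith only [h1, h0, hu1]
      have hne3 : 1 - ε * u ≠ 0 := by nlinarith only [h1, h0, hu1]
      have hne4 : ε - ε * u ≠ 0 := by nlinarith only [h0, hu1]
      rw [pf_apply, kz, pe1]
      have a1 : ε / (ε * u) = 1 / u := by (clear * - h0 hu0; field_simp)
      have a2 : (0 - ε) / (ε - ε * u) = 1 / (u - 1) := by
        rw [div_eq_div_iff hne4 hne1]; ring
      have a3 : ε / (ε * u - 1) = -(ε / (1 - ε * u)) := by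
        rw [← div_neg]; congr 1; ring
      simp only [a1, a2, a3, zero_div, zero_smul, add_zero])
  -- edge 2
  have e2 := pentExact_edge hM h12 h13 h23 h24 h34 hW (s := ε - ε ^ 2) (t := 1 - ε) (by linarith only [h1, hε2])
    (γ := fun u => (u, u + ε ^ 2)) (v := (1, 1))
    (fun r => (hasDerivAt_id r).prodMk ((hasDerivAt_id r).add_const (ε ^ 2)))
    (fun r hr => ⟨by show 0 < r; linarith only [hε3, hr.1], by show r < r + ε ^ 2; linarith only [hε2], by
      show r + ε ^ 2 < 1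
      linarith only [hε3, hr.2]⟩)
    (ω' := fun u => kz (t12 + t13) (t24 + t34) u + pe2 t13 t34 ε u)
    (fun u hu => by
      rw [pf_apply, kz, pe2]
      simp only [sub_self, zero_div, zero_smul, sub_smul, smul_add, add_zero]
      abel)
  -- edge 3
  have e3 := pentExact_edge hM h12 h13 h23 h24 h34 hW (s := ε) (t := 1 - ε) (by linarith only [h1])
    (γ := fun u => (1 - ε, 1 - ε + ε * u)) (v := (0, ε))
    (fun r => (hasDerivAt_const r (1 - ε)).prodMk
      ((by simpa only [id_eq, mul_one] using (hasDerivAt_id r).const_mul ε : HasDerivAt (fun u => ε * u) ε r).const_add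
        (1 - ε)))
    (fun r hr => ⟨by show 0 < 1 - ε; linarith only [h1], by
      show 1 - ε < 1 - ε + ε * r
      nlinarith only [h0, hr.1], by
      show 1 - ε + ε * r < 1
      nlinarith only [h0, hr.2]⟩)
    (ω' := fun u => kz t23 t34 u + pe3 t13 ε u)
    (fun u hu => by
      have hu0 : 0 < u := by linarith only [hε2, hε3, hu.1]
      have hu1 : u < 1 := by linarith only [hε2, hε3, hu.2]
      have hne1 : u - 1 ≠ 0 := by linarith only [hu1]
      rw [pf_apply, kz, pe3]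
      have a1 : (ε - 0) / (1 - ε + ε * u - (1 - ε)) = 1 / u := by
        rw [sub_zero, show 1 - ε + ε * u - (1 - ε) = ε * u by ring]; (clear * - h0 hu0; field_simp)
      have a2 : ε / (1 - ε + ε * u - 1) = 1 / (u - 1) := by
        rw [show 1 - ε + ε * u - 1 = ε * (u - 1) by ring]; (clear * - h0 hne1; field_simp)
      simp only [zero_div, zero_smul, zero_add, a1, add_zero, a2]
      abel)
  -- edge 5
  have e5 := pentExact_edge hM h12 h13 h23 h24 h34 hW (s := ε) (t := 1 - ε ^ 2) (by linarith)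
    (γ := fun u => (ε ^ 2, u)) (v := (0, 1))
    (fun r => (hasDerivAt_const r (ε ^ 2)).prodMk (hasDerivAt_id r))
    (fun r hr => ⟨hε2, by show ε ^ 2 < r; linarith only [hε3, hr.1], by show r < 1; linarith only [hε2, hr.2]⟩)
    (ω' := fun u => kz (t13 + t23) t34 u + pe5 t23 ε u)
    (fun u hu => by
      rw [pf_apply, kz, pe5]
      simp only [zero_div, zero_smul, sub_zero, sub_smul, smul_add, add_zero, zero_add]
      abel)
  -- edge 4
  have e4 := pentExact_edge hM h12 h13 h23 h24 h34 hW (s := ε ^ 2) (t := 1 - ε) (by linarith only [h1, hε3])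
    (γ := fun u => (u, 1 - ε ^ 2)) (v := (1, 0))
    (fun r => (hasDerivAt_id r).prodMk (hasDerivAt_const r (1 - ε ^ 2)))
    (fun r hr => ⟨by show 0 < r; linarith only [hε2, hr.1], by show r < 1 - ε ^ 2; linarith only [hε3, hr.2], by
      show 1 - ε ^ 2 < 1
      linarith only [hε2]⟩)
    (ω' := fun u => kz t12 (t23 + t24) u + pe4 t23 ε u)
    (fun u hu => by
      have hne1 : 1 - ε ^ 2 - u ≠ 0 := by linarith only [hε3, hu.2]
      have hne2 : u - 1 + ε ^ 2 ≠ 0 := by linarith only [hε3, hu.2]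
      rw [pf_apply, kz, pe4]
      have a1 : (0 - 1) / (1 - ε ^ 2 - u) = 1 / (u - 1 + ε ^ 2) := by
        rw [div_eq_div_iff hne1 hne2]; ring
      simp only [zero_div, zero_smul, add_zero, a1, smul_add, sub_smul]
      abel)
  -- the vertices
  have v1 : ((ε * ε, ε) : ℝ × ℝ) = (ε ^ 2, ε) := by rw [← sq]
  have v2 : ((ε * (1 - ε), ε) : ℝ × ℝ) = (ε - ε ^ 2, ε - ε ^ 2 + ε ^ 2) := by
    ext <;> simp only <;> ring
  have v3 : ((1 - ε, 1 - ε + ε ^ 2) : ℝ × ℝ) = (1 - ε, 1 - ε + ε * ε) := by rw [← sq]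
  have v4 : ((1 - ε, 1 - ε + ε * (1 - ε)) : ℝ × ℝ) = (1 - ε, 1 - ε ^ 2) := by
    ext <;> simp only <;> ring
  rw [v1, v2, hW1, mul_one] at e1
  rw [v3, e1] at e2
  rw [v4, e2] at e3
  rw [hW1, mul_one] at e5
  rw [e5] at e4
  rw [e4] at e3
  rw [e3, mul_assoc]

end Vale.Agent.P029.KZ
end
end
end

section

section

/-!
P029-D, task KZ14: asymptotics of a perturbed KZ transport.
-/

open MeasureTheory Set Filter Topology

noncomputable section

namespace Vale.Agent.P029.KZ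

variable {B : Type*} [NormedRing B] [NormedAlgebra ℂ B] [CompleteSpace B]

omit [CompleteSpace B] in
theorem edge_fm_add {M : Submodule ℂ B} {f g : ℝ → B} {s t : ℝ} (hf : Fm M f s t)
    (hg : Fm M g s t) : Fm M (fun u => f u + g u) s t :=
  ⟨hf.le, hf.cont.add hg.cont, fun u hu => M.add_mem (hf.mem u hu) (hg.mem u hu)⟩

omit [CompleteSpace B] in
theorem edge_int_add_le {M : Submodule ℂ B} {f g : ℝ → B} {s t : ℝ} (hf : Fm M f s t)
    (hg : Fm M g s t) :
    ∫ u in s..t, ‖f u + g u‖ ≤ (∫ u in s..t, ‖f u‖) + ∫ u in s..t, ‖g u‖ := by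
  have hfi : IntervalIntegrable (fun u => ‖f u‖) volume s t :=
    hf.cont.norm.intervalIntegrable_of_Icc hf.le
  have hgi : IntervalIntegrable (fun u => ‖g u‖) volume s t :=
    hg.cont.norm.intervalIntegrable_of_Icc hf.le
  have hi : IntervalIntegrable (fun u => ‖f u + g u‖) volume s t :=
    (hf.cont.add hg.cont).norm.intervalIntegrable_of_Icc hf.le
  rw [← intervalIntegral.integral_add hfi hgi]
  exact intervalIntegral.integral_mono_on hf.le hi (hfi.add hgi) fun u _ => norm_add_le _ _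

/-- A perturbation of size `C ε` of a form of size `L (1 + |log ε|)`. -/
theorem edge_pert {M : Submodule ℂ B} {N : ℕ} (hM : NilS (M : Set B) N) {ω e : ℝ → ℝ → B}
    {s t : ℝ → ℝ} (hω : ∀ ε, 0 < ε → ε ≤ 1 / 4 → Fm M (ω ε) (s ε) (t ε))
    (he : ∀ ε, 0 < ε → ε ≤ 1 / 4 → Fm M (e ε) (s ε) (t ε)) {L C : ℝ} (hL : 0 ≤ L)
    (hl : ∀ ε, 0 < ε → ε ≤ 1 / 4 → ∫ u in (s ε)..(t ε), ‖ω ε u‖ ≤ L * (1 + |Real.log ε|))
    (hC : ∀ ε, 0 < ε → ε ≤ 1 / 4 → ∫ u in (s ε)..(t ε), ‖e ε u‖ ≤ C * ε) :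
    Sm fun ε => Tr N (fun u => ω ε u + e ε u) (s ε) (t ε) - Tr N (ω ε) (s ε) (t ε) := by
  refine Sm.of_le ((‖(1 : B)‖ * (N + 1) * (1 + L + |C|) ^ N) ^ 2 * |C|) (2 * N)
    fun ε h0 h1 => ?_
  have hC' : ∫ u in (s ε)..(t ε), ‖e ε u‖ ≤ |C| * ε :=
    (hC ε h0 h1).trans (mul_le_mul_of_nonneg_right (le_abs_self C) h0.le)
  have hlog : 0 ≤ |Real.log ε| := abs_nonneg _
  have hCn : 0 ≤ |C| := abs_nonneg C
  have hl2 : L * (1 + |Real.log ε|) + |C| * ε ≤ (L + |C|) * (1 + |Real.log ε|) := by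
    have : |C| * ε ≤ |C| * (1 + |Real.log ε|) :=
      mul_le_mul_of_nonneg_left (by linarith) hCn
    linarith only [this]
  have hp := Tr_pert (N := N) (l := (L + |C|) * (1 + |Real.log ε|)) hM (hω ε h0 h1)
    (edge_fm_add (hω ε h0 h1) (he ε h0 h1))
    ((hl ε h0 h1).trans (by
      have : 0 ≤ |C| * (1 + |Real.log ε|) := by (clear * -; positivity)
      linarith only [this]))
    ((edge_int_add_le (hω ε h0 h1) (he ε h0 h1)).trans
      ((add_le_add (hl ε h0 h1) hC').trans hl2))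
  have hsub : (fun u => ‖ω ε u + e ε u - ω ε u‖) = fun u => ‖e ε u‖ := by
    funext u
    rw [add_sub_cancel_left]
  rw [hsub] at hp
  refine hp.trans ?_
  have h1l : 1 + (L + |C|) * (1 + |Real.log ε|) ≤ (1 + L + |C|) * (1 + |Real.log ε|) := by
    nlinarith only [hlog]
  have hA : (0 : ℝ) ≤ 1 + (L + |C|) * (1 + |Real.log ε|) := by (clear * - hL; positivity)
  have hn : 0 ≤ ‖(1 : B)‖ * ((N : ℝ) + 1) := by positivity
  have h2 : (‖(1 : B)‖ * (N + 1) * (1 + (L + |C|) * (1 + |Real.log ε|)) ^ N) ^ 2 ≤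
      (‖(1 : B)‖ * (N + 1) * (1 + L + |C|) ^ N) ^ 2 * (1 + |Real.log ε|) ^ (2 * N) := by
    calc (‖(1 : B)‖ * (N + 1) * (1 + (L + |C|) * (1 + |Real.log ε|)) ^ N) ^ 2
        ≤ (‖(1 : B)‖ * (N + 1) * ((1 + L + |C|) * (1 + |Real.log ε|)) ^ N) ^ 2 := by
          refine pow_le_pow_left₀ (by (clear * - hL; positivity)) ?_ 2
          exact mul_le_mul_of_nonneg_left (pow_le_pow_left₀ hA h1l N) hn
      _ = _ := by
          rw [mul_pow (1 + L + |C|) (1 + |Real.log ε|) N, pow_mul' (1 + |Real.log ε|) 2 N]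
          ring
  calc (‖(1 : B)‖ * (N + 1) * (1 + (L + |C|) * (1 + |Real.log ε|)) ^ N) ^ 2 *
        ∫ u in (s ε)..(t ε), ‖e ε u‖
      ≤ (‖(1 : B)‖ * (N + 1) * (1 + (L + |C|) * (1 + |Real.log ε|)) ^ N) ^ 2 * (|C| * ε) :=
        mul_le_mul_of_nonneg_left hC' (by (clear * -; positivity))
    _ ≤ ((‖(1 : B)‖ * (N + 1) * (1 + L + |C|) ^ N) ^ 2 * (1 + |Real.log ε|) ^ (2 * N)) *
          (|C| * ε) := mul_le_mul_of_nonneg_right h2 (by positivity)
    _ = _ := by ring

/-- Transport of `kz a b + e ε` over `[α ε, 1 - β ε]`, `∫ ‖e ε‖ = O(ε)`. -/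
theorem edge {M : Submodule ℂ B} {N : ℕ} (hM : NilS (M : Set B) N) {a b : B} (ha : a ∈ M)
    (hb : b ∈ M) {p q : ℕ} {α β : ℝ → ℝ} (hα : Ap p α) (hβ : Ap q β) {e : ℝ → ℝ → B}
    (he : ∀ ε, 0 < ε → ε ≤ 1 / 4 → Fm M (e ε) (α ε) (1 - β ε)) {C : ℝ}
    (hC : ∀ ε, 0 < ε → ε ≤ 1 / 4 → ∫ u in (α ε)..(1 - β ε), ‖e ε u‖ ≤ C * ε) :
    Sm fun ε => Tr N (fun u => kz a b u + e ε u) (α ε) (1 - β ε)
      - expT N ((q * Real.log ε : ℝ) : ℂ) b * ev N a b * expT N ((-(p * Real.log ε) : ℝ) : ℂ) a := by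
  obtain ⟨C1, hC1, h1⟩ := Ap.sqrt_le hα
  obtain ⟨C2, hC2, h2⟩ := Ap.sqrt_le hβ
  have hNil : NilS ({a, b} : Set B) N := NilS.mono hM (by
    intro x hx
    rcases hx with rfl | hx
    · exact ha
    · rw [mem_singleton_iff] at hx
      rw [hx]
      exact hb)
  have ha' : a ^ (N + 1) = 0 := nil_pow hM ha
  have hb' : b ^ (N + 1) = 0 := nil_pow hM hb
  have hkz : ∀ ε, 0 < ε → ε ≤ 1 / 4 → Fm M (kz a b) (α ε) (1 - β ε) := by
    intro ε h0 h3
    obtain ⟨p1, p2, -⟩ := hα.2 ε h0 h3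
    obtain ⟨q1, q2, -⟩ := hβ.2 ε h0 h3
    exact kz_fm ha hb p1 (by linarith only [p2, q2]) (by linarith only [q1])
  -- the perturbation
  have hs1 : Sm fun ε => Tr N (fun u => kz a b u + e ε u) (α ε) (1 - β ε)
      - Tr N (kz a b) (α ε) (1 - β ε) := by
    refine edge_pert (ω := fun _ => kz a b) (L := ‖a‖ * C1 + ‖b‖ * C2) hM hkz he
      (by (clear * - hC1 hC2; positivity)) ?_ hC
    intro ε h0 h3
    obtain ⟨p1, p2, -⟩ := hα.2 ε h0 h3
    obtain ⟨q1, q2, -⟩ := hβ.2 ε h0 h3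
    refine (kz_int_le a b p1 p2 q1 q2).trans ?_
    have e1 := mul_le_mul_of_nonneg_left (h1 ε h0 h3).2.2 (norm_nonneg a)
    have e2 := mul_le_mul_of_nonneg_left (h2 ε h0 h3).2.2 (norm_nonneg b)
    linarith only [e1, e2]
  -- the regularised transport
  have hs2 : Sm fun ε => Phi N (α ε) (β ε) a b - ev N a b := by
    obtain ⟨C3, K, hC3, h4⟩ := Phi_rate hNil
    refine ⟨C3 * (C1 + C2) * (1 + C1 + C2) ^ K, K, fun ε h0 h3 => ?_⟩
    obtain ⟨p1, p2, -⟩ := hα.2 ε h0 h3
    obtain ⟨q1, q2, -⟩ := hβ.2 ε h0 h3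
    refine (h4 _ _ p1 p2 q1 q2).trans ?_
    obtain ⟨-, a1, a2⟩ := h1 ε h0 h3
    obtain ⟨-, b1, b2⟩ := h2 ε h0 h3
    have hlog : 0 ≤ |Real.log ε| := abs_nonneg _
    have e1 : Real.sqrt (α ε) + Real.sqrt (β ε) ≤ (C1 + C2) * Real.sqrt ε := by linarith only [a1, b1]
    have e2 : 1 + |Real.log (α ε)| + |Real.log (β ε)| ≤ (1 + C1 + C2) * (1 + |Real.log ε|) := by
      linarith only [a2, b2, hlog]
    have e3 : (1 + |Real.log (α ε)| + |Real.log (β ε)|) ^ K ≤
        ((1 + C1 + C2) * (1 + |Real.log ε|)) ^ K := pow_le_pow_left₀ (by (clear * -; positivity)) e2 K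
    calc C3 * (Real.sqrt (α ε) + Real.sqrt (β ε)) *
          (1 + |Real.log (α ε)| + |Real.log (β ε)|) ^ K
        ≤ C3 * ((C1 + C2) * Real.sqrt ε) * ((1 + C1 + C2) * (1 + |Real.log ε|)) ^ K :=
          mul_le_mul (mul_le_mul_of_nonneg_left e1 hC3) e3 (by (clear * -; positivity)) (by (clear * - hC3 hC1 hC2 h0; positivity))
      _ = _ := by
          rw [mul_pow]
          ring
  -- the exponentials
  have hs3 : Sm fun ε => expT N ((Real.log (β ε) : ℝ) : ℂ) b
      - expT N ((q * Real.log ε : ℝ) : ℂ) b := by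
    have := Ap.expT_sub hβ (N := N) hb' 1 (by norm_num)
    simpa only [one_mul] using this
  have hs4 : Sm fun ε => expT N ((-Real.log (α ε) : ℝ) : ℂ) a
      - expT N ((-(p * Real.log ε) : ℝ) : ℂ) a := by
    have := Ap.expT_sub hα (N := N) ha' (-1) (by norm_num)
    simpa only [neg_mul, one_mul] using this
  have hm1 : Md fun ε => expT N ((q * Real.log ε : ℝ) : ℂ) b := Md.expT N b q
  have hm2 : Md fun ε => expT N ((-(p * Real.log ε) : ℝ) : ℂ) a := by
    have := Md.expT N a (-(p : ℝ))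
    simpa only [neg_mul] using this
  have hm3 : Md fun _ : ℝ => ev N a b := Md.const _
  have hs5 := Sm.mul_sub hs3 hs2 hm1 hm3
  have hs6 := Sm.mul_sub hs5 hs4 (Md.mul hm1 hm3) hm2
  refine (Sm.add hs1 hs6).congr fun ε h0 h3 => ?_
  have hTr : expT N ((Real.log (β ε) : ℝ) : ℂ) b * Phi N (α ε) (β ε) a b *
      expT N ((-Real.log (α ε) : ℝ) : ℂ) a = Tr N (kz a b) (α ε) (1 - β ε) := by
    have e1 := expT_mul_neg hb' (Real.log (β ε) : ℂ)
    have e2 := expT_mul_neg ha' (Real.log (α ε) : ℂ)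
    rw [Phi, Complex.ofReal_neg]
    calc expT N ((Real.log (β ε) : ℝ) : ℂ) b * (expT N (-(Real.log (β ε) : ℂ)) b *
          Tr N (kz a b) (α ε) (1 - β ε) * expT N (Real.log (α ε) : ℂ) a) *
          expT N (-(Real.log (α ε) : ℂ)) a
        = (expT N ((Real.log (β ε) : ℝ) : ℂ) b * expT N (-(Real.log (β ε) : ℂ)) b) *
          Tr N (kz a b) (α ε) (1 - β ε) * (expT N (Real.log (α ε) : ℂ) a *
          expT N (-(Real.log (α ε) : ℂ)) a) := by simp only [mul_assoc]
      _ = _ := by rw [e1, e2, one_mul, mul_one]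
  rw [hTr]
  abel

/-- Transport of a constant form plus a small one over `[0, π]` (half circles). -/
theorem arc {M : Submodule ℂ B} {N : ℕ} (hM : NilS (M : Set B) N) {m : B} (hm : m ∈ M) (c : ℂ)
    {e : ℝ → ℝ → B} (he : ∀ ε, 0 < ε → ε ≤ 1 / 4 → Fm M (e ε) 0 Real.pi) {C : ℝ}
    (hC : ∀ ε, 0 < ε → ε ≤ 1 / 4 → ∀ u ∈ Icc 0 Real.pi, ‖e ε u‖ ≤ C * ε) :
    Sm fun ε => Tr N (fun u => c • m + e ε u) 0 Real.pi - expT N (c * Real.pi) m := by
  have hpi := Real.pi_pos
  have hcon : Fm M (fun _ => c • m) 0 Real.pi :=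
    ⟨hpi.le, continuousOn_const, fun _ _ => M.smul_mem c hm⟩
  have hs1 : Sm fun ε => Tr N (fun u => c • m + e ε u) 0 Real.pi
      - Tr N (fun _ => c • m) 0 Real.pi := by
    refine edge_pert (ω := fun _ _ => c • m) (s := fun _ => 0) (t := fun _ => Real.pi)
      (L := Real.pi * ‖c • m‖) (C := Real.pi * C) hM (fun _ _ _ => hcon) he (by (clear * -; positivity)) ?_ ?_
    · intro ε h0 h3
      rw [intervalIntegral.integral_const, sub_zero, smul_eq_mul]
      have : 0 ≤ Real.pi * ‖c • m‖ := by (clear * -; positivity)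
      nlinarith only [this, abs_nonneg (Real.log ε)]
    · intro ε h0 h3
      have h4 : ∫ u in (0 : ℝ)..Real.pi, ‖e ε u‖ ≤ ∫ _ in (0 : ℝ)..Real.pi, C * ε :=
        intervalIntegral.integral_mono_on hpi.le
          ((he ε h0 h3).cont.norm.intervalIntegrable_of_Icc hpi.le)
          intervalIntegrable_const (hC ε h0 h3)
      rw [intervalIntegral.integral_const, sub_zero, smul_eq_mul] at h4
      exact h4.trans (le_of_eq (by ring))
  refine hs1.congr fun ε _ _ => ?_
  have h5 : Tr N (fun _ => c • m) 0 Real.pi = expT N (c * Real.pi) m := by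
    have h6 := Tr_smul (N := N) (nil_pow hM hm) (f := fun _ => c) (F := fun u : ℝ => c * u)
      hpi.le continuousOn_const (by (clear * -; fun_prop)) (fun r _ => by
        have h7 : HasDerivAt (fun u : ℝ => (u : ℂ)) 1 r := Complex.ofRealCLM.hasDerivAt
        simpa only [mul_one] using h7.const_mul c)
    rw [h6]
    simp
  rw [h5]

end Vale.Agent.P029.KZ
end
end
end

section

section

/-!
P029-D, task KZ19: the pentagon equation.
-/

open MeasureTheory Set Filter Topology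

noncomputable section

namespace Vale.Agent.P029.KZ

variable {B : Type*} [NormedRing B] [NormedAlgebra ℂ B] [CompleteSpace B]

omit [CompleteSpace B] in
theorem PentAlg_md_neg (N : ℕ) (m : B) (p : ℕ) :
    Md fun ε => expT N ((-(p * Real.log ε) : ℝ) : ℂ) m := by
  refine (Md.expT N m (-(p : ℝ))).congr fun ε _ _ => ?_
  rw [neg_mul]

omit [CompleteSpace B] in
theorem PentAlg_md_log (N : ℕ) (m : B) : Md fun ε => expT N (Real.log ε : ℂ) m := by
  refine (Md.expT N m 1).congr fun ε _ _ => ?_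
  rw [one_mul]

omit [CompleteSpace B] in
theorem PentAlg_md_log_neg (N : ℕ) (m : B) : Md fun ε => expT N (-(Real.log ε : ℂ)) m := by
  refine (Md.expT N m (-1)).congr fun ε _ _ => ?_
  rw [neg_one_mul, Complex.ofReal_neg]

omit [CompleteSpace B] in
/-- the main term of an edge is moderate. -/
theorem PentAlg_md_main (N : ℕ) (a b c : B) (q p : ℕ) :
    Md fun ε => expT N ((q * Real.log ε : ℝ) : ℂ) b * c
      * expT N ((-(p * Real.log ε) : ℝ) : ℂ) a :=
  ((Md.expT N b (q : ℝ)).mul (Md.const c)).mul (PentAlg_md_neg N a p)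

omit [NormedAlgebra ℂ B] [CompleteSpace B] in
/-- cancellation of moderate invertible factors. -/
theorem PentAlg_cancel {A A' : B} {X Y X' Y' : ℝ → B} (hX : Md X') (hY : Md Y')
    (h1 : ∀ ε, X' ε * X ε = 1) (h2 : ∀ ε, Y ε * Y' ε = 1)
    (h : Sm fun ε => X ε * A * Y ε - X ε * A' * Y ε) : A = A' := by
  have h3 : Sm fun ε => X' ε * (X ε * A * Y ε - X ε * A' * Y ε) * Y' ε :=
    (hX.mul_sm h).mul_md hY
  have h4 : Sm fun _ : ℝ => A - A' := by
    refine h3.congr fun ε _ _ => ?_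
    have e1 : ∀ Z : B, X' ε * (X ε * Z * Y ε) * Y' ε = Z := by
      intro Z
      calc X' ε * (X ε * Z * Y ε) * Y' ε = (X' ε * X ε) * Z * (Y ε * Y' ε) := by noncomm_ring
        _ = Z := by rw [h1, h2, one_mul, mul_one]
    rw [mul_sub, sub_mul, e1, e1]
  exact sub_eq_zero.1 h4.const_eq_zero

/-- The pentagon: `edge` for the five edges, `pent_exact`, `pent_main`, multiply by the inverses of
`X`, `Y` (moderate), `Sm.const_eq_zero`. -/
theorem ev_pent {N : ℕ} {t12 t13 t14 t23 t24 t34 : B}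
    (hN : NilS {t12, t13, t14, t23, t24, t34} N) (h : T4 t12 t13 t14 t23 t24 t34) :
    ev N t12 (t23 + t24) * ev N (t13 + t23) t34
      = ev N t23 t34 * ev N (t12 + t13) (t24 + t34) * ev N t12 t23 := by
  set M : Submodule ℂ B := Submodule.span ℂ {t12, t13, t14, t23, t24, t34} with hMdef
  have hM : NilS (M : Set B) N := nil_span hN
  have h12 : t12 ∈ M := Submodule.subset_span (by simp)
  have h13 : t13 ∈ M := Submodule.subset_span (by simp)
  have h23 : t23 ∈ M := Submodule.subset_span (by simp)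
  have h24 : t24 ∈ M := Submodule.subset_span (by simp)
  have h34 : t34 ∈ M := Submodule.subset_span (by simp)
  have E3 := edge (p := 1) (q := 1) (α := fun ε => ε) (β := fun ε => ε) hM h23 h34 Ap.id Ap.id
    (e := fun ε => pe3 t13 ε) (fun ε h0 h1 => pe3_fm h0 h1 h13)
    (C := 4 * ‖t13‖) (fun ε h0 h1 => pe3_int h0 h1 t13)
  have E2 := edge (p := 1) (q := 1) (α := fun ε => ε - ε ^ 2) (β := fun ε => ε) hM
    (M.add_mem h12 h13) (M.add_mem h24 h34) Ap.sub_sq Ap.id
    (e := fun ε => pe2 t13 t34 ε) (fun ε h0 h1 => pe2_fm h0 h1 h13 h34)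
    (C := 4 * (‖t13‖ + ‖t34‖)) (fun ε h0 h1 => pe2_int h0 h1 t13 t34)
  have E1 := edge (p := 1) (q := 1) (α := fun ε => ε) (β := fun ε => ε) hM h12 h23 Ap.id Ap.id
    (e := fun ε => pe1 t24 ε) (fun ε h0 h1 => pe1_fm h0 h1 h24)
    (C := 4 * ‖t24‖) (fun ε h0 h1 => pe1_int h0 h1 t24)
  have E4 := edge (p := 2) (q := 1) (α := fun ε => ε ^ 2) (β := fun ε => ε) hM h12
    (M.add_mem h23 h24) (Ap.pow (by norm_num) le_rfl) Ap.id
    (e := fun ε => pe4 t23 ε) (fun ε h0 h1 => pe4_fm h0 h1 h23)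
    (C := 4 * ‖t23‖) (fun ε h0 h1 => pe4_int h0 h1 t23)
  have E5 := edge (p := 1) (q := 2) (α := fun ε => ε) (β := fun ε => ε ^ 2) hM
    (M.add_mem h13 h23) h34 Ap.id (Ap.pow (by norm_num) le_rfl)
    (e := fun ε => pe5 t23 ε) (fun ε h0 h1 => pe5_fm h0 h1 h23)
    (C := 4 * ‖t23‖) (fun ε h0 h1 => pe5_int h0 h1 t23)
  have L := Sm.mul_sub (Sm.mul_sub E3 E2 (PentAlg_md_main N _ _ _ 1 1)
    (PentAlg_md_main N _ _ _ 1 1)) E1
    ((PentAlg_md_main N _ _ _ 1 1).mul (PentAlg_md_main N _ _ _ 1 1))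
    (PentAlg_md_main N _ _ _ 1 1)
  have R := Sm.mul_sub E4 E5 (PentAlg_md_main N _ _ _ 1 2) (PentAlg_md_main N _ _ _ 2 1)
  have D := L.sub R
  have h123 : t12 + t13 + t23 ∈ M := M.add_mem (M.add_mem h12 h13) h23
  have h234 : t23 + t24 + t34 ∈ M := M.add_mem (M.add_mem h23 h24) h34
  have n12 : t12 ^ (N + 1) = 0 := nil_pow hM h12
  have n34 : t34 ^ (N + 1) = 0 := nil_pow hM h34
  have n123 : (t12 + t13 + t23) ^ (N + 1) = 0 := nil_pow hM h123
  have n234 : (t23 + t24 + t34) ^ (N + 1) = 0 := nil_pow hM h234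
  refine PentAlg_cancel
    (X := fun ε => expT N (Real.log ε : ℂ) t34 * expT N (Real.log ε : ℂ) (t23 + t24 + t34))
    (Y := fun ε => expT N (-(Real.log ε : ℂ)) (t12 + t13 + t23) *
      expT N (-(Real.log ε : ℂ)) t12)
    (X' := fun ε => expT N (-(Real.log ε : ℂ)) (t23 + t24 + t34) *
      expT N (-(Real.log ε : ℂ)) t34)
    (Y' := fun ε => expT N (Real.log ε : ℂ) t12 * expT N (Real.log ε : ℂ) (t12 + t13 + t23))
    ?_ ?_ ?_ ?_ ?_
  · exact (PentAlg_md_log_neg N _).mul (PentAlg_md_log_neg N _)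
  · exact (PentAlg_md_log N _).mul (PentAlg_md_log N _)
  · intro ε
    calc expT N (-(Real.log ε : ℂ)) (t23 + t24 + t34) * expT N (-(Real.log ε : ℂ)) t34 *
          (expT N (Real.log ε : ℂ) t34 * expT N (Real.log ε : ℂ) (t23 + t24 + t34))
        = expT N (-(Real.log ε : ℂ)) (t23 + t24 + t34) *
          (expT N (-(Real.log ε : ℂ)) t34 * expT N (Real.log ε : ℂ) t34) *
          expT N (Real.log ε : ℂ) (t23 + t24 + t34) := by simp only [mul_assoc]
      _ = 1 := by rw [expT_neg_mul n34, mul_one, expT_neg_mul n234]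
  · intro ε
    calc expT N (-(Real.log ε : ℂ)) (t12 + t13 + t23) * expT N (-(Real.log ε : ℂ)) t12 *
          (expT N (Real.log ε : ℂ) t12 * expT N (Real.log ε : ℂ) (t12 + t13 + t23))
        = expT N (-(Real.log ε : ℂ)) (t12 + t13 + t23) *
          (expT N (-(Real.log ε : ℂ)) t12 * expT N (Real.log ε : ℂ) t12) *
          expT N (Real.log ε : ℂ) (t12 + t13 + t23) := by simp only [mul_assoc]
      _ = 1 := by rw [expT_neg_mul n12, mul_one, expT_neg_mul n123]
  · refine D.congr fun ε h0 h1 => ?_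
    have hx := pent_exact hM h h12 h13 h23 h24 h34 h0 h1
    have hm := pent_main hN h (Real.log ε) (fun w => (kzφ w : ℂ))
    have hm1 := hm.1
    have hm2 := hm.2
    simp only [ev] at hm1 hm2 ⊢
    rw [← hm1, ← hm2, hx]
    abel

end Vale.Agent.P029.KZ
end
end
end

section

section

/-!
P029-D, task KZ20: the KZ connection on a half plane and boundary values of its transport.
-/

open MeasureTheory Set Filter Topology

noncomputable section

namespace Vale.Agent.P029.KZ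

variable {B : Type*} [NormedRing B] [NormedAlgebra ℂ B]

/-- `a dz / z + b dz / (z - 1)`. -/
def hf (a b : B) (z : ℂ) : ℂ →L[ℝ] B :=
  ((ContinuousLinearMap.id ℂ ℂ).smulRight ((1 / z) • a + (1 / (z - 1)) • b)).restrictScalars ℝ

lemma hf_apply (a b : B) (z v : ℂ) : hf a b z v = (v / z) • a + (v / (z - 1)) • b := by
  simp only [hf, div_eq_mul_inv, one_mul, ContinuousLinearMap.coe_restrictScalars', ContinuousLinearMap.smulRight_apply, ContinuousLinearMap.id_apply, smul_add, smul_smul]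

/-- upper (`s = 1`) and lower (`s = -1`) half plane. -/
def Uh (s : ℝ) : Set ℂ := {z | 0 < s * z.im}

/-- the coefficient of the form. -/
def hexForm_g (a b : B) (z : ℂ) : B := (1 / z) • a + (1 / (z - 1)) • b

/-- `x ↦ (v ↦ v • x)` as a continuous real linear map. -/
def hexForm_T : B →L[ℝ] (ℂ →L[ℝ] B) :=
  (ContinuousLinearMap.restrictScalarsL ℂ ℂ B ℝ ℝ).comp
    ((ContinuousLinearMap.smulRightL ℂ ℂ B (ContinuousLinearMap.id ℂ ℂ)).restrictScalars ℝ)

lemma hexForm_T_apply (x : B) (v : ℂ) : hexForm_T x v = v • x := by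
  simp [hexForm_T]

lemma hexForm_eq (a b : B) (z : ℂ) : hf a b z = hexForm_T (hexForm_g a b z) := by
  ext v
  rw [hexForm_T_apply]
  simp only [hf, one_div, ContinuousLinearMap.coe_restrictScalars', ContinuousLinearMap.smulRight_apply, ContinuousLinearMap.id_apply, smul_add, hexForm_g]

lemma hexForm_convex (s : ℝ) : Convex ℝ (Uh s) := by
  have h : IsLinearMap ℝ (fun z : ℂ => s * z.im) :=
    ⟨fun x y => by simp [mul_add], fun c x => by simp only [Complex.real_smul, Complex.mul_im, Complex.ofReal_re, Complex.ofReal_im, zero_mul, add_zero, smul_eq_mul]; ring⟩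
  exact convex_halfSpace_gt h 0

lemma hexForm_open (s : ℝ) : IsOpen (Uh s) :=
  isOpen_lt continuous_const (continuous_const.mul Complex.continuous_im)

lemma hexForm_ne {s : ℝ} {z : ℂ} (hz : z ∈ Uh s) : z ≠ 0 ∧ z - 1 ≠ 0 := by
  have h1 : 0 < s * z.im := hz
  have h2 : z.im ≠ 0 := by
    intro h
    rw [h, mul_zero] at h1
    exact lt_irrefl _ h1
  constructor
  · rintro rfl
    exact h2 Complex.zero_im
  · intro h
    apply h2
    have : z = 1 := sub_eq_zero.1 h
    rw [this, Complex.one_im]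

/-- the form is complex linear and holomorphic. -/
lemma hexForm_fderiv {s : ℝ} (a b : B) {z : ℂ} (hz : z ∈ Uh s) :
    ∃ g' : B, HasFDerivAt (hf a b)
      ((hexForm_T : B →L[ℝ] (ℂ →L[ℝ] B)).comp (hexForm_T g')) z := by
  obtain ⟨h0, h1⟩ := hexForm_ne hz
  have hd : DifferentiableAt ℂ (hexForm_g a b) z := by
    unfold hexForm_g
    have e1 : DifferentiableAt ℂ (fun z : ℂ => 1 / z) z :=
      (differentiableAt_const _).div differentiableAt_id h0
    have e2 : DifferentiableAt ℂ (fun z : ℂ => 1 / (z - 1)) z :=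
      (differentiableAt_const _).div (differentiableAt_id.sub_const _) h1
    exact (e1.smul_const a).add (e2.smul_const b)
  refine ⟨deriv (hexForm_g a b) z, ?_⟩
  have h2 : HasFDerivAt (𝕜 := ℝ) (hexForm_g a b) (hexForm_T (deriv (hexForm_g a b) z)) z := by
    have h3 := hd.hasDerivAt.hasFDerivAt.restrictScalars ℝ
    refine h3.congr_fderiv ?_
    ext v
    rw [hexForm_T_apply]
    simp
  have h4 := (hexForm_T : B →L[ℝ] (ℂ →L[ℝ] B)).hasFDerivAt.comp z h2
  refine h4.congr_of_eventuallyEq (Eventually.of_forall fun x => ?_)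
  exact hexForm_eq a b x

lemma hexForm_mem {M : Submodule ℂ B} {a b : B} (ha : a ∈ M) (hb : b ∈ M) (z v : ℂ) :
    hf a b z v ∈ M := by
  rw [hf_apply]
  exact M.add_mem (M.smul_mem _ ha) (M.smul_mem _ hb)

variable [CompleteSpace B]

/-- a flat section on the half plane, with values in the units. -/
theorem hex_W {M : Submodule ℂ B} {N : ℕ} (hM : NilS (M : Set B) N) {a b : B} (ha : a ∈ M)
    (hb : b ∈ M) {s : ℝ} (hs : s = 1 ∨ s = -1) :
    ∃ W : ℂ → B, (∀ z ∈ Uh s, IsUnit (W z)) ∧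
      ∀ z ∈ Uh s, HasFDerivAt W (rmul (hf a b z) (W z)) z := by
  have hp : (s : ℂ) * Complex.I ∈ Uh s := by
    show 0 < s * ((s : ℂ) * Complex.I).im
    rcases hs with rfl | rfl <;> simp
  have hd : DifferentiableOn ℝ (hf a b) (Uh s) := fun z hz => by
    obtain ⟨g', hg'⟩ := hexForm_fderiv a b hz
    exact hg'.differentiableAt.differentiableWithinAt
  have hΩ : ∀ p ∈ Uh s, ∀ v, hf a b p v ∈ M := fun p _ v => hexForm_mem ha hb p v
  obtain ⟨W, h1, hW⟩ := flat (hexForm_convex s) (hexForm_open s) hM (hf a b) hΩ hd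
    (fun p hp x y => by
      obtain ⟨g', hg'⟩ := hexForm_fderiv a b hp
      rw [hg'.fderiv]
      simp only [ContinuousLinearMap.comp_apply, hexForm_T_apply]
      rw [smul_comm])
    (fun p _ x y => by
      rw [hexForm_eq, hexForm_T_apply, hexForm_T_apply, smul_mul_smul_comm, smul_mul_smul_comm,
        mul_comm x y]) hp
  exact ⟨W, fun z hz => flat_isUnit (hexForm_convex s) hM hΩ hd.continuousOn hW hp h1 hz, hW⟩

omit [NormedRing B] [NormedAlgebra ℂ B] [CompleteSpace B] in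
/-- shifting a complex number away from zero. -/
lemma hexForm_shift {z w : ℂ} {m : ℝ} (hm : 0 < m) (hz : m ≤ ‖z‖) (hw : ‖w‖ ≤ m / 2) :
    z + w ≠ 0 ∧ ‖1 / (z + w)‖ ≤ 2 / m ∧ ‖1 / (z + w) - 1 / z‖ ≤ 2 / m ^ 2 * ‖w‖ := by
  have hz0 : z ≠ 0 := norm_pos_iff.1 (hm.trans_le hz)
  have h1 : m / 2 ≤ ‖z + w‖ := by
    have h2 : ‖z‖ ≤ ‖z + w‖ + ‖w‖ := by
      have := norm_sub_le (z + w) w
      rwa [add_sub_cancel_right] at this
    linarith
  have h2 : 0 < ‖z + w‖ := lt_of_lt_of_le (by positivity) h1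
  have h3 : z + w ≠ 0 := norm_pos_iff.1 h2
  refine ⟨h3, ?_, ?_⟩
  · rw [norm_div, norm_one, div_le_div_iff₀ h2 hm]
    linarith only [h1]
  · have e : 1 / (z + w) - 1 / z = -w / ((z + w) * z) := by
      field_simp
      ring
    rw [e, norm_div, norm_neg, norm_mul, div_le_iff₀ (by (clear * - h3 hz0; positivity))]
    have h4 : m / 2 * m ≤ ‖z + w‖ * ‖z‖ := by gcongr
    calc ‖w‖ = 2 / m ^ 2 * ‖w‖ * (m / 2 * m) := by field_simp
      _ ≤ 2 / m ^ 2 * ‖w‖ * (‖z + w‖ * ‖z‖) := by (clear * - h4 hm; gcongr)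

omit [CompleteSpace B] in
lemma hexForm_fm {M : Submodule ℂ B} {a b : B} (ha : a ∈ M)
    (hb : b ∈ M) {γ γ' : ℝ → ℂ} {x y : ℝ}
    (hxy : x ≤ y) (hγ : ContinuousOn γ (Icc x y)) (hγ' : ContinuousOn γ' (Icc x y))
    (hn0 : ∀ r ∈ Icc x y, γ r ≠ 0) (hn1 : ∀ r ∈ Icc x y, γ r - 1 ≠ 0) :
    Fm M (kzc a b γ γ') x y := by
  refine ⟨hxy, ?_, fun u _ => M.add_mem (M.smul_mem _ ha) (M.smul_mem _ hb)⟩
  unfold kzc
  exact ((hγ'.div hγ hn0).smul continuousOn_const).add
    ((hγ'.div (hγ.sub continuousOn_const) hn1).smul continuousOn_const)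

/-- boundary values: shift the path by `i s δ` (`flat_path`), the shifted forms converge uniformly
on `[x,y]` (compactness, `γ ≠ 0, 1`), `Tr_pert`. -/
theorem hex_conn {M : Submodule ℂ B} {N : ℕ} (hM : NilS (M : Set B) N) {a b : B} (ha : a ∈ M)
    (hb : b ∈ M) {s : ℝ} (hs : s = 1 ∨ s = -1) {W : ℂ → B} (hu : ∀ z ∈ Uh s, IsUnit (W z))
    (hW : ∀ z ∈ Uh s, HasFDerivAt W (rmul (hf a b z) (W z)) z) {γ γ' : ℝ → ℂ} {x y : ℝ}
    (hxy : x ≤ y) (hγ : ContinuousOn γ (Icc x y)) (hγ' : ContinuousOn γ' (Icc x y))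
    (hγd : ∀ r ∈ Ioo x y, HasDerivAt γ (γ' r) r) (him : ∀ r ∈ Icc x y, 0 ≤ s * (γ r).im)
    (hn0 : ∀ r ∈ Icc x y, γ r ≠ 0) (hn1 : ∀ r ∈ Icc x y, γ r ≠ 1) :
    Tendsto (fun δ : ℝ => W (γ y + s * δ * Complex.I)
        * Ring.inverse (W (γ x + s * δ * Complex.I))) (𝓝[>] 0) (𝓝 (Tr N (kzc a b γ γ') x y)) := by
  have hn1' : ∀ r ∈ Icc x y, γ r - 1 ≠ 0 := fun r hr => sub_ne_zero.2 (hn1 r hr)
  have hne : (Icc x y).Nonempty := nonempty_Icc.2 hxy
  -- bounds
  obtain ⟨m, hm, hm0, hm1⟩ : ∃ m : ℝ, 0 < m ∧ (∀ r ∈ Icc x y, m ≤ ‖γ r‖) ∧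
      ∀ r ∈ Icc x y, m ≤ ‖γ r - 1‖ := by
    obtain ⟨r₀, hr₀, h0⟩ := isCompact_Icc.exists_isMinOn hne hγ.norm
    obtain ⟨r₁, hr₁, h1⟩ := isCompact_Icc.exists_isMinOn hne (hγ.sub continuousOn_const).norm
      (f := fun r => ‖γ r - 1‖)
    refine ⟨min ‖γ r₀‖ ‖γ r₁ - 1‖, lt_min (norm_pos_iff.2 (hn0 r₀ hr₀))
      (norm_pos_iff.2 (hn1' r₁ hr₁)), fun r hr => (min_le_left _ _).trans (h0 hr),
      fun r hr => (min_le_right _ _).trans (h1 hr)⟩
  obtain ⟨G, hG⟩ := isCompact_Icc.exists_bound_of_continuousOn hγ'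
  have hG0 : 0 ≤ G := (norm_nonneg _).trans (hG x (left_mem_Icc.2 hxy))
  have hnw : ∀ δ : ℝ, 0 < δ → ‖(s : ℂ) * δ * Complex.I‖ = δ := by
    intro δ hδ
    rw [norm_mul, norm_mul, Complex.norm_I, mul_one, Complex.norm_real, Complex.norm_real,
      Real.norm_eq_abs, Real.norm_eq_abs, abs_of_pos hδ]
    rcases hs with rfl | rfl <;> simp
  have hF0 : Fm M (kzc a b γ γ') x y := hexForm_fm ha hb hxy hγ hγ' hn0 hn1'
  set l : ℝ := 2 / m * G * (‖a‖ + ‖b‖) * (y - x) with hl
  have hyx : 0 ≤ y - x := by linarith only [hxy]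
  have hkb : ∀ (c d : ℂ) (q : ℝ), ‖c‖ ≤ q → ‖d‖ ≤ q → ‖c • a + d • b‖ ≤ q * (‖a‖ + ‖b‖) := by
    intro c d q hc hd
    refine (norm_add_le _ _).trans ?_
    rw [norm_smul, norm_smul, mul_add]
    (clear * - hc hd; gcongr)
  have hint : ∀ ω : ℝ → B, ContinuousOn ω (Icc x y) → ∀ q : ℝ, (∀ u ∈ Icc x y, ‖ω u‖ ≤ q) →
      ∫ u in x..y, ‖ω u‖ ≤ q * (y - x) := by
    intro ω hω q hq
    have h1 := intervalIntegral.integral_mono_on (μ := volume) hxy
      (hω.norm.intervalIntegrable_of_Icc hxy) intervalIntegrable_const hq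
    refine h1.trans (le_of_eq ?_)
    rw [intervalIntegral.integral_const, smul_eq_mul, mul_comm]
  have hl0 : ∫ u in x..y, ‖kzc a b γ γ' u‖ ≤ l := by
    refine hint _ hF0.cont _ fun u hu => ?_
    unfold kzc
    have e1 : ‖γ' u / γ u‖ ≤ 2 / m * G := by
      rw [norm_div, div_le_iff₀ (hm.trans_le (hm0 u hu))]
      calc ‖γ' u‖ ≤ G := hG u hu
        _ ≤ 2 / m * G * m := by
            have : 2 / m * G * m = 2 * G := by (clear * - hm; field_simp)
            rw [this]; linarith only [hG0]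
        _ ≤ 2 / m * G * ‖γ u‖ := by
            have := hm0 u hu
            (clear * - this hm hG0; gcongr)
    have e2 : ‖γ' u / (γ u - 1)‖ ≤ 2 / m * G := by
      rw [norm_div, div_le_iff₀ (hm.trans_le (hm1 u hu))]
      calc ‖γ' u‖ ≤ G := hG u hu
        _ ≤ 2 / m * G * m := by
            have : 2 / m * G * m = 2 * G := by (clear * - hm; field_simp)
            rw [this]; linarith only [hG0]
        _ ≤ 2 / m * G * ‖γ u - 1‖ := by
            have := hm1 u hu
            (clear * - this hm hG0; gcongr)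
    exact hkb _ _ _ e1 e2
  -- the main estimate
  have hmain : ∀ δ : ℝ, 0 < δ → δ ≤ m / 2 →
      ‖W (γ y + s * δ * Complex.I) * Ring.inverse (W (γ x + s * δ * Complex.I)) -
        Tr N (kzc a b γ γ') x y‖ ≤
      (‖(1 : B)‖ * (N + 1) * (1 + l) ^ N) ^ 2 *
        (2 / m ^ 2 * δ * G * (‖a‖ + ‖b‖) * (y - x)) := by
    intro δ hδ hδm
    set w : ℂ := (s : ℂ) * δ * Complex.I with hw
    have hwn : ‖w‖ = δ := hnw δ hδ
    have hwm : ‖w‖ ≤ m / 2 := by rw [hwn]; exact hδm
    have hmem : ∀ r ∈ Icc x y, γ r + w ∈ Uh s := by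
      intro r hr
      show 0 < s * (γ r + w).im
      have h1 := him r hr
      have h2 : (γ r + w).im = (γ r).im + s * δ := by
        rw [hw]; simp
      rw [h2]
      have h3 : s * s = 1 := by rcases hs with rfl | rfl <;> norm_num
      have h4 : s * ((γ r).im + s * δ) = s * (γ r).im + (s * s) * δ := by ring
      rw [h4, h3]
      linarith only [hδ, h1]
    have hγw : ContinuousOn (fun r => γ r + w) (Icc x y) := hγ.add continuousOn_const
    have hd : ContinuousOn (hf a b) (Uh s) := fun z hz => by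
      obtain ⟨g', hg'⟩ := hexForm_fderiv a b hz
      exact hg'.continuousAt.continuousWithinAt
    have hpath := flat_path hM (fun p _ v => hexForm_mem ha hb p v) hd hW hxy
      (γ := fun r => γ r + w) (γ' := γ') hγw hγ' (fun r hr => (hγd r hr).add_const w) hmem
    have hkz : (fun u => hf a b (γ u + w) (γ' u)) = kzc a b (fun r => γ r + w) γ' := by
      funext u
      rw [hf_apply]
      rfl
    rw [hkz] at hpath
    have hW1 : W (γ y + w) * Ring.inverse (W (γ x + w)) =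
        Tr N (kzc a b (fun r => γ r + w) γ') x y := by
      rw [hpath, mul_assoc, Ring.mul_inverse_cancel _ (hu _ (hmem x (left_mem_Icc.2 hxy))),
        mul_one]
    rw [hW1]
    have hs0 : ∀ r ∈ Icc x y, γ r + w ≠ 0 ∧ ‖1 / (γ r + w)‖ ≤ 2 / m ∧
        ‖1 / (γ r + w) - 1 / γ r‖ ≤ 2 / m ^ 2 * ‖w‖ := fun r hr =>
      hexForm_shift hm (hm0 r hr) hwm
    have hs1 : ∀ r ∈ Icc x y, γ r + w - 1 ≠ 0 ∧ ‖1 / (γ r + w - 1)‖ ≤ 2 / m ∧
        ‖1 / (γ r + w - 1) - 1 / (γ r - 1)‖ ≤ 2 / m ^ 2 * ‖w‖ := fun r hr => by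
      have h1 := hexForm_shift hm (hm1 r hr) hwm
      rwa [sub_add_eq_add_sub] at h1
    have hF1 : Fm M (kzc a b (fun r => γ r + w) γ') x y :=
      hexForm_fm ha hb hxy hγw hγ' (fun r hr => (hs0 r hr).1) (fun r hr => (hs1 r hr).1)
    have hl1 : ∫ u in x..y, ‖kzc a b (fun r => γ r + w) γ' u‖ ≤ l := by
      refine hint _ hF1.cont _ fun u hu => ?_
      unfold kzc
      have e1 : ‖γ' u / (γ u + w)‖ ≤ 2 / m * G := by
        rw [div_eq_mul_one_div, norm_mul, mul_comm]
        have h1 := (hs0 u hu).2.1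
        have h2 := hG u hu
        (clear * - h1 h2 hm; gcongr)
      have e2 : ‖γ' u / (γ u + w - 1)‖ ≤ 2 / m * G := by
        rw [div_eq_mul_one_div, norm_mul, mul_comm]
        have h1 := (hs1 u hu).2.1
        have h2 := hG u hu
        (clear * - h1 h2 hm; gcongr)
      exact hkb _ _ _ e1 e2
    have hp := Tr_pert hM hF0 hF1 hl0 hl1
    refine hp.trans ?_
    gcongr
    refine hint (fun u => kzc a b (fun r => γ r + w) γ' u - kzc a b γ γ' u)
      (hF1.cont.sub hF0.cont) _ fun u hu => ?_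
    have e : kzc a b (fun r => γ r + w) γ' u - kzc a b γ γ' u =
        (γ' u * (1 / (γ u + w) - 1 / γ u)) • a +
          (γ' u * (1 / (γ u + w - 1) - 1 / (γ u - 1))) • b := by
      unfold kzc
      rw [mul_sub, mul_sub, sub_smul, sub_smul, mul_one_div, mul_one_div, mul_one_div,
        mul_one_div]
      abel
    rw [e]
    refine hkb _ _ _ ?_ ?_
    · rw [norm_mul, mul_comm]
      have h1 := (hs0 u hu).2.2
      rw [hwn] at h1
      have h2 := hG u hu
      (clear * - h1 h2 hm hδ; gcongr)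
    · rw [norm_mul, mul_comm]
      have h1 := (hs1 u hu).2.2
      rw [hwn] at h1
      have h2 := hG u hu
      (clear * - h1 h2 hm hδ; gcongr)
  rw [tendsto_iff_norm_sub_tendsto_zero]
  have hlim : Tendsto (fun δ : ℝ => (‖(1 : B)‖ * (N + 1) * (1 + l) ^ N) ^ 2 *
        (2 / m ^ 2 * δ * G * (‖a‖ + ‖b‖) * (y - x))) (𝓝[>] (0 : ℝ)) (𝓝 0) := by
    have h1 : Continuous (fun δ : ℝ => (‖(1 : B)‖ * (N + 1) * (1 + l) ^ N) ^ 2 *
        (2 / m ^ 2 * δ * G * (‖a‖ + ‖b‖) * (y - x))) := by fun_prop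
    have h2 := h1.tendsto 0
    simp only [mul_zero, zero_mul] at h2
    exact h2.mono_left nhdsWithin_le_nhds
  refine squeeze_zero' (Eventually.of_forall fun δ => norm_nonneg _) ?_ hlim
  filter_upwards [Ioc_mem_nhdsGT (show (0 : ℝ) < m / 2 by (clear * - hm; positivity))] with δ hδ
  exact hmain δ hδ.1 hδ.2

end Vale.Agent.P029.KZ
end
end
end

section

section

/-!
P029-D, task KZ22: the exact hexagon identity between six transports.
Paths (`s = ±1`, `Im ≥ 0` times `s`):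
`u` on `[ε, 1-ε]`; `1 - ε e^{-isθ}` on `[0,π]`; `1/(1-w)` on `[ε/(1+ε), 1-ε]`;
`e^{isθ}/ε` on `[0,π]`; `1 - 1/w` on `[ε/(1+ε), 1-ε/(1+ε)]`; `-ε e^{-isθ}` on `[0,π]`.
-/

open MeasureTheory Set Filter Topology

noncomputable section

namespace Vale.Agent.P029.KZ

variable {B : Type*} [NormedRing B] [NormedAlgebra ℂ B]

variable [CompleteSpace B]

omit [CompleteSpace B] in
theorem hexExact_congr {N : ℕ} {ω ω' : ℝ → B} {s t : ℝ} (hst : s ≤ t)
    (he : ∀ u ∈ Icc s t, ω u = ω' u) : Tr N ω s t = Tr N ω' s t :=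
  Finset.sum_congr rfl fun n _ => TrB_J_congr he n t (right_mem_Icc.2 hst)

/-- one edge of the closed path. -/
theorem hexExact_edge {M : Submodule ℂ B} {N : ℕ} (hM : NilS (M : Set B) N) {a b : B} (ha : a ∈ M)
    (hb : b ∈ M) {s : ℝ} (hs : s = 1 ∨ s = -1) {W : ℂ → B} (hu : ∀ z ∈ Uh s, IsUnit (W z))
    (hW : ∀ z ∈ Uh s, HasFDerivAt W (rmul (hf a b z) (W z)) z) {γ γ' : ℝ → ℂ} {x y : ℝ}
    (hxy : x ≤ y) (hγ : ContinuousOn γ (Icc x y)) (hγ' : ContinuousOn γ' (Icc x y))
    (hγd : ∀ r ∈ Ioo x y, HasDerivAt γ (γ' r) r) (him : ∀ r ∈ Icc x y, 0 ≤ s * (γ r).im)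
    (hn0 : ∀ r ∈ Icc x y, γ r ≠ 0) (hn1 : ∀ r ∈ Icc x y, γ r ≠ 1) {p q : ℂ} (hp : γ x = p)
    (hq : γ y = q) {ω : ℝ → B}
    (hω : ∀ r ∈ Icc x y, (γ' r / γ r) • a + (γ' r / (γ r - 1)) • b = ω r) :
    Tendsto (fun δ : ℝ => W (q + s * δ * Complex.I)
        * Ring.inverse (W (p + s * δ * Complex.I))) (𝓝[>] 0) (𝓝 (Tr N ω x y)) := by
  have h := hex_conn hM ha hb hs hu hW hxy hγ hγ' hγd him hn0 hn1
  rw [hp, hq, hexExact_congr (ω := kzc a b γ γ') hxy hω] at h
  exact h

omit [NormedAlgebra ℂ B] [CompleteSpace B] in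
/-- the six factors telescope. -/
theorem hexExact_tel {w0 w1 w2 w3 w4 w5 : B} (h0 : IsUnit w0) (h1 : IsUnit w1) (h2 : IsUnit w2)
    (h3 : IsUnit w3) (h4 : IsUnit w4) (h5 : IsUnit w5) :
    (w0 * Ring.inverse w5) * (w5 * Ring.inverse w4) * (w4 * Ring.inverse w3)
      * (w3 * Ring.inverse w2) * (w2 * Ring.inverse w1) * (w1 * Ring.inverse w0) = 1 := by
  have k : ∀ {u v w : B}, IsUnit v →
      (u * Ring.inverse v) * (v * Ring.inverse w) = u * Ring.inverse w := by
    intro u v w hv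
    rw [mul_assoc, ← mul_assoc (Ring.inverse v), Ring.inverse_mul_cancel _ hv, one_mul]
  rw [k h5, k h4, k h3, k h2, k h1, Ring.mul_inverse_cancel _ h0]

theorem hexExact_exp_pi {s : ℝ} (hs : s = 1 ∨ s = -1) :
    Complex.exp (-(s * Complex.I * (Real.pi : ℝ))) = -1 := by
  rcases hs with rfl | rfl
  · have : (-((1 : ℝ) * Complex.I * (Real.pi : ℝ)) : ℂ) = -(Real.pi * Complex.I) := by
      push_cast; ring
    rw [this, Complex.exp_neg, Complex.exp_pi_mul_I]
    norm_num
  · have : (-((-1 : ℝ) * Complex.I * (Real.pi : ℝ)) : ℂ) = Real.pi * Complex.I := by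
      push_cast; ring
    rw [this, Complex.exp_pi_mul_I]

theorem hexExact_exp_pi' {s : ℝ} (hs : s = 1 ∨ s = -1) :
    Complex.exp (s * Complex.I * (Real.pi : ℝ)) = -1 := by
  have h := hexExact_exp_pi hs
  rw [Complex.exp_neg, inv_eq_iff_eq_inv] at h
  rw [h]
  norm_num

theorem hexExact_im {s : ℝ} (hs : s = 1 ∨ s = -1) (ε : ℝ) (θ : ℝ) :
    s * ((ε : ℂ) * Complex.exp (-(s * Complex.I * θ))).im = -(ε * Real.sin θ) := by
  rcases hs with rfl | rfl
  · have : (-((1 : ℝ) * Complex.I * (θ : ℝ)) : ℂ) = ((-θ : ℝ) : ℂ) * Complex.I := by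
      push_cast; ring
    rw [this, Complex.im_ofReal_mul, Complex.exp_ofReal_mul_I_im, Real.sin_neg]
    ring
  · have : (-((-1 : ℝ) * Complex.I * (θ : ℝ)) : ℂ) = (θ : ℂ) * Complex.I := by
      push_cast; ring
    rw [this, Complex.im_ofReal_mul, Complex.exp_ofReal_mul_I_im]
    ring

theorem hexExact_im' {s : ℝ} (hs : s = 1 ∨ s = -1) (ε : ℝ) (θ : ℝ) :
    s * ((ε : ℂ) * Complex.exp (s * Complex.I * θ)).im = ε * Real.sin θ := by
  rcases hs with rfl | rfl
  · have : (((1 : ℝ) * Complex.I * (θ : ℝ)) : ℂ) = (θ : ℂ) * Complex.I := by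
      push_cast; ring
    rw [this, Complex.im_ofReal_mul, Complex.exp_ofReal_mul_I_im]
    ring
  · have : (((-1 : ℝ) * Complex.I * (θ : ℝ)) : ℂ) = ((-θ : ℝ) : ℂ) * Complex.I := by
      push_cast; ring
    rw [this, Complex.im_ofReal_mul, Complex.exp_ofReal_mul_I_im, Real.sin_neg]
    ring

theorem hexExact_dexp (c : ℂ) (r : ℝ) :
    HasDerivAt (fun θ : ℝ => Complex.exp (c * θ)) (c * Complex.exp (c * r)) r := by
  have h1 : HasDerivAt (fun z : ℂ => Complex.exp (c * z)) (Complex.exp (c * r) * c) (r : ℂ) := by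
    have h2 : HasDerivAt (fun z : ℂ => c * z) c (r : ℂ) := by
      simpa only [id_eq, mul_one] using (hasDerivAt_id (r : ℂ)).const_mul c
    exact h2.cexp
  have h3 := h1.comp_ofReal
  rwa [mul_comm] at h3

/-- Closed chain: the six products `W(end) * (W(start))⁻¹` of `hex_conn` multiply to `1`. -/
theorem hex_exact {M : Submodule ℂ B} {N : ℕ} (hM : NilS (M : Set B) N) {a b c : B} (ha : a ∈ M)
    (hb : b ∈ M) (hc : a + b + c = 0) {s : ℝ} (hs : s = 1 ∨ s = -1) {ε : ℝ} (h0 : 0 < ε)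
    (h1 : ε ≤ 1 / 4) :
    Tr N (fun θ => (-(s * Complex.I)) • a + he6 b s ε θ) 0 Real.pi
      * Tr N (kz c a) (ε / (1 + ε)) (1 - ε / (1 + ε))
      * Tr N (fun θ => (-(s * Complex.I)) • c + he2 b s ε θ) 0 Real.pi
      * Tr N (kz b c) (ε / (1 + ε)) (1 - ε)
      * Tr N (fun θ => (-(s * Complex.I)) • b + he2 a s ε θ) 0 Real.pi
      * Tr N (kz a b) ε (1 - ε) = 1 := by
  have hcM : c ∈ M := by
    have : c = -(a + b) := by
      rw [eq_neg_iff_add_eq_zero, add_comm]
      exact hc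
    rw [this]
    exact M.neg_mem (M.add_mem ha hb)
  have hc' : c = -(a + b) := by
    rw [eq_neg_iff_add_eq_zero, add_comm]
    exact hc
  have hε1 : (0 : ℝ) < 1 + ε := by linarith only [h0]
  have he : (0 : ℝ) < ε / (1 + ε) := by positivity
  have he' : ε / (1 + ε) ≤ ε := by
    rw [div_le_iff₀ hε1]
    nlinarith only [h0]
  have hεc : (ε : ℂ) ≠ 0 := by exact_mod_cast h0.ne'
  have hε1c : (1 + ε : ℂ) ≠ 0 := by exact_mod_cast hε1.ne'
  obtain ⟨W, hu, hW⟩ := hex_W hM ha hb hs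
  -- edge 1
  have E1 : Tendsto (fun δ : ℝ => W (((1 - ε : ℝ) : ℂ) + s * δ * Complex.I)
        * Ring.inverse (W ((ε : ℂ) + s * δ * Complex.I))) (𝓝[>] 0)
        (𝓝 (Tr N (kz a b) ε (1 - ε))) := by
    refine hexExact_edge hM ha hb hs hu hW (γ := fun u => (u : ℂ)) (γ' := fun _ => 1)
      (by linarith only [h1]) (by (clear * -; fun_prop)) (by fun_prop) ?_ ?_ ?_ ?_ rfl rfl ?_
    · intro r _
      exact (hasDerivAt_id (r : ℂ)).comp_ofReal
    · intro r _
      simp
    · intro r hr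
      have : r ≠ 0 := by linarith only [h0, hr.1]
      exact_mod_cast this
    · intro r hr
      have : r ≠ 1 := by linarith only [h0, hr.2]
      exact_mod_cast this
    · intro r _
      unfold kz
      rw [WordsTr_real_smul, WordsTr_real_smul]
      push_cast
      rfl
  -- edge 2
  have E2 : Tendsto (fun δ : ℝ => W ((1 + ε : ℂ) + s * δ * Complex.I)
        * Ring.inverse (W (((1 - ε : ℝ) : ℂ) + s * δ * Complex.I))) (𝓝[>] 0)
        (𝓝 (Tr N (fun θ => (-(s * Complex.I)) • b + he2 a s ε θ) 0 Real.pi)) := by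
    refine hexExact_edge hM ha hb hs hu hW
      (γ := fun θ => 1 - ε * Complex.exp (-(s * Complex.I * θ)))
      (γ' := fun θ => s * Complex.I * ε * Complex.exp (-(s * Complex.I * θ)))
      Real.pi_pos.le (by fun_prop) (by fun_prop) ?_ ?_ ?_ ?_ ?_ ?_ ?_
    · intro r _
      have h := ((hexExact_dexp (-(s * Complex.I)) r).const_mul (ε : ℂ)).const_sub 1
      refine (h.congr_deriv ?_).congr_of_eventuallyEq (Eventually.of_forall fun θ => ?_)
      · rw [neg_mul (s * Complex.I)]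
        ring
      · show (1 : ℂ) - ε * Complex.exp (-(s * Complex.I * θ)) = 1 - ε * Complex.exp (-(s * Complex.I) * θ)
        rw [neg_mul]
    · intro r hr
      have h := hexExact_im hs ε r
      have h2 := Real.sin_nonneg_of_nonneg_of_le_pi hr.1 hr.2
      rw [Complex.sub_im, Complex.one_im, zero_sub, mul_neg, h, neg_neg]
      (clear * - h0 h2; positivity)
    · intro r _
      exact hexErr_ne_sub s ε r h0 h1
    · intro r _ h
      have h2 : (ε : ℂ) * Complex.exp (-(s * Complex.I * r)) = 0 := by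
        linear_combination -h
      exact (mul_ne_zero hεc (Complex.exp_ne_zero _)) h2
    · simp only [Complex.ofReal_zero, mul_zero, neg_zero, Complex.exp_zero, mul_one, Complex.ofReal_sub, Complex.ofReal_one]
    · show (1 : ℂ) - ε * Complex.exp (-(s * Complex.I * (Real.pi : ℝ))) = 1 + ε
      rw [hexExact_exp_pi hs]
      ring
    · intro r _
      unfold he2
      rw [add_comm]
      congr 1
      congr 1
      have h2 : (ε : ℂ) * Complex.exp (-(s * Complex.I * r)) ≠ 0 :=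
        mul_ne_zero hεc (Complex.exp_ne_zero _)
      rw [div_eq_iff (by
        intro h
        apply h2
        linear_combination -h)]
      ring
  -- edge 3
  have E3 : Tendsto (fun δ : ℝ => W ((1 / ε : ℂ) + s * δ * Complex.I)
        * Ring.inverse (W ((1 + ε : ℂ) + s * δ * Complex.I))) (𝓝[>] 0)
        (𝓝 (Tr N (kz b c) (ε / (1 + ε)) (1 - ε))) := by
    have hne : ∀ r : ℝ, r ∈ Icc (ε / (1 + ε)) (1 - ε) → (1 - r : ℂ) ≠ 0 ∧ (r : ℂ) ≠ 0 := by
      intro r hr
      have h2 : (1 - r : ℝ) ≠ 0 := by linarith only [h0, hr.2]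
      have h3 : r ≠ 0 := by linarith only [he, hr.1]
      exact ⟨by exact_mod_cast h2, by exact_mod_cast h3⟩
    refine hexExact_edge hM ha hb hs hu hW
      (γ := fun w => 1 / (1 - w)) (γ' := fun w => 1 / (1 - w) ^ 2)
      (by linarith only [h1, he']) ?_ ?_ ?_ ?_ ?_ ?_ ?_ ?_ ?_
    · exact ContinuousOn.div continuousOn_const (by (clear * -; fun_prop)) fun r hr => (hne r hr).1
    · exact ContinuousOn.div continuousOn_const (by fun_prop) fun r hr =>
        pow_ne_zero 2 (hne r hr).1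
    · intro r hr
      have h2 := (hne r ⟨hr.1.le, hr.2.le⟩).1
      have h3 : HasDerivAt (fun z : ℂ => 1 / (1 - z)) (1 / (1 - r : ℂ) ^ 2) (r : ℂ) := by
        have h4 : HasDerivAt (fun z : ℂ => (1 - z)⁻¹) (-(-1) / (1 - (r : ℂ)) ^ 2) (r : ℂ) :=
          ((hasDerivAt_id (r : ℂ)).const_sub 1).inv h2
        simp only [one_div]
        exact h4.congr_deriv (by rw [neg_neg, one_div])
      exact h3.comp_ofReal
    · intro r _
      have : (1 / (1 - r) : ℂ) = ((1 / (1 - r) : ℝ) : ℂ) := by push_cast; rfl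
      rw [this, Complex.ofReal_im, mul_zero]
    · intro r hr
      exact one_div_ne_zero (hne r hr).1
    · intro r hr h
      rw [div_eq_iff (hne r hr).1] at h
      apply (hne r hr).2
      linear_combination h
    · show (1 : ℂ) / (1 - ((ε / (1 + ε) : ℝ) : ℂ)) = 1 + ε
      push_cast
      field_simp
      ring
    · show (1 : ℂ) / (1 - ((1 - ε : ℝ) : ℂ)) = 1 / ε
      push_cast
      congr 1
      ring
    · intro r hr
      obtain ⟨h2, h3⟩ := hne r hr
      have h4 : (r - 1 : ℂ) ≠ 0 := by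
        intro h
        apply h2
        linear_combination -h
      have k1 : (1 / (1 - r : ℂ) ^ 2) / (1 / (1 - r)) = - (1 / (r - 1)) := by
        field_simp
        ring
      have k2 : (1 / (1 - r : ℂ) ^ 2) / (1 / (1 - r) - 1) = 1 / r - 1 / (r - 1) := by
        have : (1 / (1 - r : ℂ) - 1) = r / (1 - r) := by
          field_simp
          ring
        rw [this]
        field_simp
        ring
      show ((1 / (1 - r : ℂ) ^ 2) / (1 / (1 - r))) • a +
        ((1 / (1 - r : ℂ) ^ 2) / (1 / (1 - r) - 1)) • b = kz b c r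
      unfold kz
      rw [WordsTr_real_smul, WordsTr_real_smul, k1, k2, hc']
      push_cast
      module
  -- edge 4
  have E4 : Tendsto (fun δ : ℝ => W ((-(1 / ε) : ℂ) + s * δ * Complex.I)
        * Ring.inverse (W ((1 / ε : ℂ) + s * δ * Complex.I))) (𝓝[>] 0)
        (𝓝 (Tr N (fun θ => (-(s * Complex.I)) • c + he2 b s ε θ) 0 Real.pi)) := by
    refine hexExact_edge hM ha hb hs hu hW
      (γ := fun θ => ((1 / ε : ℝ) : ℂ) * Complex.exp (s * Complex.I * θ))
      (γ' := fun θ => ((1 / ε : ℝ) : ℂ) * (s * Complex.I * Complex.exp (s * Complex.I * θ)))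
      Real.pi_pos.le (by fun_prop) (by fun_prop) ?_ ?_ ?_ ?_ ?_ ?_ ?_
    · intro r _
      exact (hexExact_dexp (s * Complex.I) r).const_mul _
    · intro r hr
      have h := hexExact_im' hs (1 / ε) r
      have h2 := Real.sin_nonneg_of_nonneg_of_le_pi hr.1 hr.2
      rw [h]
      (clear * - h0 h2; positivity)
    · intro r _
      have h3 : ((1 / ε : ℝ) : ℂ) ≠ 0 := by exact_mod_cast (one_div_pos.2 h0).ne'
      exact mul_ne_zero h3 (Complex.exp_ne_zero _)
    · intro r _ h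
      apply hexErr_ne_sub s ε r h0 h1
      have h5 : (ε : ℂ) * Complex.exp (-(s * Complex.I * r)) *
          (((1 / ε : ℝ) : ℂ) * Complex.exp (s * Complex.I * r)) = 1 := by
        rw [Complex.exp_neg]
        push_cast
        have := Complex.exp_ne_zero (s * Complex.I * r)
        field_simp
      rw [h, mul_one] at h5
      rw [h5, sub_self]
    · simp
    · show ((1 / ε : ℝ) : ℂ) * Complex.exp (s * Complex.I * (Real.pi : ℝ)) = -(1 / ε)
      rw [hexExact_exp_pi' hs]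
      push_cast
      ring
    · intro r _
      have hx := hexErr_ne_sub s ε r h0 h1
      have hE := Complex.exp_ne_zero (s * Complex.I * r)
      have hN : Complex.exp (-(s * Complex.I * r)) = (Complex.exp (s * Complex.I * r))⁻¹ :=
        Complex.exp_neg _
      unfold he2
      rw [hN] at hx ⊢
      have hc'' : Complex.exp (s * Complex.I * r) - ε ≠ 0 := by
        intro h
        apply hx
        have : (ε : ℂ) = Complex.exp (s * Complex.I * r) := by linear_combination -h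
        rw [this, mul_inv_cancel₀ hE, sub_self]
      push_cast
      generalize Complex.exp (s * Complex.I * r) = E at *
      have k1 : 1 / (ε : ℂ) * (s * Complex.I * E) / (1 / ε * E) = s * Complex.I := by
        (clear * - hεc hE; field_simp)
      have k2 : 1 / (ε : ℂ) * (s * Complex.I * E) / (1 / ε * E - 1) =
          s * Complex.I + s * Complex.I * ε * E⁻¹ / (1 - ε * E⁻¹) := by
        have e1 : (1 / (ε : ℂ) * E - 1) = (E - ε) / ε := by field_simp
        have e2 : (1 - (ε : ℂ) * E⁻¹) = (E - ε) / E := by field_simp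
        rw [e1, e2]
        field_simp
        ring
      rw [k1, k2, hc']
      module
  -- edge 5
  have E5 : Tendsto (fun δ : ℝ => W ((-ε : ℂ) + s * δ * Complex.I)
        * Ring.inverse (W ((-(1 / ε) : ℂ) + s * δ * Complex.I))) (𝓝[>] 0)
        (𝓝 (Tr N (kz c a) (ε / (1 + ε)) (1 - ε / (1 + ε)))) := by
    have hne : ∀ r : ℝ, r ∈ Icc (ε / (1 + ε)) (1 - ε / (1 + ε)) →
        (r - 1 : ℂ) ≠ 0 ∧ (r : ℂ) ≠ 0 := by
      intro r hr
      have h2 : (r - 1 : ℝ) ≠ 0 := by linarith only [he, hr.2]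
      have h3 : r ≠ 0 := by linarith only [he, hr.1]
      exact ⟨by exact_mod_cast h2, by exact_mod_cast h3⟩
    refine hexExact_edge hM ha hb hs hu hW
      (γ := fun w => 1 - 1 / w) (γ' := fun w => 1 / w ^ 2)
      (by linarith) ?_ ?_ ?_ ?_ ?_ ?_ ?_ ?_ ?_
    · exact continuousOn_const.sub
        (ContinuousOn.div continuousOn_const (by (clear * -; fun_prop)) fun r hr => (hne r hr).2)
    · exact ContinuousOn.div continuousOn_const (by fun_prop) fun r hr =>
        pow_ne_zero 2 (hne r hr).2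
    · intro r hr
      have h2 := (hne r ⟨hr.1.le, hr.2.le⟩).2
      have h3 : HasDerivAt (fun z : ℂ => 1 - 1 / z) (1 / (r : ℂ) ^ 2) (r : ℂ) := by
        have h4 := ((hasDerivAt_inv h2)).const_sub 1
        simpa only [one_div, neg_neg] using h4
      exact h3.comp_ofReal
    · intro r _
      have : (1 - 1 / r : ℂ) = ((1 - 1 / r : ℝ) : ℂ) := by push_cast; rfl
      rw [this, Complex.ofReal_im, mul_zero]
    · intro r hr h
      apply (hne r hr).1
      have h3 := (hne r hr).2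
      field_simp at h
      simpa only [mul_zero] using h
    · intro r hr h
      have h3 := (hne r hr).2
      have h4 : (1 / (r : ℂ)) = 0 := by linear_combination -h
      exact one_div_ne_zero h3 h4
    · show (1 : ℂ) - 1 / (((ε / (1 + ε) : ℝ) : ℂ)) = -(1 / ε)
      push_cast
      field_simp
      ring
    · show (1 : ℂ) - 1 / (((1 - ε / (1 + ε) : ℝ) : ℂ)) = -ε
      push_cast
      have : (1 - ε / (1 + ε) : ℂ) = 1 / (1 + ε) := by
        field_simp
        ring
      rw [this]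
      field_simp
      ring
    · intro r hr
      obtain ⟨h2, h3⟩ := hne r hr
      have k1 : (1 / (r : ℂ) ^ 2) / (1 - 1 / r) = 1 / (r - 1) - 1 / r := by
        have : (1 - 1 / (r : ℂ)) = (r - 1) / r := by
          field_simp
        rw [this]
        field_simp
        ring
      have k2 : (1 / (r : ℂ) ^ 2) / (1 - 1 / r - 1) = - (1 / r) := by
        have : (1 - 1 / (r : ℂ) - 1) = - (1 / r) := by ring
        rw [this]
        field_simp
      show ((1 / (r : ℂ) ^ 2) / (1 - 1 / r)) • a +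
        ((1 / (r : ℂ) ^ 2) / (1 - 1 / r - 1)) • b = kz c a r
      unfold kz
      rw [WordsTr_real_smul, WordsTr_real_smul, k1, k2, hc']
      push_cast
      module
  -- edge 6
  have E6 : Tendsto (fun δ : ℝ => W ((ε : ℂ) + s * δ * Complex.I)
        * Ring.inverse (W ((-ε : ℂ) + s * δ * Complex.I))) (𝓝[>] 0)
        (𝓝 (Tr N (fun θ => (-(s * Complex.I)) • a + he6 b s ε θ) 0 Real.pi)) := by
    refine hexExact_edge hM ha hb hs hu hW
      (γ := fun θ => -(ε * Complex.exp (-(s * Complex.I * θ))))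
      (γ' := fun θ => s * Complex.I * ε * Complex.exp (-(s * Complex.I * θ)))
      Real.pi_pos.le (by (clear * -; fun_prop)) (by fun_prop) ?_ ?_ ?_ ?_ ?_ ?_ ?_
    · intro r _
      have h := ((hexExact_dexp (-(s * Complex.I)) r).const_mul (ε : ℂ)).neg
      refine (h.congr_deriv ?_).congr_of_eventuallyEq (Eventually.of_forall fun θ => ?_)
      · rw [neg_mul (s * Complex.I)]
        ring
      · show -((ε : ℂ) * Complex.exp (-(s * Complex.I * θ))) = -(ε * Complex.exp (-(s * Complex.I) * θ))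
        rw [neg_mul]
    · intro r hr
      have h := hexExact_im hs ε r
      have h2 := Real.sin_nonneg_of_nonneg_of_le_pi hr.1 hr.2
      rw [Complex.neg_im, mul_neg, h, neg_neg]
      (clear * - h0 h2; positivity)
    · intro r _
      exact neg_ne_zero.2 (mul_ne_zero hεc (Complex.exp_ne_zero _))
    · intro r _ h
      apply hexErr_ne_add s ε r h0 h1
      linear_combination -h
    · simp only [Complex.ofReal_zero, mul_zero, neg_zero, Complex.exp_zero, mul_one]
    · show -((ε : ℂ) * Complex.exp (-(s * Complex.I * (Real.pi : ℝ)))) = ε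
      rw [hexExact_exp_pi hs]
      ring
    · intro r _
      have h2 : (ε : ℂ) * Complex.exp (-(s * Complex.I * r)) ≠ 0 :=
        mul_ne_zero hεc (Complex.exp_ne_zero _)
      have h3 := hexErr_ne_add s ε r h0 h1
      have h4 : -((ε : ℂ) * Complex.exp (-(s * Complex.I * r))) - 1 ≠ 0 := by
        intro h
        apply h3
        linear_combination -h
      unfold he6
      congr 1
      · congr 1
        rw [div_eq_iff (neg_ne_zero.2 h2)]
        ring
      · congr 1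
        rw [div_eq_div_iff h4 h3]
        ring
  -- the product
  have hunit : ∀ (z : ℂ), z.im = 0 → ∀ δ : ℝ, 0 < δ → IsUnit (W (z + s * δ * Complex.I)) := by
    intro z hz δ hδ
    apply hu
    show 0 < s * (z + s * δ * Complex.I).im
    have : (z + s * δ * Complex.I).im = s * δ := by
      rw [Complex.add_im, hz, zero_add]
      simp
    rw [this]
    rcases hs with rfl | rfl <;> nlinarith only [hδ]
  have hprod := ((((E6.mul E5).mul E4).mul E3).mul E2).mul E1
  refine tendsto_nhds_unique hprod ?_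
  refine tendsto_const_nhds.congr' ?_
  filter_upwards [self_mem_nhdsWithin] with δ hδ
  have hδ' : (0 : ℝ) < δ := hδ
  exact (hexExact_tel (hunit _ (by simp) δ hδ') (hunit _ (by simp) δ hδ')
    (hunit _ (by simp) δ hδ') (hunit _ (by simp) δ hδ')
    (hunit _ (by simp) δ hδ') (hunit _ (by simp) δ hδ')).symm

end Vale.Agent.P029.KZ
end
end
end

section

section

/-!
P029-D, task KZ23: the hexagon equations.
-/

open MeasureTheory Set Filter Topology

noncomputable section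

namespace Vale.Agent.P029.KZ

variable {B : Type*} [NormedRing B] [NormedAlgebra ℂ B] [CompleteSpace B]

theorem HexAlg_edge {M : Submodule ℂ B} {N : ℕ} (hM : NilS (M : Set B) N) {a b : B} (ha : a ∈ M)
    (hb : b ∈ M) {α β : ℝ → ℝ} (hα : Ap 1 α) (hβ : Ap 1 β) :
    Sm fun ε => Tr N (kz a b) (α ε) (1 - β ε)
      - expT N ((Real.log ε : ℝ) : ℂ) b * ev N a b * expT N ((-Real.log ε : ℝ) : ℂ) a := by
  have h := edge hM ha hb hα hβ (e := fun _ _ => (0 : B)) (C := 0) (fun ε h0 h1 => by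
    obtain ⟨-, h2⟩ := hα
    obtain ⟨-, h3⟩ := hβ
    have h4 := (h2 ε h0 h1).2.1
    have h5 := (h3 ε h0 h1).2.1
    exact ⟨by linarith, continuousOn_const, fun u _ => zero_mem _⟩) (fun ε h0 h1 => by simp)
  simpa only [add_zero, Nat.cast_one, one_mul] using h

omit [CompleteSpace B] in
theorem HexAlg_comm {N : ℕ} {m : B} (hm : m ^ (N + 1) = 0) (c d : ℂ) :
    expT N c m * expT N d m = expT N d m * expT N c m := by
  rw [← expT_add hm, ← expT_add hm, add_comm]

omit [CompleteSpace B] in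
theorem HexAlg_conj {N : ℕ} {m : B} (hm : m ^ (N + 1) = 0) (c : ℂ) (x : ℝ) :
    expT N ((-x : ℝ) : ℂ) m * expT N c m * expT N (x : ℂ) m = expT N c m := by
  rw [mul_assoc, HexAlg_comm hm c, ← mul_assoc, Complex.ofReal_neg, expT_neg_mul hm, one_mul]

/-- The hexagon: `edge` (with `e = 0`) for the three segments, `arc` for the three half circles,
`hex_exact` with `s = -σ`; all powers of `ε` cancel except the conjugation by `ε^a`. -/
theorem ev_hex {N : ℕ} {a b c : B} (hN : NilS {a, b} N) (hc : a + b + c = 0) {σ : ℂ}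
    (hσ : σ = 1 ∨ σ = -1) :
    expT N (σ * Complex.I * Real.pi) a * ev N c a * expT N (σ * Complex.I * Real.pi) c * ev N b c
      * expT N (σ * Complex.I * Real.pi) b * ev N a b = 1 := by
  have hM := nil_span hN
  set M : Submodule ℂ B := Submodule.span ℂ {a, b} with hMdef
  have ha : a ∈ M := Submodule.subset_span (by simp)
  have hb : b ∈ M := Submodule.subset_span (by simp)
  have hcM : c ∈ M := by
    have e : c = -(a + b) := by
      rw [eq_neg_iff_add_eq_zero, add_comm]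
      exact hc
    rw [e]
    exact neg_mem (add_mem ha hb)
  have pa := nil_pow hM ha
  have pb := nil_pow hM hb
  have pc := nil_pow hM hcM
  obtain ⟨s, hs, hsσ⟩ : ∃ s : ℝ, (s = 1 ∨ s = -1) ∧ -((s : ℂ) * Complex.I) = σ * Complex.I := by
    rcases hσ with h | h
    · exact ⟨-1, Or.inr rfl, by rw [h]; push_cast; ring⟩
    · exact ⟨1, Or.inl rfl, by rw [h]; push_cast; ring⟩
  -- the six equivalences
  have A1 := arc hM ha (-((s : ℂ) * Complex.I)) (e := fun ε => he6 b s ε) (C := 2 * ‖b‖)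
    (fun ε h0 h1 => he6_fm hb hs h0 h1) (fun ε h0 h1 u _ => he6_le b hs h0 h1 u)
  have A2 := arc hM hcM (-((s : ℂ) * Complex.I)) (e := fun ε => he2 b s ε) (C := 2 * ‖b‖)
    (fun ε h0 h1 => he2_fm hb hs h0 h1) (fun ε h0 h1 u _ => he2_le b hs h0 h1 u)
  have A3 := arc hM hb (-((s : ℂ) * Complex.I)) (e := fun ε => he2 a s ε) (C := 2 * ‖a‖)
    (fun ε h0 h1 => he2_fm ha hs h0 h1) (fun ε h0 h1 u _ => he2_le a hs h0 h1 u)
  have E1 := HexAlg_edge hM hcM ha Ap.div_one_add Ap.div_one_add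
  have E2 := HexAlg_edge hM hb hcM Ap.div_one_add Ap.id
  have E3 := HexAlg_edge hM ha hb Ap.id Ap.id
  have hL : ∀ m : B, Md fun ε => expT N ((Real.log ε : ℝ) : ℂ) m := fun m => by
    simpa only [one_mul] using Md.expT N m 1
  have hL' : ∀ m : B, Md fun ε => expT N ((-Real.log ε : ℝ) : ℂ) m := fun m => by
    simpa only [neg_mul, one_mul] using Md.expT N m (-1)
  have hseg : ∀ x y V : B, Md fun ε => expT N ((Real.log ε : ℝ) : ℂ) x * V
      * expT N ((-Real.log ε : ℝ) : ℂ) y := fun x y V =>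
    ((hL x).mul (Md.const V)).mul (hL' y)
  set P : ℂ := -((s : ℂ) * Complex.I) * Real.pi with hP
  -- products
  have S1 := Sm.mul_sub A1 E1 (Md.const _) (hseg a c _)
  have S2 := Sm.mul_sub S1 A2 ((Md.const _).mul (hseg a c _)) (Md.const _)
  have S3 := Sm.mul_sub S2 E2 (((Md.const _).mul (hseg a c _)).mul (Md.const _)) (hseg c b _)
  have S4 := Sm.mul_sub S3 A3
    ((((Md.const _).mul (hseg a c _)).mul (Md.const _)).mul (hseg c b _)) (Md.const _)
  have S5 := Sm.mul_sub S4 E3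
    (((((Md.const _).mul (hseg a c _)).mul (Md.const _)).mul (hseg c b _)).mul (Md.const _))
    (hseg b a _)
  set T : B := expT N P a * ev N c a * expT N P c * ev N b c * expT N P b * ev N a b with hT
  have hprod : ∀ ε : ℝ, expT N P a * (expT N ((Real.log ε : ℝ) : ℂ) a * ev N c a
        * expT N ((-Real.log ε : ℝ) : ℂ) c) * expT N P c
      * (expT N ((Real.log ε : ℝ) : ℂ) c * ev N b c * expT N ((-Real.log ε : ℝ) : ℂ) b)
      * expT N P b * (expT N ((Real.log ε : ℝ) : ℂ) b * ev N a b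
        * expT N ((-Real.log ε : ℝ) : ℂ) a)
      = expT N ((Real.log ε : ℝ) : ℂ) a * T * expT N ((-Real.log ε : ℝ) : ℂ) a := by
    intro ε
    calc _ = (expT N P a * expT N ((Real.log ε : ℝ) : ℂ) a) * ev N c a
          * (expT N ((-Real.log ε : ℝ) : ℂ) c * expT N P c * expT N ((Real.log ε : ℝ) : ℂ) c)
          * ev N b c
          * (expT N ((-Real.log ε : ℝ) : ℂ) b * expT N P b * expT N ((Real.log ε : ℝ) : ℂ) b)
          * ev N a b * expT N ((-Real.log ε : ℝ) : ℂ) a := by simp only [mul_assoc]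
      _ = _ := by
          rw [HexAlg_conj pc, HexAlg_conj pb, HexAlg_comm pa P, hT]
          simp only [mul_assoc]
  have S6 : Sm fun ε => 1 - expT N ((Real.log ε : ℝ) : ℂ) a * T
      * expT N ((-Real.log ε : ℝ) : ℂ) a := by
    refine S5.congr fun ε h0 h1 => ?_
    rw [hprod, hex_exact hM ha hb hc hs h0 h1]
  have S7 := Md.mul_sm (hL' a) (S6.mul_md (hL a))
  have S8 : Sm fun _ => 1 - T := by
    refine S7.congr fun ε h0 h1 => ?_
    have e1 : expT N ((-Real.log ε : ℝ) : ℂ) a * expT N ((Real.log ε : ℝ) : ℂ) a = 1 := by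
      rw [Complex.ofReal_neg]
      exact expT_neg_mul pa _
    calc expT N ((-Real.log ε : ℝ) : ℂ) a * ((1 - expT N ((Real.log ε : ℝ) : ℂ) a * T
          * expT N ((-Real.log ε : ℝ) : ℂ) a) * expT N ((Real.log ε : ℝ) : ℂ) a)
        = expT N ((-Real.log ε : ℝ) : ℂ) a * expT N ((Real.log ε : ℝ) : ℂ) a
          - (expT N ((-Real.log ε : ℝ) : ℂ) a * expT N ((Real.log ε : ℝ) : ℂ) a) * T
            * (expT N ((-Real.log ε : ℝ) : ℂ) a * expT N ((Real.log ε : ℝ) : ℂ) a) := by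
          noncomm_ring
      _ = 1 - T := by rw [e1, one_mul, mul_one]
  have h1 := sub_eq_zero.1 S8.const_eq_zero
  rw [← hsσ]
  exact h1.symm

end Vale.Agent.P029.KZ
end
end
end

section

section

/-!
P029-D, task KZ11: group-like and inversion.
-/

open MeasureTheory Set Filter Topology

noncomputable section

namespace Vale.Agent.P029.KZ

variable {B : Type*} [NormedRing B] [NormedAlgebra ℂ B] [CompleteSpace B]

omit [CompleteSpace B] in
theorem GroupLike_kz_add (a b a' b' : B) (u : ℝ) :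
    kz (a + a') (b + b') u = kz a b u + kz a' b' u := by
  simp only [kz, smul_add]
  abel

omit [CompleteSpace B] in
theorem GroupLike_kz_commute {x a b : B} (ha : Commute x a) (hb : Commute x b) (u : ℝ) :
    Commute x (kz a b u) := by
  unfold kz
  exact (ha.smul_right _).add_right (hb.smul_right _)

omit [CompleteSpace B] in
theorem GroupLike_kz_rev (a b : B) (s : ℝ) :
    (fun u : ℝ => -kz a b (s + (1 - s) - u)) = kz b a := by
  funext u
  have h1 : (1 : ℝ) / (s + (1 - s) - u) = -(1 / (u - 1)) := by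
    rw [show s + (1 - s) - u = -(u - 1) by ring, one_div, one_div, inv_neg]
  have h2 : (1 : ℝ) / (s + (1 - s) - u - 1) = -(1 / u) := by
    rw [show s + (1 - s) - u - 1 = -u by ring, one_div, one_div, inv_neg]
  simp only [kz, h1, h2, neg_smul]
  abel

omit [NormedAlgebra ℂ B] [CompleteSpace B] in
theorem GroupLike_mul {x x' y y' z z' : B} (h1 : Commute x' y) (h2 : Commute x' z)
    (h3 : Commute y' z) : x * x' * (y * y') * (z * z') = x * y * z * (x' * y' * z') := by
  calc x * x' * (y * y') * (z * z') = x * (x' * y) * (y' * z) * z' := by simp only [mul_assoc]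
    _ = x * (y * x') * (z * y') * z' := by rw [h1.eq, h3.eq]
    _ = x * y * (x' * z) * y' * z' := by simp only [mul_assoc]
    _ = x * y * (z * x') * y' * z' := by rw [h2.eq]
    _ = x * y * z * (x' * y' * z') := by simp only [mul_assoc]

theorem GroupLike_ev : ∀ᶠ ε : ℝ in 𝓝[>] (0 : ℝ), 0 < ε ∧ ε ≤ 1 / 2 := by
  have h : Ioc (0 : ℝ) (1 / 2) ∈ 𝓝[>] (0 : ℝ) := Ioc_mem_nhdsGT (by (clear * -; norm_num))
  exact h

/-- `Phi N ε ε (a+a') (b+b') = Phi N ε ε a b * Phi N ε ε a' b'` (`Tr_add`), then the limit. -/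
theorem ev_add {a b a' b' : B} {N : ℕ} (h : NilS {a, b, a', b'} N) (h₁ : Commute a a')
    (h₂ : Commute a b') (h₃ : Commute b a') (h₄ : Commute b b') :
    ev N (a + a') (b + b') = ev N a b * ev N a' b' := by
  have hM := nil_span h
  have ma : a ∈ Submodule.span ℂ ({a, b, a', b'} : Set B) := Submodule.subset_span (by simp only [mem_insert_iff, mem_singleton_iff, true_or])
  have mb : b ∈ Submodule.span ℂ ({a, b, a', b'} : Set B) := Submodule.subset_span (by simp only [mem_insert_iff, mem_singleton_iff, true_or, or_true])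
  have ma' : a' ∈ Submodule.span ℂ ({a, b, a', b'} : Set B) := Submodule.subset_span (by simp only [mem_insert_iff, mem_singleton_iff, true_or, or_true])
  have mb' : b' ∈ Submodule.span ℂ ({a, b, a', b'} : Set B) := Submodule.subset_span (by simp)
  have h12 : NilS {a, b} N := h.mono (by
    intro x hx
    simp only [mem_insert_iff, mem_singleton_iff] at hx ⊢
    (clear * - hx; tauto))
  have h34 : NilS {a', b'} N := h.mono (by
    intro x hx
    simp only [mem_insert_iff, mem_singleton_iff] at hx ⊢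
    (clear * - hx; tauto))
  have h13 : NilS {a, a'} N := h.mono (by
    intro x hx
    simp only [mem_insert_iff, mem_singleton_iff] at hx ⊢
    (clear * - hx; tauto))
  have h24 : NilS {b, b'} N := h.mono (by
    intro x hx
    simp only [mem_insert_iff, mem_singleton_iff] at hx ⊢
    (clear * - hx; tauto))
  have hs : NilS {a + a', b + b'} N := hM.mono (by
    intro x hx
    simp only [mem_insert_iff, mem_singleton_iff] at hx
    rcases hx with rfl | rfl
    · exact Submodule.add_mem _ ma ma'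
    · exact Submodule.add_mem _ mb mb')
  have e : ∀ᶠ ε : ℝ in 𝓝[>] (0 : ℝ),
      Phi N ε ε (a + a') (b + b') = Phi N ε ε a b * Phi N ε ε a' b' := by
    filter_upwards [GroupLike_ev] with ε hε
    obtain ⟨h0, h2⟩ := hε
    have f1 : Fm (Submodule.span ℂ ({a, b, a', b'} : Set B)) (kz a b) ε (1 - ε) :=
      kz_fm ma mb h0 (by linarith only [h2]) (by linarith only [h0])
    have f2 : Fm (Submodule.span ℂ ({a, b, a', b'} : Set B)) (kz a' b') ε (1 - ε) :=
      kz_fm ma' mb' h0 (by linarith only [h2]) (by linarith only [h0])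
    have T : Tr N (kz (a + a') (b + b')) ε (1 - ε)
        = Tr N (kz a b) ε (1 - ε) * Tr N (kz a' b') ε (1 - ε) := by
      rw [show kz (a + a') (b + b') = fun u => kz a b u + kz a' b' u from
        funext (GroupLike_kz_add a b a' b')]
      refine Tr_add hM f1 f2 fun u _ v _ => ?_
      exact GroupLike_kz_commute
        ((GroupLike_kz_commute h₁.symm h₃.symm u).symm)
        ((GroupLike_kz_commute h₂.symm h₄.symm u).symm) v
    unfold Phi
    rw [T, expT_add_right h24 h₄, expT_add_right h13 h₁]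
    refine GroupLike_mul ?_ ?_ ?_
    · -- exp b' with T
      refine Tr_comm N f1.le f1.cont fun u _ => ?_
      exact GroupLike_kz_commute (expT_commute h₂ N _).symm (expT_commute h₄ N _).symm u
    · exact expT_commute (expT_commute h₂ N _).symm N _
    · refine Commute.symm (Tr_comm N f2.le f2.cont fun u _ => ?_)
      exact GroupLike_kz_commute (expT_commute h₁.symm N _).symm (expT_commute h₂.symm N _).symm u
  exact tendsto_nhds_unique ((tendsto_Phi hs).congr' e) ((tendsto_Phi h12).mul (tendsto_Phi h34))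

/-- `Tr N (kz b a) ε (1-ε) * Tr N (kz a b) ε (1-ε) = 1` (`Tr_rev_mul`), then the limit. -/
theorem ev_inv {a b : B} {N : ℕ} (h : NilS {a, b} N) : ev N b a * ev N a b = 1 := by
  have hM := nil_span h
  have ma : a ∈ Submodule.span ℂ ({a, b} : Set B) := Submodule.subset_span (by simp)
  have mb : b ∈ Submodule.span ℂ ({a, b} : Set B) := Submodule.subset_span (by simp)
  have hba : NilS {b, a} N := by rwa [Set.pair_comm]
  have pa : a ^ (N + 1) = 0 := nil_pow h (by simp)
  have pb : b ^ (N + 1) = 0 := nil_pow h (by simp)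
  have e : ∀ᶠ ε : ℝ in 𝓝[>] (0 : ℝ), Phi N ε ε b a * Phi N ε ε a b = 1 := by
    filter_upwards [GroupLike_ev] with ε hε
    obtain ⟨h0, h2⟩ := hε
    have f1 : Fm (Submodule.span ℂ ({a, b} : Set B)) (kz a b) ε (1 - ε) :=
      kz_fm ma mb h0 (by linarith) (by linarith only [h0])
    have T := Tr_rev_mul hM f1
    rw [GroupLike_kz_rev a b ε] at T
    unfold Phi
    calc expT N (-(Real.log ε : ℂ)) a * Tr N (kz b a) ε (1 - ε) * expT N (Real.log ε : ℂ) b *
          (expT N (-(Real.log ε : ℂ)) b * Tr N (kz a b) ε (1 - ε) * expT N (Real.log ε : ℂ) a)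
        = expT N (-(Real.log ε : ℂ)) a * (Tr N (kz b a) ε (1 - ε) *
          ((expT N (Real.log ε : ℂ) b * expT N (-(Real.log ε : ℂ)) b) *
            (Tr N (kz a b) ε (1 - ε) * expT N (Real.log ε : ℂ) a))) := by
          simp only [mul_assoc]
      _ = expT N (-(Real.log ε : ℂ)) a * ((Tr N (kz b a) ε (1 - ε) * Tr N (kz a b) ε (1 - ε))
            * expT N (Real.log ε : ℂ) a) := by
          rw [expT_mul_neg pb, one_mul]
          simp only [mul_assoc]
      _ = 1 := by rw [T, one_mul, expT_neg_mul pa]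
  have l := (tendsto_Phi hba).mul (tendsto_Phi h)
  exact tendsto_nhds_unique l ((tendsto_congr' e).mpr tendsto_const_nhds)

end Vale.Agent.P029.KZ
end
end
end

section

section

/-!
P029-D: the KZ associator, assembly of the target.
-/

open MeasureTheory Set Filter Topology

noncomputable section

namespace Vale.Agent.P029.KZ

theorem target : Target := by
  refine ⟨kzφ, kzφ_nil, kzφ_depth, kzφ_false, kzφ_true, ?_, ?_, ?_, ?_⟩
  · intro B _ _ _ N a b a' b' h h₁ h₂ h₃ h₄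
    exact ev_add h h₁ h₂ h₃ h₄
  · intro B _ _ _ N a b h
    exact ev_inv h
  · intro B _ _ _ N a b c h hc σ hσ
    exact ev_hex h hc hσ
  · intro B _ _ _ N t12 t13 t14 t23 t24 t34 hN h
    exact ev_pent hN h

end Vale.Agent.P029.KZ
end
end
end

section

section

/-! P029: elements of depth one in `W`. -/

noncomputable section

attribute [local instance 100] LieRing.ofAssociativeRing

namespace Vale.Agent.P029.Low

open Vale.Agent.P029

/-- Every `W (2 k + 3)` contains an element in which the coefficient of `x^(2 k + 2) y` is not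
zero. -/
theorem sigma_exists (k : ℕ) : ∃ s ∈ W (2 * k + 3), coefXY (2 * k + 2) s ≠ 0 := by
  obtain ⟨P, hP, hc⟩ := assoc_of_target KZ.target (2 * k + 3) (by omega)
  obtain ⟨ψ, hψ, hc2⟩ := exists_sol_C (by (clear * -; omega)) ⟨k + 1, by ring⟩ hP hc
  obtain ⟨φ, hφ, hc3⟩ := sol_descend (by omega) hψ (2 * k + 3 - 1) hc2
  exact ⟨φ, W_of_sol (by omega) hφ, hc3⟩

end Vale.Agent.P029.Low
end
end
end

section

section

/-!
# P029: the statement of `Stmt.lean` follows from the main theorems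
-/

noncomputable section

namespace Vale.Agent.P029.Bridge

open Vale.Agent.P029

/-- The two descriptions of the monomials agree. -/
theorem isMon_iff {X : Type} (w : X → ℕ) (n : ℕ) (a : FreeLieAlgebra ℚ X) :
    Stmt.IsMon w n a ↔ ∃ t : Tr X, t.wt w = n ∧ a = t.eval (FreeLieAlgebra.of ℚ) := by
  constructor
  · intro h
    induction h with
    | of x => exact ⟨Tr.leaf x, rfl, rfl⟩
    | lie _ _ iha ihb =>
      obtain ⟨t, ht, rfl⟩ := iha
      obtain ⟨u, hu, rfl⟩ := ihb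
      exact ⟨Tr.node t u, by rw [Tr.wt_node, ht, hu], by rw [Tr.eval_node]⟩
  · rintro ⟨t, rfl, rfl⟩
    induction t with
    | leaf x => exact Stmt.IsMon.of x
    | node t u ht hu =>
      rw [Tr.wt_node, Tr.eval_node]
      exact Stmt.IsMon.lie ht hu

theorem wtPart_eq {X : Type} (w : X → ℕ) (n : ℕ) : Stmt.wtPart w n = wtPart ℚ w n := by
  have h : {a | Stmt.IsMon w n a} =
      {a | ∃ t : Tr X, t.wt w = n ∧ a = t.eval (FreeLieAlgebra.of ℚ)} :=
    Set.ext fun a => isMon_iff w n a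
  change Submodule.span ℚ {a | Stmt.IsMon w n a} = _
  rw [h]
  rfl

theorem T4Rel_iff (r : FT) : Stmt.T4Rel r ↔ T4Rel r := by
  constructor
  · rintro (i | ⟨i, j⟩ | ⟨i, j, k, l, h1, h2, h3, h4, h5, h6⟩ | ⟨i, j, k, h1, h2, h3⟩)
    · exact T4Rel.diag i
    · exact T4Rel.symm i j
    · exact T4Rel.comm i j k l h1 h2 h3 h4 h5 h6
    · exact T4Rel.tri i j k h1 h2 h3
  · rintro (i | ⟨i, j⟩ | ⟨i, j, k, l, h1, h2, h3, h4, h5, h6⟩ | ⟨i, j, k, h1, h2, h3⟩)
    · exact Stmt.T4Rel.diag i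
    · exact Stmt.T4Rel.symm i j
    · exact Stmt.T4Rel.comm i j k l h1 h2 h3 h4 h5 h6
    · exact Stmt.T4Rel.tri i j k h1 h2 h3

theorem T4Ideal_eq : Stmt.T4Ideal = T4Ideal := by
  have h : {r | Stmt.T4Rel r} = {r | T4Rel r} := Set.ext fun r => T4Rel_iff r
  change LieSubmodule.lieSpan ℚ FT {r | Stmt.T4Rel r} = _
  rw [h]
  rfl

/-- The pentagon equation in `FT / I`. -/
def Pent (I : LieIdeal ℚ FT) (ψ : L) : Prop :=
  let t : Fin 4 → Fin 4 → FT ⧸ I := fun i j => LieSubmodule.Quotient.mk (tt i j)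
  let s : L → FT ⧸ I → FT ⧸ I → FT ⧸ I := fun ψ a b => FreeLieAlgebra.lift ℚ ![a, b] ψ
  s ψ (t 0 1) (t 1 2 + t 1 3) + s ψ (t 0 2 + t 1 2) (t 2 3) =
    s ψ (t 1 2) (t 2 3) + s ψ (t 0 1 + t 0 2) (t 1 3 + t 2 3) + s ψ (t 0 1) (t 1 2)

theorem isW_iff (ψ : L) : Stmt.IsW ψ ↔ IsSol ψ := by
  have h1 : Stmt.IsW ψ ↔ (subst lx ly ψ + subst ly lx ψ = 0 ∧
      subst lx ly ψ + subst ly (-lx - ly) ψ + subst (-lx - ly) lx ψ = 0 ∧
      Pent Stmt.T4Ideal ψ) := Iff.rfl
  have h2 : IsSol ψ ↔ (subst lx ly ψ + subst ly lx ψ = 0 ∧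
      subst lx ly ψ + subst ly (-lx - ly) ψ + subst (-lx - ly) lx ψ = 0 ∧
      Pent T4Ideal ψ) := Iff.rfl
  rw [h1, h2, T4Ideal_eq]

theorem isWn_iff (n : ℕ) (ψ : L) : Stmt.IsWn n ψ ↔ ψ ∈ W n := by
  unfold Stmt.IsWn
  rw [wtPart_eq, isW_iff]
  exact and_comm

theorem isD_of {ψ : L} {D : LieDerivation ℚ L L} (h : IsIharaDer ψ D) : Stmt.IsD ψ D := by
  refine ⟨fun a b => map_add D a b, fun c a => map_smul D c a, fun a b => ?_, h.1, h.2⟩
  rw [LieDerivation.apply_lie_eq_add, add_comm]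

theorem isBr_of {ψ φ χ : L} (h : IsIharaBracket ψ φ χ) : Stmt.IsBr ψ φ χ := by
  obtain ⟨D, E, hD, hE, h⟩ := h
  exact ⟨D, E, isD_of hD, isD_of hE, h⟩

theorem Fpart_eq (n : ℕ) : Stmt.Fpart n = Fpart n := wtPart_eq _ n

theorem isIso_of {f : F →ₗ[ℚ] L} (h : IsGradedIso f) : Stmt.IsIso f := by
  obtain ⟨h1, h2, h3⟩ := h
  refine ⟨fun a b => map_add f a b, fun c a => map_smul f c a, fun a b => isBr_of (h1 a b), h2,
    fun ψ => ?_, fun n ψ => ?_⟩
  · rw [isW_iff, range_iff_isSol f h3, LinearMap.mem_range]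
  · rw [isWn_iff, Fpart_eq, ← h3 n, Submodule.mem_map]

/-- The main theorem in the form of `Stmt.lean`. -/
theorem deligneDrinfeld : ∃ f : F → L,
    (∀ k, Stmt.IsWn (2 * k + 3) (f (FreeLieAlgebra.of ℚ k))) ∧ Stmt.IsIso f := by
  obtain ⟨f, hf, h⟩ := DD_of_sigma wClosed Low.sigma_exists
  exact ⟨f, fun k => (isWn_iff _ _).2 (hf k), isIso_of h⟩

end Vale.Agent.P029.Bridge
end
end
end
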